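import Vale.Agent.P338.ApxA

/-! Job J11: polynomial-time approximation of products of constants. -/

namespace Vale.Agent.P338

open PT

attribute [local irreducible] PTime PB C

namespace ApxH

variable {α β : Type} [TEnc α] [TEnc β]

/-- approximable to any precision given in unary -/
def PA (D : α → Prop) (F : α → ℂ) : Prop :=
  ∃ f : α × List Unit → ℚ × ℚ, PTime f ∧
    ∀ a u, D a → ‖tc (f (a, u)) - F a‖ ≤ (1 / 2) ^ u.length

/-- bounded by a computable power of two -/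
def Bd (D : α → Prop) (F : α → ℂ) : Prop :=
  ∃ B : α → ℕ, PTime B ∧ PB B ∧ ∀ a, D a → ‖F a‖ ≤ 2 ^ B a

/-- more precision -/
def ext (u : List Unit) (n : ℕ) : List Unit := u ++ List.replicate n ()

lemma ext_length (u : List Unit) (n : ℕ) : (ext u n).length = u.length + n := by simp [ext]

lemma ptime_ext {u : α → List Unit} {n : α → ℕ} (hu : PTime u) (hn : PTime n) (hB : PB n) :
    PTime fun a => ext (u a) (n a) := by
  unfold ext; fun_prop

lemma half_mul (n : ℕ) : ((1 : ℝ) / 2) ^ n * 2 ^ n = 1 := by rw [← mul_pow]; norm_num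

lemma half_le (n : ℕ) : ((1 : ℝ) / 2) ^ n ≤ 1 := pow_le_one₀ (by norm_num) (by norm_num)

lemma PA.mono {D D' : α → Prop} {F : α → ℂ} (h : PA D F) (hD : ∀ a, D' a → D a) : PA D' F :=
  let ⟨f, hf, h⟩ := h; ⟨f, hf, fun a u ha => h a u (hD a ha)⟩

lemma PA.comp {D : β → Prop} {F : β → ℂ} (h : PA D F) {g : α → β} (hg : PTime g) :
    PA (fun a => D (g a)) fun a => F (g a) :=
  let ⟨f, hf, h⟩ := h
  ⟨fun p => f (g p.1, p.2), hf.comp (by fun_prop), fun a u ha => h _ u ha⟩

lemma PA.rat {D : α → Prop} {q : α → ℚ} (hq : PTime q) : PA D fun a => (q a : ℂ) :=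
  ⟨fun p => (q p.1, 0), by fun_prop, fun a u _ => by simp [tc]⟩

lemma pa_ee : PA (fun _ : ℚ => True) ee := by
  have h1 : PTime fun p : ℚ × List Unit => p.2.length + 29 := by fun_prop
  have h2 : PB fun p : ℚ × List Unit => p.2.length + 29 :=
    (PB.length PTime.snd_id).add (PB.const _)
  have h3 := ptime_ang PTime.fst_id h1 h2
  exact ⟨_, (ptime_cs h3 h1 h2).prodMk (ptime_sn h3 h1 h2), fun a u _ => ee_spec a u.length⟩

/-- product of pairs -/
def pm {R : Type} [CommRing R] (x y : R × R) : R × R :=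
  (x.1 * y.1 - x.2 * y.2, x.1 * y.2 + x.2 * y.1)

lemma tc_pm (x y : ℚ × ℚ) : tc (pm x y) = tc x * tc y := by
  simp only [tc, pm]
  push_cast
  linear_combination (-(x.2 : ℂ) * y.2) * Complex.I_mul_I

lemma mul_err {x y X Y : ℂ} {ε A B : ℝ} (h1 : ‖x - X‖ ≤ ε) (hx : ‖x‖ ≤ A) (hY : ‖Y‖ ≤ B) {ε' : ℝ}
    (h2 : ‖y - Y‖ ≤ ε') : ‖x * y - X * Y‖ ≤ A * ε' + ε * B := by
  rw [show x * y - X * Y = x * (y - Y) + (x - X) * Y by ring]
  refine (norm_add_le _ _).trans ?_
  rw [norm_mul, norm_mul]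
  exact add_le_add (mul_le_mul hx h2 (norm_nonneg _) ((norm_nonneg _).trans hx))
    (mul_le_mul h1 hY (norm_nonneg _) ((norm_nonneg _).trans h1))

lemma norm_le_of_near {x X : ℂ} {ε : ℝ} {B : ℕ} (h : ‖x - X‖ ≤ ε) (h1 : ε ≤ 1) (hX : ‖X‖ ≤ 2 ^ B) :
    ‖x‖ ≤ 2 ^ (B + 1) := by
  have h2 := norm_add_le (x - X) X
  have h3 : (1 : ℝ) ≤ 2 ^ B := one_le_pow₀ (by norm_num)
  rw [sub_add_cancel] at h2
  rw [pow_succ]
  linarith

lemma PA.mul {D : α → Prop} {F G : α → ℂ} (hF : PA D F) (hG : PA D G) (bF : Bd D F) (bG : Bd D G) :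
    PA D fun a => F a * G a := by
  obtain ⟨f, hf, h1⟩ := hF
  obtain ⟨g, hg, h2⟩ := hG
  obtain ⟨B, hB, pB, h3⟩ := bF
  obtain ⟨C, hC, pC, h4⟩ := bG
  have hu : PTime fun p : α × List Unit => (p.1, ext p.2 (B p.1 + C p.1 + 2)) :=
    PTime.fst_id.prodMk (ptime_ext PTime.snd_id (by fun_prop)
      (((PB_fst pB).add (PB_fst pC)).add (PB.const _)))
  have hf' := hf.comp hu
  have hg' := hg.comp hu
  refine ⟨fun p => pm (f (p.1, ext p.2 (B p.1 + C p.1 + 2))) (g (p.1, ext p.2 (B p.1 + C p.1 + 2))),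
    ((hf'.fst.rat_mul hg'.fst).rat_sub (hf'.snd.rat_mul hg'.snd)).prodMk
      ((hf'.fst.rat_mul hg'.snd).rat_add (hf'.snd.rat_mul hg'.fst)), fun a u ha => ?_⟩
  have e1 := h1 a (ext u (B a + C a + 2)) ha
  have e2 := h2 a (ext u (B a + C a + 2)) ha
  rw [tc_pm]
  refine (mul_err e1 (norm_le_of_near e1 (half_le _) (h3 a ha)) (h4 a ha) e2).trans ?_
  rw [ext_length, pow_add (1 / 2 : ℝ)]
  have e3 := half_mul (B a + C a + 2)
  have e4 : (2 : ℝ) ^ (B a + 1) + 2 ^ C a ≤ 2 ^ (B a + C a + 2) := by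
    have a1 : (2 : ℝ) ^ (B a + 1) ≤ 2 ^ (B a + C a + 1) := pow_le_pow_right₀ (by norm_num) (by omega)
    have a2 : (2 : ℝ) ^ C a ≤ 2 ^ (B a + C a + 1) := pow_le_pow_right₀ (by norm_num) (by omega)
    rw [pow_succ (2 : ℝ) (B a + C a + 1)]
    linarith
  have e5 := mul_le_mul_of_nonneg_left e4
    (by positivity : (0 : ℝ) ≤ (1 / 2) ^ u.length * (1 / 2) ^ (B a + C a + 2))
  rw [mul_assoc ((1 / 2 : ℝ) ^ u.length) _ (2 ^ _), e3] at e5
  linarith

lemma Bd.mul {D : α → Prop} {F G : α → ℂ} (bF : Bd D F) (bG : Bd D G) :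
    Bd D fun a => F a * G a := by
  obtain ⟨B, hB, pB, h3⟩ := bF
  obtain ⟨C, hC, pC, h4⟩ := bG
  refine ⟨fun a => B a + C a, hB.add hC, pB.add pC, fun a ha => ?_⟩
  rw [norm_mul, pow_add]
  exact mul_le_mul (h3 a ha) (h4 a ha) (norm_nonneg _) (by positivity)

lemma tc_inv (x : ℚ × ℚ) :
    tc (x.1 / (x.1 * x.1 + x.2 * x.2), -x.2 / (x.1 * x.1 + x.2 * x.2)) = (tc x)⁻¹ := by
  have h1 : (tc x).re = x.1 := by simp [tc]
  have h2 : (tc x).im = x.2 := by simp [tc]
  have h3 : ∀ y : ℚ × ℚ, (tc y).re = y.1 := fun y => by simp [tc]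
  have h4 : ∀ y : ℚ × ℚ, (tc y).im = y.2 := fun y => by simp [tc]
  apply Complex.ext
  · rw [Complex.inv_re, Complex.normSq_apply, h1, h2, h3]; push_cast; rfl
  · rw [Complex.inv_im, Complex.normSq_apply, h1, h2, h4]; push_cast; rfl

lemma PA.inv {D : α → Prop} {F : α → ℂ} (hF : PA D F) (h : ∀ a, D a → 1 ≤ ‖F a‖) :
    PA D fun a => (F a)⁻¹ := by
  obtain ⟨f, hf, h1⟩ := hF
  have hf' : PTime fun p : α × List Unit => f (p.1, () :: p.2) := hf.comp (by fun_prop)
  have hn := (hf'.fst.rat_mul hf'.fst).rat_add (hf'.snd.rat_mul hf'.snd)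
  refine ⟨_, (hf'.fst.rat_div hn).prodMk (hf'.snd.rat_neg.rat_div hn), fun a u ha => ?_⟩
  rw [tc_inv]
  have e1 := h1 a (() :: u) ha
  have e2 := h a ha
  rw [List.length_cons, pow_succ] at e1
  generalize tc (f (a, () :: u)) = x at *
  have e3 := half_le u.length
  have e4 : 1 / 2 ≤ ‖x‖ := by
    have := norm_sub_norm_le (F a) x
    rw [norm_sub_rev] at this
    linarith
  have hx : x ≠ 0 := norm_pos_iff.1 (by linarith)
  have hF : F a ≠ 0 := norm_pos_iff.1 (by linarith)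
  rw [inv_sub_inv hx hF, norm_div, norm_mul, norm_sub_rev, div_le_iff₀ (by positivity)]
  have e5 : 1 / 2 ≤ ‖x‖ * ‖F a‖ := by nlinarith
  exact e1.trans (mul_le_mul_of_nonneg_left e5 (by positivity))

lemma tc_sum (l : List (ℚ × ℚ)) : tc ((l.map Prod.fst).sum, (l.map Prod.snd).sum) = (l.map tc).sum := by
  induction l with
  | nil => simp [tc]
  | cons x l ih =>
    simp only [List.map_cons, List.sum_cons, ← ih, tc]
    push_cast
    ring

lemma sum_err {ι : Type} (l : List ι) (x X : ι → ℂ) {ε : ℝ} (h : ∀ i, ‖x i - X i‖ ≤ ε) :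
    ‖(l.map x).sum - (l.map X).sum‖ ≤ l.length * ε := by
  induction l with
  | nil => simp
  | cons i l ih =>
    simp only [List.map_cons, List.sum_cons, List.length_cons]
    rw [add_sub_add_comm]
    refine (norm_add_le _ _).trans ?_
    push_cast
    linarith [h i]

lemma pa_mu : PA (fun _ : Ent => True) Ent.mu := by
  obtain ⟨f, hf, h⟩ := pa_ee
  have hl : PTime fun p : Ent × List Unit =>
      p.1.2.2.1.map fun θ => f (θ, ext p.2 p.1.2.2.1.length) :=
    PTime.map (by fun_prop) (hf.comp (PTime.snd_id.prodMk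
      (ptime_ext (by fun_prop) (by fun_prop) (PB.length (by fun_prop)))))
  refine ⟨fun p => ((p.1.2.2.2.1 : ℚ) + ((p.1.2.2.1.map fun θ =>
      f (θ, ext p.2 p.1.2.2.1.length)).map Prod.fst).sum, ((p.1.2.2.1.map fun θ =>
      f (θ, ext p.2 p.1.2.2.1.length)).map Prod.snd).sum),
    (PTime.rat_add (by fun_prop) (hl.map (by fun_prop)).rat_sum).prodMk
      (hl.map (by fun_prop)).rat_sum, fun a u _ => ?_⟩
  have e1 := sum_err a.2.2.1 (fun θ => tc (f (θ, ext u a.2.2.1.length))) ee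
    fun θ => h θ (ext u a.2.2.1.length) trivial
  have e2 := tc_sum (a.2.2.1.map fun θ => f (θ, ext u a.2.2.1.length))
  rw [List.map_map (g := tc), Function.comp_def] at e2
  refine le_trans (le_of_eq (congrArg norm ?_)) (e1.trans ?_)
  · rw [Ent.mu, ← e2]
    simp only [tc, Rat.cast_add, Rat.cast_natCast]
    ring
  · rw [ext_length, pow_add, mul_left_comm]
    refine mul_le_of_le_one_right (by positivity) ?_
    have e3 : (a.2.2.1.length : ℝ) ≤ 2 ^ a.2.2.1.length := by
      exact_mod_cast Nat.lt_two_pow_self.le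
    have := mul_le_mul_of_nonneg_left e3 (by positivity : (0 : ℝ) ≤ (1 / 2) ^ a.2.2.1.length)
    rw [half_mul] at this
    linarith

lemma norm_mu (en : Ent) : ‖en.mu‖ ≤ 2 ^ (sz en.2.2.2.1 + sz en.2.2.1) := by
  have e1 := sum_err en.2.2.1 ee (fun _ => 0) (ε := 1) fun θ => by simp [norm_ee]
  simp only [List.map_const', List.sum_replicate, smul_zero, sub_zero, mul_one] at e1
  have e2 := lt_two_pow_sz en.2.2.2.1
  have e3 := (length_lt_sz en.2.2.1).trans Nat.lt_two_pow_self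
  have e4 : en.2.2.2.1 + en.2.2.1.length ≤ 2 ^ (sz en.2.2.2.1 + sz en.2.2.1) := by
    rw [pow_add]; nlinarith
  have e5 : (en.2.2.2.1 : ℝ) + en.2.2.1.length ≤ 2 ^ (sz en.2.2.2.1 + sz en.2.2.1) := by
    exact_mod_cast e4
  refine (norm_add_le _ _).trans ?_
  rw [Complex.norm_natCast]
  linarith

/-- the last factor of a constant -/
noncomputable def fac (en : Ent) : ℂ := en.2.2.2.2.elim 1 fun b => if b then en.mu else en.mu⁻¹

lemma pa_fac : PA Ent.ok fac := by
  obtain ⟨f, hf, h1⟩ := pa_mu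
  obtain ⟨g, hg, h2⟩ := (pa_mu.mono (D' := fun en => 1 ≤ ‖en.mu‖) fun _ _ => trivial).inv
    fun _ h => h
  refine ⟨fun p => p.1.2.2.2.2.elim (1, 0) fun b => cond b (f p) (g p),
    PTime.option_elim (by fun_prop) (by fun_prop) (by fun_prop), fun a u ha => ?_⟩
  unfold fac
  unfold Ent.ok at ha
  rcases h : a.2.2.2.2 with _ | _ | _
  · simp [tc, h]
  · simpa [h] using h2 a u (ha h)
  · simpa [h] using h1 a u trivial

lemma bd_fac : Bd Ent.ok fac := by
  refine ⟨fun en => sz en.2.2.2.1 + sz en.2.2.1, by fun_prop,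
    (PTime.sz_PB (by fun_prop)).add (PTime.sz_PB (by fun_prop)), fun a ha => ?_⟩
  have h1 : (1 : ℝ) ≤ 2 ^ (sz a.2.2.2.1 + sz a.2.2.1) := one_le_pow₀ (by norm_num)
  unfold fac
  unfold Ent.ok at ha
  rcases h : a.2.2.2.2 with _ | _ | _
  · simpa using h1
  · simpa using (inv_le_one_of_one_le₀ (ha h)).trans h1
  · simpa using norm_mu a

lemma bd_q : Bd Ent.ok fun en => (en.1 : ℂ) := by
  refine ⟨fun en => sz en.1, by fun_prop, PTime.sz_PB (by fun_prop), fun a _ => ?_⟩
  have h1 := (HB_sz a.1).1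
  have h2 : (a.1.num.natAbs : ℝ) ≤ 2 ^ sz a.1 := by exact_mod_cast h1.le
  rw [Complex.norm_ratCast, Rat.cast_def, abs_div, Nat.abs_cast]
  refine (div_le_self (abs_nonneg _) (by exact_mod_cast a.1.den_pos)).trans ?_
  rwa [Nat.cast_natAbs, Int.cast_abs] at h2

lemma bd_ee : Bd Ent.ok fun en => ee en.2.1 :=
  ⟨fun _ => 0, PTime.const _, PB.const _, fun a _ => by simp [norm_ee]⟩

lemma pa_val : PA Ent.ok Ent.val :=
  ((PA.rat (by fun_prop)).mul ((pa_ee.comp (g := fun en : Ent => en.2.1) (by fun_prop)).mono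
    fun _ _ => trivial) bd_q bd_ee).mul pa_fac (bd_q.mul bd_ee) bd_fac

lemma bd_val : Bd Ent.ok Ent.val := (bd_q.mul bd_ee).mul bd_fac

/-- the Gaussian integer with given coordinates -/
noncomputable def zc (p : ℤ × ℤ) : ℂ := p.1 + p.2 * Complex.I

lemma PA.rnd {D : α → Prop} {F : α → ℂ} (hF : PA D F) : ∃ z : α × List Unit → ℤ × ℤ, PTime z ∧
    ∀ a u, D a → ‖zc (z (a, u)) - 2 ^ u.length * F a‖ ≤ 1 := by
  obtain ⟨f, hf, h⟩ := hF
  have hf' : PTime fun p : α × List Unit => f (p.1, () :: () :: p.2) := hf.comp (by fun_prop)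
  have h2 : PTime fun p : α × List Unit => (2 : ℚ) ^ p.2.length :=
    PTime.rat_pow (PTime.const _) (by fun_prop) (PB.length PTime.snd_id)
  refine ⟨_, ((h2.rat_mul hf'.fst).rat_add (PTime.const (1 / 2))).rat_floor.prodMk
    ((h2.rat_mul hf'.snd).rat_add (PTime.const (1 / 2))).rat_floor, fun a u ha => ?_⟩
  have e1 := h a (() :: () :: u) ha
  simp only [← round_eq]
  generalize f (a, () :: () :: u) = x at *
  have r : ∀ q : ℚ, |((round q : ℤ) : ℝ) - q| ≤ 1 / 2 := by
    intro q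
    have := abs_sub_round (q : ℝ)
    rwa [Rat.round_cast, abs_sub_comm] at this
  have e2 : ‖zc (round (2 ^ u.length * x.1), round (2 ^ u.length * x.2)) - 2 ^ u.length * tc x‖
      ≤ 3 / 4 := by
    have r1 := abs_le.1 (r (2 ^ u.length * x.1))
    have r2 := abs_le.1 (r (2 ^ u.length * x.2))
    have : zc (round (2 ^ u.length * x.1), round (2 ^ u.length * x.2)) - 2 ^ u.length * tc x =
        ((((round (2 ^ u.length * x.1) : ℤ) : ℝ) - (2 ^ u.length * x.1 : ℚ) : ℝ) : ℂ) +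
        ((((round (2 ^ u.length * x.2) : ℤ) : ℝ) - (2 ^ u.length * x.2 : ℚ) : ℝ) : ℂ) * Complex.I := by
      simp only [zc, tc]
      push_cast
      ring
    rw [this, Complex.norm_add_mul_I]
    refine Real.sqrt_le_iff.2 ⟨by norm_num, ?_⟩
    nlinarith
  have e3 : ‖2 ^ u.length * tc x - 2 ^ u.length * F a‖ ≤ 1 / 4 := by
    rw [← mul_sub, norm_mul, norm_pow, Complex.norm_two]
    refine (mul_le_mul_of_nonneg_left e1 (by positivity)).trans (le_of_eq ?_)
    simp only [List.length_cons, pow_succ]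
    linear_combination (1 / 4) * half_mul u.length
  have := norm_sub_le_norm_sub_add_norm_sub
    (zc (round (2 ^ u.length * x.1), round (2 ^ u.length * x.2))) (2 ^ u.length * tc x)
    (2 ^ u.length * F a)
  linarith

/-- product of a list of Gaussian integers -/
def gp (l : List (ℤ × ℤ)) : ℤ × ℤ := l.foldr pm (1, 0)

lemma zc_gp (l : List (ℤ × ℤ)) : zc (gp l) = (l.map zc).prod := by
  induction l with
  | nil => simp [gp, zc]
  | cons x l ih =>
    rw [List.map_cons, List.prod_cons, ← ih]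
    simp only [gp, List.foldr_cons, zc, pm]
    push_cast
    linear_combination (-(x.2 : ℂ) * ((List.foldr pm ((1 : ℤ), (0 : ℤ)) l).2 : ℂ)) * Complex.I_mul_I

lemma gp_lt (l : List (ℤ × ℤ)) : (gp l).1.natAbs + (gp l).2.natAbs < 2 ^ sz l := by
  induction l with
  | nil => simp [gp]
  | cons x l ih =>
    have h1 := natAbs_lt_two_pow_sz x.1
    have h2 := natAbs_lt_two_pow_sz x.2
    have h3 : x.1.natAbs + x.2.natAbs < 2 ^ sz x := by
      rw [show sz x = sz x.1 + sz x.2 + 1 from sz_prod x.1 x.2, pow_succ, pow_add]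
      have a1 := Nat.le_mul_of_pos_right (2 ^ sz x.1) (Nat.two_pow_pos (sz x.2))
      have a2 := Nat.le_mul_of_pos_left (2 ^ sz x.2) (Nat.two_pow_pos (sz x.1))
      omega
    have h4 := Nat.mul_lt_mul'' h3 ih
    rw [add_mul, mul_add, mul_add] at h4
    have h5 := Int.natAbs_sub_le (x.1 * (gp l).1) (x.2 * (gp l).2)
    have h6 := Int.natAbs_add_le (x.1 * (gp l).2) (x.2 * (gp l).1)
    simp only [Int.natAbs_mul] at h5 h6
    rw [sz_cons, pow_succ, pow_add]
    show (x.1 * (gp l).1 - x.2 * (gp l).2).natAbs + (x.1 * (gp l).2 + x.2 * (gp l).1).natAbs < _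
    omega

lemma ptime_gp {l : α → List (ℤ × ℤ)} (hl : PTime l) : PTime fun a => gp (l a) := by
  refine hl.foldr (.const (1, 0)) (f := fun _ => pm) (by unfold pm; fun_prop)
    (fun a => 8 * sz (l a) + 11) (by fun_prop) fun a k => ?_
  have h1 := gp_lt ((l a).drop k)
  have h2 := sz_sublist (List.drop_sublist k (l a))
  have h3 := sz_int_le_of_lt (z := (gp ((l a).drop k)).1) (k := sz ((l a).drop k)) (by omega)
  have h4 := sz_int_le_of_lt (z := (gp ((l a).drop k)).2) (k := sz ((l a).drop k)) (by omega)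
  have h5 := sz_prod (gp ((l a).drop k)).1 (gp ((l a).drop k)).2
  show sz (gp ((l a).drop k)) ≤ _
  simp only [Prod.mk.eta] at h5
  omega

lemma prod_err {ι : Type} (l : List ι) (x X : ι → ℂ) (B : ι → ℕ) {ε : ℝ} (h0 : 0 ≤ ε) (h1 : ε ≤ 1)
    (h : ∀ i ∈ l, ‖x i - X i‖ ≤ ε ∧ ‖X i‖ ≤ 2 ^ B i) :
    ‖(l.map X).prod‖ ≤ 2 ^ (l.map fun i => B i + 2).sum ∧
      ‖(l.map x).prod - (l.map X).prod‖ ≤ ε * 2 ^ (l.map fun i => B i + 2).sum := by
  induction l with
  | nil => simpa using h0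
  | cons i l ih =>
    obtain ⟨a1, a2⟩ := ih fun j hj => h j (List.mem_cons_of_mem _ hj)
    obtain ⟨b1, b2⟩ := h i List.mem_cons_self
    simp only [List.map_cons, List.prod_cons, List.sum_cons]
    generalize (l.map fun i => B i + 2).sum = T at *
    have c1 : (1 : ℝ) ≤ 2 ^ B i := one_le_pow₀ (by norm_num)
    have c2 : (0 : ℝ) ≤ 2 ^ T := by positivity
    constructor
    · rw [norm_mul, pow_add]
      exact mul_le_mul (b2.trans (pow_le_pow_right₀ (by norm_num) (by omega))) a1 (norm_nonneg _)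
        (by positivity)
    · refine (mul_err b1 (norm_le_of_near b1 h1 b2) a1 a2).trans ?_
      rw [pow_add, pow_add, pow_add]
      nlinarith [mul_nonneg h0 c2]

lemma PA.prod {D : β → Prop} {F : β → ℂ} (hF : PA D F) (bF : Bd D F) :
    PA (fun L : List β => ∀ b ∈ L, D b) fun L => (L.map F).prod := by
  obtain ⟨z, hz, h1⟩ := hF.rnd
  obtain ⟨B, hB, pB, h2⟩ := bF
  have hT : PTime fun L : List β => (L.map fun b => B b + 2).sum :=
    (PTime.map PTime.id (by fun_prop)).nat_sum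
  have pT : PB fun L : List β => (L.map fun b => B b + 2).sum := by
    obtain ⟨C, pC, hC⟩ := PB.exists_mem_bound (l := fun L : List β => L) PTime.id
      (g := fun p => B p.2 + 2) ((pB.comp PTime.snd_id).add (PB.const _))
    refine ((PB.length PTime.id).mul pC).of_le fun L => ?_
    have := List.sum_le_card_nsmul (L.map fun b => B b + 2) (C L) (by
      intro x hx
      obtain ⟨b, hb, rfl⟩ := List.mem_map.1 hx
      exact hC L b hb)
    simpa using this
  have hu : PTime fun p : List β × List Unit => ext p.2 (p.1.map fun b => B b + 2).sum :=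
    ptime_ext PTime.snd_id (hT.comp PTime.fst_id) (PB_fst pT)
  have hg := ptime_gp (PTime.map (f := fun (p : List β × List Unit) b =>
    z (b, ext p.2 (p.1.map fun b => B b + 2).sum)) PTime.fst_id
    (hz.comp (PTime.snd_id.prodMk (hu.comp PTime.fst_id))))
  have hd : PTime fun p : List β × List Unit =>
      (2 : ℚ) ^ ((ext p.2 (p.1.map fun b => B b + 2).sum).length * p.1.length) :=
    PTime.rat_pow (PTime.const _) (hu.length.mul PTime.fst_id.length)
      ((PB.length hu).mul (PB.length PTime.fst_id))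
  refine ⟨_, (hg.fst.intCast_rat.rat_div hd).prodMk (hg.snd.intCast_rat.rat_div hd),
    fun L u hL => ?_⟩
  simp only
  have hv := ext_length u (L.map fun b => B b + 2).sum
  generalize ext u (L.map fun b => B b + 2).sum = v at *
  have e1 := (prod_err L (fun b => zc (z (b, v)) / 2 ^ v.length) F B (ε := (1 / 2) ^ v.length)
    (by positivity) (half_le _) fun b hb => ⟨?_, h2 b (hL b hb)⟩).2
  · refine le_trans (le_of_eq (congrArg norm ?_)) (e1.trans (le_of_eq ?_))
    · have e2 := zc_gp (L.map fun b => z (b, v))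
      rw [List.map_map] at e2
      have e3 : (L.map fun b => zc (z (b, v)) / 2 ^ v.length).prod =
          (L.map (zc ∘ fun b => z (b, v))).prod / 2 ^ (v.length * L.length) := by
        simp only [div_eq_mul_inv, List.prod_map_mul, List.map_const', List.prod_replicate,
          pow_mul, inv_pow]
        rfl
      rw [e3, ← e2]
      simp only [tc, zc]
      push_cast
      ring
    · rw [hv, pow_add, mul_assoc, half_mul, mul_one]
  · have e2 := h1 b v (hL b hb)
    have e3 : zc (z (b, v)) / 2 ^ v.length - F b =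
        (zc (z (b, v)) - 2 ^ v.length * F b) / 2 ^ v.length := by
      field_simp
    rw [e3, norm_div, norm_pow, Complex.norm_two, div_le_iff₀ (by positivity), half_mul]
    exact e2

end ApxH

theorem apx : ∃ ap : List Ent × List Unit → ℤ × ℤ, PTime ap ∧
    ∀ L u, (∀ en ∈ L, en.ok) →
      ‖((ap (L, u)).1 + (ap (L, u)).2 * Complex.I : ℂ) -
        2 ^ u.length * (L.map Ent.val).prod‖ ≤ 1 :=
  (ApxH.pa_val.prod ApxH.bd_val).rnd

end Vale.Agent.P338
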