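import Vale.Agent.P338.Spec

/-! Job J11, part A: rational series for the exponential on the unit circle. -/

namespace Vale.Agent.P338.ApxH

open PT Finset

attribute [local irreducible] PTime PB C

/-- truncated series of the arctangent -/
def atn (x : ℚ) (N : ℕ) : ℚ :=
  ∑ n ∈ range N, (-1) ^ (min n N) * x ^ (2 * min n N + 1) / ((2 * n + 1 : ℕ) : ℚ)

/-- truncated series of the cosine -/
def cs (x : ℚ) (N : ℕ) : ℚ :=
  ∑ n ∈ range N, (-1) ^ (min n N) * x ^ (2 * min n N) / (((2 * min n N).factorial : ℕ) : ℚ)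

/-- truncated series of the sine -/
def sn (x : ℚ) (N : ℕ) : ℚ :=
  ∑ n ∈ range N, (-1) ^ (min n N) * x ^ (2 * min n N + 1) / (((2 * min n N + 1).factorial : ℕ) : ℚ)

/-- approximation of the angle -/
def ang (θ : ℚ) (N : ℕ) : ℚ := 8 * (atn (1 / 2) N + atn (1 / 3) N) * (θ - (⌊θ⌋ : ℤ))

variable {α : Type} [TEnc α]

lemma PB_min {f g : α → ℕ} (hg : PB g) : PB fun a => min (f a) (g a) :=
  hg.of_le fun _ => min_le_right _ _

lemma PB_fst {β : Type} [TEnc β] {N : α → ℕ} (hB : PB N) : PB fun p : α × β => N p.1 :=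
  hB.comp PTime.fst_id

lemma ptime_t1 {x : α → ℚ} {m n : α → ℕ} (hx : PTime x) (hm : PTime m) (hB : PB m) (hn : PTime n) :
    PTime fun a => (-1) ^ m a * x a ^ (2 * m a + 1) / ((2 * n a + 1 : ℕ) : ℚ) := by
  fun_prop

lemma ptime_t2 {x : α → ℚ} {m : α → ℕ} (hx : PTime x) (hm : PTime m) (hB : PB m) :
    PTime fun a => (-1) ^ m a * x a ^ (2 * m a) / (((2 * m a).factorial : ℕ) : ℚ) := by
  fun_prop

lemma ptime_t3 {x : α → ℚ} {m : α → ℕ} (hx : PTime x) (hm : PTime m) (hB : PB m) :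
    PTime fun a => (-1) ^ m a * x a ^ (2 * m a + 1) / (((2 * m a + 1).factorial : ℕ) : ℚ) := by
  fun_prop

@[fun_prop] lemma ptime_atn {x : α → ℚ} {N : α → ℕ} (hx : PTime x) (hN : PTime N) (hB : PB N) :
    PTime fun a => atn (x a) (N a) :=
  PTime.rat_sum_range hN hB (ptime_t1 (by fun_prop) (by fun_prop) (PB_min (PB_fst hB)) (by fun_prop))

@[fun_prop] lemma ptime_cs {x : α → ℚ} {N : α → ℕ} (hx : PTime x) (hN : PTime N) (hB : PB N) :
    PTime fun a => cs (x a) (N a) :=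
  PTime.rat_sum_range hN hB (ptime_t2 (by fun_prop) (by fun_prop) (PB_min (PB_fst hB)))

@[fun_prop] lemma ptime_sn {x : α → ℚ} {N : α → ℕ} (hx : PTime x) (hN : PTime N) (hB : PB N) :
    PTime fun a => sn (x a) (N a) :=
  PTime.rat_sum_range hN hB (ptime_t3 (by fun_prop) (by fun_prop) (PB_min (PB_fst hB)))

@[fun_prop] lemma ptime_ang {x : α → ℚ} {N : α → ℕ} (hx : PTime x) (hN : PTime N) (hB : PB N) :
    PTime fun a => ang (x a) (N a) := by
  unfold ang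
  fun_prop

lemma tail {f : ℕ → ℝ} {C a : ℝ} (hf : ∀ n, |f n| ≤ C * (1 / 2) ^ n) (ha : HasSum f a) (N : ℕ) :
    |∑ n ∈ range N, f n - a| ≤ 2 * C * (1 / 2) ^ N := by
  have := norm_sub_le_of_geometric_bound_of_hasSum (r := 1 / 2) (C := C) (by norm_num)
    (fun n => by simpa using hf n) ha N
  rw [Real.norm_eq_abs] at this
  exact this.trans (le_of_eq (by ring))

lemma atn_spec {x : ℚ} (h0 : 0 ≤ x) (h1 : x ≤ 1 / 2) (N : ℕ) :
    |(atn x N : ℝ) - Real.arctan x| ≤ 2 * (1 / 2) ^ N := by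
  have h0' : (0 : ℝ) ≤ x := by exact_mod_cast h0
  have h1' : (x : ℝ) ≤ 1 / 2 := by
    have : ((x : ℚ) : ℝ) ≤ ((1 / 2 : ℚ) : ℝ) := by exact_mod_cast h1
    simpa using this
  have := tail (C := 1) (fun n => ?_)
    (Real.hasSum_arctan (x := x) (by rw [Real.norm_eq_abs, abs_of_nonneg h0']; linarith)) N
  · rw [mul_one] at this
    refine le_trans (le_of_eq ?_) this
    rw [atn, Rat.cast_sum]
    refine congrArg (fun z => |z - Real.arctan x|) (sum_congr rfl fun n hn => ?_)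
    rw [min_eq_left (mem_range.1 hn).le]
    push_cast
    rfl
  · rw [abs_div, abs_mul, abs_pow, abs_pow, abs_neg, abs_one, one_pow, one_mul, one_mul,
      abs_of_nonneg h0', Nat.abs_cast]
    refine (div_le_self (by positivity) (by exact_mod_cast (by omega : 1 ≤ 2 * n + 1))).trans ?_
    exact (pow_le_pow_left₀ h0' h1' _).trans
      (pow_le_pow_of_le_one (by norm_num) (by norm_num) (by omega))

lemma term_le {x : ℝ} (hx : |x| ≤ 8) {n m : ℕ} (h : n ≤ m) :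
    |(-1) ^ n * x ^ m / (m.factorial : ℝ)| ≤ 2 ^ 26 * (1 / 2) ^ n := by
  rw [abs_div, abs_mul, abs_pow, abs_pow, abs_neg, abs_one, one_pow, one_mul, Nat.abs_cast]
  have h1 := Real.pow_div_factorial_le_exp (x := 16) (by norm_num) m
  have h2 : Real.exp 16 ≤ 2 ^ 26 := by
    have : Real.exp 16 = Real.exp 1 ^ 16 := by rw [← Real.exp_nat_mul]; norm_num
    rw [this]
    exact (pow_le_pow_left₀ (Real.exp_pos 1).le Real.exp_one_lt_three.le 16).trans (by norm_num)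
  have h3 : |x| ^ m ≤ 16 ^ m * (1 / 2) ^ m := by
    rw [← mul_pow]; exact pow_le_pow_left₀ (abs_nonneg x) (by linarith) m
  have h4 : ((1 : ℝ) / 2) ^ m ≤ (1 / 2) ^ n := pow_le_pow_of_le_one (by norm_num) (by norm_num) h
  calc |x| ^ m / m.factorial ≤ 16 ^ m * (1 / 2) ^ m / m.factorial := by gcongr
    _ = 16 ^ m / m.factorial * (1 / 2) ^ m := by ring
    _ ≤ 2 ^ 26 * (1 / 2) ^ n := mul_le_mul (h1.trans h2) h4 (by positivity) (by positivity)

lemma cs_spec {x : ℚ} (hx : |(x : ℝ)| ≤ 8) (N : ℕ) :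
    |(cs x N : ℝ) - Real.cos x| ≤ 2 * 2 ^ 26 * (1 / 2) ^ N := by
  refine le_trans (le_of_eq ?_) (tail (fun n => term_le hx (by omega)) (Real.hasSum_cos x) N)
  rw [cs, Rat.cast_sum]
  refine congrArg (fun z => |z - Real.cos x|) (sum_congr rfl fun n hn => ?_)
  rw [min_eq_left (mem_range.1 hn).le]
  push_cast
  rfl

lemma sn_spec {x : ℚ} (hx : |(x : ℝ)| ≤ 8) (N : ℕ) :
    |(sn x N : ℝ) - Real.sin x| ≤ 2 * 2 ^ 26 * (1 / 2) ^ N := by
  refine le_trans (le_of_eq ?_) (tail (fun n => term_le hx (by omega)) (Real.hasSum_sin x) N)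
  rw [sn, Rat.cast_sum]
  refine congrArg (fun z => |z - Real.sin x|) (sum_congr rfl fun n hn => ?_)
  rw [min_eq_left (mem_range.1 hn).le]
  push_cast
  rfl

lemma ang_spec (θ : ℚ) (N : ℕ) :
    |(ang θ N : ℝ) - 2 * Real.pi * Int.fract (θ : ℝ)| ≤ 32 * (1 / 2) ^ N := by
  have h1 := atn_spec (x := 1 / 2) (by norm_num) le_rfl N
  have h2 := atn_spec (x := 1 / 3) (by norm_num) (by norm_num) N
  have h3 := Real.arctan_inv_2_add_arctan_inv_3
  have e1 : (((1 / 2 : ℚ)) : ℝ) = 2⁻¹ := by norm_num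
  have e2 : (((1 / 3 : ℚ)) : ℝ) = 3⁻¹ := by norm_num
  rw [e1] at h1
  rw [e2] at h2
  have e3 : (ang θ N : ℝ) - 2 * Real.pi * Int.fract (θ : ℝ) = 8 * Int.fract (θ : ℝ) *
      (((atn (1 / 2) N : ℝ) - Real.arctan 2⁻¹) + ((atn (1 / 3) N : ℝ) - Real.arctan 3⁻¹)) := by
    rw [ang, Int.fract, Rat.floor_cast]
    push_cast
    linear_combination (8 * ((θ : ℝ) - ⌊θ⌋)) * h3
  rw [e3, abs_mul, abs_of_nonneg (by linarith [Int.fract_nonneg (θ : ℝ)])]
  have h4 := abs_add_le ((atn (1 / 2) N : ℝ) - Real.arctan 2⁻¹) ((atn (1 / 3) N : ℝ) - Real.arctan 3⁻¹)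
  have h5 := mul_le_mul (show 8 * Int.fract (θ : ℝ) ≤ 8 by linarith [Int.fract_lt_one (θ : ℝ)])
    (h4.trans (add_le_add h1 h2)) (abs_nonneg _) (by norm_num)
  linarith

lemma ee_eq (θ : ℚ) : ee θ = (Real.cos (2 * Real.pi * Int.fract (θ : ℝ)) : ℂ) +
    (Real.sin (2 * Real.pi * Int.fract (θ : ℝ)) : ℂ) * Complex.I := by
  rw [Complex.ofReal_cos, Complex.ofReal_sin, ← Complex.exp_mul_I, ee, Int.fract]
  have := Complex.exp_int_mul_two_pi_mul_I ⌊(θ : ℝ)⌋
  rw [← mul_one (Complex.exp (_ * Complex.I)), ← this, ← Complex.exp_add]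
  refine congrArg Complex.exp ?_
  push_cast
  ring

lemma norm_ee (θ : ℚ) : ‖ee θ‖ = 1 := by
  rw [ee_eq, Complex.ofReal_cos, Complex.ofReal_sin, ← Complex.exp_mul_I]
  exact Complex.norm_exp_ofReal_mul_I _

/-- the complex number with given rational coordinates -/
noncomputable def tc (p : ℚ × ℚ) : ℂ := p.1 + p.2 * Complex.I

lemma norm_pair (x y : ℝ) : ‖(x : ℂ) + y * Complex.I‖ ≤ |x| + |y| := by
  simpa using norm_add_le (x : ℂ) (y * Complex.I)

lemma ee_spec (θ : ℚ) (n : ℕ) :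
    ‖tc (cs (ang θ (n + 29)) (n + 29), sn (ang θ (n + 29)) (n + 29)) - ee θ‖ ≤ (1 / 2) ^ n := by
  have h1 := ang_spec θ (n + 29)
  have hp : ((1 : ℝ) / 2) ^ n ≤ 1 := pow_le_one₀ (by norm_num) (by norm_num)
  have hp0 : (0 : ℝ) ≤ (1 / 2) ^ n := by positivity
  have hx : |(ang θ (n + 29) : ℝ)| ≤ 8 := by
    rw [pow_add] at h1
    have h2 := Int.fract_nonneg (θ : ℝ)
    have h3 := Int.fract_lt_one (θ : ℝ)
    have h4 := Real.pi_lt_d2
    have h5 := Real.pi_pos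
    have h6 := abs_le.1 h1
    rw [abs_le]
    constructor <;> nlinarith
  have h2 := cs_spec hx (n + 29)
  have h3 := sn_spec hx (n + 29)
  have h4 := Real.abs_cos_sub_cos_le (ang θ (n + 29)) (2 * Real.pi * Int.fract (θ : ℝ))
  have h5 := Real.abs_sin_sub_sin_le (ang θ (n + 29)) (2 * Real.pi * Int.fract (θ : ℝ))
  have h6 := abs_sub_le (cs (ang θ (n + 29)) (n + 29) : ℝ) (Real.cos (ang θ (n + 29)))
    (Real.cos (2 * Real.pi * Int.fract (θ : ℝ)))
  have h7 := abs_sub_le (sn (ang θ (n + 29)) (n + 29) : ℝ) (Real.sin (ang θ (n + 29)))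
    (Real.sin (2 * Real.pi * Int.fract (θ : ℝ)))
  have h8 := norm_pair ((cs (ang θ (n + 29)) (n + 29) : ℝ) - Real.cos (2 * Real.pi * Int.fract (θ : ℝ)))
    ((sn (ang θ (n + 29)) (n + 29) : ℝ) - Real.sin (2 * Real.pi * Int.fract (θ : ℝ)))
  refine le_trans (le_of_eq (congrArg norm ?_)) (h8.trans ?_)
  · rw [ee_eq, tc, Complex.ofReal_sub, Complex.ofReal_sub, Complex.ofReal_ratCast,
      Complex.ofReal_ratCast]
    ring
  · rw [pow_add] at h1 h2 h3
    norm_num at h1 h2 h3 ⊢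
    linarith

end Vale.Agent.P338.ApxH
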