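import Vale.Agent.P338.Fl

/-! Job J8a: modular inverses, Chinese remainders, reflections, powers of `17`. -/

namespace Vale.Agent.P338

open PT

attribute [local irreducible] PTime PB C

variable {α : Type} [TEnc α]

theorem CrtH.xgcd_congr (m : ℤ) (r : ℕ) : ∀ (s t : ℤ) (r' : ℕ) (s' t' s2 t2 s2' t2' : ℤ),
    s ≡ s2 [ZMOD m] → s' ≡ s2' [ZMOD m] →
      (Nat.xgcdAux r s t r' s' t').2.1 ≡ (Nat.xgcdAux r s2 t2 r' s2' t2').2.1 [ZMOD m] := by
  induction r using Nat.strong_induction_on with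
  | _ r ih =>
    intro s t r' s' t' s2 t2 s2' t2' h h'
    rcases Nat.eq_zero_or_pos r with rfl | hr
    · rw [Nat.xgcd_zero_left, Nat.xgcd_zero_left]; exact h'
    · rw [Nat.xgcdAux_rec hr, Nat.xgcdAux_rec hr]
      exact ih _ (Nat.mod_lt _ hr) _ _ _ _ _ _ _ _ _ (h'.sub (h.mul_left _)) h

/-- one step of the extended Euclidean algorithm modulo `m` -/
def CrtH.st (m : ℕ) (p : (ℕ × ℕ) × ℤ × ℤ) : (ℕ × ℕ) × ℤ × ℤ :=
  if p.1.1 = 0 then p else
    ((p.1.2 % p.1.1, p.1.1), (p.2.2 - ((p.1.2 / p.1.1 : ℕ) : ℤ) * p.2.1) % (m : ℤ), p.2.1)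

theorem CrtH.st_inv (m : ℕ) (p : (ℕ × ℕ) × ℤ × ℤ) :
    (Nat.xgcdAux (CrtH.st m p).1.1 (CrtH.st m p).2.1 0 (CrtH.st m p).1.2 (CrtH.st m p).2.2 0).2.1 ≡
      (Nat.xgcdAux p.1.1 p.2.1 0 p.1.2 p.2.2 0).2.1 [ZMOD m] := by
  by_cases h : p.1.1 = 0
  · simp only [CrtH.st, if_pos h]; rfl
  · simp only [CrtH.st, if_neg h]
    rw [Nat.xgcdAux_rec (Nat.pos_of_ne_zero h)]
    refine CrtH.xgcd_congr _ _ _ _ _ _ _ _ _ _ _ ?_ rfl
    rw [Int.natCast_div]
    exact Int.mod_modEq _ _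

theorem CrtH.st_iter (m : ℕ) (k : ℕ) : ∀ p : (ℕ × ℕ) × ℤ × ℤ,
    (Nat.xgcdAux ((CrtH.st m)^[k] p).1.1 ((CrtH.st m)^[k] p).2.1 0 ((CrtH.st m)^[k] p).1.2
      ((CrtH.st m)^[k] p).2.2 0).2.1 ≡ (Nat.xgcdAux p.1.1 p.2.1 0 p.1.2 p.2.2 0).2.1 [ZMOD m] := by
  induction k with
  | zero => intro p; rfl
  | succ k ih =>
    intro p
    rw [Function.iterate_succ_apply]
    exact (ih _).trans (CrtH.st_inv m p)

theorem CrtH.st_bd {m : ℕ} (hm : 0 < m) (B : ℕ) (k : ℕ) : ∀ p : (ℕ × ℕ) × ℤ × ℤ,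
    p.1.1 ≤ B → p.1.2 ≤ B → p.2.1.natAbs ≤ m → p.2.2.natAbs ≤ m →
      ((CrtH.st m)^[k] p).1.1 ≤ B ∧ ((CrtH.st m)^[k] p).1.2 ≤ B ∧
        ((CrtH.st m)^[k] p).2.1.natAbs ≤ m ∧ ((CrtH.st m)^[k] p).2.2.natAbs ≤ m := by
  induction k with
  | zero => intro p h1 h2 h3 h4; exact ⟨h1, h2, h3, h4⟩
  | succ k ih =>
    intro p h1 h2 h3 h4
    rw [Function.iterate_succ_apply]
    by_cases h : p.1.1 = 0
    · simp only [CrtH.st, if_pos h]; exact ih p h1 h2 h3 h4
    · simp only [CrtH.st, if_neg h]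
      refine ih _ ((Nat.mod_le _ _).trans h2) h1 ?_ h3
      have a1 := Int.emod_nonneg (p.2.2 - ((p.1.2 / p.1.1 : ℕ) : ℤ) * p.2.1)
        (show (m : ℤ) ≠ 0 by omega)
      have a2 := Int.emod_lt_of_pos (p.2.2 - ((p.1.2 / p.1.1 : ℕ) : ℤ) * p.2.1)
        (show (0 : ℤ) < m by omega)
      show (_ % _ : ℤ).natAbs ≤ m
      omega

theorem CrtH.st_zero (m k : ℕ) : ∀ p : (ℕ × ℕ) × ℤ × ℤ, p.1.1 < 2 ^ k →
    ((CrtH.st m)^[2 * k] p).1.1 = 0 := by
  induction k with
  | zero => intro p hp; simpa using hp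
  | succ k ih =>
    intro p hp
    rw [Nat.mul_succ, Function.iterate_add_apply]
    refine ih _ ?_
    have hpos : 0 < 2 ^ k := by positivity
    show (CrtH.st m (CrtH.st m p)).1.1 < 2 ^ k
    by_cases h : p.1.1 = 0
    · simp [CrtH.st, h]
    by_cases h' : p.1.2 % p.1.1 = 0
    · simp [CrtH.st, h, h']
    simp only [CrtH.st, if_neg h, if_neg h']
    have a1 := Nat.mod_lt p.1.2 (Nat.pos_of_ne_zero h)
    have a2 := Nat.mod_lt p.1.1 (Nat.pos_of_ne_zero h')
    have a3 : p.1.1 % (p.1.2 % p.1.1) ≤ p.1.1 - p.1.2 % p.1.1 := by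
      rw [Nat.mod_eq_sub_mod a1.le]; exact Nat.mod_le _ _
    rw [pow_succ] at hp
    omega

theorem CrtH.minv_eq (a m : ℕ) : minv a m =
    (((CrtH.st m)^[2 * a.size] ((a, m), 1, 0)).2.2 % (m : ℤ)).toNat := by
  have h1 := CrtH.st_iter m (2 * a.size) ((a, m), 1, 0)
  rw [CrtH.st_zero m a.size ((a, m), 1, 0) (Nat.lt_size_self _), Nat.xgcd_zero_left] at h1
  have h2 := CrtH.xgcd_congr m a 1 0 m 0 0 1 0 0 1 rfl rfl
  have h3 := h1.trans h2
  unfold minv
  congr 1
  exact h3.symm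

theorem CrtH.ptime_st :
    PTime fun q : (ℕ × ℕ) × (ℕ × ℕ) × ℤ × ℤ => CrtH.st (q.1.2 + 1) q.2 := by
  have h0 := PTime.id (α := (ℕ × ℕ) × (ℕ × ℕ) × ℤ × ℤ)
  have h1 := h0.snd.fst.fst
  have h2 := h0.snd.fst.snd
  have h3 := h0.snd.snd.fst
  have h4 := h0.snd.snd.snd
  have h5 := h0.fst.snd.add (PTime.const 1)
  exact PTime.ite (h1.decide_eq (PTime.const 0)) h0.snd (((h2.mod h1).prodMk h1).prodMk
    (((h4.int_sub ((h2.div h1).natCast_int.int_mul h3)).int_emod h5.natCast_int).prodMk h3))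

theorem CrtH.ptime_minv1 : PTime fun x : ℕ × ℕ => minv x.1 (x.2 + 1) := by
  have h0 := PTime.id (α := ℕ × ℕ)
  have h1 := h0.snd.add (PTime.const 1)
  have := PTime.iterate (α := ℕ × ℕ) (n := fun x => 2 * x.1.size)
    (i := fun x => (((x.1, x.2 + 1), 1, 0) : (ℕ × ℕ) × ℤ × ℤ)) (f := fun x => CrtH.st (x.2 + 1))
    ((PTime.const 2).mul h0.fst.size) ((PB.const 2).mul (PB.size h0.fst))
    ((h0.fst.prodMk h1).prodMk (PTime.const _)) CrtH.ptime_st
    (fun x => 16 * sz (x.1 + x.2 + 1) + 15)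
    (((PB.const 16).mul ((h0.fst.add h0.snd).add (PTime.const 1)).sz_PB).add (PB.const 15))
    (fun x k _ => by
      obtain ⟨h1, h2, h3, h4⟩ := CrtH.st_bd (m := x.2 + 1) (by omega) (x.1 + x.2 + 1) k
        ((x.1, x.2 + 1), 1, 0) (by simp only; omega) (by simp only; omega) (by simp) (by simp)
      generalize (CrtH.st (x.2 + 1))^[k] ((x.1, x.2 + 1), 1, 0) = q at h1 h2 h3 h4
      obtain ⟨⟨q1, q2⟩, q3, q4⟩ := q
      have b1 := sz_nat_le_of_le h1
      have b2 := sz_nat_le_of_le h2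
      have b3 := sz_nat_le_of_le (h3.trans (show x.2 + 1 ≤ x.1 + x.2 + 1 by omega))
      have b4 := sz_nat_le_of_le (h4.trans (show x.2 + 1 ≤ x.1 + x.2 + 1 by omega))
      have b5 := (sz_int q3).1
      have b6 := (sz_int q4).1
      simp only [sz_prod] at *
      omega)
  refine PTime.of_eq (f := fun x : ℕ × ℕ =>
    (((CrtH.st (x.2 + 1))^[2 * x.1.size] ((x.1, x.2 + 1), 1, 0)).2.2 % ((x.2 + 1 : ℕ) : ℤ)).toNat)
    (((this.snd.snd).int_emod h1.natCast_int).int_toNat) fun x => (CrtH.minv_eq _ _).symm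

@[fun_prop] theorem ptime_minv {f g : α → ℕ} (hf : PTime f) (hg : PTime g) :
    PTime fun a => minv (f a) (g a) := by
  have h := CrtH.ptime_minv1.comp (hf.prodMk (hg.sub (PTime.const 1)))
  refine PTime.of_eq (f := fun a => if g a = 0 then (if f a = 0 then 0 else 1) else
    minv (f a) (g a - 1 + 1)) (PTime.ite (hg.decide_eq (PTime.const 0))
      (PTime.ite (hf.decide_eq (PTime.const 0)) (PTime.const 0) (PTime.const 1)) h) fun a => ?_
  by_cases h0 : g a = 0
  · rw [if_pos h0, h0]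
    by_cases h1 : f a = 0
    · simp [h1, minv]
    · simp [h1, minv, Nat.gcdA_zero_right h1]
  · rw [if_neg h0, Nat.sub_add_cancel (Nat.pos_of_ne_zero h0)]

theorem minv_lt (a : ℕ) {m : ℕ} (hm : 0 < m) : minv a m < m := by
  have a1 := Int.emod_nonneg (Nat.gcdA a m) (show (m : ℤ) ≠ 0 by omega)
  have a2 := Int.emod_lt_of_pos (Nat.gcdA a m) (show (0 : ℤ) < m by omega)
  unfold minv
  omega

theorem mul_minv {a m : ℕ} (h : Nat.Coprime a m) (hm : 0 < m) : a * minv a m ≡ 1 [MOD m] := by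
  have a1 := Int.emod_nonneg (Nat.gcdA a m) (show (m : ℤ) ≠ 0 by omega)
  have e := Nat.gcd_eq_gcd_ab a m
  rw [h] at e
  rw [← Int.natCast_modEq_iff]
  unfold minv
  push_cast at e ⊢
  rw [Int.toNat_of_nonneg a1, e]
  refine ((Int.mod_modEq _ _).mul_left _).trans ?_
  exact (Int.modEq_iff_dvd.2 ⟨Nat.gcdB a m, by ring⟩)

@[fun_prop] theorem ptime_crtL {f g : α → List ℕ} (hf : PTime f) (hg : PTime g) :
    PTime fun a => crtL (f a) (g a) := by
  have h0 := PTime.id (α := α × ℕ × ℕ)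
  have h1 := (hf.comp h0.fst).nat_prod.div h0.snd.fst
  exact (hf.zipWith hg (f := fun a p x => x * ((f a).prod / p * minv ((f a).prod / p) p))
    (h0.snd.snd.mul (h1.mul (ptime_minv h1 h0.snd.fst)))).nat_sum.mod hf.nat_prod

theorem crtL_lt {ps : List ℕ} (h0 : ∀ p ∈ ps, 0 < p) (as : List ℕ) : crtL ps as < ps.prod := by
  exact Nat.mod_lt _ (List.prod_pos h0)

theorem CrtH.eq_map_range {β : Type} (l : List β) (d : β) :
    l = (List.range l.length).map fun i => l.getD i d := by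
  refine List.ext_getElem (by simp) fun i h1 h2 => ?_
  simp [h1]

theorem CrtH.getD_zipWith {β γ δ : Type} (f : β → γ → δ) {l : List β} {m : List γ} {c : ℕ}
    (h1 : c < l.length) (h2 : c < m.length) (d1 : β) (d2 : γ) (d : δ) :
    (List.zipWith f l m).getD c d = f (l.getD c d1) (m.getD c d2) := by
  simp [List.getD_eq_getElem?_getD, h1, h2]

theorem CrtH.getD_mem {β : Type} {l : List β} {c : ℕ} (h : c < l.length) (d : β) :
    l.getD c d ∈ l := by
  rw [List.getD_eq_getElem _ _ h]; exact List.getElem_mem h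

theorem CrtH.prod_eq (l : List ℕ) : l.prod = ∏ i ∈ Finset.range l.length, l.getD i 1 := by
  conv_lhs => rw [CrtH.eq_map_range l 1]
  rw [prod_range_eq]

theorem CrtH.cop {ps : List ℕ} (hc : ps.Pairwise Nat.Coprime) {i j : ℕ} (hi : i < ps.length)
    (hj : j < ps.length) (hij : i ≠ j) : Nat.Coprime (ps.getD i 1) (ps.getD j 1) := by
  rw [List.getD_eq_getElem _ _ hi, List.getD_eq_getElem _ _ hj]
  rcases lt_or_gt_of_ne hij with h | h
  · exact List.pairwise_iff_getElem.1 hc i j hi hj h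
  · exact (List.pairwise_iff_getElem.1 hc j i hj hi h).symm

theorem crtL_modEq {ps as : List ℕ} (hc : ps.Pairwise Nat.Coprime) (h0 : ∀ p ∈ ps, 0 < p)
    (hl : as.length = ps.length) {c : ℕ} (h : c < ps.length) :
    crtL ps as ≡ as.getD c 0 [MOD ps.getD c 1] := by
  have hp := h0 _ (CrtH.getD_mem h 1)
  have hd : ∀ i < ps.length, ps.getD i 1 ∣ ps.prod := fun i hi =>
    List.dvd_prod (CrtH.getD_mem hi 1)
  unfold crtL
  refine (Nat.mod_modEq _ _).of_dvd (hd c h) |>.trans ?_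
  have e : (List.zipWith (fun p a => a * (ps.prod / p * minv (ps.prod / p) p)) ps as).sum =
      ∑ i ∈ Finset.range ps.length,
        as.getD i 0 * (ps.prod / ps.getD i 1 * minv (ps.prod / ps.getD i 1) (ps.getD i 1)) := by
    rw [CrtH.eq_map_range (List.zipWith _ ps as) 0, sum_range_eq, List.length_zipWith, hl,
      min_self]
    refine Finset.sum_congr rfl fun i hi => ?_
    have hi' := Finset.mem_range.1 hi
    exact CrtH.getD_zipWith _ hi' (by omega) 1 0 0
  rw [e, ← Finset.add_sum_erase _ _ (Finset.mem_range.2 h)]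
  have h1 : Nat.Coprime (ps.prod / ps.getD c 1) (ps.getD c 1) := by
    rw [CrtH.prod_eq ps, ← Finset.mul_prod_erase _ _ (Finset.mem_range.2 h),
      Nat.mul_div_cancel_left _ hp]
    refine Nat.Coprime.prod_left fun i hi => ?_
    rw [Finset.mem_erase, Finset.mem_range] at hi
    exact CrtH.cop hc hi.2 h hi.1
  have h2 : ps.getD c 1 ∣ ∑ i ∈ (Finset.range ps.length).erase c,
      as.getD i 0 * (ps.prod / ps.getD i 1 * minv (ps.prod / ps.getD i 1) (ps.getD i 1)) := by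
    refine Finset.dvd_sum fun i hi => Dvd.dvd.mul_left (Dvd.dvd.mul_right ?_ _) _
    rw [Finset.mem_erase, Finset.mem_range] at hi
    exact Nat.dvd_div_of_mul_dvd
      ((CrtH.cop hc hi.2 h hi.1).mul_dvd_of_dvd_of_dvd (hd i hi.2) (hd c h))
  have h3 := ((mul_minv h1 hp).mul_left (as.getD c 0)).add ((Nat.modEq_zero_iff_dvd).2 h2)
  simpa using h3

theorem eq_of_modEq_all {ps : List ℕ} (hc : ps.Pairwise Nat.Coprime) {x y : ℕ} (hx : x < ps.prod)
    (hy : y < ps.prod) (h : ∀ c < ps.length, x ≡ y [MOD ps.getD c 1]) : x = y := by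
  refine Nat.ModEq.eq_of_lt_of_lt ((Nat.modEq_list_prod_iff hc).2 fun i => ?_) hx hy
  have := h i.1 i.2
  rwa [List.getD_eq_getElem _ _ i.2] at this

@[fun_prop] theorem ptime_reflN {f : α → List ℕ} {t : α → List Bool} {y : α → ℕ} (hf : PTime f)
    (ht : PTime t) (hy : PTime y) : PTime fun a => reflN (f a) (t a) (y a) := by
  have h0 := PTime.id (α := α × ℕ × Bool)
  have h1 := hy.comp h0.fst
  exact ptime_crtL hf (hf.zipWith ht (f := fun a r b => if b then r - y a % r else y a)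
    (PTime.ite h0.snd.snd.decide_eq_true (h0.snd.fst.sub (h1.mod h0.snd.fst)) h1))

@[fun_prop] theorem ptime_good {f : α → List ℕ} {y : α → ℕ} (hf : PTime f) (hy : PTime y) :
    PTime fun a => good (f a) (y a) := by
  have h0 := PTime.id (α := α × ℕ)
  exact hf.all (f := fun a r => decide (y a % r ≠ 0))
    (((hy.comp h0.fst).mod h0.snd).decide_ne (PTime.const 0))

@[fun_prop] theorem ptime_sg {f : α → List ℕ} {y : α → ℕ} (hf : PTime f) (hy : PTime y) :
    PTime fun a => sg (f a) (y a) := by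
  have h0 := PTime.id (α := α × ℕ)
  exact hf.map (f := fun a r => decide (r < 2 * (y a % r)))
    (h0.snd.decide_lt ((PTime.const 2).mul ((hy.comp h0.fst).mod h0.snd)))

theorem reflN_lt {rs : List ℕ} (h0 : ∀ r ∈ rs, 0 < r) (t y) : reflN rs t y < rs.prod := by
  exact crtL_lt h0 _

theorem CrtH.reflN_modEq {rs : List ℕ} (hc : rs.Pairwise Nat.Coprime) (h0 : ∀ r ∈ rs, 0 < r)
    {t : List Bool} (hl : t.length = rs.length) (y : ℕ) {c : ℕ} (h : c < rs.length) :
    reflN rs t y ≡ (if t.getD c false then rs.getD c 1 - y % rs.getD c 1 else y)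
      [MOD rs.getD c 1] := by
  have := crtL_modEq (as := List.zipWith (fun r b => if b then r - y % r else y) rs t) hc h0
    (by simp [hl]) h
  rwa [CrtH.getD_zipWith _ h (by omega) 1 false] at this

/-- the residues of a reflected index -/
theorem reflN_cast {rs : List ℕ} (hc : rs.Pairwise Nat.Coprime) (h0 : ∀ r ∈ rs, 0 < r)
    {t : List Bool} (hl : t.length = rs.length) (y : ℕ) {c : ℕ} (h : c < rs.length) :
    ((reflN rs t y : ℕ) : ZMod (rs.getD c 1)) = if t.getD c false then -(y : ZMod _) else y := by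
  have hp := h0 _ (CrtH.getD_mem h 1)
  rw [(ZMod.natCast_eq_natCast_iff _ _ _).2 (CrtH.reflN_modEq hc h0 hl y h)]
  split_ifs
  · rw [Nat.cast_sub (Nat.mod_lt _ hp).le, ZMod.natCast_self, ZMod.natCast_mod, zero_sub]
  · rfl

theorem reflN_reflN {rs : List ℕ} (hc : rs.Pairwise Nat.Coprime) (h0 : ∀ r ∈ rs, 0 < r)
    {t t' : List Bool} (hl : t.length = rs.length) (hl' : t'.length = rs.length) (y : ℕ) :
    reflN rs t (reflN rs t' y) = reflN rs (List.zipWith xor t t') y := by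
  refine eq_of_modEq_all hc (reflN_lt h0 _ _) (reflN_lt h0 _ _) fun c h => ?_
  rw [← ZMod.natCast_eq_natCast_iff, reflN_cast hc h0 hl _ h, reflN_cast hc h0 hl' _ h,
    reflN_cast hc h0 (by simp [hl, hl']) _ h,
    CrtH.getD_zipWith _ (by omega) (by omega) false false]
  cases t.getD c false <;> cases t'.getD c false <;> simp

theorem reflN_false {rs : List ℕ} (hc : rs.Pairwise Nat.Coprime) (h0 : ∀ r ∈ rs, 0 < r)
    {t : List Bool} (hl : t.length = rs.length) (ht : ∀ b ∈ t, b = false) {y : ℕ}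
    (hy : y < rs.prod) : reflN rs t y = y := by
  refine eq_of_modEq_all hc (reflN_lt h0 _ _) hy fun c h => ?_
  rw [← ZMod.natCast_eq_natCast_iff, reflN_cast hc h0 hl _ h,
    ht _ (CrtH.getD_mem (by omega) false)]
  simp

theorem CrtH.good_iff {rs : List ℕ} {y : ℕ} :
    good rs y = true ↔ ∀ c < rs.length, ((y : ℕ) : ZMod (rs.getD c 1)) ≠ 0 := by
  simp only [good, List.all_eq_true, decide_eq_true_eq, Ne, ZMod.natCast_eq_zero_iff,
    Nat.dvd_iff_mod_eq_zero]
  constructor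
  · intro h c hc
    exact h _ (CrtH.getD_mem hc 1)
  · intro h r hr
    obtain ⟨c, hc, rfl⟩ := List.getElem_of_mem hr
    have := h c hc
    rwa [List.getD_eq_getElem _ _ hc] at this

theorem good_reflN {rs : List ℕ} (hc : rs.Pairwise Nat.Coprime) (h0 : ∀ r ∈ rs, 0 < r)
    {t : List Bool} (hl : t.length = rs.length) (y : ℕ) : good rs (reflN rs t y) = good rs y := by
  rw [Bool.eq_iff_iff, CrtH.good_iff, CrtH.good_iff]
  refine forall₂_congr fun c h => ?_
  rw [reflN_cast hc h0 hl _ h]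
  split_ifs <;> simp

theorem CrtH.length_sg (rs : List ℕ) (y : ℕ) : (sg rs y).length = rs.length := by simp [sg]

theorem CrtH.getD_sg {rs : List ℕ} (y : ℕ) {c : ℕ} (h : c < rs.length) :
    (sg rs y).getD c false = decide (rs.getD c 1 < 2 * (y % rs.getD c 1)) := by
  simp [sg, List.getD_eq_getElem?_getD, h]

theorem sg_reflN {rs : List ℕ} (hc : rs.Pairwise Nat.Coprime) (ho : ∀ r ∈ rs, Odd r)
    {t : List Bool} (hl : t.length = rs.length) {y : ℕ} (hy : good rs y = true) :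
    sg rs (reflN rs t y) = List.zipWith xor t (sg rs y) := by
  have h0 : ∀ r ∈ rs, 0 < r := fun r hr => (ho r hr).pos
  refine List.ext_getElem (by simp [CrtH.length_sg, hl]) fun c h1 h2 => ?_
  have h : c < rs.length := by simpa [CrtH.length_sg] using h1
  rw [← List.getD_eq_getElem _ false h1, ← List.getD_eq_getElem _ false h2,
    CrtH.getD_zipWith _ (by omega) (by simpa [CrtH.length_sg] using h) false false,
    CrtH.getD_sg _ h, CrtH.getD_sg _ h]
  have e := CrtH.reflN_modEq hc h0 hl y h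
  have g1 := CrtH.good_iff.1 hy c h
  rw [Ne, ZMod.natCast_eq_zero_iff, Nat.dvd_iff_mod_eq_zero] at g1
  have hp := h0 _ (CrtH.getD_mem h 1)
  obtain ⟨q, hq⟩ := ho _ (CrtH.getD_mem h 1)
  have g2 := Nat.mod_lt y hp
  unfold Nat.ModEq at e
  rw [e]
  cases t.getD c false
  · simp
  · rw [if_pos rfl, Nat.mod_eq_of_lt (by omega), Bool.true_xor, ← decide_not, decide_eq_decide]
    omega

/-- at least half of the addresses are good -/
theorem count_good {rs : List ℕ} (h : ∀ r ∈ rs, 0 < r ∧ 4 * rs.length ≤ r) :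
    rs.prod ≤ 2 * Nat.count (fun y => good rs y = true) rs.prod := by
  classical
  set N := rs.prod with hN
  have h1 : ∀ r ∈ rs, 4 * rs.length * ((Finset.range N).filter fun y => y % r = 0).card ≤ N := by
    intro r hr
    obtain ⟨q, hq⟩ : r ∣ N := List.dvd_prod hr
    have hs : ((Finset.range N).filter fun y => y % r = 0) ⊆ (Finset.range q).image (r * ·) := by
      intro y hy
      rw [Finset.mem_filter, Finset.mem_range] at hy
      obtain ⟨z, rfl⟩ := Nat.dvd_of_mod_eq_zero hy.2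
      refine Finset.mem_image.2 ⟨z, Finset.mem_range.2 ?_, rfl⟩
      rw [hq] at hy
      exact lt_of_mul_lt_mul_left hy.1 (Nat.zero_le _)
    have h2 := (Finset.card_le_card hs).trans Finset.card_image_le
    rw [Finset.card_range] at h2
    calc _ ≤ r * q := Nat.mul_le_mul (h r hr).2 h2
      _ = N := hq.symm
  have h2 : ((Finset.range N).filter fun y => ¬ good rs y = true) ⊆
      (Finset.range rs.length).biUnion fun c =>
        (Finset.range N).filter fun y => y % rs.getD c 1 = 0 := by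
    intro y hy
    rw [Finset.mem_filter, CrtH.good_iff] at hy
    obtain ⟨hy1, hy2⟩ := hy
    push Not at hy2
    obtain ⟨c, hc, h0⟩ := hy2
    rw [ZMod.natCast_eq_zero_iff, Nat.dvd_iff_mod_eq_zero] at h0
    exact Finset.mem_biUnion.2 ⟨c, Finset.mem_range.2 hc, Finset.mem_filter.2 ⟨hy1, h0⟩⟩
  have h3 := (Finset.card_le_card h2).trans Finset.card_biUnion_le
  have h4 : 4 * rs.length * ∑ c ∈ Finset.range rs.length,
      ((Finset.range N).filter fun y => y % rs.getD c 1 = 0).card ≤ rs.length * N := by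
    rw [Finset.mul_sum]
    refine (Finset.sum_le_sum fun c hc => h1 _ (CrtH.getD_mem (Finset.mem_range.1 hc) 1)).trans ?_
    simp
  have h5 := Finset.card_filter_add_card_filter_not (s := Finset.range N)
    (fun y => good rs y = true)
  rw [Finset.card_range] at h5
  rw [Nat.count_eq_card_filter_range]
  rcases Nat.eq_zero_or_pos rs.length with h6 | h6
  · rw [h6] at h3
    simp only [Finset.range_zero, Finset.sum_empty] at h3
    omega
  · generalize ∑ c ∈ Finset.range rs.length,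
      ((Finset.range N).filter fun y => y % rs.getD c 1 = 0).card = B at h3 h4
    rw [mul_comm 4, mul_assoc] at h4
    have := Nat.le_of_mul_le_mul_left h4 h6
    omega

theorem cidx_lt {S1 S2 : ℕ} (h1 : 0 < S1) (h2 : 0 < S2) (X : ℕ) : cidx S1 S2 X < S1 * S2 := by
  exact lt_mul_of_lt (Nat.mod_lt _ h1) (Nat.mod_lt _ h2)

theorem cinv_lt {S1 S2 : ℕ} (h1 : 0 < S1) (h2 : 0 < S2) (j : ℕ) : cinv S1 S2 j < S1 * S2 := by
  exact lt_mul_of_lt (Nat.mod_lt _ h1) (Nat.mod_lt _ h2)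

theorem CrtH.cinv_mod {S1 S2 : ℕ} (j : ℕ) : cinv S1 S2 j % S2 = j % S2 := by
  unfold cinv
  rw [Nat.add_comm, Nat.add_mul_mod_self_right, Nat.mod_mod]

theorem CrtH.cinv_left {S1 S2 : ℕ} (hc : Nat.Coprime S1 S2) (h1 : 0 < S1) (j : ℕ) :
    cinv S1 S2 j ≡ j / S2 * S2 [MOD S1] := by
  have e := (ZMod.natCast_eq_natCast_iff _ _ _).2 (mul_minv hc.symm h1)
  rw [← ZMod.natCast_eq_natCast_iff]
  unfold cinv
  push_cast [ZMod.natCast_mod, Nat.cast_sub (minv_lt S2 h1).le] at e ⊢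
  rw [ZMod.natCast_self]
  linear_combination (-((j % S2 : ℕ) : ZMod S1)) * e

theorem CrtH.pos_of_lt {S1 S2 j : ℕ} (hj : j < S1 * S2) : 0 < S1 ∧ 0 < S2 := by
  constructor
  · rcases Nat.eq_zero_or_pos S1 with rfl | h
    · simp at hj
    · exact h
  · rcases Nat.eq_zero_or_pos S2 with rfl | h
    · simp at hj
    · exact h

theorem cidx_cinv {S1 S2 j : ℕ} (hc : Nat.Coprime S1 S2) (hj : j < S1 * S2) :
    cidx S1 S2 (cinv S1 S2 j) = j := by
  obtain ⟨h1, h2⟩ := CrtH.pos_of_lt hj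
  unfold cidx
  rw [CrtH.cinv_mod]
  have e : minv S2 S1 * cinv S1 S2 j ≡ j / S2 [MOD S1] := by
    refine ((CrtH.cinv_left hc h1 j).mul_left _).trans ?_
    have := (mul_minv hc.symm h1).mul_left (j / S2)
    rw [mul_one] at this
    rwa [show minv S2 S1 * (j / S2 * S2) = j / S2 * (S2 * minv S2 S1) by ring]
  unfold Nat.ModEq at e
  rw [e, Nat.mod_eq_of_lt ((Nat.div_lt_iff_lt_mul h2).2 hj), Nat.div_add_mod']

theorem cinv_cidx {S1 S2 X : ℕ} (hc : Nat.Coprime S1 S2) (hX : X < S1 * S2) :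
    cinv S1 S2 (cidx S1 S2 X) = X := by
  obtain ⟨h1, h2⟩ := CrtH.pos_of_lt hX
  refine Nat.ModEq.eq_of_lt_of_lt ((Nat.modEq_and_modEq_iff_modEq_mul hc).1 ⟨?_, ?_⟩)
    (cinv_lt h1 h2 _) hX
  · refine (CrtH.cinv_left hc h1 _).trans ?_
    have e : cidx S1 S2 X / S2 = minv S2 S1 * X % S1 := by
      unfold cidx
      rw [Nat.add_comm, Nat.add_mul_div_right _ _ h2, Nat.div_eq_of_lt (Nat.mod_lt _ h2), zero_add]
    rw [e]
    refine ((Nat.mod_modEq _ _).mul_right _).trans ?_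
    have := (mul_minv hc.symm h1).mul_left X
    rw [mul_one] at this
    rwa [show minv S2 S1 * X * S2 = X * (S2 * minv S2 S1) by ring]
  · unfold Nat.ModEq
    rw [CrtH.cinv_mod]
    unfold cidx
    rw [Nat.add_comm, Nat.add_mul_mod_self_right, Nat.mod_mod]

theorem cinv_mod_right {S1 S2 : ℕ} (j : ℕ) : cinv S1 S2 j % S2 = j % S2 := by
  exact CrtH.cinv_mod j

theorem cinv_modEq_left {S1 S2 : ℕ} (hc : Nat.Coprime S1 S2) (h1 : 0 < S1) (h2 : 0 < S2) (j : ℕ) :
    cinv S1 S2 j ≡ j / S2 * S2 [MOD S1] := by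
  have _ := h2
  exact CrtH.cinv_left hc h1 j

theorem CrtH.pw_le' (S : ℕ) : pw S ≤ 17 * S + 1 := by
  unfold pw
  rcases le_or_gt S 1 with h | h
  · rw [Nat.clog_of_right_le_one h]; omega
  · have h1 := Nat.pow_pred_clog_lt_self (b := 17) (by norm_num) h
    have h2 := Nat.clog_pos (b := 17) (by norm_num) h
    obtain ⟨c, hc⟩ : ∃ c, Nat.clog 17 S = c + 1 := ⟨_, (Nat.succ_pred_eq_of_pos h2).symm⟩
    rw [hc] at h1 ⊢
    rw [pow_succ]
    simp only [Nat.pred_succ] at h1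
    omega

theorem CrtH.pw_iter (S k : ℕ) : (fun x => if x < S then 17 * x else x)^[k] 1 =
    17 ^ min k (Nat.clog 17 S) := by
  induction k with
  | zero => simp
  | succ k ih =>
    rw [Function.iterate_succ_apply', ih]
    rcases lt_or_ge k (Nat.clog 17 S) with h | h
    · rw [min_eq_left h.le, min_eq_left h, if_pos ((Nat.lt_clog_iff_pow_lt (by norm_num)).1 h),
        pow_succ']
    · rw [min_eq_right h, min_eq_right (by omega),
        if_neg (not_lt.2 (Nat.le_pow_clog (by norm_num) _))]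

@[fun_prop] theorem ptime_pw {f : α → ℕ} (hf : PTime f) : PTime fun a => pw (f a) := by
  have h0 := PTime.id (α := α × ℕ)
  refine (PTime.iterate (n := fun a => (f a).size) (i := fun _ => 1)
    (f := fun a x => if x < f a then 17 * x else x) hf.size (PB.size hf) (PTime.const 1)
    (PTime.ite (h0.snd.decide_lt (hf.comp h0.fst)) ((PTime.const 17).mul h0.snd) h0.snd)
    (fun a => 4 * sz (17 * f a + 1) + 1)
    (((PB.const 4).mul (((PTime.const 17).mul hf).add (PTime.const 1)).sz_PB).add (PB.const 1))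
    fun a k _ => ?_).of_eq fun a => ?_
  · rw [CrtH.pw_iter]
    exact sz_nat_le_of_le ((Nat.pow_le_pow_right (by norm_num) (min_le_right _ _)).trans
      (CrtH.pw_le' (f a)))
  · rw [CrtH.pw_iter, min_eq_right]
    · rfl
    · refine (Nat.clog_le_iff_le_pow (by norm_num)).2 ((Nat.lt_size_self _).le.trans ?_)
      exact Nat.pow_le_pow_left (by norm_num) _

theorem le_pw (S : ℕ) : S ≤ pw S := by
  exact Nat.le_pow_clog (by norm_num) _

theorem pw_le {S : ℕ} (h : 0 < S) : pw S ≤ 17 * S := by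
  have h1 := CrtH.pw_le' S
  have h2 : pw S ≠ 17 * S + 1 := by
    unfold pw
    rcases Nat.eq_zero_or_pos (Nat.clog 17 S) with h3 | h3
    · rw [h3]; omega
    · have := dvd_pow_self 17 h3.ne'
      omega
  omega

theorem pw_dvd {S1 S2 : ℕ} (h : S1 ≤ S2) : pw S1 ∣ pw S2 := by
  exact pow_dvd_pow _ (Nat.clog_mono_right _ h)

theorem CrtH.pw_pos (S : ℕ) : 0 < pw S := by unfold pw; positivity

theorem CrtH.div_pw_lt {S1 S2 y : ℕ} (h : S1 ≤ S2) (hy : y < S2) : y / pw S1 < pw S2 / pw S1 := by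
  rw [Nat.div_lt_iff_lt_mul (CrtH.pw_pos _), Nat.div_mul_cancel (pw_dvd h)]
  exact hy.trans_le (le_pw _)

theorem rowInv_lt {S1 S2 y : ℕ} (h : S1 ≤ S2) (hy : y < S2) : rowInv S1 S2 y < pw S2 := by
  have := lt_mul_of_lt (Nat.mod_lt y (CrtH.pw_pos S1)) (CrtH.div_pw_lt h hy)
  rwa [Nat.mul_div_cancel' (pw_dvd h)] at this

theorem rowOf_rowInv {S1 S2 y : ℕ} (h : S1 ≤ S2) (hy : y < S2) :
    rowOf S1 S2 (rowInv S1 S2 y) = y := by
  have h1 := CrtH.div_pw_lt h hy
  unfold rowOf rowInv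
  generalize pw S2 / pw S1 = m at h1
  have hm : 0 < m := Nat.zero_lt_of_lt h1
  rw [Nat.add_comm (y % pw S1 * m), Nat.add_mul_mod_self_right, Nat.mod_eq_of_lt h1,
    Nat.add_mul_div_right _ _ hm, Nat.div_eq_of_lt h1, zero_add, Nat.div_add_mod']

end Vale.Agent.P338
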