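import Vale.Agent.P338.OpD
import Vale.Agent.P338.Crt

/-! Job J4b: linear-time operations on one axis of an array, and the row embedding. -/

namespace Vale.Agent.P338

open PT Finset

attribute [local irreducible] PTime PB C

variable {ε : Type} [TEnc ε] {D : ε → Prop} {N N' B T : ε → ℕ} {f : ε → List Bool → List Bool}
  {O S β : ε → ℕ}

lemma axis_ax3 {O S β : ℕ} {π : ℕ → ℕ → ℕ} (l : List Bool) (hπ : ∀ o < O, ∀ s < S, π o s < S) :
    ax3 O S β π l = fl O fun o => perm S β (π o) (blk (S * β) o l) :=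
  fl_congr fun o ho => fl_congr fun s hs => (blk_blk l (hπ o ho s hs)).symm

lemma axis_rot {S β r : ℕ} {m : List Bool} (hm : m.length = S * β) (hr : r ≤ S) :
    m.rotate (r * β) = perm S β (fun s => (s + r) % S) m := by
  obtain ⟨k, rfl⟩ := Nat.exists_eq_add_of_le hr
  have h1 : (fl r fun i => blk β i m).length = r * β :=
    length_fl fun i hi => length_blk' hm (by omega)
  conv_lhs => rw [← fl_blk hm, fl_add, ← h1, List.rotate_append_length_eq]
  unfold perm
  conv_rhs => rw [show fl (r + k) = fl (α := Bool) (k + r) by rw [add_comm], fl_add]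
  congr 1
  · exact fl_congr fun i hi => by beta_reduce; rw [Nat.mod_eq_of_lt (by omega), add_comm]
  · refine fl_congr fun i hi => ?_
    beta_reduce
    rw [show k + i + r = i + (r + k) by omega, Nat.add_mod_right, Nat.mod_eq_of_lt (by omega)]

lemma axis_len3 {O S β : ℕ} {π : ℕ → ℕ → ℕ} {l : List Bool} (hl : l.length = O * S * β)
    (hπ : ∀ o < O, ∀ s < S, π o s < S) : (ax3 O S β π l).length = O * S * β := by
  rw [mul_assoc]
  exact length_fl fun o ho => length_fl fun s hs =>
    length_blk' hl (lt_mul_of_lt ho (hπ o ho s hs))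

lemma axis_takeD {n : ℕ} (l : List Bool) (a : Bool) (h : l.length ≤ n) :
    l.takeD n a = l ++ List.replicate (n - l.length) a := by
  induction l generalizing n with
  | nil => simp
  | cons b l ih =>
    obtain ⟨n, rfl⟩ : ∃ m, n = m + 1 := ⟨n - 1, by simp at h; omega⟩
    simp [ih (n := n) (by simpa using h)]

/-- cyclic shift of the middle axis by an amount depending on the outer index -/
theorem Op.shr (hf : Op D N N' B T f) (hO : PTime O) (hS : PTime S) (hβ : PTime β)
    {φ : ε × ℕ → ℕ} (hφ : PTime φ)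
    (H : ∀ e, D e → N' e = O e * S e * β e ∧ 0 < S e ∧ B e ≤ S e * β e) :
    Op D N N' B T fun e l => ax3 (O e) (S e) (β e) (fun o s => (s + φ (e, o)) % S e) (f e l) := by
  have h1 : Op (fun e : ℕ × ℕ => e.2 ≤ e.1) (fun e => e.1) (fun e => e.1) (fun e => e.1)
      (fun _ => 0) fun e l => l.rotate e.2 :=
    (Op.id fun _ _ => le_rfl).rot (by fun_prop) fun _ h => h
  refine (hf.blocks h1 (ψ := fun p => (S p.1 * β p.1, φ p % S p.1 * β p.1)) (by fun_prop) hO
    (L := fun e => S e * β e) (L' := fun e => S e * β e) (by fun_prop)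
    (fun e he => by rw [(H e he).1, mul_assoc]; exact ⟨rfl, rfl⟩)
    (fun e he i _ => ⟨Nat.mul_le_mul_right _ (Nat.mod_lt _ (H e he).2.1).le, rfl, rfl,
      (H e he).2.2⟩) ⟨0, fun _ _ _ _ => by simp⟩).congr fun e l he hl => ?_
  obtain ⟨a1, a2, -⟩ := H e he
  have a3 := hf.len e l he hl
  rw [axis_ax3 _ fun _ _ _ _ => Nat.mod_lt _ a2]
  refine fl_congr fun o ho => ?_
  rw [axis_rot (length_blk' (by rw [a3, a1, mul_assoc]) ho) (Nat.mod_lt _ a2).le]
  exact perm_congr _ fun s _ => by rw [Nat.add_mod_mod]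

theorem Op.neg (hf : Op D N N' B T f) (hO : PTime O) (hS : PTime S) (hβ : PTime β)
    (H : ∀ e, D e → N' e = O e * S e * β e ∧ 0 < β e ∧ B e ≤ S e * β e) :
    Op D N N' B T fun e l => ax3 (O e) (S e) (β e) (fun _ s => (S e - s) % S e) (f e l) := by
  have h1 : Op (fun e : ℕ × ℕ => 0 < e.2) (fun e => e.1 * e.2) (fun e => e.1 * e.2)
      (fun e => e.1 * e.2) (fun _ => 0) fun e l =>
        (perm e.1 e.2 (fun s => e.1 - 1 - s) l).rotate ((e.1 - 1) * e.2) :=
    Op.rot (Op.rev (Op.id fun _ _ => le_rfl) (S := fun e : ℕ × ℕ => e.1) (β := fun e => e.2)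
      (by fun_prop) fun _ h => ⟨rfl, h⟩) (by fun_prop) fun _ _ => Nat.mul_le_mul_right _ (by omega)
  refine (hf.blocks h1 (ψ := fun p => (S p.1, β p.1)) (by fun_prop) hO
    (L := fun e => S e * β e) (L' := fun e => S e * β e) (by fun_prop)
    (fun e he => by rw [(H e he).1, mul_assoc]; exact ⟨rfl, rfl⟩)
    (fun e he i _ => ⟨(H e he).2.1, rfl, rfl, (H e he).2.2⟩)
    ⟨0, fun _ _ _ _ => by simp⟩).congr fun e l he hl => ?_
  obtain ⟨a1, -, -⟩ := H e he
  have a3 := hf.len e l he hl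
  rw [axis_ax3 _ fun _ _ _ _ => Nat.mod_lt _ (by omega)]
  refine fl_congr fun o ho => ?_
  have a4 : (blk (S e * β e) o (f e l)).length = S e * β e :=
    length_blk' (by rw [a3, a1, mul_assoc]) ho
  dsimp only
  rw [axis_rot (length_perm a4 fun i hi => by omega) (by omega),
    perm_perm a4 (fun i hi => Nat.mod_lt _ (by omega)) fun i hi => by omega]
  refine perm_congr _ fun s hs => ?_
  rcases Nat.eq_zero_or_pos s with rfl | h0
  · rw [zero_add, Nat.mod_eq_of_lt (by omega)]; simp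
  · rw [show s + (S e - 1) = s - 1 + S e by omega, Nat.add_mod_right, Nat.mod_eq_of_lt (by omega),
      Nat.mod_eq_of_lt (by omega)]
    omega

/-- truncate or pad every block -/
theorem Op.pad (hf : Op D N N' B T f) {L L' N'' : ε → ℕ} (hO : PTime O) (hL : PTime L)
    (hL' : PTime L') (H : ∀ e, D e → N' e = O e * L e ∧ N'' e = O e * L' e ∧ B e ≤ L e)
    (hT : ∃ K, ∀ e, D e → N'' e ≤ K * (T e + N e)) :
    Op D N N'' B T fun e l => fl (O e) fun o => (blk (L e) o (f e l)).takeD (L' e) false := by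
  have h1 : Op (fun _ : ℕ × ℕ => True) (fun e => e.1) (fun e => e.2) (fun e => e.1)
      (fun e => e.2) fun e l => l.takeD e.2 false :=
    (Op.id fun _ _ => le_rfl).resize (by fun_prop) ⟨1, fun _ _ => by omega⟩
  obtain ⟨K, hK⟩ := hT
  exact hf.blocks h1 (ψ := fun p => (L p.1, L' p.1)) (by fun_prop) hO (L' := L') hL
    (fun e he => ⟨(H e he).1, (H e he).2.1⟩) (fun e he i _ => ⟨trivial, rfl, rfl, (H e he).2.2⟩)
    ⟨K, fun e he _ _ => by rw [← (H e he).2.1]; exact hK e he⟩

/-- keep one sub-block of every block -/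
theorem Op.axisPick (hf : Op D N N' B T f) (hO : PTime O) (hS : PTime S) (hβ : PTime β)
    {φ : ε × ℕ → ℕ} (hφ : PTime φ) {N'' : ε → ℕ}
    (H : ∀ e, D e → N' e = O e * (S e * β e) ∧ N'' e = O e * β e ∧ B e ≤ S e * β e ∧
      ∀ o < O e, φ (e, o) < S e) :
    Op D N N'' B T fun e l => perm (O e) (β e) (fun o => o * S e + φ (e, o)) (f e l) := by
  have h0 : ∀ e : ℕ × ℕ × ℕ, e.2.2 < e.1 → e.2.2 * e.2.1 + e.2.1 ≤ e.1 * e.2.1 := fun e h => by
    have := Nat.mul_le_mul_right e.2.1 (show e.2.2 + 1 ≤ e.1 from h)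
    rwa [add_mul, one_mul] at this
  have h1 : Op (fun e : ℕ × ℕ × ℕ => e.2.2 < e.1) (fun e => e.1 * e.2.1) (fun e => e.2.1)
      (fun e => e.1 * e.2.1) (fun _ => 0) fun e l => blk e.2.1 e.2.2 l :=
    Op.take (Op.drop (Op.id fun _ _ => le_rfl) (r := fun e : ℕ × ℕ × ℕ => e.2.2 * e.2.1)
      (N'' := fun e => e.1 * e.2.1 - e.2.2 * e.2.1) (by fun_prop)
      fun e h => by have := h0 e h; omega) (r := fun e => e.2.1) (by fun_prop) fun e h => by
        have := h0 e h; omega
  refine (hf.blocks h1 (ψ := fun p => (S p.1, β p.1, φ p)) (by fun_prop) hO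
    (L := fun e => S e * β e) (L' := β) (by fun_prop) (fun e he => ⟨(H e he).1, (H e he).2.1⟩)
    (fun e he i hi => ⟨(H e he).2.2.2 i hi, rfl, rfl, (H e he).2.2.1⟩)
    ⟨0, fun _ _ _ _ => by simp⟩).congr fun e l he hl => ?_
  exact fl_congr fun o ho => blk_blk _ ((H e he).2.2.2 o ho)

theorem Op.scale (hf : Op D N N' B T f) (hO : PTime O) (hS : PTime S) (hβ : PTime β)
    {r : ε → ℕ} (hr : PTime r)
    (H : ∀ e, D e → N' e = O e * S e * β e ∧ 0 < S e ∧ 0 < r e ∧ B e ≤ β e)
    (hT : ∃ K, ∀ e, D e → r e * r e * N' e ≤ K * (T e + N e)) :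
    Op D N N' B T fun e l => ax3 (O e) (S e) (β e) (fun _ s => r e * s % S e) (f e l) := by
  refine Op.assume 0 ?_ hf.le fun e l he hl => by
    rw [(H e he).1]
    exact axis_len3 ((hf.len e l he hl).trans (H e he).1) fun _ _ _ _ => Nat.mod_lt _ (H e he).2.1
  have hf' := hf.mono (D2 := fun e => D e ∧ (sz e + 1) ^ 0 ≤ B e) (N2 := N) (N2' := N') (B2 := B)
    (T2 := T) (fun e he => ⟨he.1, rfl, rfl, le_rfl⟩) ⟨1, fun _ _ => by omega⟩
  have h1 : Op (fun _ : ℕ × ℕ => True) (fun e => e.1) (fun e => e.2 * e.1) (fun e => e.1)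
      (fun e => e.2 * (e.1 + 1)) fun e l => fl e.2 fun _ => l :=
    (Op.id fun _ _ => le_rfl).rep (by fun_prop) (fun _ _ => rfl) ⟨1, fun _ _ => by omega⟩
  obtain ⟨K, hK⟩ := hT
  have h2 := hf'.blocks h1 (ψ := fun p => (S p.1 * β p.1, r p.1)) (by fun_prop) hO
    (L := fun e => S e * β e) (L' := fun e => r e * (S e * β e))
    (N'' := fun e => O e * (r e * (S e * β e))) (by fun_prop)
    (fun e he => by rw [(H e he.1).1, mul_assoc]; exact ⟨rfl, rfl⟩)
    (fun e he i _ => ⟨trivial, rfl, rfl, (H e he.1).2.2.2.trans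
      (Nat.le_mul_of_pos_left _ (H e he.1).2.1)⟩)
    ⟨2 * K, fun e he _ _ => by
      obtain ⟨a1, a2, a3, a4⟩ := H e he.1
      have a5 := hK e he.1
      have a6 : 1 ≤ B e := he.2
      have a7 : 0 < S e * β e := Nat.mul_pos a2 (by omega)
      rw [a1] at a5
      calc O e * (r e * (S e * β e + 1)) ≤ O e * (r e * r e * (2 * (S e * β e))) :=
            Nat.mul_le_mul_left _ (Nat.mul_le_mul (Nat.le_mul_of_pos_left _ a3) (by omega))
        _ = 2 * (r e * r e * (O e * S e * β e)) := by ring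
        _ ≤ _ := by rw [mul_assoc 2]; omega⟩
  refine (h2.axisPick (O := fun e => O e * S e) (S := r) (φ := fun _ => 0) (by fun_prop) hr hβ
    (by fun_prop) fun e he => ⟨by ring, (H e he.1).1, (H e he.1).2.2.2.trans
      (Nat.le_mul_of_pos_left _ (H e he.1).2.2.1), fun _ _ => (H e he.1).2.2.1⟩).congr
    fun e l he hl => ?_
  obtain ⟨a1, a2, a3, -⟩ := H e he.1
  have a4 := (hf.len e l he.1 hl).trans (a1.trans (mul_assoc _ _ _))
  unfold perm ax3
  rw [fl_mul]
  refine fl_congr fun o ho => fl_congr fun s hs => ?_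
  have e1 : (o * S e + s) * r e + 0 = (o * r e + r e * s / S e) * S e + r e * s % S e := by
    have := Nat.div_add_mod (r e * s) (S e)
    nlinarith
  dsimp only
  rw [e1, ← blk_blk _ (Nat.mod_lt _ a2), blk_fl_fl (fun i hi _ _ => length_blk' a4 hi) ho
    (Nat.div_lt_of_lt_mul (by rw [mul_comm (S e)]; exact Nat.mul_lt_mul_of_pos_left hs a3)),
    blk_blk _ (Nat.mod_lt _ a2)]

/-- transposition in every block -/
theorem Op.axisTr (hf : Op D N N' B T f) {A : ε → ℕ} (hO : PTime O) (hA : PTime A) (hS : PTime S)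
    (hβ : PTime β) (H : ∀ e, D e → N' e = O e * (A e * S e * β e) ∧ 0 < A e ∧ 0 < S e ∧ 0 < β e ∧
      B e ≤ A e * S e * β e)
    (hT : ∃ K, ∀ e, D e → min (A e) (S e) * N' e ≤ K * (T e + N e)) :
    Op D N N' B T fun e l => fl (O e) fun o =>
      trF (A e) (S e) (β e) (blk (A e * S e * β e) o (f e l)) := by
  have h1 : Op (fun e : ℕ × ℕ × ℕ => 0 < e.1 ∧ 0 < e.2.1 ∧ 0 < e.2.2)
      (fun e => e.1 * e.2.1 * e.2.2) (fun e => e.1 * e.2.1 * e.2.2) (fun e => e.1 * e.2.1 * e.2.2)
      (fun e => min e.1 e.2.1 * (e.1 * e.2.1 * e.2.2)) fun e l => trF e.1 e.2.1 e.2.2 l :=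
    (Op.id fun _ _ => le_rfl).tr (by fun_prop) (by fun_prop) (by fun_prop) (fun _ h => ⟨rfl, h⟩)
      ⟨1, fun _ _ => by omega⟩
  obtain ⟨K, hK⟩ := hT
  exact hf.blocks h1 (ψ := fun p => (A p.1, S p.1, β p.1)) (by fun_prop) hO
    (L := fun e => A e * S e * β e) (L' := fun e => A e * S e * β e) (by fun_prop)
    (fun e he => ⟨(H e he).1, (H e he).1⟩)
    (fun e he i _ => ⟨⟨(H e he).2.1, (H e he).2.2.1, (H e he).2.2.2.1⟩, rfl, rfl, (H e he).2.2.2.2⟩)
    ⟨K, fun e he _ _ => by
      have := hK e he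
      rw [(H e he).1] at this
      rw [mul_left_comm]; exact this⟩

theorem Op.unscale (hf : Op D N N' B T f) (hO : PTime O) (hS : PTime S) (hβ : PTime β)
    {r : ε → ℕ} (hr : PTime r)
    (H : ∀ e, D e → N' e = O e * S e * β e ∧ 0 < S e ∧ 0 < r e ∧ Nat.Coprime (r e) (S e) ∧
      B e ≤ β e)
    (hT : ∃ K, ∀ e, D e → r e * r e * N' e ≤ K * (T e + N e)) :
    Op D N N' B T fun e l =>
      ax3 (O e) (S e) (β e) (fun _ s => minv (r e) (S e) * s % S e) (f e l) := by
  refine Op.assume 0 ?_ hf.le fun e l he hl => by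
    rw [(H e he).1]
    exact axis_len3 ((hf.len e l he hl).trans (H e he).1) fun _ _ _ _ => Nat.mod_lt _ (H e he).2.1
  have hf' := hf.mono (D2 := fun e => D e ∧ (sz e + 1) ^ 0 ≤ B e) (N2 := N) (N2' := N') (B2 := B)
    (T2 := T) (fun e he => ⟨he.1, rfl, rfl, le_rfl⟩) ⟨1, fun _ _ => by omega⟩
  obtain ⟨K, hK⟩ := hT
  have h1 := hf'.pad (O := fun e => O e * S e) (L := β) (L' := fun e => r e * β e)
    (N'' := fun e => O e * (r e * S e * β e)) (by fun_prop) hβ (by fun_prop)
    (fun e he => ⟨(H e he.1).1, by ring, (H e he.1).2.2.2.2⟩) ⟨K, fun e he => by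
      refine le_trans ?_ (hK e he.1)
      rw [(H e he.1).1]
      calc _ = r e * (O e * S e * β e) := by ring
        _ ≤ _ := Nat.mul_le_mul_right _ (Nat.le_mul_of_pos_left _ (H e he.1).2.2.1)⟩
  have h2 := h1.axisTr (A := r) hO hr hS hβ (fun e he => by
    obtain ⟨-, a2, a3, -, a4⟩ := H e he.1
    have a6 : 1 ≤ B e := he.2
    exact ⟨rfl, a3, a2, by omega, a4.trans (Nat.le_mul_of_pos_left _ (Nat.mul_pos a3 a2))⟩)
    ⟨K, fun e he => by
      refine le_trans ?_ (hK e he.1)
      rw [(H e he.1).1]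
      calc _ ≤ r e * (O e * (r e * S e * β e)) := Nat.mul_le_mul_right _ (min_le_left _ _)
        _ = _ := by ring⟩
  have hφ : ∀ e, D e → ∀ x, r e * (minv (r e) (S e) * (x % S e) % S e) / S e < r e := fun e he x =>
    Nat.div_lt_of_lt_mul (by
      rw [mul_comm (S e)]
      exact Nat.mul_lt_mul_of_pos_left (Nat.mod_lt _ (H e he).2.1) (H e he).2.2.1)
  refine (h2.axisPick (O := fun e => O e * S e) (S := r)
    (φ := fun p => r p.1 * (minv (r p.1) (S p.1) * (p.2 % S p.1) % S p.1) / S p.1)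
    (by fun_prop) hr hβ (by fun_prop) fun e he => ⟨by ring, (H e he.1).1, (H e he.1).2.2.2.2.trans
      (Nat.le_mul_of_pos_left _ (H e he.1).2.2.1), fun x _ => hφ e he.1 x⟩).congr
    fun e l he hl => ?_
  obtain ⟨a1, a2, a3, a5, -⟩ := H e he.1
  have a4 := (hf.len e l he.1 hl).trans a1
  have b1 := hφ e he.1
  dsimp only
  generalize f e l = m at a4
  generalize O e = O at *
  generalize S e = S at *
  generalize β e = β at *
  generalize r e = r at *
  unfold perm ax3 trF
  rw [fl_mul]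
  refine fl_congr fun o ho => fl_congr fun s hs => ?_
  have b2 : (fl (O * S) fun x => (blk β x m).takeD (r * β) false).length = O * (r * S * β) := by
    rw [length_fl fun _ _ => List.takeD_length _ _ _]; ring
  have b3 : ∀ o < O, ∀ b < S, ∀ a < r, (blk β (a * S + b) (blk (r * S * β) o
      (fl (O * S) fun x => (blk β x m).takeD (r * β) false))).length = β := fun o ho b hb a ha =>
    length_blk' (length_blk' b2 ho) (lt_mul_of_lt ha hb)
  have b4 : (o * S + s) % S = s := by
    rw [Nat.add_comm, Nat.add_mul_mod_self_right, Nat.mod_eq_of_lt hs]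
  have b5 := b1 (o * S + s)
  beta_reduce
  rw [b4] at b5 ⊢
  have b6 : r * (minv r S * s % S) % S = s := by
    rw [Nat.mul_mod_mod, ← mul_assoc]
    have := (mul_minv a5 a2).mul_right s
    rw [one_mul] at this
    exact Eq.trans this (Nat.mod_eq_of_lt hs)
  have b7 : minv r S * s % S < S := Nat.mod_lt _ a2
  generalize minv r S * s % S = t at *
  have b8 : o * (r * S) + (r * t / S * S + s) = (o * S + t) * r + 0 := by
    have := Nat.div_add_mod (r * t) S
    nlinarith
  rw [← blk_blk _ b5, blk_fl_fl (fun i hi j hj => length_fl (b3 i hi j hj)) ho hs,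
    blk_fl (b3 o ho s hs) b5, blk_blk _ (lt_mul_of_lt b5 hs), b8, ← blk_blk _ a3,
    blk_fl (fun _ _ => List.takeD_length _ _ _) (lt_mul_of_lt ho b7)]
  have b9 : (blk β (o * S + t) m).length = β := length_blk' a4 (lt_mul_of_lt ho b7)
  generalize blk β (o * S + t) m = c at b9
  have b10 : β ≤ r * β := Nat.le_mul_of_pos_left _ a3
  rw [axis_takeD _ _ (by omega), blk_append_left _ (by omega), blk_zero_self b9]

/-- naive exchange of two short axes in every block -/
theorem Op.nswap (hf : Op D N N' B T f) {M : ε → ℕ} (hO : PTime O) (hS : PTime S) (hM : PTime M)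
    (hβ : PTime β)
    (H : ∀ e, D e → N' e = O e * (S e * M e * S e * β e) ∧ 0 < S e ∧ 0 < M e ∧ 0 < β e ∧
      B e ≤ S e * M e * S e * β e)
    (hT : ∃ K, ∀ e, D e → S e * N' e ≤ K * (T e + N e)) :
    Op D N N' B T fun e l => fl (O e) fun o =>
      swapF (S e) (M e) (β e) (blk (S e * M e * S e * β e) o (f e l)) := by
  obtain ⟨K, hK⟩ := hT
  have h1 := hf.axisTr (A := S) (S := fun e => M e * S e) hO hS (by fun_prop) hβ (fun e he => by
    obtain ⟨a1, a2, a3, a4, a5⟩ := H e he
    rw [← mul_assoc (S e)]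
    exact ⟨a1, a2, Nat.mul_pos a3 a2, a4, a5⟩)
    ⟨K, fun e he => (Nat.mul_le_mul_right _ (min_le_left _ _)).trans (hK e he)⟩
  refine (h1.axisTr (A := M) (S := S) (β := fun e => S e * β e) hO hM hS (by fun_prop)
    (fun e he => by
      obtain ⟨a1, a2, a3, a4, a5⟩ := H e he
      rw [show M e * S e * (S e * β e) = S e * M e * S e * β e by ring]
      exact ⟨a1, a3, a2, Nat.mul_pos a2 a4, a5⟩)
    ⟨K, fun e he => (Nat.mul_le_mul_right _ (min_le_right _ _)).trans (hK e he)⟩).congr
    fun e l he hl => ?_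
  have a4 := (hf.len e l he hl).trans (H e he).1
  generalize f e l = m at a4
  generalize O e = O at *
  generalize S e = S at *
  generalize β e = β at *
  generalize M e = M at *
  have b1 : ∀ o < O, ∀ c < M * S, ∀ a < S,
      (blk β (a * (M * S) + c) (blk (S * (M * S) * β) o m)).length = β := fun o ho c hc a ha =>
    length_blk' (length_blk' (by rw [a4, ← mul_assoc S]) ho) (lt_mul_of_lt ha hc)
  refine fl_congr fun o ho => ?_
  unfold trF swapF
  rw [blk_fl (fun i hi => length_fl fun c hc => length_fl (b1 i hi c hc)) ho]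
  refine fl_congr fun b hb => fl_congr fun μ hμ => ?_
  rw [blk_fl (fun c hc => length_fl (b1 o ho c hc)) (lt_mul_of_lt hμ hb), ← mul_assoc S]
  refine fl_congr fun a _ => ?_
  congr 1; ring

def gapStep (p : Bool × ℕ) : List ℕ × ℕ := bif p.1 then ([p.2], 0) else ([], p.2 + 1)

lemma axis_scan_snoc {β γ σ : Type} (g : β × σ → List γ × σ) (l : List β) (y : β) : ∀ s,
    scan g (l ++ [y]) s =
      ((scan g l s).1 ++ (g (y, (scan g l s).2)).1, (g (y, (scan g l s).2)).2) := by
  induction l with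
  | nil => intro s; simp [scan]
  | cons z l ih => intro s; simp [scan, ih]

lemma gap_cost (n : ℕ) (l : List Bool) : ∀ c, c + l.length ≤ n →
    scanCost gapStep (fun _ => 0) l c ≤ l.length * (4 * n.size + 4) := by
  induction l with
  | nil => intro c _; simp [scanCost]
  | cons b l ih =>
    intro c hc
    rw [List.length_cons] at hc
    have := ih (gapStep (b, c)).2 (by cases b <;> simp [gapStep] <;> omega)
    have := sz_bool_le b
    have := sz_nat_le c
    have := Nat.size_le_size (show c ≤ n by omega)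
    simp only [scanCost, List.length_cons, add_mul]; omega

def gapEmit (L : ℕ) (p : ℕ × List Bool) : List Bool :=
  (List.replicate p.1 (List.replicate L false)).flatten ++ p.2

lemma gap_spec (gd : ℕ → Bool) (L : ℕ) (g : ℕ → List Bool) (M : ℕ) :
    (scan gapStep (fl M fun y => [gd y]) 0).1.length = Nat.count (fun z => gd z = true) M ∧
    ((scan gapStep (fl M fun y => [gd y]) 0).1.map (· + 1)).sum +
      (scan gapStep (fl M fun y => [gd y]) 0).2 = M ∧
    ((scan gapStep (fl M fun y => [gd y]) 0).1.zip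
        ((List.range (Nat.count (fun z => gd z = true) M)).map g)).flatMap (gapEmit L) ++
      (List.replicate (scan gapStep (fl M fun y => [gd y]) 0).2 (List.replicate L false)).flatten =
      fl M fun y => if gd y then g (Nat.count (fun z => gd z = true) y)
        else List.replicate L false := by
  induction M with
  | zero => simp [scan]
  | succ M ih =>
    obtain ⟨h1, h2, h3⟩ := ih
    rw [fl_succ, fl_succ, axis_scan_snoc, Nat.count_succ, ← h3]
    cases h : gd M
    · refine ⟨by simp [gapStep, h1], ?_, by simp [gapStep, List.replicate_succ']⟩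
      simp only [gapStep, cond_false, List.append_nil]; omega
    · simp only [gapStep, cond_true, if_true, List.range_succ, List.map_append]
      rw [List.zip_append (by simp [h1])]
      refine ⟨by simp [h1], ?_, by simp [gapEmit]⟩
      simp only [List.sum_append, List.map_cons, List.map_nil, List.sum_cons, List.sum_nil]; omega

lemma axis_small {γ : Type} [TEnc γ] {φ : ε → γ} (hφ : PTime φ) (hB : ∀ e, D e → B e ≤ N e) :
    ∃ k, C (fun x : ε × List Bool => D x.1 ∧ x.2.length = N x.1 ∧ (sz x.1 + 1) ^ k ≤ B x.1)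
      (fun x => T x.1) fun x => φ x.1 := by
  obtain ⟨k, hk⟩ := PTime.toC hφ
  refine ⟨k, hk.call (C.fst C.id) (fun _ _ => trivial) ⟨1, fun x hx => ?_⟩⟩
  obtain ⟨e, l⟩ := x
  have := hB e hx.1
  have := length_lt_sz l
  have h1 := hx.2.1
  have h2 := hx.2.2
  simp only [sz_prod] at *
  omega

lemma axis_up {γ : Type} [TEnc γ] {F : ε × List Bool → γ} {k k' : ℕ}
    (h : C (fun x : ε × List Bool => D x.1 ∧ x.2.length = N x.1 ∧ (sz x.1 + 1) ^ k ≤ B x.1)
      (fun x => T x.1) F) (hk : k ≤ k') :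
    C (fun x : ε × List Bool => D x.1 ∧ x.2.length = N x.1 ∧ (sz x.1 + 1) ^ k' ≤ B x.1)
      (fun x => T x.1) F :=
  h.weaken (fun _ hx => ⟨hx.1, hx.2.1, (Nat.pow_le_pow_right (by omega) hk).trans hx.2.2⟩)
    ⟨1, fun _ _ => by omega⟩

lemma axis_len_embed {gd : ℕ → Bool} {M L : ℕ} {l : List Bool}
    (h : l.length = Nat.count (fun z => gd z = true) M * L) : (embedF gd M L l).length = M * L := by
  refine length_fl fun y hy => ?_
  split_ifs with h1
  · exact length_blk' h (Nat.count_strict_mono h1 hy)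
  · simp

theorem Op.axisEmbed (hf : Op D N N' B T f) {gd : ε × ℕ → Bool} (hgd : PTime gd)
    {M L N'' : ε → ℕ} (hM : PTime M) (hL : PTime L)
    (H : ∀ e, D e → N' e = Nat.count (fun z => gd (e, z) = true) (M e) * L e ∧
      N'' e = M e * L e ∧ B e ≤ L e) (H0 : ∀ e, D e → 0 < M e)
    (hT : ∃ K, ∀ e, D e → N'' e ≤ K * (T e + N e)) :
    Op D N N'' B T fun e l => embedF (fun z => gd (e, z)) (M e) (L e) (f e l) := by
  refine ⟨hf.le, fun e l he hl => by
    rw [(H e he).2.1]; exact axis_len_embed ((hf.len e l he hl).trans (H e he).1), ?_⟩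
  obtain ⟨K, hK⟩ := hT
  have hz : Op D N (fun e => M e * L e) B T fun e _ => List.replicate (M e * L e) false :=
    Op.zeros (by fun_prop) hf.le ⟨K, fun e he => by rw [← (H e he).2.1]; exact hK e he⟩
  have h1 : Op (fun _ : ℕ × Bool => True) (fun e => e.1) (fun _ => 1) (fun e => e.1) (fun _ => 0)
      fun e _ => [e.2] := Op.ptime (by fun_prop) (fun _ _ => le_rfl) fun _ _ => rfl
  obtain ⟨k1, c1⟩ := (hz.blocksI h1 (ψ := fun p => (L p.1, gd p)) (by fun_prop) hM hL (N'' := M)
    (fun e he => ⟨rfl, by simp⟩) (fun e he i _ => ⟨trivial, rfl, (H e he).2.2⟩)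
    ⟨0, fun _ _ => by simp⟩).2.2
  obtain ⟨k2, c2⟩ := hf.2.2
  obtain ⟨k3, c3⟩ := axis_small (T := T) hL hf.le
  obtain ⟨k4, c4⟩ := PTime.sz_pow hM
  refine ⟨k1 + k2 + k3 + k4, ?_⟩
  replace c1 := axis_up c1 (show k1 ≤ k1 + k2 + k3 + k4 by omega)
  replace c2 := axis_up c2 (show k2 ≤ k1 + k2 + k3 + k4 by omega)
  replace c3 := axis_up c3 (show k3 ≤ k1 + k2 + k3 + k4 by omega)
  have key : ∀ x : ε × List Bool,
      (D x.1 ∧ x.2.length = N x.1 ∧ (sz x.1 + 1) ^ (k1 + k2 + k3 + k4) ≤ B x.1) →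
      (M x.1).size + 1 ≤ L x.1 ∧ M x.1 * L x.1 ≤ K * (T x.1 + sz x) := by
    rintro ⟨e, l⟩ ⟨a1, a2, a3⟩
    have b1 := c4 e
    have b2 := size_lt_sz (M e)
    have b3 : (sz e + 1) ^ k4 ≤ (sz e + 1) ^ (k1 + k2 + k3 + k4) :=
      Nat.pow_le_pow_right (by omega) (by omega)
    have b4 := (H e a1).2.2
    have b5 := length_lt_sz l
    dsimp only at *
    refine ⟨by omega, ?_⟩
    rw [← (H e a1).2.1]
    exact (hK e a1).trans (Nat.mul_le_mul_left _ (by rw [sz_prod]; omega))
  have hg : Lin gapStep := by unfold Lin gapStep; fun_prop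
  have c5 := C.scan hg c1 (.const 0) (fun _ _ => lst_scanDom_true _ _ _) ⟨4 * K, fun x hx => by
    obtain ⟨b1, b2⟩ := key x hx
    have b3 : (fl (M x.1) fun i => [gd (x.1, i)]).length = M x.1 := by
      rw [length_fl (L := 1) fun _ _ => rfl, mul_one]
    have := gap_cost (M x.1) (fl (M x.1) fun i => [gd (x.1, i)]) 0 (by omega)
    rw [b3] at this
    calc _ ≤ M x.1 * (4 * L x.1) := this.trans (Nat.mul_le_mul_left _ (by omega))
      _ = 4 * (M x.1 * L x.1) := by ring
      _ ≤ _ := by rw [mul_assoc]; omega⟩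
  have hLK : ∃ K, ∀ x : ε × List Bool,
      (D x.1 ∧ x.2.length = N x.1 ∧ (sz x.1 + 1) ^ (k1 + k2 + k3 + k4) ≤ B x.1) →
      L x.1 ≤ K * (T x.1 + sz x) :=
    ⟨K, fun x hx => (Nat.le_mul_of_pos_left _ (H0 _ hx.1)).trans (key x hx).2⟩
  have c6 := C.chunks c3 c2 (fun x hx => ⟨by have := (key x hx).1; omega, by
    rw [hf.len _ _ hx.1 hx.2.1, (H _ hx.1).1]; exact Dvd.intro_left _ rfl⟩) hLK
  have hr : C (fun _ : ℕ × ℕ => True) (fun p => (p.2 + 1) * (p.1 + 1))
      fun p => (List.replicate p.2 (List.replicate p.1 false)).flatten := by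
    refine (C.replicate (C.snd C.id) (C.replicate (C.fst C.id) (.const false) ⟨1, fun p _ => ?_⟩)
      ⟨4, fun p _ => ?_⟩).flatten
    · have : sz false = 1 := rfl
      rw [this]; nlinarith [Nat.zero_le (p.2 * p.1), Nat.zero_le (sz p)]
    · have := sz_bits_le (List.replicate p.1 false)
      rw [List.length_replicate] at this
      nlinarith [Nat.mul_le_mul_left p.2 this, Nat.zero_le (sz p)]
  have he : C (fun _ : ℕ × ℕ × List Bool => True) (fun p => (p.2.1 + 1) * (p.1 + 1))
      fun p => gapEmit p.1 p.2 :=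
    (hr.call (f := fun p : ℕ × ℕ × List Bool => (p.1, p.2.1)) (by fun_prop) (fun _ _ => trivial)
      ⟨1, fun _ _ => by simp⟩).append (by fun_prop)
  have c7 := C.flatMapE he c3 (c5.fst.zip c6) (fun _ _ _ _ => trivial) ⟨7 * K, fun x hx => by
    obtain ⟨b1, b2⟩ := key x hx
    have b3 := (gap_spec (fun z => gd (x.1, z)) 0 (fun _ => []) (M x.1)).2.1
    have b4 : ∀ (G : List ℕ) (R : List (List Bool)),
        ((G.zip R).map fun y => (y.1 + 1) * (L x.1 + 1) + sz (L x.1)).sum ≤
          (G.map (· + 1)).sum * (7 * L x.1) := fun G => by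
      induction G with
      | nil => simp
      | cons c G ih =>
        intro R
        cases R with
        | nil => simp
        | cons r R =>
          have := ih R
          have := sz_nat_le_self (L x.1)
          have : c * (L x.1 + 1) ≤ c * (7 * L x.1) := Nat.mul_le_mul_left _ (by omega)
          simp only [List.zip_cons_cons, List.map_cons, List.sum_cons]
          rw [add_mul, add_mul, add_mul]
          omega
    refine (b4 _ _).trans ?_
    calc _ ≤ M x.1 * (7 * L x.1) := Nat.mul_le_mul_right _ (by dsimp only; omega)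
      _ = 7 * (M x.1 * L x.1) := by ring
      _ ≤ _ := by rw [mul_assoc]; omega⟩
  have c8 := hr.call (c3.prodMk c5.snd) (fun _ _ => trivial) ⟨4 * K, fun x hx => by
    obtain ⟨b1, b2⟩ := key x hx
    have b3 := (gap_spec (fun z => gd (x.1, z)) 0 (fun _ => []) (M x.1)).2.1
    have b4 := H0 _ hx.1
    calc _ ≤ (2 * M x.1) * (2 * L x.1) := Nat.mul_le_mul (by dsimp only; omega) (by omega)
      _ = 4 * (M x.1 * L x.1) := by ring
      _ ≤ _ := by rw [mul_assoc]; omega⟩
  refine (c7.append c8).congr fun x hx => ?_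
  have b1 := (key x hx).1
  rw [chunks_eq (by omega) ((hf.len _ _ hx.1 hx.2.1).trans (H _ hx.1).1)]
  exact (gap_spec (fun z => gd (x.1, z)) (L x.1) _ (M x.1)).2.2

theorem Op.embed (hf : Op D N N' B T f) {gd : ε × ℕ → Bool} (hgd : PTime gd) {M L N'' : ε → ℕ}
    (hM : PTime M) (hL : PTime L)
    (H : ∀ e, D e → N' e = Nat.count (fun z => gd (e, z) = true) (M e) * L e ∧
      N'' e = M e * L e ∧ B e ≤ L e)
    (hT : ∃ K, ∀ e, D e → N'' e ≤ K * (T e + N e)) :
    Op D N N'' B T fun e l => embedF (fun z => gd (e, z)) (M e) (L e) (f e l) := by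
  obtain ⟨K, hK⟩ := hT
  refine (Op.ite (p := fun e => 0 < M e) (by fun_prop)
    (Op.axisEmbed (hf.mono (fun e he => ⟨he.1, rfl, rfl, le_rfl⟩) ⟨1, fun _ _ => by omega⟩) hgd hM
      hL (fun e he => H e he.1) (fun e he => he.2) ⟨K, fun e he => hK e he.1⟩)
    (Op.ptime (t := fun _ => []) (by fun_prop) (fun e he => hf.le e he.1) fun e he => by
      rw [(H e he.1).2.1, Nat.eq_zero_of_not_pos he.2]; simp)).congr fun e l _ _ => ?_
  split_ifs with h
  · rfl
  · rw [Nat.eq_zero_of_not_pos h]; rfl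

lemma axis_sum_count (gd : ℕ → Bool) (M L : ℕ) :
    ∑ i ∈ range M, (if gd i = true then L else 0) = Nat.count (fun z => gd z = true) M * L := by
  induction M with
  | zero => simp
  | succ M ih => rw [sum_range_succ, ih, Nat.count_succ]; split_ifs <;> ring

theorem Op.extract (hf : Op D N N' B T f) {gd : ε × ℕ → Bool} (hgd : PTime gd) {M L N'' : ε → ℕ}
    (hM : PTime M) (hL : PTime L)
    (H : ∀ e, D e → N'' e = Nat.count (fun z => gd (e, z) = true) (M e) * L e ∧
      N' e = M e * L e ∧ B e ≤ L e) :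
    Op D N N'' B T fun e l => extractF (fun z => gd (e, z)) (M e) (L e) (f e l) := by
  have h1 : Op (fun _ : ℕ × Bool => True) (fun e => e.1) (fun e => if e.2 = true then e.1 else 0)
      (fun e => e.1) (fun _ => 0) fun e l => l.take (if e.2 = true then e.1 else 0) :=
    (Op.id fun _ _ => le_rfl).take (by fun_prop) fun e _ => by split_ifs <;> omega
  refine (hf.blocksI h1 (ψ := fun p => (L p.1, gd p)) (by fun_prop) hM hL
    (fun e he => ⟨(H e he).2.1, by
      rw [(H e he).1]; exact axis_sum_count (fun z => gd (e, z)) (M e) (L e)⟩)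
    (fun e he i _ => ⟨trivial, rfl, (H e he).2.2⟩) ⟨0, fun _ _ => by simp⟩).congr
    fun e l he hl => fl_congr fun y _ => ?_
  dsimp only
  split_ifs
  · exact List.take_of_length_le (length_blk_le _ _ _)
  · rfl

theorem extractF_eq (gd : ℕ → Bool) (M L : ℕ) (l : List Bool) :
    extractF gd M L l = fl (Nat.count (fun z => gd z = true) M) fun j =>
      blk L (Nat.nth (fun z => gd z = true) j) l := by
  unfold extractF
  induction M with
  | zero => simp
  | succ M ih =>
    rw [fl_succ, ih, Nat.count_succ]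
    split_ifs with h
    · rw [fl_succ, Nat.nth_count h]
    · simp

end Vale.Agent.P338
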