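import Vale.Agent.P338.OpD

/-! Job J3: linear-time arithmetic on bit strings and residues. -/

namespace Vale.Agent.P338

open PT Finset

attribute [local irreducible] PTime PB C

variable {ε : Type} [TEnc ε] {D : ε → Prop} {N N' B T : ε → ℕ} {f g : ε → List Bool → List Bool}

/-- a full adder -/
def bitsStep (p : (Bool × Bool) × Bool) : List Bool × Bool :=
  ([xor (xor p.1.1 p.1.2) p.2], (p.1.1 && p.1.2) || (p.2 && xor p.1.1 p.1.2))

/-- addition with carry in and carry out -/
def bitsAdd (x y : List Bool) (c : Bool) : List Bool × Bool := scan bitsStep (x.zip y) c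

lemma bitsAdd_spec {x y : List Bool} (h : x.length = y.length) (c : Bool) :
    (bitsAdd x y c).1.length = x.length ∧ val (bitsAdd x y c).1 +
      2 ^ x.length * (bitsAdd x y c).2.toNat = val x + val y + c.toNat := by
  induction x generalizing y c with
  | nil => rcases y with _ | _ <;> simp_all [bitsAdd, scan]
  | cons a x ih =>
    rcases y with _ | ⟨b, y⟩
    · simp at h
    obtain ⟨h1, h2⟩ := ih (y := y) (by simpa using h) (bitsStep ((a, b), c)).2
    simp only [bitsAdd, List.zip_cons_cons, scan] at *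
    refine ⟨by simp [bitsStep] at h1 ⊢; exact h1, ?_⟩
    generalize scan bitsStep _ _ = s at *
    rw [List.length_cons, pow_succ', mul_assoc]
    generalize 2 ^ x.length * _ = t at *
    cases a <;> cases b <;> cases c <;> simp [bitsStep] at h2 ⊢ <;> omega

@[fun_prop] lemma C.bitsAdd {x y : ε → List Bool} {c : ε → Bool} (hx : C D T x) (hy : C D T y)
    (hc : C D T c) : C D T fun e => bitsAdd (x e) (y e) (c e) := by
  refine C.scan (D' := fun _ => True) (T' := fun _ => 0) (by unfold bitsStep; fun_prop) (hx.zip hy) hc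
    (fun e _ => ?_) (opBo.mono (hx.zip hy).sz_le 4 fun e _ => ?_)
  · generalize c e = s
    induction (x e).zip (y e) generalizing s <;> simp [scanDom, *]
  · generalize c e = s
    induction (x e).zip (y e) generalizing s with
    | nil => simp [scanCost]
    | cons p l ih =>
      have := sz_bool_le s
      have := ih (bitsStep (p, s)).2
      simp only [scanCost, sz_cons]; omega

/-- addition with carry out -/
theorem C.addB : C (fun p : List Bool × List Bool => p.1.length = p.2.length) (fun _ => 0)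
    fun p => tob (p.1.length + 1) (val p.1 + val p.2) := by
  refine C.congr (f := fun p => (P338.bitsAdd p.1 p.2 false).1 ++ [(P338.bitsAdd p.1 p.2 false).2])
    (by fun_prop) fun p h => ?_
  obtain ⟨h1, h2⟩ := bitsAdd_spec h false
  refine eq_tob (by simp [h1]) ?_
  have := val_lt p.1
  have := val_lt p.2
  rw [val_append, h1, Nat.mod_eq_of_lt (by rw [← h] at this; omega)]
  simpa using h2

/-- addition of two long numbers, without carry out -/
theorem Op.addN (hf : Op D N N' B T f) (hg : Op D N N' B T g) :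
    Op D N N' B T fun e l => tob (N' e) (val (f e l) + val (g e l)) := by
  refine ⟨hf.1, by simp, Filter.Eventually.exists (f := .atTop) ?_⟩
  filter_upwards [hf.ev, hg.ev] with k a b
  refine (a.bitsAdd b (.const false)).fst.congr fun x hx => ?_
  have c := hf.len _ _ hx.1 hx.2.1
  obtain ⟨h1, h2⟩ := bitsAdd_spec (c.trans (hg.len _ _ hx.1 hx.2.1).symm) false
  refine eq_tob (h1.trans c) ?_
  rw [Bool.toNat_false, add_zero] at h2
  rw [← h2, ← c, Nat.add_mul_mod_self_left, Nat.mod_eq_of_lt (h1 ▸ val_lt _)]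

/-- a bit string as a residue -/
abbrev bitsV (P : ℕ) (x : List Bool) : ZMod (2 ^ P - 1) := (val x : ℕ)

lemma bits_pow (P : ℕ) : (2 : ZMod (2 ^ P - 1)) ^ P = 1 := by
  have h : ((2 ^ P - 1 : ℕ) : ZMod (2 ^ P - 1)) = 0 := ZMod.natCast_self _
  rw [Nat.cast_sub Nat.one_le_two_pow] at h
  push_cast at h
  exact sub_eq_zero.1 h

/-- addition with end-around carry -/
def radd (x y : List Bool) : List Bool := (bitsAdd x y (bitsAdd x y false).2).1

@[fun_prop] lemma C.radd {x y : ε → List Bool} (hx : C D T x) (hy : C D T y) :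
    C D T fun e => radd (x e) (y e) := by unfold P338.radd; fun_prop

lemma radd_spec {P : ℕ} {x y : List Bool} (hx : x.length = P) (hy : y.length = P) :
    (radd x y).length = P ∧ bitsV P (radd x y) = bitsV P x + bitsV P y := by
  obtain ⟨-, h1⟩ := bitsAdd_spec (hx.trans hy.symm) false
  obtain ⟨h2, h3⟩ := bitsAdd_spec (hx.trans hy.symm) (bitsAdd x y false).2
  refine ⟨h2.trans hx, ?_⟩
  have h4 : (bitsAdd x y (bitsAdd x y false).2).2 = (bitsAdd x y false).2 := by
    have := val_lt (bitsAdd x y (bitsAdd x y false).2).1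
    rw [h2] at this
    cases h : (bitsAdd x y false).2
    · exact h
    · rw [h] at h1 h3 this
      cases h' : (bitsAdd x y true).2
      · simp [h'] at h1 h3; omega
      · rfl
  rw [h4, hx] at h3
  have := congrArg (Nat.cast : ℕ → ZMod (2 ^ P - 1)) h3
  push_cast at this
  rw [bits_pow, one_mul] at this
  exact add_right_cancel this

lemma rneg_spec {P : ℕ} {x : List Bool} (hx : x.length = P) : bitsV P (x.map not) = - bitsV P x := by
  have : ∀ x : List Bool, val (x.map not) + val x + 1 = 2 ^ x.length := fun x => by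
    induction x with
    | nil => rfl
    | cons b x ih => cases b <;> simp [pow_succ] <;> omega
  have := congrArg (Nat.cast : ℕ → ZMod (2 ^ P - 1)) (this x)
  push_cast at this
  rw [hx, bits_pow] at this
  linear_combination this

/-- division by two -/
def rhalf (x : List Bool) : List Bool := x.tail ++ [x.headD false]

lemma rhalf_spec {P : ℕ} {x : List Bool} (hP : 0 < P) (hx : x.length = P) :
    (rhalf x).length = P ∧ bitsV P (rhalf x) = half P * bitsV P x := by
  rcases x with _ | ⟨b, x⟩
  · simp at hx; omega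
  refine ⟨by simpa [rhalf] using hx, ?_⟩
  have h : half P = 2 ^ x.length := by rw [half, ← hx]; rfl
  simp only [rhalf, bitsV, val_append, val_cons, List.tail_cons, List.headD_cons, val_nil]
  push_cast
  linear_combination (-(val x : ZMod (2 ^ P - 1))) * two_mul_half hP - (b.toNat : ZMod (2 ^ P - 1)) * h

/-- a blockwise binary operation -/
theorem Op.zipC {F : List Bool × List Bool → List Bool} {D' T'} (hF : C D' T' F)
    (hf : Op D N N' B T f) (hg : Op D N N' B T g) {n P U : ε → ℕ} (hP : PTime P)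
    (H : ∀ e, D e → N' e = n e * P e ∧ 0 < P e)
    (hD : ∀ e x y, D e → x.length = P e → y.length = P e →
      D' (x, y) ∧ (F (x, y)).length = P e ∧ T' (x, y) ≤ U e)
    (hT : ∃ K, ∀ e, D e → n e * U e ≤ K * (T e + N e)) :
    Op D N N' B T fun e l => fl (n e) fun i => F (blk (P e) i (f e l), blk (P e) i (g e l)) := by
  have h0 := fun e l a b i (hi : i < n e) => hD e _ _ a
    (length_blk' ((hf.len e l a b).trans (H e a).1) hi) (length_blk' ((hg.len e l a b).trans (H e a).1) hi)
  refine ⟨hf.1, fun e l a b => (length_fl fun i hi => (h0 e l a b i hi).2.1).trans (H e a).1.symm,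
    Filter.Eventually.exists (f := .atTop) ?_⟩
  filter_upwards [hf.ev, hg.ev, opPt (T := T) hP hf.1] with k a b c
  have b0 := fun x (hx : opDm D N B k x) => (hf.len _ _ hx.1 hx.2.1).trans (H _ hx.1).1
  have b1 := fun x (hx : opDm D N B k x) => (hg.len _ _ hx.1 hx.2.1).trans (H _ hx.1).1
  have b2 : ∀ x, opDm D N B k x → (chunks (P x.1) (f x.1 x.2)).zip (chunks (P x.1) (g x.1 x.2)) =
      (List.range (n x.1)).map fun i => (blk (P x.1) i (f x.1 x.2), blk (P x.1) i (g x.1 x.2)) :=
    fun x hx => by rw [chunks_eq (H _ hx.1).2 (b0 x hx), chunks_eq (H _ hx.1).2 (b1 x hx), List.zip_map']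
  refine (C.mapT hF ((c.chunks' a fun x hx => ⟨(H _ hx.1).2, b0 x hx ▸ dvd_mul_left _ _⟩).zip
    (c.chunks' b fun x hx => ⟨(H _ hx.1).2, b1 x hx ▸ dvd_mul_left _ _⟩)) (fun x hx y hy => ?_)
    ((opBo.of hT).mono 1 fun x hx => ?_)).flatten.congr fun x hx => ?_
  · obtain ⟨i, hi, rfl⟩ := List.mem_map.1 (b2 x hx ▸ hy)
    exact (h0 _ _ hx.1 hx.2.1 i (List.mem_range.1 hi)).1
  · rw [b2 x hx]
    refine (List.sum_le_card_nsmul _ (U x.1) fun y hy => ?_).trans (by simp)
    obtain ⟨_, hz, rfl⟩ := List.mem_map.1 hy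
    obtain ⟨i, hi, rfl⟩ := List.mem_map.1 hz
    exact (h0 _ _ hx.1 hx.2.1 i (List.mem_range.1 hi)).2.2
  · rw [b2 x hx, List.map_map, flatten_map_range]; rfl

lemma rv_fl {P n j : ℕ} {G : ℕ → List Bool} (H : ∀ i < n, (G i).length = P) (hj : j < n) :
    rv P (fl n G) j = bitsV P (G j) := by rw [rv, blk_fl H hj]

/-- the parameters `(n, P, c)`: the first half plus `c / 2` times the second half -/
theorem axR : ∃ ax : ℕ × ℕ × ℤ → List Bool → List Bool,
    Op (fun e => 0 < e.2.1) (fun e => 2 * (e.1 * e.2.1)) (fun e => e.1 * e.2.1)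
      (fun e => e.1 * e.2.1) (fun e => (e.2.2.natAbs + 1) * (e.1 * e.2.1)) ax ∧
    ∀ n P c l m, 0 < P → l.length = n * P → m.length = n * P → ∀ j < n,
      rv P (ax (n, P, c) (l ++ m)) j = rv P l j + (c : ZMod _) * half P * rv P m j := by
  let M : ℕ × ℕ × ℤ → ℕ := fun e => e.1 * e.2.1
  have hM : PTime M := by fun_prop
  have h0 : ∀ {T}, Op (fun e => 0 < e.2.1) (fun e => 2 * M e) (fun e => 2 * M e) M T fun _ l => l :=
    .id fun _ _ => by omega
  have h1 := fun T => (h0 (T := T)).take hM fun _ _ => by omega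
  have h2 := fun T => (h0 (T := T)).drop (N'' := M) hM fun _ _ => by omega
  have h3 : ∀ {T F}, Lin F → (∀ x y, 0 < x.length → x.length = y.length → (F (x, y)).length = x.length) →
      ∀ {f g}, Op (fun e => 0 < e.2.1) (fun e => 2 * M e) M M T f →
      Op (fun e => 0 < e.2.1) (fun e => 2 * M e) M M T g → Op (fun e => 0 < e.2.1) (fun e => 2 * M e) M M T
        fun e l => fl e.1 fun i => F (blk e.2.1 i (f e l), blk e.2.1 i (g e l)) :=
    fun hF hF' _ _ hf hg => Op.zipC hF hf hg (U := fun _ => 0) (by fun_prop) (fun _ h => ⟨rfl, h⟩)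
      (fun _ x y a b c => ⟨trivial, b ▸ hF' x y (b ▸ a) (b.trans c.symm), le_rfl⟩) ⟨0, by simp⟩
  have h4 := (h3 (T := fun _ => 0) (F := fun p => radd p.1 p.2) (by unfold Lin; fun_prop)
    (fun x y _ h => (radd_spec rfl h.symm).1) (h1 _) (h2 _)).append (h2 _)
  have h5 := fun T => h3 (T := T) (F := fun p => rhalf p.1) (by unfold Lin rhalf; fun_prop)
    (fun x y h _ => (rhalf_spec h rfl).1) (h2 _) (h2 _)
  have h6 := fun T => h3 (T := T) (F := fun p => p.1.map not) (by unfold Lin; fun_prop)
    (fun x y _ _ => by simp) (h5 _) (h5 _)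
  have h7 := (h1 fun e => (e.2.2.natAbs + 1) * M e).append (Op.ite (p := fun e => e.2.2 < 0) (by fun_prop)
    ((h6 fun _ => 0).mono (fun _ h => ⟨h.1, rfl, rfl, le_rfl⟩) ⟨0, by simp⟩)
    ((h5 fun _ => 0).mono (fun _ h => ⟨h.1, rfl, rfl, le_rfl⟩) ⟨0, by simp⟩))
  refine ⟨_, (h7.foldl h4 (ψ := Prod.fst) (by fun_prop) (n := fun e => e.2.2.natAbs) (by fun_prop)
    (fun e h _ _ => ⟨h, two_mul _, rfl, le_rfl⟩) ⟨2, fun e _ _ _ => by nlinarith⟩).take hM
    fun _ _ => Nat.le_add_right _ _, fun n P c l m hP hl hm j hj => ?_⟩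
  have key : ∀ b : List Bool, b.length = n * P → ∀ k : ℕ, ∃ a : List Bool, a.length = n * P ∧
      (List.range k).foldl (fun l _ => (fl n fun i => radd (blk P i (l.take (n * P)))
        (blk P i (l.drop (n * P)))) ++ l.drop (n * P)) (l ++ b) = a ++ b ∧
      ∀ j < n, rv P a j = rv P l j + k * rv P b j := fun b hb k => by
    induction k with
    | zero => exact ⟨l, hl, rfl, by simp⟩
    | succ k ih =>
      obtain ⟨a, a1, a2, a3⟩ := ih
      have := fun i (hi : i < n) => radd_spec (length_blk' a1 hi) (length_blk' hb hi)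
      refine ⟨_, length_fl fun i hi => (this i hi).1, by
        rw [List.range_succ, List.foldl_append, a2]; simp [← a1], fun j hj => ?_⟩
      rw [rv_fl (fun i hi => (this i hi).1) hj, (this j hj).2]
      push_cast
      linear_combination (norm := (simp only [rv, bitsV]; ring)) a3 j hj
  have e1 := fun i (hi : i < n) => rhalf_spec hP (length_blk' hm hi)
  have e2 := length_fl fun i hi => (e1 i hi).1
  simp only [M, List.take_left' hl, List.drop_left' hl]
  split_ifs with h
  · have e3 : ∀ i < n, ((blk P i (fl n fun i => rhalf (blk P i m))).map not).length = P := fun i hi => by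
      rw [List.length_map, length_blk' e2 hi]
    obtain ⟨a, a1, a2, a3⟩ := key _ (length_fl e3) c.natAbs
    rw [a2, List.take_left' a1, a3 j hj, rv_fl e3 hj, rneg_spec (length_blk' e2 hj),
      blk_fl (fun i hi => (e1 i hi).1) hj, (e1 j hj).2, ← Int.cast_natCast, Int.natCast_natAbs, abs_of_neg h]
    push_cast; simp only [rv, bitsV]; ring
  · obtain ⟨a, a1, a2, a3⟩ := key _ e2 c.natAbs
    rw [a2, List.take_left' a1, a3 j hj, rv_fl (fun i hi => (e1 i hi).1) hj, (e1 j hj).2,
      ← Int.cast_natCast, Int.natCast_natAbs, abs_of_nonneg (not_lt.1 h), mul_assoc]; rfl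

/-- multiplication of residues -/
def rmul (x y : List Bool) : List Bool :=
  radd ((mulB x y).take x.length) ((mulB x y).drop x.length)

lemma rmul_spec {P : ℕ} {x y : List Bool} (hx : x.length = P) (hy : y.length = P) :
    (rmul x y).length = P ∧ bitsV P (rmul x y) = bitsV P x * bitsV P y := by
  have h1 : ((mulB x y).take x.length).length = P := by simp [mulB, hx]
  obtain ⟨h2, h3⟩ := radd_spec h1 (y := (mulB x y).drop x.length) (by simp [mulB, hy])
  refine ⟨h2, h3.trans ?_⟩
  have := val_append ((mulB x y).take x.length) ((mulB x y).drop x.length)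
  rw [List.take_append_drop, h1] at this
  have h4 : val (mulB x y) = val x * val y := by
    rw [mulB, val_tob, Nat.mod_eq_of_lt (pow_add 2 _ _ ▸ Nat.mul_lt_mul'' (val_lt x) (val_lt y))]
  have := congrArg (Nat.cast : ℕ → ZMod (2 ^ P - 1)) (h4.symm.trans this)
  push_cast at this
  rw [bits_pow, one_mul] at this
  exact this.symm

lemma C.div2 {n : ε → ℕ} (hn : C D T n) : C D T fun e => n e / 2 :=
  (hn.of_enc (g := fun e => (n e).bits) fun _ _ => rfl).tail.of_enc fun e _ => by
    rw [← Nat.div2_bits_eq_tail, Nat.div2_val]; rfl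

/-- multiplication of Gaussian residues, from a multiplier for integers -/
theorem mulG : ∃ mg : List Bool × List Bool → List Bool,
    (∀ g, HasMul g → C (fun p => ∃ P, 0 < P ∧ p.1.length = 2 * P ∧ p.2.length = 2 * P)
      (fun p => p.1.length * g (p.1.length / 2)) mg) ∧
    ∀ P x y, 0 < P → x.length = 2 * P → y.length = 2 * P → (mg (x, y)).length = 2 * P ∧
      rv P (mg (x, y)) 0 = rv P x 0 * rv P y 0 - rv P x 1 * rv P y 1 ∧
      rv P (mg (x, y)) 1 = rv P x 0 * rv P y 1 + rv P x 1 * rv P y 0 := by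
  let a : List Bool → List Bool := fun x => x.take (x.length / 2)
  let b : List Bool → List Bool := fun x => x.drop (x.length / 2)
  have ha : ∀ {P} x, x.length = 2 * P → (a x).length = P ∧ (b x).length = P := fun x h => by
    simp [a, b, h]; omega
  refine ⟨fun p => radd (rmul (a p.1) (a p.2)) ((rmul (b p.1) (b p.2)).map not) ++
    radd (rmul (a p.1) (b p.2)) (rmul (b p.1) (a p.2)), fun g hg => ?_, fun P x y hP hx hy => ?_⟩
  · have h0 : ∃ K, ∀ x : List Bool, True → x.length / 2 ≤ K * (0 + sz x) :=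
      ⟨1, fun x _ => by have := length_lt_sz x; omega⟩
    have h1 : Lin a := C.take (C.length .id).div2 .id h0
    have h2 : Lin b := C.drop (C.length .id).div2 .id h0
    have h3 : ∀ {u v : List Bool → List Bool}, Lin u → Lin v →
        (∀ {P} x, x.length = 2 * P → (u x).length = P) → (∀ {P} x, x.length = 2 * P → (v x).length = P) →
        C (fun p : List Bool × List Bool => ∃ P, 0 < P ∧ p.1.length = 2 * P ∧ p.2.length = 2 * P)
          (fun p => p.1.length * g (p.1.length / 2)) fun p => rmul (u p.1) (v p.2) := fun hu hv u1 v1 => by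
      have h4 := hu.comp (C.fst (D := fun p : List Bool × List Bool => ∃ P, 0 < P ∧ p.1.length = 2 * P ∧
        p.2.length = 2 * P) (T := fun p => p.1.length * g (p.1.length / 2)) .id)
      have h5 := C.call hg (h4.prodMk (hv.comp (.snd .id))) (fun p ⟨P, _, a, b⟩ => (u1 _ a).trans (v1 _ b).symm)
        ⟨1, fun p ⟨P, _, a, b⟩ => by simp only [u1 _ a, a, Nat.mul_div_cancel_left P two_pos]; nlinarith⟩
      exact (h5.take_len h4).radd (h5.drop_len h4)
    exact ((h3 h1 h1 (ha · · |>.1) (ha · · |>.1)).radd (.map (by fun_prop)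
      (h3 h2 h2 (ha · · |>.2) (ha · · |>.2)))).append
      ((h3 h1 h2 (ha · · |>.1) (ha · · |>.2)).radd (h3 h2 h1 (ha · · |>.2) (ha · · |>.1)))
  · have h0 : ∀ x : List Bool, x.length = 2 * P → rv P x 0 = bitsV P (a x) ∧ rv P x 1 = bitsV P (b x) :=
      fun x h => by simp [rv, blk, a, b, h, List.take_of_length_le (show (x.drop P).length ≤ P by simp; omega)]
    obtain ⟨a1, a2⟩ := rmul_spec (ha x hx).1 (ha y hy).1
    obtain ⟨b1, b2⟩ := rmul_spec (ha x hx).2 (ha y hy).2
    obtain ⟨c1, c2⟩ := rmul_spec (ha x hx).1 (ha y hy).2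
    obtain ⟨d1, d2⟩ := rmul_spec (ha x hx).2 (ha y hy).1
    obtain ⟨e1, e2⟩ := radd_spec a1 ((List.length_map not).trans b1)
    obtain ⟨f1, f2⟩ := radd_spec c1 d1
    refine ⟨by simp [e1, f1, two_mul], ?_, ?_⟩
    · rw [rv, blk_append_left _ (by simp [e1]), blk_zero_self e1, (h0 x hx).1, (h0 x hx).2, (h0 y hy).1,
        (h0 y hy).2, ← a2, ← b2, sub_eq_add_neg, ← rneg_spec b1, ← e2]
    · rw [rv, blk_append_right (n := 1) 0 _ (by simp [e1]), blk_zero_self f1, (h0 x hx).1,
        (h0 x hx).2, (h0 y hy).1, (h0 y hy).2, ← c2, ← d2, ← f2]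

/-- a residue strictly between `0` and `2 ^ P - 1` determines its bits -/
theorem val_eq_of_rv {P j : ℕ} {l : List Bool} {v : ℤ} (hl : (j + 1) * P ≤ l.length)
    (h : rv P l j = (v : ZMod _)) (h0 : 0 < v) (h1 : v < 2 ^ P - 1) :
    (val (blk P j l) : ℤ) = v := by
  have h2 := val_lt (blk P j l)
  rw [length_blk hl] at h2
  rw [rv, ← Int.cast_natCast, ZMod.intCast_eq_intCast_iff_dvd_sub, Nat.cast_sub Nat.one_le_two_pow] at h
  zify at h2
  push_cast at h
  have := Int.eq_zero_of_abs_lt_dvd h (abs_lt.2 ⟨by omega, by omega⟩)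
  omega

theorem rv_zero {P j n : ℕ} : rv P (List.replicate n false) j = 0 := by
  have : ∀ n, val (List.replicate n false) = 0 := fun n => by induction n <;> simp_all [List.replicate_succ]
  simp [rv, blk, this]

end Vale.Agent.P338
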