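import Vale.Agent.P338.CircA

/-! Job J10b: an invertible circulant on a window of the row `true`, by radix-two butterflies. -/

namespace Vale.Agent.P338

open PT Finset

namespace CA

/-! the words -/

/-- the bit-reversed angle of the block `k` after `l` levels -/
def al (l k : ℕ) : ℚ := ∑ i ∈ range l, ((k / 2 ^ i % 2 : ℕ) : ℚ) / 2 ^ (i + 1)

/-- a table on the window of the row `true` -/
def wtab (p n o : ℕ) (f : ℕ → Ent) : List HI :=
  tab p (fun _ => Ent.one) fun x => if pos p o x < n then f (pos p o x) else Ent.one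

/-- butterflies `(u, v) ↦ (u + v, u - v)` at distance `h` -/
def bf (p n o h : ℕ) : List HI :=
  ins p h (fun x => decide (pos p o x < n ∧ pos p o x / h % 2 = 0)) ++
    wtab p n o (fun j => if j / h % 2 = 0 then Ent.one else ce (-2) 0) ++
    ins p (p - h) fun x => decide (pos p o x < n ∧ ¬ pos p o x / h % 2 = 0)

def tw (s l j : ℕ) : ℚ :=
  if j / 2 ^ (s - 1 - l) % 2 = 0 then 0 else al (min l s) (j / 2 ^ (s - 1 - l) / 2) / 2

def fw (p s o l : ℕ) : List HI :=
  wtab p (2 ^ s) o (fun j => ce 1 (tw s l j)) ++ bf p (2 ^ s) o (2 ^ (s - 1 - l))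

def bw (p s o l : ℕ) : List HI :=
  bf p (2 ^ s) o (2 ^ (s - 1 - l)) ++ wtab p (2 ^ s) o fun j => ce (1 / 2) (-tw s l j)

def muE (s : ℕ) (θ : List ℚ) (b : Bool) (k : ℕ) : Ent :=
  (1, 0, (List.range θ.length).map fun d => θ.getD d 0 + d * al s k, 2 ^ (s + 1), some (!b))

/-- the circulant and its inverse -/
def cpw (p s o : ℕ) (θ : List ℚ) (b : Bool) : List HI :=
  (List.range s).flatMap (fw p s o) ++ wtab p (2 ^ s) o (muE s θ b) ++
    (List.range s).reverse.flatMap (bw p s o)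

section PT
variable {α : Type} [TEnc α]

lemma ptime_par {h j : α → ℕ} (hh : PTime h) (hj : PTime j) :
    PTime fun a => decide (j a / h a % 2 = 0) :=
  ((hj.div hh).mod (.const 2)).decide_eq (.const 0)

lemma ptime_two_pow {s : α → ℕ} (hs : PTime s) (hB : PB s) : PTime fun a => 2 ^ s a :=
  (PTime.const 2).pow hs hB

lemma ptime_al {l k : α → ℕ} (hl : PTime l) (hB : PB l) (hk : PTime k) :
    PTime fun a => al (l a) (k a) := by
  have h1 : PTime fun q : α × ℕ => min q.2 (l q.1) := PTime.snd_id.min (hl.comp PTime.fst_id)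
  have h2 : PB fun q : α × ℕ => min q.2 (l q.1) := pb_min (hB.comp PTime.fst_id)
  refine PTime.of_eq (f := fun a => ∑ i ∈ range (l a),
    ((k a / 2 ^ min i (l a) % 2 : ℕ) : ℚ) / 2 ^ (min i (l a) + 1))
    (PTime.rat_sum_range hl hB ((((hk.comp PTime.fst_id).div (ptime_two_pow h1 h2)).mod
      (.const 2)).natCast_rat.rat_div ((PTime.const 2).rat_pow (h1.add (.const 1))
        (h2.add (.const 1))))) fun a => ?_
  exact sum_congr rfl fun i hi => by rw [min_eq_left (mem_range.1 hi).le]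

lemma ptime_wtab {p n o : α → ℕ} {f : α → ℕ → Ent} (hp : PTime p) (hB : PB p)
    (hn : PTime n) (ho : PTime o) (hf : PTime fun q : α × ℕ => f q.1 q.2) :
    PTime fun a => wtab (p a) (n a) (o a) (f a) := by
  have h0 : PTime fun q : α × ℕ => pos (p q.1) (o q.1) q.2 :=
    ptime_pos (hp.comp PTime.fst_id) (ho.comp PTime.fst_id) PTime.snd_id
  have h1 : PTime fun q : α × ℕ => f q.1 (pos (p q.1) (o q.1) q.2) := by
    simpa only using hf.comp (PTime.fst_id.prodMk h0)
  exact ptime_tab (fa := fun _ _ => Ent.one)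
    (fb := fun a x => if pos (p a) (o a) x < n a then f a (pos (p a) (o a) x) else Ent.one)
    hp hB (.const _) (PTime.ite (h0.decide_lt (hn.comp PTime.fst_id)) h1 (.const _))

lemma ptime_bf {p n o h : α → ℕ} (hp : PTime p) (hB : PB p)
    (hn : PTime n) (ho : PTime o) (hh : PTime h) : PTime fun a => bf (p a) (n a) (o a) (h a) := by
  have h0 : PTime fun q : α × ℕ => pos (p q.1) (o q.1) q.2 :=
    ptime_pos (hp.comp PTime.fst_id) (ho.comp PTime.fst_id) PTime.snd_id
  have h1 := h0.decide_lt (hn.comp PTime.fst_id) (inst := inferInstance)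
  have h2 := ptime_par (hh.comp PTime.fst_id) h0
  exact ((ptime_ins (m := fun a x => decide (pos (p a) (o a) x < n a ∧
      pos (p a) (o a) x / h a % 2 = 0)) hp hB hh (h1.decide_and h2)).append
    (ptime_wtab (f := fun a j => if j / h a % 2 = 0 then Ent.one else ce (-2) 0) hp hB hn ho
      (PTime.ite (ptime_par (hh.comp PTime.fst_id) PTime.snd_id) (.const _) (.const _)))).append
    (ptime_ins (m := fun a x => decide (pos (p a) (o a) x < n a ∧
      ¬ pos (p a) (o a) x / h a % 2 = 0)) hp hB (hp.sub hh) (h1.decide_and h2.decide_not))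

lemma ptime_tw {s l j : α → ℕ} (hs : PTime s) (hB : PB s) (hl : PTime l)
    (hj : PTime j) : PTime fun a => tw (s a) (l a) (j a) := by
  have h1 := ptime_two_pow ((hs.sub (.const 1)).sub hl) ((hB.sub fun _ => 1).sub l)
  exact PTime.ite (ptime_par h1 hj) (.const _)
    ((ptime_al (hl.min hs) (pb_min hB) ((hj.div h1).div (.const 2))).rat_div (.const 2))

lemma ptime_cpw {p s o : α → ℕ} {θ : α → List ℚ} {b : α → Bool} (hp : PTime p)
    (hB : PB p) (hs : PTime s) (hB' : PB s) (ho : PTime o) (hθ : PTime θ) (hb : PTime b) :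
    PTime fun a => cpw (p a) (s a) (o a) (θ a) (b a) := by
  have p1 : PTime fun q : α × ℕ => p q.1 := hp.comp PTime.fst_id
  have s1 : PTime fun q : α × ℕ => s q.1 := hs.comp PTime.fst_id
  have o1 : PTime fun q : α × ℕ => o q.1 := ho.comp PTime.fst_id
  have t1 : PTime fun q : α × ℕ => θ q.1 := hθ.comp PTime.fst_id
  have b1 : PB fun q : α × ℕ => p q.1 := hB.comp PTime.fst_id
  have b2 : PB fun q : α × ℕ => s q.1 := hB'.comp PTime.fst_id
  have h0 : PTime fun q : α × ℕ => bf (p q.1) (2 ^ s q.1) (o q.1) (2 ^ (s q.1 - 1 - q.2)) :=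
    ptime_bf p1 b1 (ptime_two_pow s1 b2) o1
      (ptime_two_pow ((s1.sub (.const 1)).sub PTime.snd_id) ((b2.sub fun _ => 1).sub Prod.snd))
  have ht : PTime fun q : (α × ℕ) × ℕ => tw (s q.1.1) q.1.2 q.2 :=
    ptime_tw (hs.comp PTime.fst_id.fst) (hB'.comp PTime.fst_id.fst) PTime.fst_id.snd PTime.snd_id
  have h1 : PTime fun q : α × ℕ => fw (p q.1) (s q.1) (o q.1) q.2 :=
    (ptime_wtab (f := fun (q : α × ℕ) j => ce 1 (tw (s q.1) q.2 j)) p1 b1 (ptime_two_pow s1 b2) o1
      (ptime_ce (.const _) ht)).append h0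
  have h2 : PTime fun q : α × ℕ => bw (p q.1) (s q.1) (o q.1) q.2 :=
    h0.append (ptime_wtab (f := fun (q : α × ℕ) j => ce (1 / 2) (-tw (s q.1) q.2 j)) p1 b1
      (ptime_two_pow s1 b2) o1 (ptime_ce (.const _) ht.rat_neg))
  have h4 : PTime fun q : α × ℕ => (List.range (θ q.1).length).map
      fun d => (θ q.1).getD d 0 + d * al (s q.1) q.2 :=
    PTime.map (t1.length.range (PB.length t1))
      (((hθ.comp PTime.fst_id.fst).list_getD PTime.snd_id (.const 0)).rat_add
        (PTime.snd_id.natCast_rat.rat_mul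
          (ptime_al (hs.comp PTime.fst_id.fst) (hB'.comp PTime.fst_id.fst) PTime.fst_id.snd)))
  have h3 : PTime fun q : α × ℕ => muE (s q.1) (θ q.1) (b q.1) q.2 :=
    (PTime.const _).prodMk ((PTime.const _).prodMk (h4.prodMk
      ((ptime_two_pow (s1.add (.const 1)) (b2.add (.const 1))).prodMk
        (hb.comp PTime.fst_id).not.some)))
  have a1 : PTime fun a => (List.range (s a)).flatMap (fw (p a) (s a) (o a)) :=
    PTime.flatMap (f := fun a => fw (p a) (s a) (o a)) (hs.range hB') h1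
  have a2 : PTime fun a => (List.range (s a)).reverse.flatMap (bw (p a) (s a) (o a)) :=
    PTime.flatMap (f := fun a => bw (p a) (s a) (o a)) (hs.range hB').reverse h2
  have a3 : PTime fun a => wtab (p a) (2 ^ s a) (o a) (muE (s a) (θ a) (b a)) :=
    ptime_wtab (f := fun a => muE (s a) (θ a) (b a)) hp hB (ptime_two_pow hs hB') ho h3
  exact (a1.append a3).append a2

end PT

/-! admissibility and length -/

lemma gd_wtab {p n o : ℕ} {f : ℕ → Ent} (hp : 1 ≤ p) (hf : ∀ j, GE p (f j)) :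
    Gd p (wtab p n o f) :=
  gd_tab (fun _ => ge_one hp) fun x => by
    split_ifs
    · exact hf _
    · exact ge_one hp

lemma gd_bf {p : ℕ} (hp : 1 ≤ p) (n o h : ℕ) : Gd p (bf p n o h) := by
  have h1 : (1 : ℚ) ≤ p := by exact_mod_cast hp
  refine ((gd_ins hp _ _).append (gd_wtab hp fun j => ?_)).append (gd_ins hp _ _)
  split_ifs
  · exact ge_one hp
  · exact ge_ce 0 (by rw [abs_neg, abs_two]; linarith)

lemma mu_eq {s : ℕ} {θ : List ℚ} (hθ : θ.length = 2 ^ s) (b : Bool) (k : ℕ) :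
    (muE s θ b k).mu = 2 ^ (s + 1) + ∑ d ∈ range (2 ^ s), ee (θ.getD d 0) * ee (al s k) ^ d := by
  simp only [muE, Ent.mu, List.map_map, hθ, sum_range_eq, Function.comp_apply, ee_add, ee_nat_mul]
  push_cast
  rfl

lemma mu_norm {s : ℕ} {θ : List ℚ} (hθ : θ.length = 2 ^ s) (b : Bool) (k : ℕ) :
    2 ^ s ≤ ‖(muE s θ b k).mu‖ ∧ ‖(muE s θ b k).mu‖ ≤ 3 * 2 ^ s := by
  have h1 : ‖∑ d ∈ range (2 ^ s), ee (θ.getD d 0) * ee (al s k) ^ d‖ ≤ 2 ^ s := by
    refine (norm_sum_le _ _).trans (le_of_eq ?_)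
    simp [norm_ee]
  have h2 : ‖(2 : ℂ) ^ (s + 1)‖ = 2 * 2 ^ s := by simp [pow_succ, mul_comm]
  rw [mu_eq hθ]
  have h3 := norm_add_le ((2 : ℂ) ^ (s + 1)) (∑ d ∈ range (2 ^ s), ee (θ.getD d 0) * ee (al s k) ^ d)
  have h4 := norm_le_add_norm_add ((2 : ℂ) ^ (s + 1))
    (∑ d ∈ range (2 ^ s), ee (θ.getD d 0) * ee (al s k) ^ d)
  constructor <;> linarith

lemma muE_false (s θ k) : (muE s θ false k).val = (muE s θ false k).mu := by
  simp [muE, Ent.val, ee_zero]

lemma muE_true (s θ k) : (muE s θ true k).val = ((muE s θ false k).mu)⁻¹ := by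
  simp [muE, Ent.val, ee_zero, Ent.mu]

lemma gd_cpw {p s : ℕ} (hs : 2 ^ s ≤ p) (o : ℕ) {θ : List ℚ} (hθ : θ.length = 2 ^ s) (b : Bool) :
    Gd p (cpw p s o θ b) := by
  have hp : 1 ≤ p := le_trans Nat.one_le_two_pow hs
  have h1 : (1 : ℚ) ≤ p := by exact_mod_cast hp
  have h2 : (1 : ℝ) ≤ 2 ^ s := one_le_pow₀ one_le_two
  have h3 : (2 : ℝ) ^ s ≤ p := by exact_mod_cast hs
  refine ((Gd.flatMap fun l _ => (gd_wtab hp fun j => ge_ce _ ?_).append (gd_bf hp _ _ _)).append
    (gd_wtab hp fun k => ⟨fun _ => h2.trans (mu_norm hθ b k).1, ?_⟩)).append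
    (Gd.flatMap fun l _ => (gd_bf hp _ _ _).append (gd_wtab hp fun j => ge_ce _ ?_))
  · rw [abs_one]; linarith
  · have h4 := mu_norm hθ false k
    cases b
    · rw [muE_false]; linarith
    · rw [muE_true, norm_inv]
      exact (inv_le_one_of_one_le₀ (h2.trans h4.1)).trans (by linarith)
  · rw [abs_of_pos (by norm_num)]; linarith

lemma length_cpw (p s o θ b) : (cpw p s o θ b).length ≤ 28 * (s + 1) := by
  have h1 := length_flatMap_le (l := List.range s) (w := fw p s o) (c := 14) fun _ _ => le_rfl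
  have h2 := length_flatMap_le (l := (List.range s).reverse) (w := bw p s o) (c := 14)
    fun _ _ => le_rfl
  rw [List.length_reverse] at h2
  rw [List.length_range] at h1 h2
  have h3 : (wtab p (2 ^ s) o (muE s θ b)).length = 1 := rfl
  rw [cpw, List.length_append, List.length_append]
  omega

/-! semantics -/

variable {p : ℕ}

noncomputable def Tb (n o : ℕ) (f : ℕ → ℂ) (u : ZMod p → ℂ) : ZMod p → ℂ := fun x =>
  if (x - o).val < n then f (x - o).val * u x else u x

noncomputable def Bf (n o h : ℕ) (u : ZMod p → ℂ) : ZMod p → ℂ := fun x =>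
  if (x - o).val < n then (if (x - o).val / h % 2 = 0 then u x + u (x + h) else u (x - h) - u x)
  else u x

lemma Tb_Tb (n o : ℕ) (f g : ℕ → ℂ) (u : ZMod p → ℂ) :
    Tb n o f (Tb n o g u) = Tb n o (fun j => f j * g j) u := by
  funext x; unfold Tb; split_ifs
  · ring
  · rfl

lemma Tb_one {n : ℕ} (o : ℕ) {f : ℕ → ℂ} (h : ∀ j, f j = 1) (u : ZMod p → ℂ) : Tb n o f u = u := by
  funext x; unfold Tb; split_ifs
  · rw [h, one_mul]
  · rfl

lemma ar_lo {N h j : ℕ} (hh : 0 < h) (hj : j < 2 * N * h) (he : j / h % 2 = 0) :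
    j + h < 2 * N * h ∧ (j + h) / h = j / h + 1 := by
  have h1 := Nat.add_div_right j hh
  rw [← Nat.div_lt_iff_lt_mul hh] at hj ⊢
  omega

lemma ar_hi {h j : ℕ} (hh : 0 < h) (he : ¬ j / h % 2 = 0) : h ≤ j ∧ (j - h) / h + 1 = j / h := by
  have h1 : h ≤ j := by
    by_contra hc
    rw [Nat.div_eq_of_lt (by omega)] at he
    exact he rfl
  refine ⟨h1, ?_⟩
  rw [← Nat.add_div_right _ hh, Nat.sub_add_cancel h1]

variable [NeZero p]

lemma run_wtab (n o : ℕ) (f : ℕ → Ent) (a b : ZMod p → ℂ) :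
    run p (wtab p n o f) (pr a b) = pr a (Tb n o (fun j => (f j).val) b) := by
  rw [wtab, run_tab]
  refine pr_congr (fun x => by rw [one_val, one_mul]) fun x => ?_
  rw [pos_val, Tb]
  split_ifs
  · rfl
  · rw [one_val, one_mul]

section Lev
variable {n N h : ℕ} (o : ℕ) (hh : 0 < h) (hn : n = 2 * N * h) (hp : n ≤ p)
include hh hn hp

lemma w_lo {x : ZMod p} (h1 : (x - o).val < n) (h2 : (x - o).val / h % 2 = 0) :
    (x + h - o).val < n ∧ ¬ (x + h - o).val / h % 2 = 0 := by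
  obtain ⟨h3, h4⟩ := ar_lo hh (hn ▸ h1) h2
  rw [w_add (by omega), h4]
  omega

omit hn hp in
lemma w_hi {x : ZMod p} (h1 : (x - o).val < n) (h2 : ¬ (x - o).val / h % 2 = 0) :
    (x - h - o).val < n ∧ (x - h - o).val / h % 2 = 0 := by
  obtain ⟨h3, h4⟩ := ar_hi hh h2
  rw [w_sub h3]
  omega

lemma run_bf (hhp : h ≤ p) (a b : ZMod p → ℂ) :
    run p (bf p n o h) (pr a b) = pr a (Bf n o h b) := by
  rw [bf, run_append, run_append, run_ins, run_wtab, run_ins]
  · refine pr_congr (fun _ => rfl) fun x => ?_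
    simp only [pos_val, add_cast_sub _ hhp, Tb, Bf, decide_eq_true_eq]
    by_cases h1 : (x - o).val < n
    · by_cases h2 : (x - o).val / h % 2 = 0
      · simp [h1, h2, one_val]
      · obtain ⟨h3, h4⟩ := w_hi o hh h1 h2
        simp only [h1, h2, h3, h4, if_true, if_false, and_false, and_self, not_false_eq_true,
          one_val, ce_val, ee_zero, sub_add_cancel]
        push_cast
        ring
    · simp [h1]
  · intro x hx
    simp only [pos_val, add_cast_sub _ hhp, decide_eq_true_eq, decide_eq_false_iff_not] at hx ⊢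
    exact fun hc => hc.2 (w_hi o hh hx.1 hx.2).2
  · intro x hx
    simp only [pos_val, decide_eq_true_eq, decide_eq_false_iff_not] at hx ⊢
    exact fun hc => (w_lo o hh hn hp hx.1 hx.2).2 hc.2

lemma Bf_Bf (u : ZMod p → ℂ) : Bf n o h (Bf n o h u) = Tb n o (fun _ => 2) u := by
  funext x
  by_cases h1 : (x - o).val < n
  · by_cases h2 : (x - o).val / h % 2 = 0
    · obtain ⟨h3, h4⟩ := w_lo o hh hn hp h1 h2
      simp only [Bf, Tb, h1, h2, h3, h4, if_true, if_false, add_sub_cancel_right]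
      ring
    · obtain ⟨h3, h4⟩ := w_hi o hh h1 h2
      simp only [Bf, Tb, h1, h2, h3, h4, if_true, if_false, sub_add_cancel]
      ring
  · simp only [Bf, Tb, h1, if_false]

lemma Bf_Tb (c : ℂ) (u : ZMod p → ℂ) :
    Bf n o h (Tb n o (fun _ => c) u) = Tb n o (fun _ => c) (Bf n o h u) := by
  funext x
  by_cases h1 : (x - o).val < n
  · by_cases h2 : (x - o).val / h % 2 = 0
    · obtain ⟨h3, h4⟩ := w_lo o hh hn hp h1 h2
      simp only [Bf, Tb, h1, h2, h3, if_true]
      ring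
    · obtain ⟨h3, h4⟩ := w_hi o hh h1 h2
      simp only [Bf, Tb, h1, h2, h3, if_true, if_false]
      ring
  · simp only [Bf, Tb, h1, if_false]

end Lev

/-- one level of the transform and its inverse -/
noncomputable def Fw (s o l : ℕ) (u : ZMod p → ℂ) : ZMod p → ℂ :=
  Bf (2 ^ s) o (2 ^ (s - 1 - l)) (Tb (2 ^ s) o (fun j => ee (tw s l j)) u)

noncomputable def Bw (s o l : ℕ) (u : ZMod p → ℂ) : ZMod p → ℂ :=
  Tb (2 ^ s) o (fun j => 1 / 2 * ee (-tw s l j)) (Bf (2 ^ s) o (2 ^ (s - 1 - l)) u)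

omit [NeZero p] in
lemma pow_split {s l : ℕ} (hl : l < s) : 2 ^ s = 2 * 2 ^ l * 2 ^ (s - 1 - l) := by
  rw [← pow_succ', ← pow_add]; congr 1; omega

section Lev2
variable {s l : ℕ} (o : ℕ) (hl : l < s) (hp : 2 ^ s ≤ p)
include hl hp

lemma run_fw (a b : ZMod p → ℂ) : run p (fw p s o l) (pr a b) = pr a (Fw s o l b) := by
  rw [fw, run_append, run_wtab, run_bf o (by positivity) (pow_split hl) hp
    ((Nat.pow_le_pow_right two_pos (by omega)).trans hp)]
  simp only [ce_val, Rat.cast_one, one_mul, Fw]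

lemma run_bw (a b : ZMod p → ℂ) : run p (bw p s o l) (pr a b) = pr a (Bw s o l b) := by
  rw [bw, run_append, run_bf o (by positivity) (pow_split hl) hp
    ((Nat.pow_le_pow_right two_pos (by omega)).trans hp), run_wtab]
  simp only [ce_val, Rat.cast_div, Rat.cast_one, Rat.cast_ofNat, Bw]

lemma Bw_Fw (u : ZMod p → ℂ) : Bw s o l (Fw s o l u) = u := by
  rw [Bw, Fw, Bf_Bf o (by positivity) (pow_split hl) hp, Tb_Tb, Tb_Tb, Tb_one]
  intro j
  linear_combination ee_neg_mul (tw s l j)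

lemma Fw_Bw (u : ZMod p → ℂ) : Fw s o l (Bw s o l u) = u := by
  have h : (fun j => ee (tw s l j) * (1 / 2 * ee (-tw s l j))) = fun _ => 1 / 2 := by
    funext j
    linear_combination 1 / 2 * ee_neg_mul (tw s l j)
  rw [Bw, Fw, Tb_Tb, h, Bf_Tb o (by positivity) (pow_split hl) hp,
    Bf_Bf o (by positivity) (pow_split hl) hp, Tb_Tb, Tb_one]
  intro j
  norm_num

end Lev2

omit [NeZero p] in
lemma foldl_inv {X : Type} {F G : ℕ → X → X} {l : List ℕ} (h : ∀ i ∈ l, ∀ u, G i (F i u) = u)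
    (u : X) : l.reverse.foldl (fun u i => G i u) (l.foldl (fun u i => F i u) u) = u := by
  induction l generalizing u with
  | nil => rfl
  | cons i l ih =>
    rw [List.reverse_cons, List.foldl_append, List.foldl_cons (l := l),
      ih fun j hj => h j (by simp [hj])]
    exact h i (by simp) u

noncomputable def Phi (s o l : ℕ) (u : ZMod p → ℂ) : ZMod p → ℂ :=
  (List.range l).foldl (fun u i => Fw s o i u) u

noncomputable def PhiI (s o : ℕ) (u : ZMod p → ℂ) : ZMod p → ℂ :=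
  (List.range s).reverse.foldl (fun u i => Bw s o i u) u

lemma PhiI_Phi {s : ℕ} (o : ℕ) (hp : 2 ^ s ≤ p) (u : ZMod p → ℂ) : PhiI s o (Phi s o s u) = u :=
  foldl_inv (fun _ hi => Bw_Fw o (List.mem_range.1 hi) hp) u

lemma Phi_PhiI {s : ℕ} (o : ℕ) (hp : 2 ^ s ≤ p) (u : ZMod p → ℂ) : Phi s o s (PhiI s o u) = u := by
  have h := foldl_inv (l := (List.range s).reverse) (F := Bw s o) (G := Fw s o)
    (fun _ hi => Fw_Bw o (List.mem_range.1 (List.mem_reverse.1 hi)) hp) u
  rwa [List.reverse_reverse] at h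

lemma run_cpw {s : ℕ} (o : ℕ) (hp : 2 ^ s ≤ p) (θ : List ℚ) (c : Bool) (a b : ZMod p → ℂ) :
    run p (cpw p s o θ c) (pr a b) =
      pr a (PhiI s o (Tb (2 ^ s) o (fun k => (muE s θ c k).val) (Phi s o s b))) := by
  rw [cpw, run_append, run_append,
    run_flatMap_b fun i hi => run_fw o (List.mem_range.1 hi) hp, run_wtab,
    run_flatMap_b fun i hi => run_bw o (List.mem_range.1 (List.mem_reverse.1 hi)) hp]
  rfl

omit [NeZero p] in
lemma Phi_succ (s o l : ℕ) (u : ZMod p → ℂ) : Phi s o (l + 1) u = Fw s o l (Phi s o l u) := by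
  rw [Phi, List.range_succ, List.foldl_append]; rfl

omit [NeZero p] in
lemma Phi_out {s o : ℕ} (l : ℕ) (u : ZMod p → ℂ) {x : ZMod p} (hx : ¬ (x - o).val < 2 ^ s) :
    Phi s o l u x = u x := by
  induction l with
  | zero => rfl
  | succ l ih => simp only [Phi_succ, Fw, Bf, Tb, hx, if_false, ih]

omit [NeZero p] in
lemma al_succ (l k : ℕ) : al (l + 1) k = ((k % 2 : ℕ) : ℚ) * (1 / 2) + al l (k / 2) / 2 := by
  rw [al, sum_range_succ', al, sum_div, add_comm]
  congr 1
  · simp [div_eq_mul_inv]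
  · refine sum_congr rfl fun i _ => ?_
    rw [Nat.div_div_eq_div_mul, ← pow_succ', div_div, ← pow_succ]

omit [NeZero p] in
lemma ee_al_pow (l k : ℕ) : ee (al l k) ^ 2 ^ l = 1 := by
  induction l generalizing k with
  | zero => simp [al, ee_zero]
  | succ l ih =>
    have h : ((2 : ℕ) : ℚ) * al (l + 1) k = ((k % 2 : ℕ) : ℚ) + al l (k / 2) := by
      rw [al_succ]; push_cast; ring
    rw [pow_succ', pow_mul, ← ee_nat_mul, h, ee_add, ee_nat, one_mul, ih]

omit [NeZero p] in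
lemma sum_range_two_mul (f : ℕ → ℂ) (N : ℕ) :
    ∑ t ∈ range (2 * N), f t = ∑ t ∈ range N, (f (2 * t) + f (2 * t + 1)) := by
  induction N with
  | zero => simp
  | succ N ih => rw [mul_add, mul_one, sum_range_succ, sum_range_succ, ih, sum_range_succ]; ring

omit [NeZero p] in
lemma Phi_eq {s : ℕ} (o : ℕ) (hp : 2 ^ s ≤ p) (u : ZMod p → ℂ) (l : ℕ) : ∀ r, l + r = s →
    ∀ k < 2 ^ l, ∀ j < 2 ^ r, Phi s o l u ((o + (k * 2 ^ r + j) : ℕ) : ZMod p) =
      ∑ t ∈ range (2 ^ l), u ((o + (j + t * 2 ^ r) : ℕ) : ZMod p) * ee (al l k) ^ t := by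
  induction l with
  | zero =>
    intro r _ k hk j _
    have : k = 0 := by simpa using hk
    subst this
    simp [Phi]
  | succ l ih =>
    intro r hr k hk j hj
    have hh : s - 1 - l = r := by omega
    have hn := pow_split (show l < s by omega)
    rw [hh] at hn
    have h0 : 0 < 2 ^ r := by positivity
    have hlt : ∀ k' < 2 ^ (l + 1), k' * 2 ^ r + j < 2 ^ s := fun k' hk' => by
      rw [← hr, pow_add]
      have := Nat.mul_le_mul_right (2 ^ r) (Nat.succ_le_of_lt hk')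
      rw [Nat.succ_mul] at this
      omega
    have hdiv : ∀ k', (k' * 2 ^ r + j) / 2 ^ r = k' := fun k' => by
      rw [add_comm, Nat.add_mul_div_right _ _ h0, Nat.div_eq_of_lt hj, zero_add]
    have hk2 : k / 2 < 2 ^ l := by rw [pow_succ] at hk; omega
    have hlo : 2 * (k / 2) < 2 ^ (l + 1) := by rw [pow_succ]; omega
    have hhi : 2 * (k / 2) + 1 < 2 ^ (l + 1) := by rw [pow_succ]; omega
    set c := ee (al l (k / 2) / 2) with hc
    have hc2 : ee (al l (k / 2)) = c ^ 2 := by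
      rw [hc, ← ee_nat_mul]; congr 1; push_cast; ring
    have e1 := ih (r + 1) (by omega) (k / 2) hk2 j (by rw [pow_succ]; omega)
    have e2 := ih (r + 1) (by omega) (k / 2) hk2 (2 ^ r + j) (by rw [pow_succ]; omega)
    have t1 : Tb (2 ^ s) o (fun j => ee (tw s l j)) (Phi s o l u)
        ((o + (2 * (k / 2) * 2 ^ r + j) : ℕ) : ZMod p) =
        ∑ t ∈ range (2 ^ l), u ((o + (j + 2 * t * 2 ^ r) : ℕ) : ZMod p) * c ^ (2 * t) := by
      rw [Tb, w_nat o ((hlt _ hlo).trans_le hp), if_pos (hlt _ hlo), tw, hh, hdiv,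
        if_pos (by omega), ee_zero, one_mul,
        show 2 * (k / 2) * 2 ^ r + j = k / 2 * 2 ^ (r + 1) + j by ring, e1]
      refine sum_congr rfl fun t _ => ?_
      rw [hc2, ← pow_mul, show t * 2 ^ (r + 1) = 2 * t * 2 ^ r by ring]
    have t2 : Tb (2 ^ s) o (fun j => ee (tw s l j)) (Phi s o l u)
        ((o + ((2 * (k / 2) + 1) * 2 ^ r + j) : ℕ) : ZMod p) =
        ∑ t ∈ range (2 ^ l), u ((o + (j + (2 * t + 1) * 2 ^ r) : ℕ) : ZMod p) * c ^ (2 * t + 1) := by
      rw [Tb, w_nat o ((hlt _ hhi).trans_le hp), if_pos (hlt _ hhi), tw, hh, hdiv,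
        if_neg (by omega), min_eq_left (by omega), show (2 * (k / 2) + 1) / 2 = k / 2 by omega,
        show (2 * (k / 2) + 1) * 2 ^ r + j = k / 2 * 2 ^ (r + 1) + (2 ^ r + j) by ring, e2, mul_sum]
      refine sum_congr rfl fun t _ => ?_
      rw [hc2, ← pow_mul, show 2 ^ r + j + t * 2 ^ (r + 1) = j + (2 * t + 1) * 2 ^ r by ring]
      ring
    rw [Phi_succ, Fw, hh, Bf, w_nat o ((hlt _ hk).trans_le hp), if_pos (hlt _ hk), hdiv, al_succ,
      ee_add, ee_nat_mul, ee_half, pow_succ', sum_range_two_mul, sum_add_distrib, ← hc]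
    split_ifs with he
    · have hk' : k = 2 * (k / 2) := by omega
      have e3 : ((o + (k * 2 ^ r + j) : ℕ) : ZMod p) + ((2 ^ r : ℕ) : ZMod p) =
          ((o + ((2 * (k / 2) + 1) * 2 ^ r + j) : ℕ) : ZMod p) := by
        rw [← hk']; push_cast; ring
      rw [e3, t2, he, pow_zero, one_mul, ← t1, ← hk']
    · have hk' : k = 2 * (k / 2) + 1 := by omega
      have e3 : ((o + (k * 2 ^ r + j) : ℕ) : ZMod p) - ((2 ^ r : ℕ) : ZMod p) =
          ((o + (2 * (k / 2) * 2 ^ r + j) : ℕ) : ZMod p) := by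
        rw [sub_eq_iff_eq_add, ← Nat.cast_add]
        congr 1
        nth_rewrite 1 [hk']
        ring
      rw [e3, t1, show k % 2 = 1 by omega, pow_one, neg_one_mul]
      nth_rewrite 1 [hk']
      rw [t2, sub_eq_add_neg, ← sum_neg_distrib]
      congr 1
      · exact sum_congr rfl fun t _ => by rw [Even.neg_pow (even_two_mul t)]
      · exact sum_congr rfl fun t _ => by rw [Odd.neg_pow (odd_two_mul_add_one t), mul_neg]

/-- the circulant operator -/
noncomputable def Mop (s o : ℕ) (θ : List ℚ) (u : ZMod p → ℂ) : ZMod p → ℂ := fun x =>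
  if (x - o).val < 2 ^ s then 2 ^ (s + 1) * u x + ∑ i ∈ range (2 ^ s),
    ee (θ.getD (((x - o).val + 2 ^ s - i) % 2 ^ s) 0) * u ((o + i : ℕ) : ZMod p) else u x

omit [NeZero p] in
lemma sum_shift {n i : ℕ} (hi : i < n) (g : ℕ → ℂ) {z : ℂ} (hz : z ^ n = 1) :
    ∑ j ∈ range n, g ((j + n - i) % n) * z ^ j = (∑ d ∈ range n, g d * z ^ d) * z ^ i := by
  have hm : ∀ m < 2 * n, m % n = if m < n then m else m - n := fun m hm => by
    split_ifs with h
    · exact Nat.mod_eq_of_lt h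
    · rw [Nat.mod_eq_sub_mod (by omega), Nat.mod_eq_of_lt (by omega)]
  rw [sum_mul]
  refine sum_nbij' (fun j => (j + n - i) % n) (fun d => (d + i) % n)
    (fun j _ => mem_range.2 (Nat.mod_lt _ (by omega)))
    (fun j _ => mem_range.2 (Nat.mod_lt _ (by omega))) (fun j hj => ?_) (fun d hd => ?_)
    fun j hj => ?_
  · have := mem_range.1 hj
    rw [hm (j + n - i) (by omega)]
    split_ifs <;> rw [hm _ (by omega)] <;> split_ifs <;> omega
  · have := mem_range.1 hd
    rw [hm (d + i) (by omega)]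
    split_ifs <;> rw [hm _ (by omega)] <;> split_ifs <;> omega
  · have := mem_range.1 hj
    rw [mul_assoc, ← pow_add, hm (j + n - i) (by omega)]
    split_ifs
    · rw [show j + n - i + i = j + n by omega, pow_add, hz, mul_one]
    · rw [show j + n - i - n + i = j by omega]

lemma Phi_Mop {s : ℕ} (o : ℕ) (hp : 2 ^ s ≤ p) {θ : List ℚ} (hθ : θ.length = 2 ^ s)
    (u : ZMod p → ℂ) : Tb (2 ^ s) o (fun k => (muE s θ false k).val) (Phi s o s u) =
      Phi s o s (Mop s o θ u) := by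
  funext x
  rw [Tb]
  split_ifs with hx
  · have key := fun v => Phi_eq o hp v s 0 rfl _ hx 0 (by norm_num)
    simp only [pow_zero, mul_one, add_zero, zero_add, ← eq_w o x] at key
    rw [key, key, muE_false, mu_eq hθ, add_mul, mul_sum, mul_sum]
    have h1 : ∀ j ∈ range (2 ^ s), Mop s o θ u ((o + j : ℕ) : ZMod p) * ee (al s (x - o).val) ^ j =
        2 ^ (s + 1) * (u ((o + j : ℕ) : ZMod p) * ee (al s (x - o).val) ^ j) +
        ∑ i ∈ range (2 ^ s), ee (θ.getD ((j + 2 ^ s - i) % 2 ^ s) 0) * ee (al s (x - o).val) ^ j *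
          u ((o + i : ℕ) : ZMod p) := fun j hj => by
      rw [Mop, w_nat o ((mem_range.1 hj).trans_le hp), if_pos (mem_range.1 hj), add_mul, sum_mul,
        mul_assoc]
      congr 1
      exact sum_congr rfl fun i _ => by ring
    rw [sum_congr rfl h1, sum_add_distrib, sum_comm]
    congr 1
    refine sum_congr rfl fun i hi => ?_
    rw [← sum_mul, sum_shift (mem_range.1 hi) (fun d => ee (θ.getD d 0)) (ee_al_pow _ _)]
    ring
  · rw [Phi_out _ _ hx, Phi_out _ _ hx, Mop, if_neg hx]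

lemma run_M {s : ℕ} (o : ℕ) (hp : 2 ^ s ≤ p) {θ : List ℚ} (hθ : θ.length = 2 ^ s)
    (a b : ZMod p → ℂ) : run p (cpw p s o θ false) (pr a b) = pr a (Mop s o θ b) := by
  rw [run_cpw o hp, Phi_Mop o hp hθ, PhiI_Phi o hp]

lemma run_Minv {s : ℕ} (o : ℕ) (hp : 2 ^ s ≤ p) {θ : List ℚ} (hθ : θ.length = 2 ^ s)
    (a b : ZMod p → ℂ) : run p (cpw p s o θ true) (pr a (Mop s o θ b)) = pr a b := by
  rw [run_cpw o hp, ← Phi_Mop o hp hθ, Tb_Tb, Tb_one, PhiI_Phi o hp]
  intro k
  rw [muE_true, muE_false]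
  refine inv_mul_cancel₀ (norm_pos_iff.1 (lt_of_lt_of_le ?_ (mu_norm hθ false k).1))
  positivity

end CA

open CA

/-- `cp p s o θ false` replaces the window `o, …, o + 2 ^ s - 1` of the row `true` by its cyclic
convolution with `ee θ` plus `2 ^ (s + 1)` times itself; `cp p s o θ true` undoes this. -/
theorem circ : ∃ (cp : ℕ → ℕ → ℕ → List ℚ → Bool → List HI) (c : ℕ),
    PTime (fun x : List Unit × ℕ × ℕ × List ℚ × Bool =>
      cp x.1.length (min x.2.1 x.1.length.size) x.2.2.1 x.2.2.2.1 x.2.2.2.2) ∧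
    ∀ p s o θ, 2 ^ s ≤ p → θ.length = 2 ^ s →
      (∀ b, (cp p s o θ b).length ≤ c * (s + 1) ∧
        ∀ hi ∈ cp p s o θ b, ∀ en ∈ hi.1, en.ok ∧ ‖en.val‖ ≤ 4 * p) ∧
      ∀ [NeZero p] (v : Bool → ZMod p → ℂ),
        (cp p s o θ true).foldl (hstep p) ((cp p s o θ false).foldl (hstep p) v) = v ∧
        (cp p s o θ false).foldl (hstep p) v false = v false ∧
        (∀ x : ZMod p, 2 ^ s ≤ (x - o).val →
          (cp p s o θ false).foldl (hstep p) v true x = v true x) ∧
        ∀ j < 2 ^ s, (cp p s o θ false).foldl (hstep p) v true ((o + j : ℕ) : ZMod p) =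
          2 ^ (s + 1) * v true ((o + j : ℕ) : ZMod p) + ∑ i ∈ range (2 ^ s),
            ee (θ.getD ((j + 2 ^ s - i) % 2 ^ s) 0) * v true ((o + i : ℕ) : ZMod p) := by
  refine ⟨cpw, 28, ptime_cpw PTime.fst_id.length (PB.length PTime.fst_id)
    (PTime.snd_id.fst.min PTime.fst_id.length.size) (pb_min (PB.size PTime.fst_id.length))
    PTime.snd_id.snd.fst PTime.snd_id.snd.snd.fst PTime.snd_id.snd.snd.snd, fun p s o θ hp hθ =>
    ⟨fun b => ⟨length_cpw _ _ _ _ _, gd_cpw hp o hθ b⟩, fun v => ?_⟩⟩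
  have h : (cpw p s o θ false).foldl (hstep p) v = pr (v false) (Mop s o θ (v true)) := by
    rw [← run_M o hp hθ, pr_eta]; rfl
  rw [h]
  refine ⟨(run_Minv o hp hθ _ _).trans (pr_eta v), rfl, fun x hx => ?_, fun j hj => ?_⟩
  · exact if_neg (not_lt.2 hx)
  · change Mop s o θ (v true) _ = _
    rw [Mop, w_nat o (hj.trans_le hp), if_pos hj]

end Vale.Agent.P338
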