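import Vale.Agent.P338.Spec

/-! Basic words of high-level instructions: tables, masked shears, in-row shears. -/

namespace Vale.Agent.P338.CA

open PT Finset

/-! the exponential -/

lemma ee_add (a b : ℚ) : ee (a + b) = ee a * ee b := by
  rw [ee, ee, ee, ← Complex.exp_add]; congr 1; push_cast; ring

lemma ee_zero : ee 0 = 1 := by simp [ee]

lemma ee_int (k : ℤ) : ee k = 1 := by
  have h := Complex.exp_int_mul_two_pi_mul_I k
  rw [ee, ← h]; congr 1; push_cast; ring

lemma ee_nat (k : ℕ) : ee k = 1 := by simpa using ee_int k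

lemma ee_half : ee (1 / 2) = -1 := by
  rw [ee, ← Complex.exp_pi_mul_I]; congr 1; push_cast; ring

lemma ee_neg_mul (a : ℚ) : ee (-a) * ee a = 1 := by rw [← ee_add, neg_add_cancel, ee_zero]

lemma ee_nat_mul (n : ℕ) (a : ℚ) : ee (n * a) = ee a ^ n := by
  rw [ee, ee, ← Complex.exp_nat_mul]; congr 1; push_cast; ring

lemma norm_ee (a : ℚ) : ‖ee a‖ = 1 := by
  have h := Complex.norm_exp_ofReal_mul_I (2 * Real.pi * a)
  rw [ee, ← h]; congr 2; push_cast; ring

/-! entries -/

/-- the constant `q * ee θ` -/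
def ce (q θ : ℚ) : Ent := (q, θ, [], 0, none)

lemma ce_val (q θ : ℚ) : (ce q θ).val = q * ee θ := by simp [ce, Ent.val]

lemma one_val : Ent.one.val = 1 := by simp [Ent.one, Ent.val, ee_zero]

lemma ptime_ce {α : Type} [TEnc α] {q θ : α → ℚ} (hq : PTime q) (hθ : PTime θ) :
    PTime fun a => ce (q a) (θ a) :=
  hq.prodMk (hθ.prodMk (.const _))

/-- admissible entries -/
def GE (p : ℕ) (en : Ent) : Prop := en.ok ∧ ‖en.val‖ ≤ 4 * p

lemma ge_ce {p : ℕ} {q : ℚ} (θ : ℚ) (h : |q| ≤ 4 * p) : GE p (ce q θ) := by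
  refine ⟨fun h => by simp [ce] at h, ?_⟩
  rw [ce_val, norm_mul, norm_ee, mul_one, Complex.norm_ratCast]
  exact_mod_cast h

lemma ge_one {p : ℕ} (hp : 1 ≤ p) : GE p Ent.one := by
  have h : (1 : ℚ) ≤ p := by exact_mod_cast hp
  exact ge_ce 0 (by rw [abs_one]; linarith)

/-- admissible words -/
def Gd (p : ℕ) (w : List HI) : Prop := ∀ hi ∈ w, ∀ en ∈ hi.1, GE p en

lemma Gd.nil {p : ℕ} : Gd p [] := fun _ h => by simp at h

lemma Gd.append {p : ℕ} {w w' : List HI} (h : Gd p w) (h' : Gd p w') : Gd p (w ++ w') :=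
  fun hi hh => (List.mem_append.1 hh).elim (h hi) (h' hi)

lemma Gd.flatMap {p : ℕ} {l : List ℕ} {w : ℕ → List HI} (h : ∀ i ∈ l, Gd p (w i)) :
    Gd p (l.flatMap w) := fun hi hh =>
  let ⟨i, h1, h2⟩ := List.mem_flatMap.1 hh; h i h1 hi h2

lemma length_flatMap_le {l : List ℕ} {w : ℕ → List HI} {c : ℕ} (h : ∀ i ∈ l, (w i).length ≤ c) :
    (l.flatMap w).length ≤ l.length * c := by
  induction l with
  | nil => simp
  | cons i l ih =>
    have h1 := h i (by simp)
    have h2 := ih fun j hj => h j (by simp [hj])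
    rw [List.flatMap_cons, List.length_append, List.length_cons, add_mul]
    omega

/-! elementary instructions -/

def tab (p : ℕ) (fa fb : ℕ → Ent) : List HI :=
  [((List.range (2 * p)).map fun i => if i % 2 = 0 then fa (i / 2) else fb (i / 2), false, 0, [])]

def shr (p : ℕ) (dir : Bool) (g : ℕ) (m : ℕ → Bool) : List HI :=
  [([], dir, g, (List.range p).map m)]

@[simp] lemma length_tab (p fa fb) : (tab p fa fb).length = 1 := rfl
@[simp] lemma length_shr (p d g m) : (shr p d g m).length = 1 := rfl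

lemma gd_tab {p : ℕ} {fa fb : ℕ → Ent} (ha : ∀ x, GE p (fa x)) (hb : ∀ x, GE p (fb x)) :
    Gd p (tab p fa fb) := by
  intro hi hh en he
  rw [tab, List.mem_singleton] at hh
  subst hh
  obtain ⟨i, -, rfl⟩ := List.mem_map.1 he
  split_ifs
  · exact ha _
  · exact hb _

lemma gd_shr {p : ℕ} (d g m) : Gd p (shr p d g m) := by
  intro hi hh en he
  rw [shr, List.mem_singleton] at hh
  subst hh
  simp at he

section PT
variable {α : Type} [TEnc α]

lemma pb_min {f g : α → ℕ} (hg : PB g) : PB fun a => min (f a) (g a) :=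
  hg.of_le fun _ => min_le_right _ _

lemma ptime_tab {p : α → ℕ} {fa fb : α → ℕ → Ent} (hp : PTime p) (hB : PB p)
    (ha : PTime fun q : α × ℕ => fa q.1 q.2) (hb : PTime fun q : α × ℕ => fb q.1 q.2) :
    PTime fun a => tab (p a) (fa a) (fb a) := by
  have h0 : PTime fun q : α × ℕ => (q.1, q.2 / 2) :=
    PTime.fst_id.prodMk (PTime.snd_id.div (.const 2))
  have h1 : PTime fun q : α × ℕ => fa q.1 (q.2 / 2) := by simpa only using ha.comp h0
  have h2 : PTime fun q : α × ℕ => fb q.1 (q.2 / 2) := by simpa only using hb.comp h0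
  have h3 : PTime fun a => (List.range (2 * p a)).map
      fun i => if i % 2 = 0 then fa a (i / 2) else fb a (i / 2) :=
    PTime.map (((PTime.const 2).mul hp).range ((PB.const 2).mul hB))
      (PTime.ite ((PTime.snd_id.mod (.const 2)).decide_eq (.const 0)) h1 h2)
  unfold tab
  exact (h3.prodMk (.const _)).cons (.const _)

lemma ptime_shr {p g : α → ℕ} {d : α → Bool} {m : α → ℕ → Bool} (hp : PTime p)
    (hB : PB p) (hd : PTime d) (hg : PTime g) (hm : PTime fun q : α × ℕ => m q.1 q.2) :
    PTime fun a => shr (p a) (d a) (g a) (m a) := by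
  have h3 : PTime fun a => (List.range (p a)).map (m a) := PTime.map (hp.range hB) hm
  exact ((PTime.const _).prodMk (hd.prodMk (hg.prodMk h3))).cons (.const _)

end PT

/-! semantics -/

variable {p : ℕ}

/-- the state with rows `a` and `b` -/
def pr (a b : ZMod p → ℂ) : Bool → ZMod p → ℂ
  | false => a
  | true => b

lemma pr_eta (v : Bool → ZMod p → ℂ) : pr (v false) (v true) = v := by
  funext s; cases s <;> rfl

lemma pr_congr {a a' b b' : ZMod p → ℂ} (ha : ∀ x, a x = a' x) (hb : ∀ x, b x = b' x) :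
    pr a b = pr a' b' := by
  rw [funext ha, funext hb]

/-- running a word -/
noncomputable def run (p : ℕ) (w : List HI) (v : Bool → ZMod p → ℂ) : Bool → ZMod p → ℂ :=
  w.foldl (hstep p) v

lemma run_append (w w' : List HI) (v : Bool → ZMod p → ℂ) :
    run p (w ++ w') v = run p w' (run p w v) := List.foldl_append

variable [NeZero p]

lemma run_tab (fa fb : ℕ → Ent) (a b : ZMod p → ℂ) : run p (tab p fa fb) (pr a b) =
    pr (fun x => (fa x.val).val * a x) (fun x => (fb x.val).val * b x) := by
  funext s x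
  have hx := ZMod.val_lt x
  have h1 : ∀ i < 2 * p, ((List.range (2 * p)).map
      fun i => if i % 2 = 0 then fa (i / 2) else fb (i / 2)).getD i Ent.one =
      if i % 2 = 0 then fa (i / 2) else fb (i / 2) := fun i hi => by
    simp [List.getD_eq_getElem?_getD, hi]
  simp only [run, tab, List.foldl_cons, List.foldl_nil, hstep, List.getD_nil, Bool.false_eq_true,
    and_false, if_false]
  cases s
  · rw [h1 _ (by simp; omega), if_pos (by simp)]
    simp [pr]
  · rw [h1 _ (by simp; omega), if_neg (by simp), show (2 * x.val + true.toNat) / 2 = x.val by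
      simp; omega]
    rfl

lemma getD_mask (m : ℕ → Bool) (x : ZMod p) :
    ((List.range p).map m).getD x.val false = m x.val := by
  simp [List.getD_eq_getElem?_getD, ZMod.val_lt x]

lemma run_sa (g : ℕ) (m : ℕ → Bool) (a b : ZMod p → ℂ) : run p (shr p false g m) (pr a b) =
    pr (fun x => a x + if m x.val then b (x + g) else 0) b := by
  funext s x
  simp only [run, shr, List.foldl_cons, List.foldl_nil, hstep, List.getD_nil, one_val, one_mul,
    getD_mask]
  cases s
  · by_cases h : m x.val <;> simp [pr, h]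
  · simp [pr]

lemma run_sb (g : ℕ) (m : ℕ → Bool) (a b : ZMod p → ℂ) : run p (shr p true g m) (pr a b) =
    pr a (fun x => b x + if m x.val then a (x + g) else 0) := by
  funext s x
  simp only [run, shr, List.foldl_cons, List.foldl_nil, hstep, List.getD_nil, one_val, one_mul,
    getD_mask]
  cases s
  · simp [pr]
  · by_cases h : m x.val <;> simp [pr, h]

omit [NeZero p] in
lemma run_flatMap_b {l : List ℕ} {w : ℕ → List HI} {L : ℕ → (ZMod p → ℂ) → ZMod p → ℂ}
    (h : ∀ i ∈ l, ∀ a b, run p (w i) (pr a b) = pr a (L i b)) (a b : ZMod p → ℂ) :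
    run p (l.flatMap w) (pr a b) = pr a (l.foldl (fun u i => L i u) b) := by
  induction l generalizing b with
  | nil => rfl
  | cons i l ih =>
    rw [List.flatMap_cons, run_append, h i (by simp), ih fun j hj => h j (by simp [hj])]
    rfl

omit [NeZero p] in
lemma run_flatMap_a {N : ℕ} {w : ℕ → List HI} {K : ℕ → ZMod p → ℂ} {b : ZMod p → ℂ}
    (h : ∀ i < N, ∀ a, run p (w i) (pr a b) = pr (fun x => a x + K i x) b) (a : ZMod p → ℂ) :
    run p ((List.range N).flatMap w) (pr a b) = pr (fun x => a x + ∑ i ∈ range N, K i x) b := by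
  induction N with
  | zero => simp [run]
  | succ N ih =>
    rw [List.range_succ, List.flatMap_append, run_append, ih fun i hi => h i (by omega),
      List.flatMap_singleton, h N (by omega)]
    refine pr_congr (fun x => ?_) fun _ => rfl
    rw [sum_range_succ, add_assoc]

/-! scaling the row `false`, in-row shears -/

/-- multiply the row `false` by `q` -/
def sca (p : ℕ) (q : ℚ) : List HI := tab p (fun _ => ce q 0) fun _ => Ent.one

lemma run_sca (q : ℚ) (a b : ZMod p → ℂ) :
    run p (sca p q) (pr a b) = pr (fun x => q * a x) b := by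
  rw [sca, run_tab]
  exact pr_congr (fun x => by rw [ce_val, ee_zero, mul_one]) fun x => by rw [one_val, one_mul]

omit [NeZero p] in
lemma gd_sca (hp : 1 ≤ p) {q : ℚ} (h : |q| ≤ 4 * p) : Gd p (sca p q) :=
  gd_tab (fun _ => ge_ce 0 h) fun _ => ge_one hp

/-- `b x += b (x + g)` under the mask `m` -/
def ins (p g : ℕ) (m : ℕ → Bool) : List HI :=
  shr p false g m ++ shr p true 0 m ++ sca p (-1) ++ shr p false g m ++ shr p true 0 m ++
    sca p (-1)

lemma run_ins {g : ℕ} {m : ℕ → Bool} (h : ∀ x : ZMod p, m x.val → m (x + g).val = false)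
    (a b : ZMod p → ℂ) :
    run p (ins p g m) (pr a b) = pr a (fun x => b x + if m x.val then b (x + g) else 0) := by
  simp only [ins, run_append, run_sa, run_sb, run_sca, Nat.cast_zero, add_zero]
  refine pr_congr (fun x => ?_) fun x => ?_
  · by_cases hx : m x.val
    · simp [hx, h x hx]
    · simp [hx]
  · by_cases hx : m x.val
    · simp [hx, h x hx]; ring
    · simp [hx]

omit [NeZero p] in
lemma gd_ins (hp : 1 ≤ p) (g m) : Gd p (ins p g m) := by
  have h : (1 : ℚ) ≤ p := by exact_mod_cast hp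
  have h1 : Gd p (sca p (-1)) := gd_sca hp (by rw [abs_neg, abs_one]; linarith)
  exact (((((gd_shr _ _ _).append (gd_shr _ _ _)).append h1).append (gd_shr _ _ _)).append
    (gd_shr _ _ _)).append h1

@[simp] lemma length_sca (p q) : (sca p q).length = 1 := rfl
@[simp] lemma length_ins (p g m) : (ins p g m).length = 6 := rfl

section PT
variable {α : Type} [TEnc α]

lemma ptime_sca {p : α → ℕ} {q : α → ℚ} (hp : PTime p) (hB : PB p) (hq : PTime q) :
    PTime fun a => sca (p a) (q a) :=
  ptime_tab (fa := fun a _ => ce (q a) 0) (fb := fun _ _ => Ent.one) hp hB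
    (ptime_ce (hq.comp PTime.fst_id) (.const _)) (.const _)

lemma ptime_ins {p g : α → ℕ} {m : α → ℕ → Bool} (hp : PTime p)
    (hB : PB p) (hg : PTime g) (hm : PTime fun q : α × ℕ => m q.1 q.2) :
    PTime fun a => ins (p a) (g a) (m a) := by
  have h1 := ptime_shr (d := fun _ => false) hp hB (.const _) hg hm
  have h2 := ptime_shr (d := fun _ => true) (g := fun _ => 0) hp hB (.const _) (.const _) hm
  have h3 := ptime_sca (q := fun _ => -1) hp hB (.const _)
  exact ((((h1.append h2).append h3).append h1).append h2).append h3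

end PT

/-! window coordinates -/

/-- the position of `x` relative to the origin `o` -/
def pos (p o x : ℕ) : ℕ := (x + (p - o % p)) % p

lemma ptime_pos {α : Type} [TEnc α] {p o x : α → ℕ} (hp : PTime p) (ho : PTime o)
    (hx : PTime x) : PTime fun a => pos (p a) (o a) (x a) :=
  (hx.add (hp.sub (ho.mod hp))).mod hp

lemma pos_val (o : ℕ) (x : ZMod p) : pos p o x.val = (x - o).val := by
  have h1 : o % p ≤ p := (Nat.mod_lt _ (NeZero.pos p)).le
  rw [pos, ← ZMod.val_natCast]
  congr 1
  push_cast [h1]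
  simp [sub_eq_add_neg]

omit [NeZero p] in
lemma val_of_eq {y : ZMod p} {j : ℕ} (hj : j < p) (h : y = j) : y.val = j := by
  rw [h, ZMod.val_cast_of_lt hj]

lemma w_add {x o : ZMod p} {h : ℕ} (hh : (x - o).val + h < p) :
    (x + h - o).val = (x - o).val + h :=
  val_of_eq hh (by push_cast; rw [ZMod.natCast_zmod_val]; ring)

lemma w_sub {x o : ZMod p} {h : ℕ} (hh : h ≤ (x - o).val) :
    (x - h - o).val = (x - o).val - h :=
  val_of_eq (lt_of_le_of_lt (Nat.sub_le _ _) (ZMod.val_lt _))
    (by push_cast [hh]; rw [ZMod.natCast_zmod_val]; ring)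

lemma w_sub' {x o : ZMod p} {h : ℕ} (hh : (x - o).val < h) (hp : h ≤ p) :
    (x - h - o).val = (x - o).val + (p - h) :=
  val_of_eq (by omega) (by push_cast [hp]; rw [ZMod.natCast_zmod_val, ZMod.natCast_self]; ring)

omit [NeZero p] in
lemma w_nat (o : ℕ) {j : ℕ} (hj : j < p) : (((o + j : ℕ) : ZMod p) - o).val = j :=
  val_of_eq hj (by push_cast; ring)

lemma eq_w (o : ℕ) (x : ZMod p) : x = ((o + (x - o).val : ℕ) : ZMod p) := by
  push_cast; rw [ZMod.natCast_zmod_val]; ring

omit [NeZero p] in
lemma add_cast_sub (x : ZMod p) {h : ℕ} (hp : h ≤ p) : x + ((p - h : ℕ) : ZMod p) = x - h := by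
  push_cast [hp]; rw [ZMod.natCast_self]; ring

end Vale.Agent.P338.CA
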