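import Vale.Agent.P338.Spec

/-! Job J10a: high-level instructions as words of eight micro-layers. -/

namespace Vale.Agent.P338

open PT

attribute [local irreducible] PTime PB C

namespace Cmp

/-- a rational constant -/
def rq (q : ℚ) : Ent := (q, 0, [], 0, none)

lemma rq_val (q : ℚ) : (rq q).val = q := by simp [rq, Ent.val, ee]

lemma one_val : Ent.one.val = 1 := (rq_val 1).trans (by simp)

lemma rq_ok {q : ℚ} (h : |q| ≤ 16) : (rq q).ok ∧ ‖(rq q).val‖ ≤ 16 := by
  refine ⟨fun h => by simp [rq] at h, ?_⟩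
  rw [rq_val, Complex.norm_ratCast]
  exact_mod_cast h

/-- the table with the entry `F x i` at position `x` in row `i` -/
def tab (p : ℕ) (F : ℕ → ℕ → Ent) : List Ent := (List.range (4 * p)).map fun j => F (j / 4) (j % 4)

lemma tab_getD {p : ℕ} [NeZero p] (F : ℕ → ℕ → Ent) (x : ZMod p) (a b : Bool) :
    (tab p F).getD (4 * x.val + 2 * a.toNat + b.toNat) Ent.one =
      F x.val (2 * a.toNat + b.toNat) := by
  have h := x.val_lt
  have ha := a.toNat_le
  have hb := b.toNat_le
  rw [List.getD_eq_getElem _ _ (by simp [tab]; omega)]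
  simp only [tab, List.getElem_map, List.getElem_range]
  congr 1 <;> omega

/-- a masked layer with rational constants -/
def ml (p : ℕ) (m : List Bool) (g o0 o1 : ℕ) (c : List ℚ) : Layer :=
  (g, tab p fun x i =>
    rq (if m.getD ((x + if i < 2 then o0 else o1) % p) false = true then c.getD i 1 else 1))

def cmp (p : ℕ) (hi : HI) : List Layer :=
  (0, tab p fun x i => hi.1.getD (2 * x + i / 2) Ent.one) :: (0, []) ::
    if hi.2.1 = true then
      [ml p hi.2.2.2 (p - hi.2.2.1 % p) (p - hi.2.2.1 % p) (p - hi.2.2.1 % p) [-1, -1, 1, -1],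
        ml p hi.2.2.2 0 (p - hi.2.2.1 % p) (p - hi.2.2.1 % p) [5, 3, 5, 3],
        ml p hi.2.2.2 0 (p - hi.2.2.1 % p) (p - hi.2.2.1 % p) [-2, -2, 1, 1],
        ml p hi.2.2.2 0 (p - hi.2.2.1 % p) (p - hi.2.2.1 % p) [3, 1, 3, 1],
        ml p hi.2.2.2 hi.2.2.1 (p - hi.2.2.1 % p) 0 [1 / 15, 1 / 15, 1 / 6, -1 / 6], (0, [])]
    else
      [ml p hi.2.2.2 hi.2.2.1 0 0 [1, 1, -1, 1], ml p hi.2.2.2 0 0 0 [5, 3, 5, 3],
        ml p hi.2.2.2 0 0 0 [1, 1, -2, -2], ml p hi.2.2.2 0 0 0 [3, 1, 3, 1],
        ml p hi.2.2.2 (p - hi.2.2.1 % p) 0 (p - hi.2.2.1 % p) [1 / 6, 1 / 6, 1 / 15, -1 / 15],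
        (0, [])]

@[fun_prop] lemma ptime_ml {α : Type} [TEnc α] {p g o0 o1 : α → ℕ} {m : α → List Bool}
    (c : List ℚ) (hp : PTime p) (hB : PB p) (hm : PTime m) (hg : PTime g) (h0 : PTime o0)
    (h1 : PTime o1) : PTime fun a => ml (p a) (m a) (g a) (o0 a) (o1 a) c := by
  unfold ml tab rq
  fun_prop

lemma ptime_cmp : PTime fun x : List Unit × HI => cmp x.1.length x.2 := by
  unfold cmp tab
  fun_prop

lemma getD_or {α : Type} (l : List α) (j : ℕ) (d : α) : l.getD j d ∈ l ∨ l.getD j d = d := by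
  rw [List.getD_eq_getElem?_getD]
  cases h : l[j]? with
  | none => exact Or.inr rfl
  | some q => exact Or.inl (List.mem_of_getElem? h)

lemma ml_ok (p : ℕ) (m : List Bool) (g o0 o1 : ℕ) {c : List ℚ} (hc : ∀ q ∈ c, |q| ≤ 16) :
    ∀ en ∈ (ml p m g o0 o1 c).2, en.ok ∧ ‖en.val‖ ≤ 16 := by
  intro en hen
  obtain ⟨j, -, rfl⟩ := List.mem_map.1 hen
  refine rq_ok ?_
  have h : |c.getD (j % 4) 1| ≤ 16 := by
    rcases getD_or c (j % 4) 1 with h | h
    · exact hc _ h
    · rw [h]
      norm_num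
  split_ifs
  exacts [h, by norm_num, h, by norm_num]

/-- the mixing gate -/
noncomputable def gm (u : Bool → Bool → ℂ) (s s' : Bool) : ℂ :=
  (u s s' + u (!s) s' + u s (!s') - u (!s) (!s')) / 2

/-- the masked constant -/
def mc (c : List ℚ) (μ a b : Bool) : ℚ := if μ = true then c.getD (2 * a.toNat + b.toNat) 1 else 1

noncomputable def loc (c : List ℚ) (μ : Bool) (u : Bool → Bool → ℂ) : Bool → Bool → ℂ :=
  gm fun a b => mc c μ a b * u a b

lemma shearF (μ : Bool) (u : Bool → Bool → ℂ) (s s' : Bool) :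
    mc [1 / 6, 1 / 6, 1 / 15, -1 / 15] μ s s' *
      loc [3, 1, 3, 1] μ (loc [1, 1, -2, -2] μ (loc [5, 3, 5, 3] μ (loc [1, 1, -1, 1] μ u))) s s' =
      if s = false ∧ μ = true then u s s' + u (!s) s' else u s s' := by
  cases μ <;> cases s <;> cases s' <;> simp [loc, gm, mc] <;> ring

lemma shearT (μ : Bool) (u : Bool → Bool → ℂ) (s s' : Bool) :
    mc [1 / 15, 1 / 15, 1 / 6, -1 / 6] μ s s' *
      loc [3, 1, 3, 1] μ (loc [-2, -2, 1, 1] μ (loc [5, 3, 5, 3] μ (loc [-1, -1, 1, -1] μ u))) s s' =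
      if s = true ∧ μ = true then u s s' + u (!s) s' else u s s' := by
  cases μ <;> cases s <;> cases s' <;> simp [loc, gm, mc] <;> ring

variable {p : ℕ} [NeZero p]

lemma ml_getD (m : List Bool) (g o0 o1 : ℕ) (c : List ℚ) (x : ZMod p) (a b : Bool) :
    ((ml p m g o0 o1 c).2.getD (4 * x.val + 2 * a.toNat + b.toNat) Ent.one).val =
      mc c (m.getD (x + ((if a then o1 else o0 : ℕ) : ZMod p)).val false) a b := by
  unfold ml
  rw [tab_getD, rq_val, ZMod.val_add, ZMod.val_natCast, Nat.add_mod_mod]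
  cases a <;> cases b <;> rfl

lemma layer_ml (m : List Bool) (g o : ℕ) (c : List ℚ) (v : ZMod p × Bool × Bool → ℂ) (x : ZMod p) :
    (fun s s' => layer p v (ml p m g o o c) (x, s, s')) =
      loc c (m.getD (x + (o : ZMod p)).val false)
        fun a b => v (x + if a then (g : ZMod p) else 0, a, b) := by
  funext s s'
  simp only [layer, ml_getD, ite_self]
  rfl

lemma layer_ml0 (m : List Bool) (o : ℕ) (c : List ℚ) (v : ZMod p × Bool × Bool → ℂ) (x : ZMod p) :
    (fun s s' => layer p v (ml p m 0 o o c) (x, s, s')) =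
      loc c (m.getD (x + (o : ZMod p)).val false) fun a b => v (x, a, b) := by
  simp [layer_ml]

omit [NeZero p] in
lemma layer_two (v : ZMod p × Bool × Bool → ℂ) (ly : Layer) (x : ZMod p) (s s' : Bool) :
    layer p (layer p v ly) (0, []) (x, s, s') =
      (ly.2.getD (4 * x.val + 2 * s.toNat + s'.toNat) Ent.one).val *
        v (x + (if s then (ly.1 : ZMod p) else 0), s, s') := by
  simp only [layer, List.getD_nil, one_val, Nat.cast_zero, ite_self, add_zero, Bool.not_not]
  ring

lemma four (m : List Bool) (g o : ℕ) (c1 c2 c3 c4 : List ℚ) (v : ZMod p × Bool × Bool → ℂ)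
    (x : ZMod p) (s s' : Bool) :
    layer p (layer p (layer p (layer p v (ml p m g o o c1)) (ml p m 0 o o c2)) (ml p m 0 o o c3))
      (ml p m 0 o o c4) (x, s, s') =
      loc c4 (m.getD (x + (o : ZMod p)).val false) (loc c3 (m.getD (x + (o : ZMod p)).val false)
        (loc c2 (m.getD (x + (o : ZMod p)).val false) (loc c1 (m.getD (x + (o : ZMod p)).val false)
          fun a b => v (x + if a then (g : ZMod p) else 0, a, b)))) s s' := by
  rw [← layer_ml, ← layer_ml0, ← layer_ml0, ← layer_ml0]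

lemma cast_neg (g : ℕ) : ((p - g % p : ℕ) : ZMod p) = -(g : ZMod p) := by
  rw [Nat.cast_sub (Nat.mod_lt _ (NeZero.pos p)).le]
  simp

lemma cmp_spec (hi : HI) (v : ZMod p × Bool × Bool → ℂ) (x : ZMod p) (s s' : Bool) :
    (cmp p hi).foldl (layer p) v (x, s, s') = hstep p (fun s x => v (x, s, s')) hi s x := by
  obtain ⟨tb, d, g, m⟩ := hi
  have e : ∀ y a b, layer p (layer p v (0, tab p fun x i => tb.getD (2 * x + i / 2) Ent.one))
      (0, []) (y, a, b) = (tb.getD (2 * y.val + a.toNat) Ent.one).val * v (y, a, b) := by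
    intro y a b
    rw [layer_two, tab_getD]
    cases a <;> cases b <;> simp
  cases d
  · simp only [cmp, List.foldl_cons, List.foldl_nil, Bool.false_eq_true, if_false]
    rw [layer_two, four, ml_getD]
    cases s
    · have := shearF (m.getD x.val false)
      simp only [ml, Bool.false_eq_true, if_false, Nat.cast_zero, add_zero, this, e, hstep]
      simp
    · have := shearF (m.getD (x + -(g : ZMod p)).val false)
      simp only [ml, if_true, Nat.cast_zero, add_zero, cast_neg, this, e, hstep]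
      simp
  · simp only [cmp, List.foldl_cons, List.foldl_nil, if_true]
    rw [layer_two, four, ml_getD]
    cases s
    · have := shearT (m.getD (x + -(g : ZMod p)).val false)
      simp only [ml, Bool.false_eq_true, if_false, add_zero, cast_neg, this, e, hstep]
      simp
    · have := shearT (m.getD x.val false)
      simp only [ml, if_true, Nat.cast_zero, add_zero, cast_neg, add_neg_cancel_right, this, e,
        hstep]
      simp

end Cmp

theorem compile : ∃ cmp : ℕ → HI → List Layer,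
    PTime (fun x : List Unit × HI => cmp x.1.length x.2) ∧
    ∀ p hi, (cmp p hi).length = 8 ∧
      (∀ ly ∈ cmp p hi, ∀ en ∈ ly.2, en ∈ hi.1 ∨ (en.ok ∧ ‖en.val‖ ≤ 16)) ∧
      ∀ [NeZero p] (v : ZMod p × Bool × Bool → ℂ) x s s',
        (cmp p hi).foldl (layer p) v (x, s, s') = hstep p (fun s x => v (x, s, s')) hi s x := by
  refine ⟨Cmp.cmp, Cmp.ptime_cmp, fun p hi => ⟨?_, fun ly hly => ?_, fun v x s s' =>
    Cmp.cmp_spec hi v x s s'⟩⟩
  · unfold Cmp.cmp
    split_ifs <;> rfl
  · unfold Cmp.cmp at hly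
    rcases List.mem_cons.1 hly with rfl | hly
    · intro en hen
      obtain ⟨j, -, rfl⟩ := List.mem_map.1 hen
      refine (Cmp.getD_or hi.1 _ Ent.one).imp_right fun h => ?_
      simp only [h]
      exact Cmp.rq_ok (q := 1) (by norm_num)
    · intro en hen
      refine Or.inr ?_
      revert en
      split_ifs at hly <;> simp only [List.mem_cons, List.not_mem_nil, or_false] at hly <;>
        rcases hly with rfl | rfl | rfl | rfl | rfl | rfl | rfl <;>
        first
          | exact fun _ h => absurd h List.not_mem_nil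
          | exact Cmp.ml_ok _ _ _ _ _ (by simp only [List.forall_mem_cons]; norm_num [abs_le])

end Vale.Agent.P338
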