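import Vale.Agent.P338.Crt

/-! Job J15c: the convolution theorem for the two-dimensional transform. -/

namespace Vale.Agent.P338

open PT Finset

/-- the normalised transform of an array in the split layout -/
noncomputable def dft2 (ps qs : List ℕ) (z : ℕ → ℂ) (y : ℕ) : ℂ :=
  ((ps.prod * qs.prod : ℕ) : ℂ)⁻¹ * ∑ x1 ∈ range ps.prod, ∑ x2 ∈ range qs.prod,
    chi ps x1 (y / qs.prod) * chi qs x2 (y % qs.prod) * z (x1 * qs.prod + x2)

theorem ConvH.norm_ee (θ : ℚ) : ‖ee θ‖ = 1 := by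
  have : (2 * Real.pi * Complex.I * θ : ℂ) = ((2 * Real.pi * θ : ℝ) : ℂ) * Complex.I := by
    push_cast; ring
  rw [ee, this, Complex.norm_exp_ofReal_mul_I]

theorem ConvH.ee_add (a b : ℚ) : ee (a + b) = ee a * ee b := by
  unfold ee
  rw [← Complex.exp_add]
  congr 1
  push_cast; ring

theorem ConvH.ee_nat (n : ℕ) : ee n = 1 := by
  unfold ee
  rw [← Complex.exp_nat_mul_two_pi_mul_I n]
  congr 1
  push_cast; ring

theorem ConvH.dvd_of_ee {m p : ℕ} (hp : 0 < p) (h : ee (m / p) = 1) : p ∣ m := by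
  unfold ee at h
  obtain ⟨n, hn⟩ := Complex.exp_eq_one_iff.1 h
  have h1 : (2 * Real.pi * Complex.I : ℂ) ≠ 0 := Complex.two_pi_I_ne_zero
  have h2 : (((m : ℚ) / p : ℚ) : ℂ) = n := by
    apply mul_left_cancel₀ h1
    rw [hn]; ring
  have h3 : (m : ℚ) / p = n := by exact_mod_cast h2
  have h4 : (p : ℚ) ≠ 0 := by positivity
  rw [div_eq_iff h4] at h3
  have h5 : (m : ℤ) = n * p := by exact_mod_cast h3
  exact Int.natCast_dvd_natCast.1 ⟨n, by rw [h5]; ring⟩

theorem ConvH.ee_of_dvd {m p : ℕ} (h : p ∣ m) : ee (m / p) = 1 := by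
  obtain ⟨n, rfl⟩ := h
  rcases Nat.eq_zero_or_pos p with rfl | hp
  · simpa using ConvH.ee_nat 0
  · have h4 : (p : ℚ) ≠ 0 := by positivity
    rw [Nat.cast_mul, mul_div_cancel_left₀ _ h4, ConvH.ee_nat]

theorem ConvH.chi_nil (x y : ℕ) : chi [] x y = 1 := rfl

theorem ConvH.chi_cons (p : ℕ) (ps : List ℕ) (x y : ℕ) :
    chi (p :: ps) x y = ee (x * y / p) * chi ps x y := by
  simp [chi]

theorem ConvH.chi_comm (ps : List ℕ) (x y : ℕ) : chi ps x y = chi ps y x := by
  unfold chi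
  simp only [mul_comm (x : ℚ)]

theorem ConvH.chi_add (ps : List ℕ) (x x' y : ℕ) :
    chi ps (x + x') y = chi ps x y * chi ps x' y := by
  induction ps with
  | nil => simp [ConvH.chi_nil]
  | cons p ps ih =>
    rw [ConvH.chi_cons, ConvH.chi_cons, ConvH.chi_cons, ih, Nat.cast_add, add_mul, add_div,
      ConvH.ee_add]
    ring

theorem ConvH.chi_of_dvd {ps : List ℕ} {x : ℕ} (h : ps.prod ∣ x) (y : ℕ) : chi ps x y = 1 := by
  induction ps with
  | nil => rfl
  | cons p ps ih =>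
    rw [List.prod_cons] at h
    rw [ConvH.chi_cons, ih (Dvd.dvd.trans (Dvd.intro_left _ rfl) h), mul_one, ← Nat.cast_mul]
    exact ConvH.ee_of_dvd ((Dvd.dvd.trans (Dvd.intro _ rfl) h).mul_right _)

theorem ConvH.chi_mod (ps : List ℕ) (x y : ℕ) : chi ps (x % ps.prod) y = chi ps x y := by
  conv_rhs => rw [← Nat.mod_add_div x ps.prod, ConvH.chi_add,
    ConvH.chi_of_dvd (Dvd.intro _ rfl), mul_one]

theorem ConvH.dvd_of_chi {ps : List ℕ} (hp : ps.Pairwise Nat.Coprime) (hp0 : ∀ p ∈ ps, 0 < p)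
    {x : ℕ} (h : ∀ y, chi ps x y = 1) : ps.prod ∣ x := by
  induction ps with
  | nil => simp
  | cons p ps ih =>
    rw [List.pairwise_cons] at hp
    have hc : Nat.Coprime p ps.prod := Nat.coprime_list_prod_right_iff.2 hp.1
    have h1 := h ps.prod
    rw [ConvH.chi_cons, ConvH.chi_comm, ConvH.chi_of_dvd dvd_rfl, mul_one, ← Nat.cast_mul] at h1
    have h2 : p ∣ x := hc.dvd_of_dvd_mul_right (ConvH.dvd_of_ee (hp0 p (by simp)) h1)
    rw [List.prod_cons]
    refine hc.mul_dvd_of_dvd_of_dvd h2 (ih hp.2 (fun q hq => hp0 q (by simp [hq])) fun y => ?_)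
    have h3 := h y
    rwa [ConvH.chi_cons, ← Nat.cast_mul, ConvH.ee_of_dvd (h2.mul_right _), one_mul] at h3

theorem ConvH.chi_pow (ps : List ℕ) (x y : ℕ) : chi ps x y = chi ps x 1 ^ y := by
  induction y with
  | zero => rw [ConvH.chi_comm, ConvH.chi_of_dvd (dvd_zero _), pow_zero]
  | succ y ih => rw [ConvH.chi_comm, ConvH.chi_add, ConvH.chi_comm, ih, ConvH.chi_comm ps 1, pow_succ]

theorem ConvH.sum_chi {ps : List ℕ} (hp : ps.Pairwise Nat.Coprime) (hp0 : ∀ p ∈ ps, 0 < p)
    (x : ℕ) : ∑ y ∈ range ps.prod, chi ps x y = if ps.prod ∣ x then (ps.prod : ℂ) else 0 := by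
  split_ifs with h
  · simp [ConvH.chi_of_dvd h]
  · have h1 : chi ps x 1 ≠ 1 := fun h1 => h (ConvH.dvd_of_chi hp hp0 fun y => by
      rw [ConvH.chi_pow, h1, one_pow])
    have h2 : chi ps x 1 ^ ps.prod = 1 := by
      rw [← ConvH.chi_pow, ConvH.chi_comm, ConvH.chi_of_dvd dvd_rfl]
    rw [sum_congr rfl fun y _ => ConvH.chi_pow ps x y, geom_sum_eq h1, h2, sub_self, zero_div]

theorem ConvH.sum_split (A B : ℕ) (f : ℕ → ℂ) :
    ∑ j ∈ range (A * B), f j = ∑ x ∈ range A, ∑ y ∈ range B, f (x * B + y) := by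
  induction A with
  | zero => simp
  | succ A ih => rw [add_mul, one_mul, sum_range_add, ih, sum_range_succ]

theorem ConvH.div_eq {B y : ℕ} (x : ℕ) (hy : y < B) : (x * B + y) / B = x := by
  rw [Nat.add_comm, Nat.add_mul_div_right _ _ (by omega), Nat.div_eq_of_lt hy, zero_add]

theorem ConvH.mod_eq {B y : ℕ} (x : ℕ) (hy : y < B) : (x * B + y) % B = y := by
  rw [Nat.add_comm, Nat.add_mul_mod_self_right, Nat.mod_eq_of_lt hy]

/-- the character attached to the natural index `i` -/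
noncomputable def ConvH.be (ps qs : List ℕ) (i y : ℕ) : ℂ :=
  chi ps (minv qs.prod ps.prod * i) (y / qs.prod) * chi qs i (y % qs.prod)

theorem ConvH.be_add (ps qs : List ℕ) (i i' y : ℕ) :
    ConvH.be ps qs (i + i') y = ConvH.be ps qs i y * ConvH.be ps qs i' y := by
  unfold ConvH.be
  rw [mul_add, ConvH.chi_add, ConvH.chi_add]; ring

theorem ConvH.dft2_eq (ps qs : List ℕ) (z : ℕ → ℂ) (y : ℕ) :
    dft2 ps qs z y = ((ps.prod * qs.prod : ℕ) : ℂ)⁻¹ * ∑ j ∈ range (ps.prod * qs.prod),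
      chi ps (j / qs.prod) (y / qs.prod) * chi qs (j % qs.prod) (y % qs.prod) * z j := by
  rw [dft2, ConvH.sum_split]
  congr 1
  refine sum_congr rfl fun x _ => sum_congr rfl fun x' hx' => ?_
  rw [ConvH.div_eq _ (mem_range.1 hx'), ConvH.mod_eq _ (mem_range.1 hx')]

theorem ConvH.be_cidx (ps qs : List ℕ) (h : 0 < qs.prod) (i y : ℕ) :
    chi ps (cidx ps.prod qs.prod i / qs.prod) (y / qs.prod) *
      chi qs (cidx ps.prod qs.prod i % qs.prod) (y % qs.prod) = ConvH.be ps qs i y := by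
  unfold cidx ConvH.be
  rw [ConvH.div_eq _ (Nat.mod_lt _ h), ConvH.mod_eq _ (Nat.mod_lt _ h), ConvH.chi_mod,
    ConvH.chi_mod]

theorem ConvH.dft2_cinv {ps qs : List ℕ} (h1 : 0 < ps.prod) (h2 : 0 < qs.prod)
    (hc : Nat.Coprime ps.prod qs.prod) (a : ℕ → ℂ) (y : ℕ) :
    dft2 ps qs (fun j => a (cinv ps.prod qs.prod j)) y = ((ps.prod * qs.prod : ℕ) : ℂ)⁻¹ *
      ∑ i ∈ range (ps.prod * qs.prod), ConvH.be ps qs i y * a i := by
  rw [ConvH.dft2_eq]
  congr 1
  symm
  refine sum_nbij' (cidx ps.prod qs.prod) (cinv ps.prod qs.prod)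
    (fun i _ => mem_range.2 (cidx_lt h1 h2 i)) (fun j _ => mem_range.2 (cinv_lt h1 h2 j))
    (fun i hi => cinv_cidx hc (mem_range.1 hi)) (fun j hj => cidx_cinv hc (mem_range.1 hj))
    fun i hi => ?_
  rw [ConvH.be_cidx ps qs h2, cinv_cidx hc (mem_range.1 hi)]

theorem ConvH.sum_be {ps qs : List ℕ} (hp : ps.Pairwise Nat.Coprime) (hq : qs.Pairwise Nat.Coprime)
    (hp0 : ∀ p ∈ ps, 0 < p) (hq0 : ∀ p ∈ qs, 0 < p) (hc : Nat.Coprime ps.prod qs.prod) (m : ℕ) :
    ∑ y ∈ range (ps.prod * qs.prod), ConvH.be ps qs m y =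
      if ps.prod * qs.prod ∣ m then ((ps.prod * qs.prod : ℕ) : ℂ) else 0 := by
  have h1 : 0 < ps.prod := List.prod_pos hp0
  have e : ∑ y ∈ range (ps.prod * qs.prod), ConvH.be ps qs m y =
      (∑ y ∈ range ps.prod, chi ps (minv qs.prod ps.prod * m) y) *
        ∑ y ∈ range qs.prod, chi qs m y := by
    rw [ConvH.sum_split, sum_mul_sum]
    refine sum_congr rfl fun x _ => sum_congr rfl fun x' hx' => ?_
    unfold ConvH.be
    rw [ConvH.div_eq _ (mem_range.1 hx'), ConvH.mod_eq _ (mem_range.1 hx')]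
  have hm : Nat.Coprime ps.prod (minv qs.prod ps.prod) :=
    (Nat.coprime_of_mul_modEq_one qs.prod (by rw [mul_comm]; exact mul_minv hc.symm h1)).symm
  rw [e, ConvH.sum_chi hp hp0, ConvH.sum_chi hq hq0]
  by_cases h : ps.prod * qs.prod ∣ m
  · rw [if_pos h, if_pos (((Dvd.intro _ rfl).trans h).mul_left _),
      if_pos ((Dvd.intro_left _ rfl).trans h), Nat.cast_mul]
  · rw [if_neg h]
    by_cases h2 : ps.prod ∣ minv qs.prod ps.prod * m
    · rw [if_neg (fun h3 => h (hc.mul_dvd_of_dvd_of_dvd (hm.dvd_of_dvd_mul_left h2) h3)), mul_zero]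
    · rw [if_neg h2, zero_mul]

theorem norm_chi (ps : List ℕ) (x y : ℕ) : ‖chi ps x y‖ = 1 := by
  induction ps with
  | nil => simp [ConvH.chi_nil]
  | cons p ps ih => rw [ConvH.chi_cons, norm_mul, ih, ConvH.norm_ee, one_mul]

theorem norm_dft2_le {ps qs : List ℕ} {z : ℕ → ℂ} {Z : ℝ} (h0 : 0 ≤ Z)
    (h : ∀ i < ps.prod * qs.prod, ‖z i‖ ≤ Z) (y : ℕ) : ‖dft2 ps qs z y‖ ≤ Z := by
  rw [ConvH.dft2_eq, norm_mul, norm_inv, Complex.norm_natCast]
  generalize hR : ps.prod * qs.prod = R at h ⊢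
  have h1 : ‖∑ j ∈ range R, chi ps (j / qs.prod) (y / qs.prod) *
      chi qs (j % qs.prod) (y % qs.prod) * z j‖ ≤ R * Z := by
    refine (norm_sum_le _ _).trans ((sum_le_sum (g := fun _ => Z) fun j hj => ?_).trans (by simp))
    rw [norm_mul, norm_mul, norm_chi, norm_chi, one_mul, one_mul]
    exact h j (mem_range.1 hj)
  rcases Nat.eq_zero_or_pos R with rfl | hR0
  · simpa using h0
  · have h2 : (0 : ℝ) < R := by positivity
    rw [inv_mul_le_iff₀ h2]
    exact h1

/-- transform two sequences supported on the lower half, multiply, and transform again -/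
theorem dft2_conv {ps qs : List ℕ} (hp : ps.Pairwise Nat.Coprime) (hq : qs.Pairwise Nat.Coprime)
    (hp0 : ∀ p ∈ ps, 0 < p) (hq0 : ∀ p ∈ qs, 0 < p) (hc : Nat.Coprime ps.prod qs.prod)
    {a b : ℕ → ℂ} (ha : ∀ i, ps.prod * qs.prod / 2 ≤ i → a i = 0)
    (hb : ∀ i, ps.prod * qs.prod / 2 ≤ i → b i = 0) {X : ℕ} (hX : X < ps.prod * qs.prod) :
    dft2 ps qs (fun y => dft2 ps qs (fun j => a (cinv ps.prod qs.prod j)) y *
        dft2 ps qs (fun j => b (cinv ps.prod qs.prod j)) y)
      (cidx ps.prod qs.prod ((ps.prod * qs.prod - X) % (ps.prod * qs.prod))) =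
      (((ps.prod * qs.prod : ℕ) : ℂ) ^ 2)⁻¹ * ∑ i ∈ range (X + 1), a i * b (X - i) := by
  have h1 : 0 < ps.prod := List.prod_pos hp0
  have h2 : 0 < qs.prod := List.prod_pos hq0
  rw [ConvH.dft2_eq]
  have hs := ConvH.sum_be hp hq hp0 hq0 hc
  have e1 : ∀ y, chi ps (y / qs.prod) (cidx ps.prod qs.prod
      ((ps.prod * qs.prod - X) % (ps.prod * qs.prod)) / qs.prod) *
      chi qs (y % qs.prod) (cidx ps.prod qs.prod
        ((ps.prod * qs.prod - X) % (ps.prod * qs.prod)) % qs.prod) =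
      ConvH.be ps qs ((ps.prod * qs.prod - X) % (ps.prod * qs.prod)) y := fun y => by
    rw [ConvH.chi_comm ps, ConvH.chi_comm qs, ConvH.be_cidx ps qs h2]
  simp only [e1, ConvH.dft2_cinv h1 h2 hc]
  generalize ps.prod * qs.prod = R at *
  have hR : (R : ℂ) ≠ 0 := by
    have : 0 < R := by omega
    exact_mod_cast this.ne'
  have e2 : ∀ y, ConvH.be ps qs ((R - X) % R) y *
      (((R : ℂ)⁻¹ * ∑ i ∈ range R, ConvH.be ps qs i y * a i) *
        ((R : ℂ)⁻¹ * ∑ i ∈ range R, ConvH.be ps qs i y * b i)) =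
      ((R : ℂ) ^ 2)⁻¹ * ∑ i ∈ range R, ∑ i' ∈ range R,
        a i * b i' * ConvH.be ps qs ((R - X) % R + i + i') y := fun y => by
    rw [mul_mul_mul_comm, sum_mul_sum, mul_left_comm, ← mul_inv, ← pow_two, mul_sum]
    congr 1
    refine sum_congr rfl fun i _ => ?_
    rw [mul_sum]
    refine sum_congr rfl fun i' _ => ?_
    rw [ConvH.be_add, ConvH.be_add]; ring
  simp only [e2]
  rw [← mul_sum, mul_left_comm]
  congr 1
  rw [sum_comm]
  have e3 : ∀ i ∈ range R, ∑ y ∈ range R, ∑ i' ∈ range R,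
      a i * b i' * ConvH.be ps qs ((R - X) % R + i + i') y =
      R * if i < X + 1 then a i * b (X - i) else 0 := by
    intro i _
    rw [sum_comm]
    have e4 : ∀ i' ∈ range R, ∑ y ∈ range R, a i * b i' * ConvH.be ps qs ((R - X) % R + i + i') y =
        if i + i' = X then R * (a i * b i') else 0 := by
      intro i' _
      rw [← mul_sum, hs]
      by_cases hi : R / 2 ≤ i
      · simp [ha i hi]
      by_cases hi' : R / 2 ≤ i'
      · simp [hb i' hi']
      have e5 : R ∣ (R - X) % R + i + i' ↔ i + i' = X := by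
        have e6 : (R - X) % R + i + i' + X ≡ i + i' [MOD R] := by
          have := ((Nat.mod_modEq (R - X) R).add_right (i + i' + X))
          rw [show R - X + (i + i' + X) = i + i' + R by omega] at this
          rw [show (R - X) % R + i + i' + X = (R - X) % R + (i + i' + X) by omega]
          exact this.trans (Nat.add_modEq_right)
        constructor
        · intro h
          have e7 := ((Nat.modEq_zero_iff_dvd.2 h).add_right X).symm.trans e6
          rw [zero_add] at e7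
          exact (e7.eq_of_lt_of_lt hX (by omega)).symm
        · intro h
          rw [h] at e6
          have e7 : (R - X) % R + i + i' + X ≡ 0 + X [MOD R] := by rwa [zero_add]
          exact Nat.modEq_zero_iff_dvd.1 (Nat.ModEq.add_right_cancel' X e7)
      simp only [e5]
      split_ifs
      · ring
      · rw [mul_zero]
    rw [sum_congr rfl e4]
    split_ifs with h
    · rw [sum_eq_single (X - i)]
      · rw [if_pos (by omega)]
      · intro i' _ hne
        rw [if_neg (by omega)]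
      · intro hne
        exact absurd (mem_range.2 (by omega)) hne
    · rw [mul_zero]
      exact sum_eq_zero fun i' _ => if_neg (by omega)
  rw [sum_congr rfl e3, ← mul_sum, ← mul_assoc, inv_mul_cancel₀ hR, one_mul, ← sum_filter]
  refine sum_congr ?_ fun _ _ => rfl
  ext i
  simp only [mem_filter, mem_range]
  omega

theorem ConvH.val_fl {n L : ℕ} {g : ℕ → List Bool} (h : ∀ i < n, (g i).length = L) :
    val (fl n g) = ∑ i ∈ range n, val (g i) * 2 ^ (L * i) := by
  induction n with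
  | zero => simp
  | succ n ih =>
    rw [fl_succ, val_append, ih fun i hi => h i (by omega), sum_range_succ,
      length_fl fun i hi => h i (by omega), mul_comm n L, mul_comm (2 ^ (L * n))]

/-- the digits of a product -/
theorem val_mul_eq_sum {R b : ℕ} {x y : List Bool} (hx : x.length = R * b) (hy : y.length = R * b)
    (hx0 : ∀ i, R / 2 ≤ i → val (blk b i x) = 0) (hy0 : ∀ i, R / 2 ≤ i → val (blk b i y) = 0) :
    val x * val y = ∑ X ∈ range R,
      (∑ i ∈ range (X + 1), val (blk b i x) * val (blk b (X - i) y)) * 2 ^ (b * X) := by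
  have e1 := ConvH.val_fl (n := R) (L := b) (g := fun i => blk b i x) fun i hi => length_blk' hx hi
  have e2 := ConvH.val_fl (n := R) (L := b) (g := fun i => blk b i y) fun i hi => length_blk' hy hi
  rw [fl_blk hx] at e1
  rw [fl_blk hy] at e2
  have e3 : ∀ X ∈ range R, (∑ i ∈ range (X + 1), val (blk b i x) * val (blk b (X - i) y)) *
      2 ^ (b * X) = ∑ i ∈ range (X + 1), (fun i j => val (blk b i x) * 2 ^ (b * i) *
        (val (blk b j y) * 2 ^ (b * j))) i (X - i) := by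
    intro X _
    rw [sum_mul]
    refine sum_congr rfl fun i hi => ?_
    have : b * X = b * i + b * (X - i) := by
      rw [← mul_add, Nat.add_sub_cancel' (by have := mem_range.1 hi; omega)]
    rw [this, pow_add]
    ring
  rw [sum_congr rfl e3, sum_range_diag_flip R fun i j => val (blk b i x) * 2 ^ (b * i) *
    (val (blk b j y) * 2 ^ (b * j)), e1, e2, sum_mul_sum]
  refine sum_congr rfl fun i _ => ?_
  by_cases hi : R / 2 ≤ i
  · simp [hx0 i hi]
  · symm
    refine sum_subset (range_subset_range.2 (Nat.sub_le _ _)) fun j _ hj => ?_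
    rw [hy0 j (by rw [mem_range] at hj; omega)]
    simp

theorem val_fl {n L : ℕ} {g : ℕ → List Bool} (h : ∀ i < n, (g i).length = L) :
    val (fl n g) = ∑ i ∈ range n, val (g i) * 2 ^ (L * i) := by
  exact ConvH.val_fl h

end Vale.Agent.P338
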