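import Vale.Agent.P338.Mach

/-! Closure properties of the cost predicate `C`: the machine-level primitives. -/

namespace Vale.Agent.P338

open Function PT

variable {α β γ δ σ κ : Type} [TEnc α] [TEnc β] [TEnc γ] [TEnc δ] [TEnc σ] [TEnc κ]
variable {D : α → Prop} {T : α → ℕ}

/-! ### moves between the value stacks -/

def toB (v : Rg) : Cm := emb (ren v) (mv (tg true false))
def frB (v : Rg) : Cm := emb (ren v) (back .b)
def mov (v w : Rg) : Cm := .seq (toB v) (frB w)

lemma toB_a (t : BT) (a i o) :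
    Rn (toB .a) (st (t.ser ++ a) i o) (mk a t.ser.reverse [] [] i o) (7 * t.ser.length + 2) := by
  simpa [ifb] using! rnA (run_mv true false t a [] []) i o
lemma toB_i (t : BT) (a i o) :
    Rn (toB .i) (st a (t.ser ++ i) o) (mk a t.ser.reverse [] [] i o) (7 * t.ser.length + 2) := by
  simpa [ifb] using! rnI (run_mv true false t i [] []) a o
lemma toB_o (t : BT) (a i o) :
    Rn (toB .o) (st a i (t.ser ++ o)) (mk a t.ser.reverse [] [] i o) (7 * t.ser.length + 2) := by
  simpa [ifb] using! rnO (run_mv true false t o [] []) a i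
lemma frB_a (x a i o) :
    Rn (frB .a) (mk a x [] [] i o) (st (x.reverse ++ a) i o) (2 * x.length + 1) :=
  rnA (run_back_b x a [] []) i o
lemma frB_i (x a i o) :
    Rn (frB .i) (mk a x [] [] i o) (st a (x.reverse ++ i) o) (2 * x.length + 1) :=
  rnI (run_back_b x i [] []) a o
lemma frB_o (x a i o) :
    Rn (frB .o) (mk a x [] [] i o) (st a i (x.reverse ++ o)) (2 * x.length + 1) :=
  rnO (run_back_b x o [] []) a i

lemma mov_ai (x : α) (a i o) :
    Rn (mov .a .i) (st (encode x ++ a) i o) (st a (encode x ++ i) o) (9 * sz x + 3) := by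
  have h := (toB_a (TEnc.enc x) a i o).seq (frB_i _ a i o)
  simp only [List.reverse_reverse, List.length_reverse] at h
  exact h.mono (by unfold sz encode; omega)
lemma mov_ao (x : α) (a i o) :
    Rn (mov .a .o) (st (encode x ++ a) i o) (st a i (encode x ++ o)) (9 * sz x + 3) := by
  have h := (toB_a (TEnc.enc x) a i o).seq (frB_o _ a i o)
  simp only [List.reverse_reverse, List.length_reverse] at h
  exact h.mono (by unfold sz encode; omega)
lemma mov_ia (x : α) (a i o) :
    Rn (mov .i .a) (st a (encode x ++ i) o) (st (encode x ++ a) i o) (9 * sz x + 3) := by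
  have h := (toB_i (TEnc.enc x) a i o).seq (frB_a _ a i o)
  simp only [List.reverse_reverse, List.length_reverse] at h
  exact h.mono (by unfold sz encode; omega)
lemma mov_oa (x : α) (a i o) :
    Rn (mov .o .a) (st a i (encode x ++ o)) (st (encode x ++ a) i o) (9 * sz x + 3) := by
  have h := (toB_o (TEnc.enc x) a i o).seq (frB_a _ a i o)
  simp only [List.reverse_reverse, List.length_reverse] at h
  exact h.mono (by unfold sz encode; omega)
lemma mov_io (x : α) (a i o) :
    Rn (mov .i .o) (st a (encode x ++ i) o) (st a i (encode x ++ o)) (9 * sz x + 3) := by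
  have h := (toB_i (TEnc.enc x) a i o).seq (frB_o _ a i o)
  simp only [List.reverse_reverse, List.length_reverse] at h
  exact h.mono (by unfold sz encode; omega)

abbrev eA : PT.Cmd → Cm := emb (ren .a)

lemma rn_drop (x : α) (a i o) : Rn (eA PT.drop) (st (encode x ++ a) i o) (st a i o) (7 * sz x + 2) :=
  rnA (run_drop _ _) i o
lemma rn_dropI (x : α) (a i o) :
    Rn (emb (ren .i) PT.drop) (st a (encode x ++ i) o) (st a i o) (7 * sz x + 2) :=
  rnI (run_drop _ _) a o
lemma rn_dup (x : α) (a i o) : Rn (eA dup) (st (encode x ++ a) i o)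
    (st (encode x ++ (encode x ++ a)) i o) (11 * sz x + 4) := rnA (run_dup _ _) i o
lemma rn_swap (x : α) (y : β) (a i o) : Rn (eA PT.swap) (st (encode x ++ (encode y ++ a)) i o)
    (st (encode y ++ (encode x ++ a)) i o) (9 * (sz x + sz y) + 6) := rnA (run_swap _ _ _) i o
lemma rn_pushA (x : Bool) (a i o) : Rn (.push .a x) (st a i o) (st (x :: a) i o) 1 := by
  simpa using! Rn.push .a x (st a i o)
lemma rn_pushI (x : Bool) (a i o) : Rn (.push .i x) (st a i o) (st a (x :: i) o) 1 := by
  simpa using! Rn.push .i x (st a i o)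
lemma rn_pushO (x : Bool) (a i o) : Rn (.push .o x) (st a i o) (st a i (x :: o)) 1 := by
  simpa using! Rn.push .o x (st a i o)
lemma rn_pushD (a i o) : Rn (.push .d true) (st a i o) (mk a [] [] [true] i o) 1 := by
  simpa using! Rn.push .d true (st a i o)

/-- pop one bit of the stack `a` -/
def popA : Cm := .cases .a .skip .skip .skip
lemma rn_popA (x : Bool) (a i o) : Rn popA (st (x :: a) i o) (st a i o) 2 := by
  cases x
  · exact Rn.casesF (l := a) rfl (by simpa using! Rn.skip _)
  · exact Rn.casesT (l := a) rfl (by simpa using! Rn.skip _)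

/-- a `while` loop: the body pushes a bit on `d` to continue -/
def wh (body : Cm) : Cm := .loop .d .skip body
lemma wh_stop {body : Cm} {a i o S n} (h : Rn body (st a i o) S n) (hS : S .d = []) :
    Rn (wh body) (mk a [] [] [true] i o) S (n + 2) :=
  (Rn.loopT (l := []) rfl (by simpa using! h) (Rn.loopE hS)).mono (by omega)
lemma wh_go {body : Cm} {a i o S S' n m} (h : Rn body (st a i o) S n) (h' : Rn (wh body) S S' m) :
    Rn (wh body) (mk a [] [] [true] i o) S' (n + m + 1) :=
  Rn.loopT (l := []) rfl (by simpa using! h) h'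

lemma encode_nil : encode ([] : List α) = [false] := rfl
lemma encode_cons (x : α) (l : List α) : encode (x :: l) = true :: (encode x ++ encode l) := rfl

/-! ### basic rules -/

lemma C.mono {D' : α → Prop} {T' : α → ℕ} {f g : α → β} (hf : C D' T' f)
    (hD : ∀ x, D x → D' x) (he : ∀ x, D x → f x = g x)
    (hT : ∃ K, ∀ x, D x → T' x ≤ K * (T x + sz x)) : C D T g := by
  obtain ⟨c, K, h⟩ := hf
  obtain ⟨K', hK⟩ := hT
  refine ⟨c, K * (K' + 1), fun x hx r i o => ?_⟩
  rw [← he x hx]
  refine (h x (hD x hx) r i o).mono ?_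
  have := hK x hx
  rw [mul_assoc]
  exact Nat.mul_le_mul_left _ (by nlinarith)

lemma C.congr {f g : α → β} (hf : C D T f) (he : ∀ x, D x → f x = g x) : C D T g :=
  hf.mono (fun _ h => h) he ⟨1, fun _ _ => by omega⟩

lemma C.of_eq {f g : α → β} (hf : C D T f) (he : ∀ x, f x = g x) : C D T g :=
  hf.congr fun x _ => he x

/-- a smaller domain and a larger time bound -/
lemma C.weaken {D' : α → Prop} {T' : α → ℕ} {f : α → β} (hf : C D' T' f)
    (hD : ∀ x, D x → D' x) (hT : ∃ K, ∀ x, D x → T' x ≤ K * (T x + sz x)) : C D T f :=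
  hf.mono hD (fun _ _ => rfl) hT

lemma Lin.toC {f : α → β} (hf : Lin f) : C D T f :=
  hf.weaken (fun _ _ => trivial) ⟨0, fun _ _ => by simp⟩

/-- the output is not longer than the running time -/
lemma C.sz_le {f : α → β} (hf : C D T f) : ∃ K, ∀ x, D x → sz (f x) ≤ K * (T x + sz x) := by
  obtain ⟨c, K, h⟩ := hf
  refine ⟨K + 1, fun x hx => ?_⟩
  obtain ⟨n, hn, he⟩ := h x hx [] [] []
  have := he.tot_le
  simp only [tot, mk_a, mk_b, mk_c, mk_d, mk_i, mk_o, List.append_nil, List.length_nil] at this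
  unfold sz at *; nlinarith

/-- change of representation: only the encodings matter -/
lemma C.of_enc {f : α → β} {g : α → γ} (hf : C D T f)
    (h : ∀ x, D x → TEnc.enc (g x) = TEnc.enc (f x)) : C D T g := by
  obtain ⟨c, K, hc⟩ := hf
  exact ⟨c, K, fun x hx r i o => by simpa only [encode, h x hx] using! hc x hx r i o⟩

@[fun_prop] lemma C.id : C D T fun x : α => x :=
  ⟨.skip, 1, fun x _ _ _ _ => (Rn.skip _).mono (by have := sz_pos x; omega)⟩

@[fun_prop] lemma C.const (b : β) : C D T fun _ : α => b :=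
  ⟨.seq (eA PT.drop) (eA (pushList (encode b))), 10 + sz b, fun x _ r i o =>
    ((rn_drop x r i o).seq (rnA (run_pushList (encode b) r) i o)).mono (by
      have := sz_pos x; change _ + (sz b + 1) ≤ _; nlinarith)⟩

/-- The general composition rule. -/
lemma C.call {D' : β → Prop} {T' : β → ℕ} {g : β → γ} {f : α → β} (hg : C D' T' g)
    (hf : C D T f) (hD : ∀ x, D x → D' (f x)) (hT : ∃ K, ∀ x, D x → T' (f x) ≤ K * (T x + sz x)) :
    C D T fun x => g (f x) := by
  obtain ⟨K1, h1⟩ := hf.sz_le
  obtain ⟨c, K, hc⟩ := hf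
  obtain ⟨c', K', hc'⟩ := hg
  obtain ⟨K2, h2⟩ := hT
  refine ⟨.seq c c', K + K' * (K2 + K1), fun x hx r i o =>
    ((hc x hx r i o).seq (hc' _ (hD x hx) r i o)).mono ?_⟩
  have := h1 x hx
  have := h2 x hx
  have : T' (f x) + sz (f x) ≤ (K2 + K1) * (T x + sz x) := by rw [add_mul]; omega
  rw [add_mul, mul_assoc]
  exact Nat.add_le_add_left (Nat.mul_le_mul_left _ this) _

@[fun_prop] lemma C.comp {g : β → γ} {f : α → β} (hg : C (fun _ => True) (fun _ => 0) g)
    (hf : C D T f) : C D T fun x => g (f x) :=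
  hg.call hf (fun _ _ => trivial) ⟨0, fun _ _ => by simp⟩

@[fun_prop] lemma C.prodMk {f : α → β} {g : α → γ} (hf : C D T f) (hg : C D T g) :
    C D T fun x => (f x, g x) := by
  obtain ⟨K1, h1⟩ := hg.sz_le
  obtain ⟨c, K, hc⟩ := hf
  obtain ⟨c', K', hc'⟩ := hg
  refine ⟨.seq (eA dup) (.seq c' (.seq (eA PT.swap) (.seq c (.push .a true)))),
    K + K' + 9 * K1 + 31, fun x hx r i o => ?_⟩
  have h := (rn_dup x r i o).seq ((hc' x hx _ i o).seq ((rn_swap _ _ _ i o).seq
    ((hc x hx _ i o).seq (rn_pushA true _ i o))))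
  refine Rn.mono (by simpa [encode_prod] using! h) ?_
  have := h1 x hx
  have := sz_pos x
  nlinarith

lemma Lin.fst : Lin fun p : α × β => p.1 := by
  refine ⟨.seq popA (.seq (eA PT.swap) (eA PT.drop)), 20, fun p _ r i o => ?_⟩
  obtain ⟨a, b⟩ := p
  have h := (rn_popA true _ i o).seq ((rn_swap a b r i o).seq (rn_drop _ _ i o))
  refine Rn.mono (by simpa [encode_prod] using! h) ?_
  have := sz_pos a
  simp; omega

lemma Lin.snd : Lin fun p : α × β => p.2 := by
  refine ⟨.seq popA (eA PT.drop), 20, fun p _ r i o => ?_⟩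
  obtain ⟨a, b⟩ := p
  have h := (rn_popA true _ i o).seq (rn_drop a (encode b ++ r) i o)
  refine Rn.mono (by simpa [encode_prod] using! h) ?_
  simp; omega

@[fun_prop] lemma C.fst {f : α → β × γ} (hf : C D T f) : C D T fun x => (f x).1 :=
  C.comp Lin.fst hf

@[fun_prop] lemma C.snd {f : α → β × γ} (hf : C D T f) : C D T fun x => (f x).2 :=
  C.comp Lin.snd hf

@[fun_prop] lemma C.enc {f : α → β} (hf : C D T f) : C D T fun x => (TEnc.enc (f x) : BT) :=
  hf.of_enc fun _ _ => rfl

/-- case distinction on a tree, with refined domains -/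
lemma C.cas {f : α → BT} {g : α → β} {h : α → BT × BT → β} (hf : C D T f)
    (hg : C (fun x => D x ∧ f x = .nil) T g)
    (hh : C (fun p : α × (BT × BT) => D p.1 ∧ f p.1 = .cons p.2.1 p.2.2) (fun p => T p.1)
      fun p => h p.1 p.2) : C D T fun x => (f x).cas (g x) (h x) := by
  obtain ⟨K1, h1⟩ := hf.sz_le
  obtain ⟨c, K, hc⟩ := hf
  obtain ⟨c', K', hc'⟩ := hg
  obtain ⟨c'', K'', hc''⟩ := hh
  refine ⟨.seq (eA dup) (.seq c (.cases .a .skip c'
    (.seq (.push .a true) (.seq (eA PT.swap) (.seq (.push .a true) c''))))),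
    K + K' + K'' * (K1 + 2) + 9 * K1 + 33, fun x hx r i o => ?_⟩
  have hp := sz_pos x
  have h1x := h1 x hx
  have key : Rn (.cases .a .skip c'
      (.seq (.push .a true) (.seq (eA PT.swap) (.seq (.push .a true) c''))))
      (st (encode (f x) ++ (encode x ++ r)) i o) (st (encode ((f x).cas (g x) (h x)) ++ r) i o)
      ((K' + K'' * (K1 + 2) + 9 * K1 + 18) * (T x + sz x)) := by
    cases hfa : f x with
    | nil =>
      refine (Rn.casesF (l := encode x ++ r) rfl
        (by simpa using! hc' x ⟨hx, hfa⟩ r i o)).mono ?_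
      nlinarith [Nat.zero_le (K'' * (K1 + 2) * (T x + sz x)), Nat.zero_le (K1 * (T x + sz x))]
    | cons y z =>
      have h2 := hc'' (x, (y, z)) ⟨hx, hfa⟩ r i o
      have h4 := (rn_pushA true (encode y ++ encode z ++ (encode x ++ r)) i o).seq
        (Rn.seq (S' := st (encode x ++ (encode (y, z) ++ r)) i o)
          (by simpa [encode_prod] using! rn_swap (y, z) x r i o)
          ((rn_pushA true _ i o).seq (by simpa [encode_prod] using! h2)))
      refine (Rn.casesT (l := encode y ++ encode z ++ (encode x ++ r)) rfl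
        (by simpa using! h4)).mono ?_
      have e : sz (f x) = sz y + sz z + 1 := by rw [hfa]; exact sz_prod y z
      rw [e] at h1x
      have h5 : K'' * (T x + (sz x + (sz y + sz z + 1) + 1)) ≤ K'' * (K1 + 2) * (T x + sz x) := by
        rw [mul_assoc]; exact Nat.mul_le_mul_left _ (by nlinarith)
      nlinarith [Nat.zero_le (K' * (T x + sz x))]
  refine ((rn_dup x r i o).seq ((hc x hx _ i o).seq key)).mono ?_
  nlinarith

/-- polynomial-time functions -/
lemma PTime.toC {f : α → β} (hf : PTime f) :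
    ∃ k, C (fun _ => True) (fun x => (sz x + 1) ^ k) f := by
  obtain ⟨c, t, ⟨p, hp⟩, h⟩ := hf
  refine ⟨p.natDegree, eA c, p.eval 1, fun x _ r i o => (rnA (h x r) i o).mono ((hp x).trans ?_)⟩
  have h1 : p.eval (sz x) ≤ p.eval 1 * (sz x + 1) ^ p.natDegree := by
    rw [Polynomial.eval_eq_sum_range, Polynomial.eval_eq_sum_range, Finset.sum_mul]
    refine Finset.sum_le_sum fun j hj => ?_
    rw [one_pow, mul_one]
    refine Nat.mul_le_mul_left _ ((Nat.pow_le_pow_left (Nat.le_succ _) j).trans
      (Nat.pow_le_pow_right (by omega) ?_))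
    have := Finset.mem_range.1 hj; omega
  exact h1.trans (Nat.mul_le_mul_left _ (Nat.le_add_right _ _))

/-- polynomially bounded functions -/
lemma PB.le_pow {g : α → ℕ} (hg : PB g) : ∃ j, ∀ x, g x + 1 ≤ (sz x + 1) ^ j := by
  obtain ⟨p, hp⟩ := hg
  refine ⟨p.natDegree + p.eval 1 + 1, fun x => ?_⟩
  have h1 : p.eval (sz x) ≤ p.eval 1 * (sz x + 1) ^ p.natDegree := by
    rw [Polynomial.eval_eq_sum_range, Polynomial.eval_eq_sum_range, Finset.sum_mul]
    refine Finset.sum_le_sum fun j hj => ?_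
    rw [one_pow, mul_one]
    refine Nat.mul_le_mul_left _ ((Nat.pow_le_pow_left (Nat.le_succ _) j).trans
      (Nat.pow_le_pow_right (by omega) ?_))
    have := Finset.mem_range.1 hj; omega
  have h2 : 2 ≤ sz x + 1 := by have := sz_pos x; omega
  have h3 : p.eval 1 < (sz x + 1) ^ p.eval 1 := Nat.lt_pow_self h2
  have h4 : 1 ≤ (sz x + 1) ^ p.natDegree := Nat.one_le_pow _ _ (by omega)
  have := hp x
  rw [pow_succ, pow_add]
  nlinarith [Nat.zero_le ((sz x + 1) ^ p.natDegree * (sz x + 1) ^ p.eval 1)]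

lemma PTime.sz_pow {f : α → β} (hf : PTime f) : ∃ j, ∀ x, sz (f x) + 1 ≤ (sz x + 1) ^ j :=
  PB.le_pow hf.sz_PB

end Vale.Agent.P338
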