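import Mathlib

/-! Deterministic multitape Turing machines and integer multiplication. -/

namespace Vale.Agent.P338

/-- head movements -/
inductive Move : Type
  | left
  | stay
  | right

/-- the new head position; a head on the leftmost cell that moves left stays where it is -/
def Move.apply : Move → ℕ → ℕ
  | .left, h => h - 1
  | .stay, h => h
  | .right, h => h + 1

/-- A deterministic Turing machine with `k + 1` one-dimensional tapes (cells `0, 1, 2, …`), a finite
set of states and a finite alphabet. Tape `0` holds the input. -/
structure MTM : Type 1 where
  /-- the number of tapes is `k + 1` -/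
  k : ℕ
  /-- states -/
  Q : Type
  /-- tape alphabet -/
  Γ : Type
  finQ : Finite Q
  finΓ : Finite Γ
  /-- the blank symbol -/
  blank : Γ
  /-- the symbols `0 = some false`, `1 = some true` and the separator `none` -/
  sym : Option Bool → Γ
  sym_inj : Function.Injective sym
  sym_ne_blank : ∀ s, sym s ≠ blank
  /-- the initial state -/
  start : Q
  /-- the designated output tape -/
  out : Fin (k + 1)
  /-- the transition function: from the state and the scanned symbols, either halt (`none`) or give
  the new state and, for every tape, the symbol to write and the head movement -/
  δ : Q → (Fin (k + 1) → Γ) → Option (Q × (Fin (k + 1) → Γ × Move))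

namespace MTM

/-- configurations: state, tape contents, head positions -/
structure Cfg (A : MTM) : Type where
  q : A.Q
  tape : Fin (A.k + 1) → ℕ → A.Γ
  head : Fin (A.k + 1) → ℕ

variable (A : MTM)

/-- the symbols under the heads -/
def scanned (c : A.Cfg) : Fin (A.k + 1) → A.Γ := fun j => c.tape j (c.head j)

/-- the machine has halted in `c` -/
def Halted (c : A.Cfg) : Prop := A.δ c.q (A.scanned c) = none

/-- one step (a halted configuration does not change) -/
def step (c : A.Cfg) : A.Cfg :=
  match A.δ c.q (A.scanned c) with
  | none => c
  | some (q, w) =>
    ⟨q, fun j => Function.update (c.tape j) (c.head j) (w j).1, fun j => (w j).2.apply (c.head j)⟩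

/-- a tape holding the word `w` from the leftmost cell on, and blanks after it -/
def written (w : List (Option Bool)) : ℕ → A.Γ := fun i => (w.map A.sym).getD i A.blank

/-- the initial configuration on input `w` -/
def init (w : List (Option Bool)) : A.Cfg :=
  ⟨A.start, fun j => if j = 0 then A.written w else fun _ => A.blank, fun _ => 0⟩

/-- the configuration after `t` steps on input `w` -/
def run (w : List (Option Bool)) (t : ℕ) : A.Cfg := A.step^[t] (A.init w)

/-- on input `w` the machine halts with the binary string `y` on the output tape -/
def Outputs (w : List (Option Bool)) (y : List Bool) : Prop :=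
  ∃ t, A.Halted (A.run w t) ∧ (A.run w t).tape A.out = A.written (y.map some)

/-- the number of steps made on input `w` before halting -/
noncomputable def time (w : List (Option Bool)) : ℕ := sInf {t | A.Halted (A.run w t)}

end MTM

/-- the value of a binary string, leftmost bit most significant -/
def bval (x : List Bool) : ℕ := x.foldl (fun z b => 2 * z + b.toNat) 0

/-- the binary representation of `z` of length `k`, leftmost bit most significant -/
def bin (k z : ℕ) : List Bool := ((List.range k).map z.testBit).reverse

/-- the input `x # y` -/
def input (x y : List Bool) : List (Option Bool) := x.map some ++ none :: y.map some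

/-- `A` multiplies -/
def MTM.Multiplies (A : MTM) : Prop :=
  ∀ n, 1 ≤ n → ∀ x y : List Bool, x.length = n → y.length = n →
    A.Outputs (input x y) (bin (2 * n) (bval x * bval y))

/-- the worst-case running time on pairs of `n`-bit strings -/
noncomputable def MTM.worst (A : MTM) (n : ℕ) : ℕ :=
  Finset.univ.sup fun p : (Fin n → Bool) × (Fin n → Bool) =>
    A.time (input (List.ofFn p.1) (List.ofFn p.2))

end Vale.Agent.P338
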