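import Vale.Agent.P338.Bits

/-! Job J13: pointwise products. -/

namespace Vale.Agent.P338

open PT Finset

attribute [local irreducible] PTime PB C

/-- the pointwise product as a rule -/
theorem diag_rule : ∃ mg : List Bool × List Bool → List Bool,
    (∀ g, HasMul g → ∀ {ε : Type} [TEnc ε] {D : ε → Prop} {N N' B T n P : ε → ℕ} {f f'},
      Op D N N' B T f → Op D N N' B T f' → PTime P → (∀ e, D e → N' e = n e * (2 * P e) ∧ 0 < P e) →
      (∃ K, ∀ e, D e → n e * P e * g (P e) ≤ K * (T e + N e)) → Op D N N' B T fun e l =>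
        fl (n e) fun i => mg (blk (2 * P e) i (f e l), blk (2 * P e) i (f' e l))) ∧
    ∀ n P l m z w, 0 < P → Rep P n l z → Rep P n m w →
      Rep P n (fl n fun i => mg (blk (2 * P) i l, blk (2 * P) i m)) fun i => z i * w i := by
  obtain ⟨mg, h1, h2⟩ := mulG
  refine ⟨mg, fun g hg ε _ D N N' B T n P f f' hf hf' hP H hT => ?_, fun n P l m z w hP hl hm => ?_⟩
  · exact Op.zipC (h1 g hg) hf hf' (U := fun e => 2 * P e * g (P e)) (by fun_prop)
      (fun e h => ⟨(H e h).1, by have := (H e h).2; omega⟩)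
      (fun e x y h a b => ⟨⟨_, (H e h).2, a, b⟩, (h2 _ x y (H e h).2 a b).1, by simp [a]⟩)
      (let ⟨K, hK⟩ := hT; ⟨2 * K, fun e h => by nlinarith [hK e h]⟩)
  · have := fun i (hi : i < n) => h2 P _ _ hP (length_blk' hl.1 hi) (length_blk' hm.1 hi)
    refine ⟨length_fl fun i hi => (this i hi).1, fun i hi => ?_⟩
    have e : ∀ l, rv P l (2 * i) = rv P (blk (2 * P) i l) 0 ∧ rv P l (2 * i + 1) = rv P (blk (2 * P) i l) 1 :=
      fun l => by rw [rv_blk l two_pos, rv_blk l one_lt_two, mul_comm i]; exact ⟨rfl, rfl⟩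
    rw [(e _).1, (e _).2, blk_fl (fun i hi => (this i hi).1) hi, (this i hi).2.1, (this i hi).2.2,
      ← (e _).1, ← (e _).1, ← (e _).2, ← (e _).2, (hl.2 i hi).1, (hl.2 i hi).2, (hm.2 i hi).1, (hm.2 i hi).2]
    simp [sub_eq_add_neg]

/-- the parameters `(n, P)`: pointwise product of two arrays -/
theorem mulP : ∃ mp : ℕ × ℕ → List Bool → List Bool,
    (∀ g, HasMul g → Op (fun e => 0 < e.2) (fun e => 2 * (e.1 * (2 * e.2)))
      (fun e => e.1 * (2 * e.2)) (fun e => e.1 * (2 * e.2)) (fun e => e.1 * e.2 * g e.2) mp) ∧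
    ∀ n P l m z w, 0 < P → Rep P n l z → Rep P n m w →
      Rep P n (mp (n, P) (l ++ m)) fun i => z i * w i := by
  obtain ⟨mg, h1, h2⟩ := diag_rule
  refine ⟨fun e l => fl e.1 fun i => mg (blk (2 * e.2) i (l.take (e.1 * (2 * e.2))),
    blk (2 * e.2) i (l.drop (e.1 * (2 * e.2)))), fun g hg => ?_, fun n P l m z w hP hl hm => ?_⟩
  · exact h1 g hg ((Op.id fun _ _ => by omega).take (by fun_prop) fun _ _ => by omega)
      ((Op.id fun _ _ => by omega).drop (by fun_prop) fun _ _ => by omega) (by fun_prop)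
      (fun _ h => ⟨rfl, h⟩) ⟨1, fun _ _ => by omega⟩
  · simpa only [List.take_left' hl.1, List.drop_left' hl.1] using h2 n P l m z w hP hl hm

/-- the bits of a residue -/
def diagB (P : ℕ) (z : ℤ) : List Bool := tob P (z % (2 ^ P - 1 : ℕ)).toNat

lemma diagB_val {P : ℕ} (hP : 0 < P) (z : ℤ) : bitsV P (diagB P z) = z := by
  have h : (0 : ℤ) < (2 ^ P - 1 : ℕ) := by have := Nat.one_lt_two_pow hP.ne'; omega
  have h1 := Int.emod_lt_of_pos z h
  have h2 := Int.emod_nonneg z h.ne'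
  rw [bitsV, diagB, val_tob, Nat.mod_eq_of_lt (by omega), ← Int.cast_natCast, Int.toNat_of_nonneg h2,
    ZMod.intCast_mod]

@[fun_prop] lemma PTime.tob {ε : Type} [TEnc ε] {P v : ε → ℕ} (hP : PTime P) (hP' : PB P) (hv : PTime v) :
    PTime fun e => tob (P e) (v e) :=
  PTime.of_eq (f := fun e => (List.range (P e)).map fun i => (v e).bits.getD i false) (by fun_prop)
    fun _ => List.map_congr_left fun _ _ => (Nat.testBit_eq_inth _ _).symm

/-- product with a periodic table of period `A`, whose entries are computed in polynomial time -/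
theorem diagP {ε : Type} [TEnc ε] {ent : ε × ℕ → ℤ × ℤ} (hent : PTime ent) {n A P : ε → ℕ}
    (hn : PTime n) (hA : PTime A) (hP : PTime P) (hP' : PB P) :
    ∃ dg : ε → List Bool → List Bool,
    (∀ g, HasMul g → Op (fun e => 0 < P e ∧ 0 < A e) (fun e => n e * A e * (2 * P e))
      (fun e => n e * A e * (2 * P e)) n (fun e => n e * A e * P e * g (P e)) dg) ∧
    ∀ e l z, 0 < P e → 0 < A e → Rep (P e) (n e * A e) l z → Rep (P e) (n e * A e) (dg e l) fun i =>
      z i * ⟨(ent (e, i % A e)).1, (ent (e, i % A e)).2⟩ := by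
  obtain ⟨mg, h1, h2⟩ := diag_rule
  let tb : ε × ℕ → List Bool := fun x => diagB (P x.1) (ent x).1 ++ diagB (P x.1) (ent x).2
  have hP1 : PB fun x : ε × ℕ => P x.1 := hP'.comp_sz (PTime.sz_PB (by fun_prop))
  have hP2 : PTime fun x : ε × ℕ => P x.1 := by fun_prop
  have hM := (((PTime.const 2).pow hP2 hP1).sub (.const 1)).natCast_int
  have h3 : PTime tb := (PTime.tob hP2 hP1 (hent.fst.int_emod hM).int_toNat).append
    (PTime.tob hP2 hP1 (hent.snd.int_emod hM).int_toNat)
  have h4 : ∀ x, (tb x).length = 2 * P x.1 := fun x => by simp [tb, diagB, two_mul]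
  refine ⟨fun e l => fl (n e * A e) fun i => mg (blk (2 * P e) i l,
    blk (2 * P e) i (fl (n e) fun _ => fl (A e) fun a => tb (e, a))), fun g hg => ?_,
    fun e l z a b hl => h2 _ _ _ _ _ _ a hl ⟨?_, fun i hi => ?_⟩⟩
  · have h5 : ∀ {T}, Op (fun e => 0 < P e ∧ 0 < A e) (fun e => n e * A e * (2 * P e)) _ n T fun _ l => l :=
      .id fun e h => by nlinarith [Nat.mul_pos h.1 h.2]
    refine h1 g hg h5 ((h5.blocks (.ptime (D := fun x => 0 < P x.1) (N := fun x => n x.1 * (2 * P x.1))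
      (B := fun x => n x.1) (T := fun _ => 0) h3 (fun _ h => by nlinarith) fun x _ => h4 x) (ψ := fun x => x)
      (by fun_prop) hA (L := fun e => n e * (2 * P e)) (L' := fun e => 2 * P e) (by fun_prop)
      (fun _ _ => ⟨by ring, rfl⟩) (fun _ h _ _ => ⟨h.1, rfl, rfl, le_rfl⟩) ⟨0, by simp⟩).rep hn
      (fun _ _ => mul_assoc _ _ _) ⟨2, fun e h => ?_⟩) hP (fun _ h => ⟨rfl, h.1⟩) ⟨1, fun _ _ => by omega⟩
    nlinarith [Nat.mul_le_mul_left (n e) (Nat.mul_pos h.1 h.2), Nat.zero_le (n e * A e * P e * g (P e))]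
  · rw [length_fl fun _ _ => length_fl (L := 2 * P e) fun a _ => h4 (e, a), mul_assoc]
  · have : blk (2 * P e) i (fl (n e) fun _ => fl (A e) fun a => tb (e, a)) = tb (e, i % A e) := by
      conv_lhs => rw [← Nat.div_add_mod' i (A e)]
      exact blk_fl_fl (fun _ _ a _ => h4 (e, a)) (Nat.div_lt_of_lt_mul (mul_comm (n e) _ ▸ hi)) (Nat.mod_lt _ b)
    rw [mul_comm 2 i, ← rv_blk _ one_lt_two, ← add_zero (i * 2), ← rv_blk _ two_pos, this, rv, rv]
    dsimp only [tb]
    rw [blk_append_left _ (by simp [diagB]), show blk (P e) 1 (diagB (P e) _ ++ _) = _ from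
      blk_append_right (n := 1) 0 _ (by simp [diagB]),
      blk_zero_self (by simp [diagB]), blk_zero_self (by simp [diagB])]
    exact ⟨diagB_val a _, diagB_val a _⟩

end Vale.Agent.P338
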