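import Vale.Agent.P338.Rows

/-! Job J15a: the approximate two-dimensional transform. -/

namespace Vale.Agent.P338

open PT Finset

attribute [local irreducible] PTime PB C

theorem OP.OK.mono {H c k k' : ℕ} {e : OP} (h : e.OK H c k) (hk : k' ≤ k) : e.OK H c k' :=
  { h with
    sm := (Nat.pow_le_pow_right (by omega) hk).trans h.sm
    big := fun q hq => (Nat.pow_le_pow_right (by omega) hk).trans (h.big q hq) }

/-- one block represents a Gaussian integer -/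
def RepB (P : ℕ) (b : List Bool) (w : GaussianInt) : Prop :=
  b.length = 2 * P ∧ rv P b 0 = (w.re : ℤ) ∧ rv P b 1 = (w.im : ℤ)

lemma Rep.ftBlk {P n i : ℕ} {l : List Bool} {z : ℕ → GaussianInt} (h : Rep P n l z) (hi : i < n) :
    RepB P (blk (2 * P) i l) (z i) := by
  refine ⟨length_blk' h.1 hi, ?_, ?_⟩
  · rw [rv_blk _ (by norm_num), add_zero, mul_comm i]; exact (h.2 i hi).1
  · rw [rv_blk _ (by norm_num), mul_comm i]; exact (h.2 i hi).2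

lemma ft_repB_zero (P : ℕ) : RepB P (List.replicate (2 * P) false) 0 :=
  ⟨by simp, by rw [rv_zero]; simp, by rw [rv_zero]; simp⟩

lemma ft_rep_fl {P a b : ℕ} {g : ℕ → ℕ → List Bool} {w : ℕ → ℕ → GaussianInt}
    (h : ∀ i < a, ∀ j < b, RepB P (g i j) (w i j)) :
    Rep P (a * b) (fl a fun i => fl b fun j => g i j) fun x => w (x / b) (x % b) := by
  have hb : ∀ x < a * b, x / b < a ∧ x % b < b := fun x hx =>
    ⟨Nat.div_lt_of_lt_mul (by rwa [mul_comm]),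
      Nat.mod_lt _ (Nat.pos_of_ne_zero (by rintro rfl; simp at hx))⟩
  rw [fl_fl]
  refine ⟨length_fl fun x hx => (h _ (hb x hx).1 _ (hb x hx).2).1, fun x hx => ?_⟩
  have h1 := h _ (hb x hx).1 _ (hb x hx).2
  rw [← blk_fl (g := fun x => g (x / b) (x % b)) (fun x hx => (h _ (hb x hx).1 _ (hb x hx).2).1) hx]
    at h1
  obtain ⟨-, h2, h3⟩ := h1
  rw [rv_blk _ (by norm_num), mul_comm x] at h2 h3
  exact ⟨h2, h3⟩

lemma ft_norm_chi (ps : List ℕ) (x y : ℕ) : ‖chi ps x y‖ = 1 := by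
  unfold chi
  induction ps with
  | nil => simp
  | cons p ps ih => 
    rw [List.map_cons, List.prod_cons, norm_mul, ih, mul_one, ee,
      show ∀ θ : ℚ, 2 * (Real.pi : ℂ) * Complex.I * θ = ((2 * Real.pi * θ : ℝ) : ℂ) * Complex.I from
        fun θ => by push_cast; ring, Complex.norm_exp_ofReal_mul_I]

lemma ft_avg {A : ℕ} (hA : 0 < A) (ps : List ℕ) (y : ℕ) {w : ℕ → ℂ} {W : ℝ}
    (h : ∀ x < A, ‖w x‖ ≤ W) : ‖(A : ℂ)⁻¹ * ∑ x ∈ range A, chi ps x y * w x‖ ≤ W := by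
  have h1 : ‖∑ x ∈ range A, chi ps x y * w x‖ ≤ A * W := by
    refine (norm_sum_le _ _).trans ((sum_le_sum (g := fun _ => W) fun x hx => ?_).trans (le_of_eq ?_))
    · rw [norm_mul, ft_norm_chi, one_mul]; exact h x (mem_range.1 hx)
    · simp
  have h2 : (0 : ℝ) < A := by exact_mod_cast hA
  rw [norm_mul, norm_inv, Complex.norm_natCast, inv_mul_le_iff₀ h2]
  exact h1

lemma ft_pb_sum {α : Type} [TEnc α] {q : α → List (List Unit)} (hq : PTime q) :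
    PB fun a => ((q a).map List.length).sum :=
  (PB.length hq.flatten).of_le fun a => by rw [List.length_flatten]

lemma ft_pos {H c Rw P L : ℕ} {p1 p2 rs : List ℕ} (h : RowsOK H c Rw p1 p2 rs P L) :
    2 ^ rs.length ≤ (p1 ++ p2).prod := by
  rw [← h.len]
  exact List.pow_card_le_prod _ _ fun p hp => by have := (h.odd p hp).2.1; omega

lemma ft_L {H c Rw P L : ℕ} {p1 p2 rs : List ℕ} (h : RowsOK H c Rw p1 p2 rs P L) (hH : 2 ≤ H) :
    1 ≤ L := by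
  obtain ⟨d, hd⟩ := h.pow
  have : 0 < rs.length := hd ▸ Nat.pow_pos (by omega)
  obtain ⟨r, hr⟩ := List.exists_mem_of_length_pos this
  obtain ⟨h1, -, h2⟩ := h.rodd r hr
  exact (Nat.size_pos.2 h1.pos).trans_le h2

namespace OP

lemma ft_q1 : PTime q1 := ptime_tup.fst
lemma ft_q2 : PTime q2 := ptime_tup.snd.fst
lemma ft_q3 : PTime q3 := ptime_tup.snd.snd.fst
lemma ft_q4 : PTime q4 := ptime_tup.snd.snd.snd.fst
lemma ft_qr : PTime qr := ptime_tup.snd.snd.snd.snd.fst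
lemma ft_uP : PTime uP := ptime_tup.snd.snd.snd.snd.snd.fst
lemma ft_upi : PTime upi := ptime_tup.snd.snd.snd.snd.snd.snd.fst
lemma ft_uL : PTime uL := ptime_tup.snd.snd.snd.snd.snd.snd.snd.fst
lemma ft_ub : PTime ub := ptime_tup.snd.snd.snd.snd.snd.snd.snd.snd
lemma ft_p1 : PTime p1 := ft_q1.map (f := fun _ => List.length) (by fun_prop)
lemma ft_p2 : PTime p2 := ft_q2.map (f := fun _ => List.length) (by fun_prop)
lemma ft_p3 : PTime p3 := ft_q3.map (f := fun _ => List.length) (by fun_prop)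
lemma ft_p4 : PTime p4 := ft_q4.map (f := fun _ => List.length) (by fun_prop)
lemma ft_rs : PTime rs := ft_qr.map (f := fun _ => List.length) (by fun_prop)
lemma ft_P : PTime P := ft_uP.length
lemma ft_pi : PTime pi := ft_upi.length
lemma ft_L : PTime L := ft_uL.length
lemma ft_b : PTime b := ft_ub.length
lemma ft_A1 : PTime A1 := (ft_p1.append ft_p2).nat_prod
lemma ft_A2 : PTime A2 := (ft_p3.append ft_p4).nat_prod

lemma ft_sz (e : OP) (h : 0 < e.P) :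
    sz (e.A1, e.A2, 2 * e.P) ≤ sz (e.A1, e.A2, e.P, e.b, e.kap) := by
  have h1 : sz (2 * e.P) = sz (false :: e.P.bits) := by
    rw [← Nat.bits_append_bit _ _ (by omega), Nat.bit_false_apply]; rfl
  have h2 : sz e.P.bits = sz e.P := rfl
  have h3 : sz false = 1 := rfl
  have := sz_pos e.b
  simp only [sz_prod, sz_cons] at *
  omega

end OP

lemma ft_err {A1 A2 : ℕ} (h1 : 0 < A1) (ps qs : List ℕ) (y1 y2 : ℕ) {κ : ℕ}
    {δ Z : ℝ} {z : ℕ → ℕ → ℂ} {u : ℕ → ℂ} {v : ℂ}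
    (hu : ∀ x < A1, ‖u x - 2 ^ κ * ((A2 : ℂ)⁻¹ * ∑ x2 ∈ range A2, chi qs x2 y2 * z x x2)‖ ≤
      2 ^ κ * δ * Z)
    (hv : ‖v - 2 ^ κ * ((A1 : ℂ)⁻¹ * ∑ x ∈ range A1, chi ps x y1 * u x)‖ ≤
      2 ^ κ * δ * (2 ^ κ * 2 * Z)) :
    ‖v - 2 ^ (2 * κ) * (((A1 * A2 : ℕ) : ℂ)⁻¹ * ∑ x1 ∈ range A1, ∑ x2 ∈ range A2,
      chi ps x1 y1 * chi qs x2 y2 * z x1 x2)‖ ≤ 2 ^ (2 * κ) * (3 * δ) * Z := by
  have h3 := ft_avg h1 ps y1 hu
  have e : v - 2 ^ (2 * κ) * (((A1 * A2 : ℕ) : ℂ)⁻¹ * ∑ x1 ∈ range A1, ∑ x2 ∈ range A2,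
      chi ps x1 y1 * chi qs x2 y2 * z x1 x2) =
      (v - 2 ^ κ * ((A1 : ℂ)⁻¹ * ∑ x ∈ range A1, chi ps x y1 * u x)) +
      2 ^ κ * ((A1 : ℂ)⁻¹ * ∑ x ∈ range A1, chi ps x y1 *
        (u x - 2 ^ κ * ((A2 : ℂ)⁻¹ * ∑ x2 ∈ range A2, chi qs x2 y2 * z x x2))) := by
    have : ∑ x ∈ range A1, chi ps x y1 *
        (u x - 2 ^ κ * ((A2 : ℂ)⁻¹ * ∑ x2 ∈ range A2, chi qs x2 y2 * z x x2)) =
        ∑ x ∈ range A1, chi ps x y1 * u x - 2 ^ κ * ((A2 : ℂ)⁻¹ *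
          ∑ x1 ∈ range A1, ∑ x2 ∈ range A2, chi ps x1 y1 * chi qs x2 y2 * z x1 x2) := by
      rw [mul_sum (range A1), mul_sum (range A1), ← sum_sub_distrib]
      refine sum_congr rfl fun x _ => ?_
      simp only [mul_assoc, ← mul_sum]
      ring
    rw [this, Nat.cast_mul, mul_inv]
    ring
  rw [e]
  refine (norm_add_le _ _).trans ((add_le_add hv (le_of_eq (norm_mul _ _))).trans ?_)
  have h4 : ‖(2 : ℂ) ^ κ‖ = 2 ^ κ := by simp
  rw [h4]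
  have h5 := mul_le_mul_of_nonneg_left h3 (by positivity : (0 : ℝ) ≤ 2 ^ κ)
  calc _ ≤ 2 ^ κ * δ * (2 ^ κ * 2 * Z) + 2 ^ κ * (2 ^ κ * δ * Z) := by linarith
    _ = _ := by ring

theorem ft : ∃ (H c : ℕ) (τ : ℕ → ℕ) (F : OP → List Bool → List Bool), 2 ≤ H ∧ Sub τ ∧
    (∀ g, HasMul g → ∃ k0,
      C (fun x : OP × List Bool => x.1.OK H c k0 ∧ x.2.length = x.1.R * (2 * x.1.P))
        (fun x => x.1.R * x.1.P * (x.1.L ^ 2 * τ x.1.R.size + x.1.L * g x.1.P))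
        fun x => F x.1 x.2) ∧
    ∀ (e : OP) l z (Z : ℝ), e.OK H c 0 → Rep e.P e.R l z → (∀ i < e.R, ‖(z i : ℂ)‖ ≤ Z) →
      ∃ z', Rep e.P e.R (F e l) z' ∧ ∀ y1 < e.A1, ∀ y2 < e.A2,
        ‖(z' (y1 * e.A2 + y2) : ℂ) - 2 ^ (2 * e.kap) * ((e.R : ℂ)⁻¹ *
          ∑ x1 ∈ range e.A1, ∑ x2 ∈ range e.A2,
            chi (e.p1 ++ e.p2) x1 y1 * chi (e.p3 ++ e.p4) x2 y2 * z (x1 * e.A2 + x2))‖ ≤
        2 ^ (2 * e.kap) * (3 * (2 ^ e.ex / 2 ^ e.pi)) * Z := by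
  obtain ⟨H, c, τ, hH, hτ, hrows⟩ := rows
  obtain ⟨τ', hτ', hlo, hra⟩ := lower_op
  have hPB : PB OP.P ∧ PB OP.pi ∧ PB OP.L := ⟨PB.length OP.ft_uP, PB.length OP.ft_upi,
    PB.length OP.ft_uL⟩
  obtain ⟨f1, c1, s1⟩ := hrows OP (fun e => e.OK H c 0) OP.A1 OP.P OP.pi OP.L OP.p3 OP.p4 OP.rs
    OP.ft_A1 OP.ft_P OP.ft_pi OP.ft_L OP.ft_p3 OP.ft_p4 OP.ft_rs hPB.1 hPB.2.1 hPB.2.2
    ((ft_pb_sum (OP.ft_q3.append OP.ft_q4)).of_le fun e => by rw [List.map_append]; exact le_rfl)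
    fun e he => he.r1
  obtain ⟨f2, c2, s2⟩ := hrows OP (fun e => e.OK H c 0) (fun e => pw e.A2) OP.P OP.pi OP.L OP.p1
    OP.p2 OP.rs (ptime_pw OP.ft_A2) OP.ft_P OP.ft_pi OP.ft_L OP.ft_p1 OP.ft_p2 OP.ft_rs hPB.1
    hPB.2.1 hPB.2.2
    ((ft_pb_sum (OP.ft_q1.append OP.ft_q2)).of_le fun e => by rw [List.map_append]; exact le_rfl)
    fun e he => { he.r2 with rows := he.r2.rows.trans (le_pw _) }
  have hA : ∀ e : OP, e.OK H c 0 → 2 ^ e.rs.length ≤ e.A1 ∧ 0 < e.A1 ∧ 0 < e.A2 := fun e he =>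
    ⟨ft_pos he.r2, Nat.lt_of_lt_of_le (Nat.two_pow_pos _) (ft_pos he.r2),
      Nat.lt_of_lt_of_le (Nat.two_pow_pos _) (ft_pos he.r1)⟩
  refine ⟨H, c, fun x => τ x + τ' x, fun e l => raiseF e.A1 e.A2 (2 * e.P)
    (f2 e (lowerF e.A1 e.A2 (2 * e.P) (f1 e l))), hH, hτ.add hτ', fun g hg => ?_,
    fun e l z Z he hz hZ => ?_⟩
  · obtain ⟨k1, u1⟩ := (c1 g hg).use
    obtain ⟨k2, u2⟩ := hlo.use
    obtain ⟨k3, u3⟩ := (c2 g hg).use
    obtain ⟨k4, u4⟩ := hra.use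
    obtain ⟨k5, u5⟩ := C.ptime (φ := fun e : OP => (e.A1, e.A2, 2 * e.P))
      (OP.ft_A1.prodMk (OP.ft_A2.prodMk ((PTime.const 2).mul OP.ft_P)))
    refine ⟨k1 + k2 + k3 + k4 + k5, ?_⟩
    have big : ∀ e : OP, e.OK H c (k1 + k2 + k3 + k4 + k5) → ∀ k ≤ k1 + k2 + k3 + k4 + k5,
        (sz e + 1) ^ k ≤ min e.p1.prod e.p2.prod ∧ (sz e + 1) ^ k ≤ min e.p3.prod e.p4.prod ∧
        (sz (e.A1, e.A2, 2 * e.P) + 1) ^ k ≤ 2 * e.P := fun e he k hk => by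
      have h := he.mono hk
      refine ⟨le_min (h.big _ (by simp)) (h.big _ (by simp)),
        le_min (h.big _ (by simp)) (h.big _ (by simp)), ?_⟩
      have h1 := Nat.pow_le_pow_left (Nat.succ_le_succ (e.ft_sz h.r1.pos)) k
      have h2 := h.sm
      have h3 := h.wide
      simp only [Nat.succ_eq_add_one] at h1
      omega
    have cost : ∀ e : OP, e.OK H c 0 →
        e.R * e.P * (e.L ^ 2 * τ e.rs.length + e.L * g e.P) ≤
          e.R * e.P * (e.L ^ 2 * (τ e.R.size + τ' e.R.size) + e.L * g e.P) ∧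
        e.R * e.P * τ' e.A1.size ≤
          e.R * e.P * (e.L ^ 2 * (τ e.R.size + τ' e.R.size) + e.L * g e.P) := fun e he => by
      obtain ⟨a1, a2, a3⟩ := hA e he
      have a4 : e.A1 ≤ e.R := Nat.le_mul_of_pos_right _ a3
      have a5 := hτ.1 (Nat.lt_size.2 (a1.trans a4)).le
      have a6 := hτ'.1 (Nat.size_le_size a4)
      have a7 : 0 < e.L ^ 2 := Nat.pow_pos (ft_L he.r1 hH)
      refine ⟨Nat.mul_le_mul_left _ (Nat.add_le_add_right (Nat.mul_le_mul_left _ (by omega)) _),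
        Nat.mul_le_mul_left _ (le_trans ?_ (Nat.le_add_right _ _))⟩
      exact le_trans (by omega) (Nat.le_mul_of_pos_left _ a7)
    have l1 : ∀ (e : OP) l, e.OK H c 0 → l.length = e.R * (2 * e.P) →
        (f1 e l).length = e.A1 * e.A2 * (2 * e.P) := fun e l he hl => (c1 g hg).len e l he hl
    have l2 : ∀ (e : OP) l, e.OK H c 0 → l.length = e.R * (2 * e.P) →
        (lowerF e.A1 e.A2 (2 * e.P) (f1 e l)).length = pw e.A2 * e.A1 * (2 * e.P) :=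
      fun e l he hl => hlo.len (e.A1, e.A2, 2 * e.P) _ ⟨(hA e he).2.1, he.le⟩ (l1 e l he hl)
    have hp := u5 (D := fun x : OP × List Bool => x.1.OK H c (k1 + k2 + k3 + k4 + k5) ∧
        x.2.length = x.1.R * (2 * x.1.P)) (T := fun x => x.1.R * x.1.P *
          (x.1.L ^ 2 * (τ x.1.R.size + τ' x.1.R.size) + x.1.L * g x.1.P)) (C.fst C.id)
      ⟨1, fun x hx => by
        obtain ⟨e, l⟩ := x
        obtain ⟨h1, h2⟩ := hx
        have a1 := (big e h1 k5 (by omega)).1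
        obtain ⟨-, a2, a3⟩ := hA e (h1.mono (Nat.zero_le _))
        have a4 : e.p1.prod ≤ e.A1 := by
          rw [OP.A1, List.prod_append] at a2 ⊢
          exact Nat.le_mul_of_pos_right _ (Nat.pos_of_mul_pos_left a2)
        have a5 : e.A1 ≤ e.R * (2 * e.P) := by
          rw [OP.R, mul_assoc]
          exact Nat.le_mul_of_pos_right _ (Nat.mul_pos a3 (Nat.mul_pos two_pos h1.r1.pos))
        have := length_lt_sz l
        dsimp only at h2 ⊢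
        rw [sz_prod]; omega⟩
    have v1 := u1 (C.fst C.id) (C.snd C.id) (D := fun x : OP × List Bool =>
        x.1.OK H c (k1 + k2 + k3 + k4 + k5) ∧ x.2.length = x.1.R * (2 * x.1.P))
      (T := fun x => x.1.R * x.1.P *
          (x.1.L ^ 2 * (τ x.1.R.size + τ' x.1.R.size) + x.1.L * g x.1.P))
      (fun x hx => ⟨hx.1.mono (Nat.zero_le _), hx.2, (big _ hx.1 k1 (by omega)).2.1⟩)
      ⟨1, fun x hx => by
        have := (cost _ (hx.1.mono (Nat.zero_le _))).1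
        rw [one_mul]; exact this.trans (Nat.le_add_right _ _)⟩
    have hc : ∃ K, ∀ x : OP × List Bool, (x.1.OK H c (k1 + k2 + k3 + k4 + k5) ∧
        x.2.length = x.1.R * (2 * x.1.P)) → x.1.A1 * x.1.A2 * (2 * x.1.P) * τ' x.1.A1.size ≤
        K * (x.1.R * x.1.P * (x.1.L ^ 2 * (τ x.1.R.size + τ' x.1.R.size) + x.1.L * g x.1.P) +
          sz x) := ⟨2, fun x hx => by
      have := (cost _ (hx.1.mono (Nat.zero_le _))).2
      calc _ = 2 * (x.1.R * x.1.P * τ' x.1.A1.size) := by rw [OP.R]; ring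
        _ ≤ _ := by omega⟩
    have v2 := u2 hp v1 (fun x hx => ⟨⟨(hA _ (hx.1.mono (Nat.zero_le _))).2.1, hx.1.le⟩,
      l1 _ _ (hx.1.mono (Nat.zero_le _)) hx.2, (big _ hx.1 k2 (by omega)).2.2⟩) hc
    have v3 := u3 (C.fst C.id) v2 (fun x hx => ⟨hx.1.mono (Nat.zero_le _),
      l2 _ _ (hx.1.mono (Nat.zero_le _)) hx.2, (big _ hx.1 k3 (by omega)).1⟩) ⟨17, fun x hx => by
        have h0 := hx.1.mono (Nat.zero_le _)
        have := (cost _ h0).1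
        calc _ ≤ 17 * x.1.A2 * x.1.A1 * x.1.P *
              (x.1.L ^ 2 * τ x.1.rs.length + x.1.L * g x.1.P) :=
            Nat.mul_le_mul_right _ (Nat.mul_le_mul_right _
              (Nat.mul_le_mul_right _ (pw_le (hA _ h0).2.2)))
          _ = 17 * (x.1.R * x.1.P * (x.1.L ^ 2 * τ x.1.rs.length + x.1.L * g x.1.P)) := by
            rw [OP.R]; ring
          _ ≤ _ := by omega⟩
    exact u4 hp v3 (fun x hx => ⟨⟨(hA _ (hx.1.mono (Nat.zero_le _))).2.1, hx.1.le⟩,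
      (c2 g hg).len _ _ (hx.1.mono (Nat.zero_le _)) (l2 _ _ (hx.1.mono (Nat.zero_le _)) hx.2),
      (big _ hx.1 k4 (by omega)).2.2⟩) hc
  · obtain ⟨-, a2, a3⟩ := hA e he
    obtain ⟨z1, r1, e1⟩ := s1 e l z Z he hz hZ
    change Rep e.P (e.A1 * e.A2) _ _ at r1
    change ∀ ρ < e.A1, ∀ y < e.A2, ‖(z1 (ρ * e.A2 + y) : ℂ) - 2 ^ e.kap * ((e.A2 : ℂ)⁻¹ *
      ∑ x ∈ range e.A2, chi (e.p3 ++ e.p4) x y * z (ρ * e.A2 + x))‖ ≤
        2 ^ e.kap * (2 ^ e.ex / 2 ^ e.pi) * Z at e1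
    have hZ0 : 0 ≤ Z := (norm_nonneg _).trans (hZ 0 (Nat.mul_pos a2 a3))
    have hδ : (2 : ℝ) ^ e.ex / 2 ^ e.pi ≤ 1 := by
      rw [div_le_one (by positivity)]
      exact pow_le_pow_right₀ (by norm_num) (by have := he.prec; omega)
    have b1 : ∀ ρ < e.A1, ∀ y < e.A2, ‖(z1 (ρ * e.A2 + y) : ℂ)‖ ≤ 2 ^ e.kap * 2 * Z := by
      intro ρ hρ y hy
      have h1 := ft_avg a3 (e.p3 ++ e.p4) y (w := fun x => z (ρ * e.A2 + x))
        fun x hx => hZ _ (lt_mul_of_lt hρ hx)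
      have h2 := (norm_le_norm_add_norm_sub' _ _).trans (add_le_add_right (e1 ρ hρ y hy) _)
      have h4 : ‖(2 : ℂ) ^ e.kap‖ = 2 ^ e.kap := by simp
      rw [norm_mul, h4] at h2
      have h5 := mul_le_mul_of_nonneg_left h1 (by positivity : (0 : ℝ) ≤ 2 ^ e.kap)
      have h6 := mul_le_mul_of_nonneg_left hδ (by positivity : (0 : ℝ) ≤ 2 ^ e.kap * Z)
      nlinarith
    have r2 : Rep e.P (pw e.A2 * e.A1) (lowerF e.A1 e.A2 (2 * e.P) (f1 e l)) _ :=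
      ft_rep_fl (w := fun ρ x => if rowOf e.A1 e.A2 ρ < e.A2 then z1 (x * e.A2 + rowOf e.A1 e.A2 ρ)
        else 0) fun ρ _ x hx => by
          split_ifs with h
          · exact r1.ftBlk (lt_mul_of_lt hx h)
          · exact ft_repB_zero _
    obtain ⟨z3, r3, e3⟩ := s2 e _ _ (2 ^ e.kap * 2 * Z) he r2 fun i _ => by
      split_ifs with h
      · exact b1 _ (Nat.mod_lt _ a2) _ h
      · simp; positivity
    change Rep e.P (pw e.A2 * e.A1) _ _ at r3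
    refine ⟨_, ft_rep_fl (w := fun x y => z3 (rowInv e.A1 e.A2 y * e.A1 + x)) fun x hx y hy =>
      r3.ftBlk (lt_mul_of_lt (rowInv_lt he.le hy) hx), fun y1 h1 y2 h2 => ?_⟩
    have d1 : ∀ {a b x : ℕ}, x < b → (a * b + x) / b = a ∧ (a * b + x) % b = x := fun {a b x} hx =>
      ⟨by rw [Nat.add_comm, Nat.add_mul_div_right _ _ (by omega), Nat.div_eq_of_lt hx, zero_add],
        by rw [Nat.add_comm, Nat.add_mul_mod_self_right, Nat.mod_eq_of_lt hx]⟩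
    rw [(d1 h2).1, (d1 h2).2]
    refine ft_err a2 _ _ y1 y2 (z := fun x1 x2 => z (x1 * e.A2 + x2))
      (u := fun x => z1 (x * e.A2 + y2)) (fun x hx => e1 x hx y2 h2) ?_
    refine le_of_eq_of_le ?_ (e3 _ (rowInv_lt he.le h2) y1 h1)
    congr 4
    refine sum_congr rfl fun x hx => ?_
    have := d1 (a := rowInv e.A1 e.A2 y2) (b := e.A1) (mem_range.1 hx)
    change _ = _ * ((if rowOf e.A1 e.A2 ((rowInv e.A1 e.A2 y2 * e.A1 + x) / e.A1) < e.A2 then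
      z1 ((rowInv e.A1 e.A2 y2 * e.A1 + x) % e.A1 * e.A2 +
        rowOf e.A1 e.A2 ((rowInv e.A1 e.A2 y2 * e.A1 + x) / e.A1)) else 0 : GaussianInt) : ℂ)
    rw [this.1, this.2, rowOf_rowInv he.le h2, if_pos h2]

end Vale.Agent.P338
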