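import Vale.Agent.P338.ParamsA

/-! Job J17b: the choice of the parameters. -/

namespace Vale.Agent.P338

open PT

namespace Par

/-- the inequalities that hold for large `n` -/
structure Big (H c k0 n : ℕ) : Prop where
  hH : 2 ≤ H
  t7 : 7 ≤ tt n
  a : 72 * tt n ≤ n.size
  b : LL H c n ≤ n.size
  c : 2 * ((2 * k0 + 3) * tt n + 1) ≤ n.size
  d : tt n * (108 * H + 2 * k0 + 14) ≤ n.size
  e : 72 * tt n * H * (2 * ((tt n * (108 * H + 2 * k0 + 14) + 6) * k0) + 1) ≤ n.size

lemma ev_sq (C : ℕ) : ∃ n0, ∀ n, n0 ≤ n → C * tt n ^ 2 ≤ n.size ∧ 7 ≤ tt n := by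
  refine ⟨2 ^ 2 ^ (75 * C + 5), fun n hn => ?_⟩
  have h1 : 2 ^ (75 * C + 5) < n.size := Nat.lt_size.2 hn
  have h2 : 75 * C + 5 < n.size.size := Nat.lt_size.2 h1.le
  have h3 : 2 ^ (n.size.size - 1) ≤ n.size := Nat.lt_size.1 (by omega)
  refine ⟨?_, by unfold tt; omega⟩
  obtain ⟨u, hu⟩ : ∃ u, n.size.size = u + 1 := ⟨n.size.size - 1, by omega⟩
  unfold tt
  rw [hu] at h2 h3 ⊢
  rw [Nat.add_sub_cancel] at h3
  have h4 : u / 3 + 1 ≤ 2 ^ (u / 3) := Nat.lt_two_pow_self
  have h5 : (u / 3 + 1) ^ 3 ≤ 2 ^ u := by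
    refine (Nat.pow_le_pow_left h4 3).trans ?_
    rw [← pow_mul]
    exact Nat.pow_le_pow_right (by norm_num) (by omega)
  have h6 : u + 1 + 2 ≤ 5 * (u / 3 + 1) := by omega
  have h7 : 25 * C ≤ u / 3 + 1 := by omega
  calc C * (u + 1 + 2) ^ 2 ≤ C * (5 * (u / 3 + 1)) ^ 2 := by gcongr
    _ = 25 * C * (u / 3 + 1) ^ 2 := by ring
    _ ≤ (u / 3 + 1) * (u / 3 + 1) ^ 2 := by gcongr
    _ = (u / 3 + 1) ^ 3 := by ring
    _ ≤ n.size := h5.trans h3

lemma ev_big {H : ℕ} (hH : 2 ≤ H) (c k0 : ℕ) : ∃ n0, ∀ n, n0 ≤ n → Big H c k0 n := by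
  obtain ⟨G, hG⟩ : ∃ G, G = 108 * H + 2 * k0 + 14 := ⟨_, rfl⟩
  obtain ⟨n0, h⟩ := ev_sq (72 * H * (2 * ((G + 6) * k0) + 1) + 108 * H * (c + 1) + G +
    (4 * k0 + 8) + 72)
  refine ⟨n0, fun n hn => ?_⟩
  obtain ⟨h1, h2⟩ := h n hn
  obtain ⟨t, ht⟩ : ∃ t, t = tt n := ⟨_, rfl⟩
  rw [← ht] at h1 h2
  have h3 : ∀ a : ℕ, a * t ≤ a * t ^ 2 := fun a => Nat.mul_le_mul_left _ (by nlinarith)
  have h4 : (72 * H * (2 * ((G + 6) * k0) + 1) + 108 * H * (c + 1) + G + (4 * k0 + 8) + 72) * t ^ 2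
      = 72 * H * (2 * ((G + 6) * k0) + 1) * t ^ 2 + 108 * H * (c + 1) * t ^ 2 + G * t ^ 2 +
        (4 * k0 + 8) * t ^ 2 + 72 * t ^ 2 := by ring
  rw [h4] at h1
  refine ⟨hH, ht ▸ h2, ?_, ?_, ?_, ?_, ?_⟩
  all_goals simp only [LL, ← ht, ← hG]
  · have := h3 72; omega
  · have := h3 (108 * H * (c + 1)); omega
  · have := h3 (4 * k0 + 8)
    have h5 : 2 * ((2 * k0 + 3) * t + 1) ≤ (4 * k0 + 8) * t := by nlinarith
    omega
  · have := h3 G
    rw [mul_comm t]; omega
  · have h5 : 2 * ((t * G + 6) * k0) + 1 ≤ (2 * ((G + 6) * k0) + 1) * t := by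
      have : (t * G + 6) * k0 ≤ (G + 6) * k0 * t := by
        rw [mul_right_comm]; exact Nat.mul_le_mul_right _ (by nlinarith)
      nlinarith
    have h6 : 72 * t * H * (2 * ((t * G + 6) * k0) + 1) ≤
        72 * H * (2 * ((G + 6) * k0) + 1) * t ^ 2 :=
      (Nat.mul_le_mul_left _ h5).trans (le_of_eq (by ring))
    omega

lemma lt_TT (n : ℕ) : 4 * n.size < TT n := by
  have := Nat.lt_size_self n.size
  unfold TT tt
  rw [pow_add]; omega

lemma TT_pow (n a : ℕ) : TT n ^ a = 2 ^ (tt n * a) := by rw [TT, pow_mul]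

lemma TT_pos (n : ℕ) : 0 < TT n := by unfold TT; positivity

lemma TT_mono (n : ℕ) {a b : ℕ} (h : a ≤ b) : TT n ^ a ≤ TT n ^ b :=
  Nat.pow_le_pow_right (TT_pos n) h

lemma len_prs (n : ℕ) {a : ℕ} (ha : 2 ≤ a) : TT n ≤ (prs (TT n ^ a) (TT n ^ (3 * a))).length := by
  have h1 : 2 ≤ tt n := by unfold tt; omega
  have h := length_prs (u := tt n * a) (b := TT n ^ (3 * a)) (by nlinarith)
    (by rw [TT_pow]; exact le_of_eq (by ring_nf))
  rw [← TT_pow] at h
  exact (Nat.le_self_pow (by omega) _).trans h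

variable {H c k0 n : ℕ}

lemma Big.kk_spec (h : Big H c k0 n) :
    72 * tt n * kk H n ≤ n.size ∧ n.size < 72 * tt n * H * kk H n := by
  have h1 := h.t7
  have h2 := h.hH
  obtain ⟨a1, a2, a3⟩ := step_spec (F := fun d => 72 * tt n * H ^ min d n.size) (M := n.size)
    (m := n.size) (by simpa using h.a) (by
      have : n.size < H ^ n.size := Nat.lt_pow_self h2
      simp only [min_self]; nlinarith)
  change dd H n < _ at a1
  change 72 * tt n * H ^ min (dd H n) n.size ≤ _ at a2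
  change _ < 72 * tt n * H ^ min (dd H n + 1) n.size at a3
  rw [min_eq_left a1.le] at a2
  rw [min_eq_left a1, pow_succ] at a3
  exact ⟨a2, a3.trans_le (le_of_eq (by unfold kk; ring))⟩

lemma Big.kk_pos (h : Big H c k0 n) : 0 < kk H n := by
  have := h.hH; unfold kk; positivity

lemma Big.kk_le (h : Big H c k0 n) : kk H n ≤ n.size := by
  have := h.kk_spec.1; have := h.t7; nlinarith

lemma Big.kk_T (h : Big H c k0 n) : 4 * kk H n ≤ TT n := by
  have := h.kk_le; have := lt_TT n; omega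

lemma Big.T_ge (h : Big H c k0 n) : 128 ≤ TT n :=
  Nat.pow_le_pow_right (n := 2) (by norm_num) h.t7

lemma Big.mem_win (h : Big H c k0 n) {i x : ℕ} (hx : x ∈ win H n i) :
    TT n ^ 6 ≤ x ∧ x < TT n ^ (108 * H) ∧ x.Prime := by
  have := h.hH
  rcases List.mem_append.1 hx with hx | hx
  · obtain ⟨a1, a2, a3⟩ := mem_prs.1 (List.mem_of_mem_take hx)
    exact ⟨a1, a2.trans_le (TT_mono n (by omega)), a3⟩
  · obtain ⟨a1, a2, a3⟩ := mem_prs.1 (List.mem_of_mem_take hx)
    exact ⟨(TT_mono n (by omega)).trans a1, a2, a3⟩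

lemma Big.win_sorted (h : Big H c k0 n) (i : ℕ) : (win H n i).Pairwise (· < ·) := by
  have := h.hH
  refine List.pairwise_append.2 ⟨(prs_sorted _ _).sublist (List.take_sublist _ _),
    (prs_sorted _ _).sublist (List.take_sublist _ _), fun x hx y hy => ?_⟩
  have a1 := (mem_prs.1 (List.mem_of_mem_take hx)).2.1
  have a2 := (mem_prs.1 (List.mem_of_mem_take hy)).1
  exact a1.trans_le ((TT_mono n (by omega)).trans a2)

lemma Big.len1 (h : Big H c k0 n) : 2 * kk H n ≤ (prs (TT n ^ 6) (TT n ^ 18)).length := by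
  have h1 := len_prs n (a := 6) (by norm_num)
  have := h.kk_T
  norm_num at h1
  omega

lemma Big.len2 (h : Big H c k0 n) :
    2 * kk H n ≤ (prs (TT n ^ (36 * H)) (TT n ^ (108 * H))).length := by
  have := h.hH
  have h1 := len_prs n (a := 36 * H) (by omega)
  have := h.kk_T
  rw [show 3 * (36 * H) = 108 * H by ring] at h1
  omega

lemma Big.win_len (h : Big H c k0 n) {i : ℕ} (hi : i ≤ 2 * kk H n) :
    (win H n i).length = 2 * kk H n := by
  have := h.len1; have := h.len2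
  simp only [win, List.length_append, List.length_take]
  omega

lemma win_succ (H n i : ℕ) :
    (win H n (i + 1)).prod ≤ (win H n i).prod * TT n ^ (108 * H) := by
  simp only [win, List.prod_append, mul_assoc]
  refine Nat.mul_le_mul (prod_take_mono (fun x hx => (mem_prs.1 hx).2.2.pos) (by omega))
    (prod_take_succ (pow_pos (TT_pos n) _) (fun x hx => (mem_prs.1 hx).2.1.le) i)

lemma Big.win_zero (h : Big H c k0 n) : (win H n 0).prod ≤ n / TT n ^ (2 * k0 + 3) := by
  have h1 : (win H n 0).prod ≤ (TT n ^ 18) ^ (2 * kk H n) := by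
    rw [← h.win_len (i := 0) (by omega)]
    refine List.prod_le_pow_card _ _ fun x hx => ?_
    simp only [win, List.take_zero, List.append_nil] at hx
    exact (mem_prs.1 (List.mem_of_mem_take hx)).2.1.le
  rw [Nat.le_div_iff_mul_le (pow_pos (TT_pos n) _)]
  refine (Nat.mul_le_mul_right _ h1).trans ?_
  rw [← pow_mul, ← pow_add, TT_pow]
  have h2 := h.kk_spec.1
  have h3 := h.c
  refine Nat.lt_size.1 ?_
  nlinarith

lemma Big.win_top (h : Big H c k0 n) : n < (win H n (2 * kk H n)).prod := by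
  have h1 : (TT n ^ (36 * H)) ^ (2 * kk H n) ≤ (win H n (2 * kk H n)).prod := by
    conv_lhs => rw [← h.win_len (i := 2 * kk H n) le_rfl]
    refine List.pow_card_le_prod _ _ fun x hx => ?_
    simp only [win, Nat.sub_self, List.take_zero, List.nil_append] at hx
    exact (mem_prs.1 (List.mem_of_mem_take hx)).1
  refine lt_of_lt_of_le ?_ h1
  rw [← pow_mul, TT_pow]
  refine (Nat.lt_size_self n).trans_le (Nat.pow_le_pow_right (by norm_num) ?_)
  have h2 := h.kk_spec.2
  nlinarith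

lemma Big.ii_spec (h : Big H c k0 n) : ii H k0 n < 2 * kk H n ∧
    (WW H k0 n).prod * TT n ^ (2 * k0 + 3) ≤ n ∧
    n < (WW H k0 n).prod * TT n ^ (108 * H) * TT n ^ (2 * k0 + 3) := by
  have e : min (2 * kk H n) (TT n) = 2 * kk H n := min_eq_left (by have := h.kk_T; omega)
  obtain ⟨a1, a2, a3⟩ := step_spec (F := fun i => (win H n i).prod)
    (M := n / TT n ^ (2 * k0 + 3)) (m := min (2 * kk H n) (TT n)) h.win_zero
    (by rw [e]; exact (Nat.div_le_self _ _).trans_lt h.win_top)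
  change ii H k0 n < _ at a1
  change (WW H k0 n).prod ≤ _ at a2
  change _ < (win H n (ii H k0 n + 1)).prod at a3
  refine ⟨e ▸ a1, (Nat.le_div_iff_mul_le (pow_pos (TT_pos n) _)).1 a2, ?_⟩
  exact (Nat.div_lt_iff_lt_mul (pow_pos (TT_pos n) _)).1 (a3.trans_le (win_succ H n _))

lemma Big.W_len (h : Big H c k0 n) : (WW H k0 n).length = 2 * kk H n := h.win_len h.ii_spec.1.le

lemma Big.R_ge (h : Big H c k0 n) : 2 ≤ (WW H k0 n).prod := by
  have h1 : 2 ^ (WW H k0 n).length ≤ (WW H k0 n).prod :=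
    List.pow_card_le_prod _ _ fun x hx => (h.mem_win hx).2.2.two_le
  have := h.kk_pos
  exact (Nat.le_self_pow (by rw [h.W_len]; omega) 2).trans h1

lemma Big.bb_spec (h : Big H c k0 n) : TT n ^ (2 * k0 + 3) < bb H k0 n ∧
    bb H k0 n ≤ 3 * TT n ^ (108 * H + 2 * k0 + 3) ∧ (WW H k0 n).prod * bb H k0 n ≤ 4 * n ∧
    n ≤ bb H k0 n * ((WW H k0 n).prod / 2) ∧ (WW H k0 n).prod ≤ n := by
  obtain ⟨-, a1, a2⟩ := h.ii_spec
  have a3 := h.R_ge
  unfold bb
  set R := (WW H k0 n).prod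
  have a4 : 0 < R / 2 := by omega
  have a5 : R ≤ 3 * (R / 2) := by omega
  have a6 := Nat.div_mul_le_self n (R / 2)
  have a7 : R ≤ n := (Nat.le_mul_of_pos_right _ (pow_pos (TT_pos n) _)).trans a1
  refine ⟨Nat.lt_succ_of_le ((Nat.le_div_iff_mul_le a4).2 ?_), Nat.succ_le_of_lt ?_, ?_, ?_, a7⟩
  · refine le_trans ?_ a1
    rw [mul_comm]; exact Nat.mul_le_mul_right _ (Nat.div_le_self _ _)
  · rw [Nat.div_lt_iff_lt_mul a4]
    refine a2.trans_le ?_
    rw [mul_assoc, ← pow_add, ← add_assoc]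
    nlinarith [Nat.zero_le (TT n ^ (108 * H + 2 * k0 + 3))]
  · nlinarith [Nat.zero_le (n / (R / 2))]
  · exact (Nat.lt_div_mul_add a4).le.trans (le_of_eq (by ring))

lemma Big.L_pos (h : Big H c k0 n) : 0 < LL H c n := by
  have := h.hH; have := h.t7; unfold LL; positivity

lemma Big.P_le (h : Big H c k0 n) : PP H c k0 n ≤ 238 * (LL H c n * bb H k0 n) := by
  have h1 := h.bb_spec.1
  have h2 : kk H n ≤ TT n := by have := h.kk_T; omega
  have h3 : LL H c n ≤ TT n := by have := h.b; have := lt_TT n; omega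
  have h4 : kk H n * LL H c n ^ 2 ≤ bb H k0 n := by
    refine le_trans ?_ ((TT_mono n (by omega : 3 ≤ 2 * k0 + 3)).trans h1.le)
    calc kk H n * LL H c n ^ 2 ≤ TT n * TT n ^ 2 := by gcongr
      _ = TT n ^ 3 := by ring
  have h5 := h.L_pos
  have h6 : kk H n ≤ bb H k0 n := le_trans (Nat.le_mul_of_pos_right _ (by positivity)) h4
  have h7 : 0 < bb H k0 n := by omega
  have h8 : kk H n + 2 * pp H c k0 n ≤ 39 * bb H k0 n := by
    unfold pp; rw [mul_assoc]; omega
  have h9 := Nat.mul_le_mul_left (LL H c n) h8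
  have h10 : bb H k0 n ≤ LL H c n * bb H k0 n := Nat.le_mul_of_pos_left _ h5
  unfold PP
  rw [← mul_assoc, mul_right_comm] at h9
  omega

lemma Big.P_U (h : Big H c k0 n) : PP H c k0 n ≤ UU H k0 n := by
  refine h.P_le.trans ?_
  have h1 := h.bb_spec.2.1
  have h3 : LL H c n ≤ TT n := by have := h.b; have := lt_TT n; omega
  have h4 := h.T_ge
  calc 238 * (LL H c n * bb H k0 n) ≤ 238 * (TT n * (3 * TT n ^ (108 * H + 2 * k0 + 3))) := by
        gcongr
    _ = 714 * TT n ^ (108 * H + 2 * k0 + 4) := by ring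
    _ ≤ TT n ^ 2 * TT n ^ (108 * H + 2 * k0 + 4) := by gcongr; nlinarith
    _ ≤ UU H k0 n := by rw [← pow_add]; exact TT_mono n (by omega)

lemma Big.small_U (h : Big H c k0 n) : LL H c n * (kk H n + 2 * pp H c k0 n) ≤ UU H k0 n ∧
    pp H c k0 n ≤ UU H k0 n ∧ LL H c n ≤ UU H k0 n ∧ bb H k0 n ≤ UU H k0 n := by
  have h1 := h.P_U
  have h2 := h.L_pos
  have h3 := h.kk_pos
  unfold PP at h1
  refine ⟨by omega, by nlinarith, by nlinarith, by omega⟩

lemma len_un {x : ℕ} (hx : x ≤ UU H k0 n) : (un H k0 n x).length = x := by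
  simp [un, hx]

lemma map_un {l : List ℕ} (hl : ∀ x ∈ l, x ≤ UU H k0 n) :
    (l.map (un H k0 n)).map List.length = l := by
  rw [List.map_map]
  conv_rhs => rw [← List.map_id l]
  exact List.map_congr_left fun x hx => len_un (hl x hx)

lemma sz_un (x : ℕ) : sz (un H k0 n x) ≤ 2 * x + 1 := by
  have := sz_list_le (un H k0 n x) (B := 1) fun a _ => (sz_unit a).le
  have h2 : (un H k0 n x).length ≤ x := by simp [un]
  omega

lemma Big.sz_map (h : Big H c k0 n) {l : List ℕ} (hl : l.length ≤ kk H n)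
    (hx : ∀ x ∈ l, x < TT n ^ (108 * H)) : sz (l.map (un H k0 n)) ≤ 4 * UU H k0 n + 1 := by
  have h1 := sz_list_le (l.map (un H k0 n)) (B := 2 * TT n ^ (108 * H) + 1) fun a ha => by
    obtain ⟨x, hx', rfl⟩ := List.mem_map.1 ha
    have := sz_un (H := H) (k0 := k0) (n := n) x
    have := hx x hx'
    omega
  rw [List.length_map] at h1
  have h2 : l.length ≤ TT n := by have := h.kk_T; omega
  have h3 : 0 < TT n ^ (108 * H) := pow_pos (TT_pos n) _
  have h4 : TT n * TT n ^ (108 * H) ≤ UU H k0 n := by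
    rw [← pow_succ']; exact TT_mono n (by omega)
  have h5 : l.length * (2 * TT n ^ (108 * H) + 1 + 1) ≤ TT n * (4 * TT n ^ (108 * H)) :=
    Nat.mul_le_mul h2 (by omega)
  nlinarith

lemma mem_rr {x : ℕ} (hx : x ∈ rr H n) :
    TT n ≤ x ∧ x < TT n ^ 3 ∧ x.Prime := mem_prs.1 (List.mem_of_mem_take hx)

lemma Big.rr_len (h : Big H c k0 n) : (rr H n).length = kk H n := by
  have h1 := length_prs (u := tt n) (b := TT n ^ 3) (by have := h.t7; omega)
    (by rw [TT_pow, mul_comm])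
  change TT n ≤ (prs (TT n) (TT n ^ 3)).length at h1
  have := h.kk_T
  simp only [rr, List.length_take]
  omega

lemma Big.rows (h : Big H c k0 n) {A : List ℕ} (hA : A.Sublist (WW H k0 n))
    (hl : A.length = kk H n) {q1 q2 : List ℕ} (hq : (q1 ++ q2).Sublist (WW H k0 n))
    (hql : (q1 ++ q2).length = kk H n) :
    RowsOK H c A.prod q1 q2 (rr H n) (PP H c k0 n) (LL H c n) := by
  have hT := h.T_ge
  have hH := h.hH
  have hs : (rr H n).Pairwise (· < ·) := (prs_sorted _ _).sublist (List.take_sublist _ _)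
  refine ⟨⟨dd H n, h.rr_len⟩, hql.trans h.rr_len.symm,
    coprime_of_primes ((h.win_sorted _).sublist hq) fun x hx => (h.mem_win (hq.subset hx)).2.2,
    fun p hp => ?_, hs, coprime_of_primes hs fun x hx => (mem_rr hx).2.2, fun r hr => ?_, ?_,
    ⟨54 * H * (c + 1) * tt n, by unfold LL; ring⟩, by unfold PP; omega⟩
  · obtain ⟨a1, a2, a3⟩ := h.mem_win (hq.subset hp)
    have a4 : TT n ≤ p := (Nat.le_self_pow (by norm_num) _).trans a1
    refine ⟨a3.odd_of_ne_two (by omega), by omega, ?_⟩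
    rw [TT_pow] at a2
    have := Nat.size_le.2 a2
    unfold LL
    nlinarith [Nat.zero_le (tt n * H)]
  · obtain ⟨a1, a2, a3⟩ := mem_rr hr
    refine ⟨a3.odd_of_ne_two (by omega), by rw [h.rr_len]; exact h.kk_T.trans a1, ?_⟩
    rw [TT_pow] at a2
    have := Nat.size_le.2 a2
    unfold LL
    nlinarith [Nat.zero_le (tt n * H * c), Nat.mul_le_mul_left (tt n) hH]
  · have a1 : (rr H n).prod ≤ (TT n ^ 3) ^ (rr H n).length :=
      List.prod_le_pow_card _ _ fun x hx => (mem_rr hx).2.1.le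
    have a2 : (TT n ^ 6) ^ A.length ≤ A.prod :=
      List.pow_card_le_prod _ _ fun x hx => (h.mem_win (hA.subset hx)).1
    refine (Nat.pow_le_pow_left a1 2).trans (le_trans (le_of_eq ?_) a2)
    rw [h.rr_len, hl]; ring

lemma sz_OP (e : OP) : sz e = sz e.q1 + sz e.q2 + sz e.q3 + sz e.q4 + sz e.qr + sz e.uP +
    sz e.upi + sz e.uL + sz e.ub + 8 := by
  change sz (e.q1, e.q2, e.q3, e.q4, e.qr, e.uP, e.upi, e.uL, e.ub) = _
  simp only [sz_prod]; ring

lemma Big.hW (h : Big H c k0 n) {l : List ℕ} (hl : l.Sublist (WW H k0 n)) :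
    ∀ x ∈ l, x < TT n ^ (108 * H) := fun _ hx => (h.mem_win (hl.subset hx)).2.1

lemma Big.hr3 (h : Big H c k0 n) : ∀ x ∈ rr H n, x < TT n ^ (108 * H) := fun _ hx =>
  (mem_rr hx).2.1.trans_le (TT_mono n (by have := h.hH; omega))

lemma Big.sm (h : Big H c k0 n) {A1 A2 : ℕ} (h1 : A1 ≤ n) (h2 : A2 ≤ n) :
    (sz (A1, A2, PP H c k0 n, bb H k0 n, LL H c n * (kk H n + 2 * pp H c k0 n)) + 1) ^ k0 ≤
      bb H k0 n := by
  have hn := Nat.lt_size_self n
  have hU : UU H k0 n ≤ 2 ^ n.size := by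
    rw [UU, TT_pow]; exact Nat.pow_le_pow_right (by norm_num) h.d
  have z : ∀ x, x ≤ 2 ^ n.size → sz x ≤ 4 * (n.size + 1) + 1 := fun x hx =>
    sz_nat_le_of_lt (by rw [pow_succ]; have := Nat.two_pow_pos n.size; omega)
  have z1 := z A1 (h1.trans hn.le)
  have z2 := z A2 (h2.trans hn.le)
  have z3 := z _ (h.P_U.trans hU)
  have z4 := z _ (h.small_U.2.2.2.trans hU)
  have z5 := z _ (h.small_U.1.trans hU)
  have hl := lt_TT n
  have hT : 128 * TT n ≤ TT n ^ 2 := by rw [sq]; exact Nat.mul_le_mul_right _ h.T_ge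
  simp only [sz_prod]
  refine le_trans (Nat.pow_le_pow_left (m := TT n ^ 2) (by have := h.T_ge; omega) k0) ?_
  rw [← pow_mul]
  exact (TT_mono n (by omega)).trans h.bb_spec.1.le

lemma Big.big (h : Big H c k0 n) {l : List ℕ} (hl : l.Sublist (WW H k0 n))
    (hk : kk H n / 2 ≤ l.length) : (sz (par H c k0 n) + 1) ^ k0 ≤ l.prod := by
  have hWl := h.W_len
  have s1 := List.take_sublist (kk H n) (WW H k0 n)
  have s2 := List.drop_sublist (kk H n) (WW H k0 n)
  have z : sz (par H c k0 n) + 1 ≤ 2 ^ (tt n * (108 * H + 2 * k0 + 14) + 6) := by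
    rw [pow_add, ← TT_pow, sz_OP]
    have z1 := h.sz_map (by simp only [List.length_take]; omega)
      (h.hW ((List.take_sublist (kk H n / 2) _).trans s1))
    have z2 := h.sz_map (by simp only [List.length_take, List.length_drop]; omega)
      (h.hW ((List.drop_sublist (kk H n / 2) _).trans s1))
    have z3 := h.sz_map (by simp only [List.length_take]; omega)
      (h.hW ((List.take_sublist (kk H n / 2) _).trans s2))
    have z4 := h.sz_map (by simp only [List.length_drop]; omega)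
      (h.hW ((List.drop_sublist (kk H n / 2) _).trans s2))
    have z5 := h.sz_map (l := rr H n) h.rr_len.le h.hr3
    have z6 := sz_un (H := H) (k0 := k0) (n := n) (PP H c k0 n)
    have z7 := sz_un (H := H) (k0 := k0) (n := n) (pp H c k0 n)
    have z8 := sz_un (H := H) (k0 := k0) (n := n) (LL H c n)
    have z9 := sz_un (H := H) (k0 := k0) (n := n) (bb H k0 n)
    have z10 := h.P_U
    obtain ⟨-, u2, u3, u4⟩ := h.small_U
    have z11 : 0 < UU H k0 n := pow_pos (TT_pos n) _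
    change _ ≤ UU H k0 n * 2 ^ 6
    simp only [par]
    omega
  have z' : (sz (par H c k0 n) + 1) ^ k0 ≤ 2 ^ (kk H n / 2) := by
    refine (Nat.pow_le_pow_left z k0).trans ?_
    rw [← pow_mul]
    refine Nat.pow_le_pow_right (by norm_num) ?_
    have := Nat.lt_of_mul_lt_mul_left (h.e.trans_lt h.kk_spec.2)
    omega
  exact z'.trans ((Nat.pow_le_pow_right (by norm_num) hk).trans
    (List.pow_card_le_prod _ _ fun x hx => (h.mem_win (hl.subset hx)).2.2.two_le))

lemma Big.main (h : Big H c k0 n) : (par H c k0 n).OK H c k0 ∧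
    (par H c k0 n).b = bb H k0 n ∧ (par H c k0 n).R = (WW H k0 n).prod ∧
    (par H c k0 n).P = PP H c k0 n ∧ (par H c k0 n).L = LL H c n := by
  have hH := h.hH
  have hBU : TT n ^ (108 * H) ≤ UU H k0 n := TT_mono n (by omega)
  have hW' : ∀ {l : List ℕ}, l.Sublist (WW H k0 n) → ∀ x ∈ l, x ≤ UU H k0 n :=
    fun hl x hx => (h.hW hl x hx).le.trans hBU
  have s1 := List.take_sublist (kk H n) (WW H k0 n)
  have s2 := List.drop_sublist (kk H n) (WW H k0 n)
  have s11 := (List.take_sublist (kk H n / 2) _).trans s1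
  have s12 := (List.drop_sublist (kk H n / 2) _).trans s1
  have s21 := (List.take_sublist (kk H n / 2) _).trans s2
  have s22 := (List.drop_sublist (kk H n / 2) _).trans s2
  have e1 : (par H c k0 n).p1 = _ := map_un (hW' s11)
  have e2 : (par H c k0 n).p2 = _ := map_un (hW' s12)
  have e3 : (par H c k0 n).p3 = _ := map_un (hW' s21)
  have e4 : (par H c k0 n).p4 = _ := map_un (hW' s22)
  have er : (par H c k0 n).rs = rr H n := map_un fun x hx => (h.hr3 x hx).le.trans hBU
  obtain ⟨u1, u2, u3, u4⟩ := h.small_U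
  have eP : (par H c k0 n).P = PP H c k0 n := len_un h.P_U
  have epi : (par H c k0 n).pi = pp H c k0 n := len_un u2
  have eL : (par H c k0 n).L = LL H c n := len_un u3
  have eb : (par H c k0 n).b = bb H k0 n := len_un u4
  have eA1 : (par H c k0 n).A1 = ((WW H k0 n).take (kk H n)).prod := by
    rw [OP.A1, e1, e2, List.take_append_drop]
  have eA2 : (par H c k0 n).A2 = ((WW H k0 n).drop (kk H n)).prod := by
    rw [OP.A2, e3, e4, List.take_append_drop]
  have eW : ((WW H k0 n).take (kk H n)).prod * ((WW H k0 n).drop (kk H n)).prod =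
      (WW H k0 n).prod := by
    rw [← List.prod_append, List.take_append_drop]
  have eR : (par H c k0 n).R = (WW H k0 n).prod := by rw [OP.R, eA1, eA2, eW]
  have ek : (par H c k0 n).kap = LL H c n * (kk H n + 2 * pp H c k0 n) := by
    rw [OP.kap, eL, er, epi, h.rr_len]
  have hWl := h.W_len
  have l1 : ((WW H k0 n).take (kk H n)).length = kk H n := by rw [List.length_take]; omega
  have l2 : ((WW H k0 n).drop (kk H n)).length = kk H n := by rw [List.length_drop]; omega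
  have hsort : (WW H k0 n).Pairwise (· < ·) := h.win_sorted _
  have hcop := coprime_of_primes hsort fun x hx => (h.mem_win hx).2.2
  rw [← List.take_append_drop (kk H n) (WW H k0 n), List.pairwise_append] at hsort hcop
  obtain ⟨b1, -, -, -, b5⟩ := h.bb_spec
  have hpos : ∀ {l : List ℕ}, l.Sublist (WW H k0 n) → 0 < l.prod := fun hl =>
    List.prod_pos fun x hx => (h.mem_win (hl.subset hx)).2.2.pos
  refine ⟨⟨?_, ?_, ?_, ?_, ?_, ?_, ?_, ?_, ?_⟩, eb, eR, eP, eL⟩
  · rw [eA1, e3, e4, er, eP, eL]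
    exact h.rows s1 l1 (by rw [List.take_append_drop]; exact s2)
      (by rw [List.take_append_drop]; exact l2)
  · rw [eA2, e1, e2, er, eP, eL]
    exact h.rows s2 l2 (by rw [List.take_append_drop]; exact s1)
      (by rw [List.take_append_drop]; exact l1)
  · rw [eA1, eA2, Nat.coprime_list_prod_left_iff]
    exact fun x hx => Nat.coprime_list_prod_right_iff.2 fun y hy => hcop.2.2 x hx y hy
  · rw [eA1, eA2]
    exact prod_le_prod (l1.trans l2.symm) fun x hx y hy => (hsort.2.2 x hx y hy).le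
  · rw [eA1, eA2, eP, eb, ek]
    exact h.sm ((Nat.le_mul_of_pos_right _ (hpos s2)).trans (eW.le.trans b5))
      ((Nat.le_mul_of_pos_left _ (hpos s1)).trans (eW.le.trans b5))
  · intro q hq
    simp only [List.mem_cons, List.not_mem_nil, or_false] at hq
    rcases hq with rfl | rfl | rfl | rfl
    · rw [e1]; exact h.big s11 (by rw [List.length_take]; omega)
    · rw [e2]; exact h.big s12 (by rw [List.length_drop]; omega)
    · rw [e3]; exact h.big s21 (by rw [List.length_take]; omega)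
    · rw [e4]; exact h.big s22 (by rw [List.length_drop]; omega)
  · rw [eR, eb]
    have : TT n ≤ TT n ^ (2 * k0 + 3) := Nat.le_self_pow (by omega) _
    have hl := lt_TT n
    exact b5.trans ((Nat.lt_size_self n).le.trans (Nat.pow_le_pow_right (by norm_num) (by omega)))
  · rw [OP.ex, er, eL, eb, epi, h.rr_len]; exact le_rfl
  · rw [ek, eb, eP]; exact le_rfl

end Par

open Par in
theorem params {H : ℕ} (hH : 2 ≤ H) (c k0 : ℕ) : ∃ par : ℕ → OP, PTime par ∧ ∃ K n0 : ℕ,
    ∀ n, n0 ≤ n → (par n).OK H c k0 ∧ n ≤ (par n).b * ((par n).R / 2) ∧ (par n).R ≤ n ∧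
      (par n).R * (par n).P ≤ K * (n * n.size.size) ∧ (par n).L ≤ K * n.size.size ∧
      (par n).P ≤ n.size ^ K := by
  obtain ⟨n0, h0⟩ := ev_big hH c k0
  refine ⟨par H c k0, ptime_par H c k0,
    952 * (216 * H * (c + 1)) + 2 * (108 * H + 2 * k0 + 14), n0, fun n hn => ?_⟩
  have h := h0 n hn
  obtain ⟨a1, a2, a3, a4, a5⟩ := h.main
  obtain ⟨b1, b2, b3, b4, b5⟩ := h.bb_spec
  rw [a2, a3, a4, a5]
  have hL : LL H c n ≤ 216 * H * (c + 1) * n.size.size := by
    have := h.t7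
    unfold LL tt at *
    nlinarith [Nat.zero_le (H * (c + 1))]
  refine ⟨a1, b4, b5, ?_, hL.trans (Nat.mul_le_mul_right _ (by omega)), h.P_U.trans ?_⟩
  · calc (WW H k0 n).prod * PP H c k0 n ≤ (WW H k0 n).prod * (238 * (LL H c n * bb H k0 n)) :=
          Nat.mul_le_mul_left _ h.P_le
      _ = 238 * LL H c n * ((WW H k0 n).prod * bb H k0 n) := by ring
      _ ≤ 238 * (216 * H * (c + 1) * n.size.size) * (4 * n) := by gcongr
      _ = 952 * (216 * H * (c + 1)) * (n * n.size.size) := by ring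
      _ ≤ _ := Nat.mul_le_mul_right _ (by omega)
  · have h1 := TT_le n
    have h2 := h.a
    have h3 := h.t7
    have h4 : TT n ≤ n.size ^ 2 := by nlinarith
    refine (Nat.pow_le_pow_left h4 _).trans ?_
    rw [← pow_mul]
    exact Nat.pow_le_pow_right (by omega) (by omega)

end Vale.Agent.P338
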