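import Vale.Agent.P338.Core
import Vale.Agent.P338.Defs

/-! Job J1: compilation of the stack language to multitape Turing machines. -/

namespace Vale.Agent.P338

open PT Function

namespace ToTM

abbrev G : Type := Option (Option Bool)

/-- instructions of a labelled program -/
inductive Ins (Λ : Type) : Type
  | halt
  | goto (n : Λ)
  | push (r : Rg) (x : Bool) (n : Λ)
  | pop (r : Rg) (f : G → Λ)
  | read (f : G → Λ)

/-- the role of a tape -/
def E : Fin (6 + 1) → Option Rg := ![none, some .a, some .b, some .c, some .d, some .i, some .o]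

/-- the tape of a role -/
def ix : Option Rg → Fin (6 + 1)
  | none => 0
  | some .a => 1
  | some .b => 2
  | some .c => 3
  | some .d => 4
  | some .i => 5
  | some .o => 6

lemma E_ix (o : Option Rg) : E (ix o) = o := by
  rcases o with _ | r
  · rfl
  · cases r <;> rfl

lemma ix_E (j : Fin (6 + 1)) : ix (E j) = j := by
  revert j; decide

/-- act on one tape only -/
def act (o : Option Rg) (s : G) (m : Move) (sc : Fin (6 + 1) → G) : Fin (6 + 1) → G × Move :=
  fun j => if E j = o then (s, m) else (sc j, .stay)

def del {Λ : Type} (M : Λ → Ins Λ) (q : Λ × Bool) (sc : Fin (6 + 1) → G) :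
    Option ((Λ × Bool) × (Fin (6 + 1) → G × Move)) :=
  match M q.1 with
  | .halt => none
  | .goto n => some ((n, false), act none (sc (ix none)) .stay sc)
  | .push r x n => some ((n, false), act (some r) (some (some x)) .right sc)
  | .pop r f =>
    if q.2 then some ((f (sc (ix (some r))), false), act (some r) none .stay sc)
    else some ((q.1, true), act (some r) (sc (ix (some r))) .left sc)
  | .read f => some ((f (sc (ix none)), false), act none (sc (ix none)) .right sc)

variable {Λ : Type} [Finite Λ] (M : Λ → Ins Λ) (s₀ : Λ)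

/-- the machine of a labelled program -/
@[reducible] def mach : MTM where
  k := 6
  Q := Λ × Bool
  Γ := G
  finQ := inferInstance
  finΓ := inferInstance
  blank := none
  sym := some
  sym_inj := Option.some_injective _
  sym_ne_blank := fun _ => Option.some_ne_none _
  start := (s₀, false)
  out := ix (some .o)
  δ := del M

/-- a written tape -/
def wr (w : List (Option Bool)) : ℕ → G := fun i => w[i]?

lemma written_eq (w : List (Option Bool)) : (mach M s₀).written w = wr w := by
  funext i
  simp only [MTM.written, wr, List.getD_eq_getElem?_getD, List.getElem?_map]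
  cases w[i]? <;> rfl

/-- configurations indexed by the roles -/
def cf (q : Λ × Bool) (t : Option Rg → ℕ → G) (h : Option Rg → ℕ) : (mach M s₀).Cfg :=
  ⟨q, fun j => t (E j), fun j => h (E j)⟩

lemma step_cf {q q' : Λ × Bool} {t : Option Rg → ℕ → G} {h : Option Rg → ℕ} {o : Option Rg}
    {s : G} {m : Move}
    (e : del M q (fun j => t (E j) (h (E j))) = some (q', act o s m fun j => t (E j) (h (E j)))) :
    (mach M s₀).step (cf M s₀ q t h) =
      cf M s₀ q' (update t o (update (t o) (h o) s)) (update h o (m.apply (h o))) := by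
  have e' : (mach M s₀).δ (cf M s₀ q t h).q ((mach M s₀).scanned (cf M s₀ q t h)) = _ := e
  unfold MTM.step
  rw [e']
  unfold cf act
  simp only
  congr 1
  · funext j
    by_cases hj : E j = o
    · simp [hj]
    · simp [hj]
  · funext j
    by_cases hj : E j = o
    · simp [hj]
    · simp [hj, Move.apply]

def tp (w : List (Option Bool)) (S : St) : Option Rg → ℕ → G
  | none => wr w
  | some r => wr ((S r).reverse.map some)

def hd (p : ℕ) (S : St) : Option Rg → ℕ
  | none => p
  | some r => (S r).length

/-- the configuration holding the stacks `S` -/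
def cfg (w : List (Option Bool)) (l : Λ) (p : ℕ) (S : St) : (mach M s₀).Cfg :=
  cf M s₀ (l, false) (tp w S) (hd p S)

lemma tp_update (w : List (Option Bool)) (S : St) (r : Rg) (l : List Bool) :
    tp w (update S r l) = update (tp w S) (some r) (wr (l.reverse.map some)) := by
  funext o
  rcases o with _ | r'
  · simp [tp]
  · by_cases h : r' = r
    · simp [tp, h]
    · simp [tp, h]

lemma hd_update (p : ℕ) (S : St) (r : Rg) (l : List Bool) :
    hd p (update S r l) = update (hd p S) (some r) l.length := by
  funext o
  rcases o with _ | r'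
  · simp [hd]
  · by_cases h : r' = r
    · simp [hd, h]
    · simp [hd, h]

lemma wr_snoc (u : List (Option Bool)) (x : Option Bool) :
    update (wr u) u.length (some x) = wr (u ++ [x]) := by
  funext i
  rcases lt_trichotomy i u.length with h | rfl | h
  · rw [update_of_ne h.ne]
    simp [wr, List.getElem?_append_left h]
  · simp [wr]
  · rw [update_of_ne h.ne']
    simp only [wr]
    rw [List.getElem?_eq_none h.le, List.getElem?_eq_none (by simp; omega)]

lemma wr_pop (u : List (Option Bool)) (x : Option Bool) :
    update (wr (u ++ [x])) u.length none = wr u := by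
  rw [← wr_snoc, update_idem]
  exact update_eq_self_iff.2 (by simp [wr])

/-- reachability within a number of steps -/
def Re {A : MTM} (c c' : A.Cfg) (t : ℕ) : Prop := ∃ m ≤ t, A.step^[m] c = c'

lemma Re.one {A : MTM} {c c' : A.Cfg} (h : A.step c = c') : Re c c' 1 := ⟨1, le_rfl, h⟩

lemma Re.mono {A : MTM} {c c' : A.Cfg} {t t' : ℕ} (h : Re c c' t) (ht : t ≤ t') : Re c c' t' :=
  let ⟨m, h1, h2⟩ := h; ⟨m, h1.trans ht, h2⟩

lemma Re.trans {A : MTM} {c c' c'' : A.Cfg} {t t' : ℕ} (h : Re c c' t) (h' : Re c' c'' t') :
    Re c c'' (t + t') := by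
  obtain ⟨m, h1, rfl⟩ := h
  obtain ⟨m', h2, rfl⟩ := h'
  exact ⟨m' + m, by omega, iterate_add_apply _ _ _ _⟩

variable {M s₀} {w : List (Option Bool)} {l n : Λ} {p : ℕ} {S : St}

lemma re_goto (h : M l = .goto n) : Re (cfg M s₀ w l p S) (cfg M s₀ w n p S) 1 := by
  refine Re.one ((step_cf M s₀ (q' := (n, false)) (o := none) (s := wr w p) (m := .stay)
    (by simp only [del, h]; rfl)).trans ?_)
  unfold cfg
  congr 1
  · exact update_eq_self_iff.2 (update_eq_self _ _)
  · exact update_eq_self_iff.2 rfl

lemma re_read {f : G → Λ} (h : M l = .read f) :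
    Re (cfg M s₀ w l p S) (cfg M s₀ w (f w[p]?) (p + 1) S) 1 := by
  refine Re.one ((step_cf M s₀ (q' := (f w[p]?, false)) (o := none) (s := wr w p) (m := .right)
    (by simp only [del, h]; rfl)).trans ?_)
  unfold cfg
  congr 1
  · exact update_eq_self_iff.2 (update_eq_self _ _)
  · funext o
    rcases o with _ | r
    · rfl
    · rfl

lemma re_push {r : Rg} {x : Bool} (h : M l = .push r x n) :
    Re (cfg M s₀ w l p S) (cfg M s₀ w n p (update S r (x :: S r))) 1 := by
  refine Re.one ((step_cf M s₀ (q' := (n, false)) (o := some r) (s := some (some x))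
    (m := .right) (by simp only [del, h])).trans ?_)
  unfold cfg
  rw [tp_update, hd_update, List.reverse_cons, List.map_append, List.map_singleton, ← wr_snoc]
  simp [tp, hd, Move.apply]

lemma re_pop {r : Rg} {f : G → Λ} (h : M l = .pop r f) :
    Re (cfg M s₀ w l p S) (cfg M s₀ w (f ((S r).head?.map some)) p (update S r (S r).tail)) 2 := by
  have s1 := step_cf M s₀ (q := (l, false)) (q' := (l, true)) (t := tp w S) (h := hd p S)
    (o := some r) (s := tp w S (some r) (hd p S (some r))) (m := .left)
    (by simp [del, h, E_ix])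
  rw [update_eq_self, update_eq_self] at s1
  have s2 := step_cf M s₀ (q := (l, true)) (q' := (f ((S r).head?.map some), false)) (t := tp w S)
    (h := update (hd p S) (some r) (Move.left.apply (hd p S (some r))))
    (o := some r) (s := none) (m := .stay) (by
      simp only [del, h, E_ix, update_self, if_true]
      congr 4
      simp only [tp, hd, wr, Move.apply]
      cases S r <;> simp)
  refine (Re.one s1).trans (Re.one (s2.trans ?_))
  unfold cfg
  rw [tp_update, hd_update, update_idem, update_self]
  congr 2
  · simp only [tp, hd, Move.apply]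
    cases S r with
    | nil => exact update_eq_self_iff.2 rfl
    | cons x u =>
      simpa using wr_pop (u.reverse.map some) (some x)
  · simp [hd, Move.apply]

/-! ### compilation -/

def Lab : Cm → Type
  | .push _ _ => Unit
  | .skip => Unit
  | .seq p q => Lab p ⊕ Lab q
  | .cases _ p0 pf pt => Unit ⊕ Lab p0 ⊕ Lab pf ⊕ Lab pt
  | .loop _ pf pt => Unit ⊕ Lab pf ⊕ Lab pt

instance finite_Lab : ∀ c, Finite (Lab c)
  | .push _ _ => inferInstanceAs (Finite Unit)
  | .skip => inferInstanceAs (Finite Unit)
  | .seq p q => have := finite_Lab p; have := finite_Lab q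
    inferInstanceAs (Finite (Lab p ⊕ Lab q))
  | .cases _ p0 pf pt => have := finite_Lab p0; have := finite_Lab pf; have := finite_Lab pt
    inferInstanceAs (Finite (Unit ⊕ Lab p0 ⊕ Lab pf ⊕ Lab pt))
  | .loop _ pf pt => have := finite_Lab pf; have := finite_Lab pt
    inferInstanceAs (Finite (Unit ⊕ Lab pf ⊕ Lab pt))

def entry : ∀ c, Lab c
  | .push _ _ => ()
  | .skip => ()
  | .seq p _ => Sum.inl (entry p)
  | .cases _ _ _ _ => Sum.inl ()
  | .loop _ _ _ => Sum.inl ()

def br {Λ : Type} (k : Rg) (q0 qf qt : Λ) : Ins Λ :=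
  .pop k fun s => if s = some (some false) then qf else if s = some (some true) then qt else q0

def code {Λ : Type} : ∀ c, (Lab c → Λ) → Λ → Lab c → Ins Λ
  | .push k x, _, nx, _ => .push k x nx
  | .skip, _, nx, _ => .goto nx
  | .seq p q, inj, _, Sum.inl l => code p (fun l => inj (Sum.inl l)) (inj (Sum.inr (entry q))) l
  | .seq _ q, inj, nx, Sum.inr l => code q (fun l => inj (Sum.inr l)) nx l
  | .cases k p0 pf pt, inj, _, Sum.inl _ => br k (inj (Sum.inr (Sum.inl (entry p0))))
      (inj (Sum.inr (Sum.inr (Sum.inl (entry pf)))))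
      (inj (Sum.inr (Sum.inr (Sum.inr (entry pt)))))
  | .cases _ p0 _ _, inj, nx, Sum.inr (Sum.inl l) =>
      code p0 (fun l => inj (Sum.inr (Sum.inl l))) nx l
  | .cases _ _ pf _, inj, nx, Sum.inr (Sum.inr (Sum.inl l)) =>
      code pf (fun l => inj (Sum.inr (Sum.inr (Sum.inl l)))) nx l
  | .cases _ _ _ pt, inj, nx, Sum.inr (Sum.inr (Sum.inr l)) =>
      code pt (fun l => inj (Sum.inr (Sum.inr (Sum.inr l)))) nx l
  | .loop k pf pt, inj, nx, Sum.inl _ => br k nx (inj (Sum.inr (Sum.inl (entry pf))))
      (inj (Sum.inr (Sum.inr (entry pt))))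
  | .loop _ pf _, inj, _, Sum.inr (Sum.inl l) =>
      code pf (fun l => inj (Sum.inr (Sum.inl l))) (inj (Sum.inl ())) l
  | .loop _ _ pt, inj, _, Sum.inr (Sum.inr l) =>
      code pt (fun l => inj (Sum.inr (Sum.inr l))) (inj (Sum.inl ())) l

lemma br_nil {k : Rg} {q0 qf qt : Λ} (h : M l = br k q0 qf qt) (h0 : S k = []) :
    Re (cfg M s₀ w l p S) (cfg M s₀ w q0 p S) 2 := by
  have := re_pop (s₀ := s₀) (w := w) (p := p) (S := S) h
  rw [h0, List.tail_nil, update_eq_self_iff.2 h0.symm] at this
  exact this

lemma br_false {k : Rg} {q0 qf qt : Λ} {u : List Bool} (h : M l = br k q0 qf qt)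
    (h0 : S k = false :: u) : Re (cfg M s₀ w l p S) (cfg M s₀ w qf p (update S k u)) 2 := by
  have := re_pop (s₀ := s₀) (w := w) (p := p) (S := S) h
  rw [h0] at this
  exact this

lemma br_true {k : Rg} {q0 qf qt : Λ} {u : List Bool} (h : M l = br k q0 qf qt)
    (h0 : S k = true :: u) : Re (cfg M s₀ w l p S) (cfg M s₀ w qt p (update S k u)) 2 := by
  have := re_pop (s₀ := s₀) (w := w) (p := p) (S := S) h
  rw [h0] at this
  exact this

lemma sim {c : Cm} {S S' : St} {n : ℕ} (h : Ex c S S' n) :
    ∀ (inj : Lab c → Λ) (nx : Λ), (∀ l, M (inj l) = code c inj nx l) →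
      Re (cfg M s₀ w (inj (entry c)) p S) (cfg M s₀ w nx p S') (2 * n) := by
  induction h with
  | push k x S => exact fun inj nx hM => (re_push (hM ())).mono (by omega)
  | skip S => exact fun inj nx hM => (re_goto (hM ())).mono (by omega)
  | seq _ _ ih1 ih2 =>
    exact fun inj nx hM => ((ih1 _ _ fun l => hM (Sum.inl l)).trans
      (ih2 _ _ fun l => hM (Sum.inr l))).mono (by omega)
  | casesE h0 _ ih =>
    exact fun inj nx hM => ((br_nil (hM (Sum.inl ())) h0).trans
      (ih _ _ fun l => hM (Sum.inr (Sum.inl l)))).mono (by omega)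
  | casesF h0 _ ih =>
    exact fun inj nx hM => ((br_false (hM (Sum.inl ())) h0).trans
      (ih _ _ fun l => hM (Sum.inr (Sum.inr (Sum.inl l))))).mono (by omega)
  | casesT h0 _ ih =>
    exact fun inj nx hM => ((br_true (hM (Sum.inl ())) h0).trans
      (ih _ _ fun l => hM (Sum.inr (Sum.inr (Sum.inr l))))).mono (by omega)
  | loopE h0 => exact fun inj nx hM => br_nil (hM (Sum.inl ())) h0
  | loopF h0 _ _ ih1 ih2 =>
    exact fun inj nx hM => (((br_false (hM (Sum.inl ())) h0).trans
      (ih1 _ _ fun l => hM (Sum.inr (Sum.inl l)))).trans (ih2 _ _ hM)).mono (by omega)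
  | loopT h0 _ _ ih1 ih2 =>
    exact fun inj nx hM => (((br_true (hM (Sum.inl ())) h0).trans
      (ih1 _ _ fun l => hM (Sum.inr (Sum.inr l)))).trans (ih2 _ _ hM)).mono (by omega)

lemma simR {c : Cm} {S S' : St} {n : ℕ} (h : Rn c S S' n) (inj : Lab c → Λ) (nx : Λ)
    (hM : ∀ l, M (inj l) = code c inj nx l) :
    Re (cfg M s₀ w (inj (entry c)) p S) (cfg M s₀ w nx p S') (2 * n) :=
  let ⟨_, h1, h2⟩ := h
  (sim h2 inj nx hM).mono (by omega)

/-! ### input and output -/

def psh : List Bool → Cm
  | [] => .skip
  | x :: u => .seq (.push .b x) (psh u)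

lemma rn_psh (u b : List Bool) :
    Rn (psh u) (mk [] b [] [] [] []) (mk [] (u.reverse ++ b) [] [] [] []) (u.length + 1) := by
  induction u generalizing b with
  | nil => exact Rn.skip _
  | cons x u ih =>
    refine (Rn.seq (Rn.push .b x _) (by simpa using! ih (x :: b))).mono ?_
    simp only [List.length_cons]
    omega

/-- decode a list of bits from the stack `a` to the stack `o` -/
def dec : Cm :=
  .loop .a .skip (.cases .a .skip (.push .o false) (.seq popA (.seq popA (.push .o true))))

lemma rn_dec (y o : List Bool) :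
    Rn dec (st (encode y) [] o) (st [] [] (y.reverse ++ o)) (7 * y.length + 3) := by
  induction y generalizing o with
  | nil =>
    exact (Rn.loopF (l := []) rfl (by simpa using! Rn.skip (st [] [] o)) (Rn.loopE rfl)).mono
      (by simp)
  | cons x y ih =>
    cases x
    · refine (Rn.loopT (l := false :: encode y) rfl (Rn.casesF (l := encode y) rfl
        (by simpa using! rn_pushO false (encode y) [] o))
        (by simpa using! ih (false :: o))).mono ?_
      simp only [List.length_cons]
      omega
    · refine (Rn.loopT (l := true :: false :: false :: encode y) rfl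
        (Rn.casesT (l := false :: false :: encode y) rfl
          (by simpa using! (rn_popA false _ [] o).seq ((rn_popA false _ [] o).seq
            (rn_pushO true (encode y) [] o))))
        (by simpa using! ih (true :: o))).mono ?_
      simp only [List.length_cons]
      omega

/-- the pieces of the whole program -/
def pc (c : Cm) : G → Cm
  | none => .seq (.push .b false) (.seq (frB .a) (.seq c dec))
  | some s => psh (true :: encode s)

abbrev Top (c : Cm) : Type := Bool ⊕ Σ s : G, Lab (pc c s)

def top (c : Cm) : Top c → Ins (Top c)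
  | .inl false => .halt
  | .inl true => .read fun s => .inr ⟨s, entry _⟩
  | .inr ⟨s, l⟩ => code (pc c s) (fun l => .inr ⟨s, l⟩) (.inl s.isSome) l

lemma enc_len (s : Option Bool) : (encode s).length ≤ 5 := by
  rcases s with _ | _ | _ <;> decide

lemma prologue (c : Cm) (w v : List (Option Bool)) : ∀ (p : ℕ) (b : List Bool), w.drop p = v →
    ∃ p' b', false :: b' = (encode v).reverse ++ b ∧
      Re (cfg (top c) (.inl true) w (.inl true) p (mk [] b [] [] [] []))
        (cfg (top c) (.inl true) w (.inr ⟨none, entry _⟩) p' (mk [] b' [] [] [] []))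
        (15 * v.length + 1) := by
  induction v with
  | nil =>
    intro p b h
    have h1 := re_read (M := top c) (s₀ := .inl true) (w := w) (l := .inl true) (p := p)
      (S := mk [] b [] [] [] []) rfl
    rw [List.getElem?_eq_none (List.drop_eq_nil_iff.1 h)] at h1
    exact ⟨_, b, rfl, h1⟩
  | cons s v ih =>
    intro p b h
    have h1 := re_read (M := top c) (s₀ := .inl true) (w := w) (l := .inl true) (p := p)
      (S := mk [] b [] [] [] []) rfl
    have e : w[p]? = some s := by
      rw [← Nat.add_zero p, ← List.getElem?_drop, h]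
      rfl
    rw [e] at h1
    have h2 := simR (M := top c) (s₀ := .inl true) (w := w) (p := p + 1)
      (rn_psh (true :: encode s) b) (fun l => .inr ⟨some s, l⟩) (.inl true) fun _ => rfl
    obtain ⟨p', b', e', h3⟩ := ih (p + 1) ((true :: encode s).reverse ++ b)
      (by rw [← List.drop_drop, h]; rfl)
    refine ⟨p', b', by rw [e', encode_cons]; simp, ((h1.trans h2).trans h3).mono ?_⟩
    have := enc_len s
    simp only [List.length_cons]
    omega

lemma sz_in (w : List (Option Bool)) : sz w ≤ 6 * w.length + 1 := by
  induction w with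
  | nil => exact le_rfl
  | cons s w ih =>
    have := enc_len s
    unfold sz at *
    rw [encode_cons]
    simp only [List.length_cons, List.length_append]
    omega

lemma len_out (y : List Bool) : y.length ≤ sz y := by
  induction y with
  | nil => exact Nat.zero_le _
  | cons s w ih =>
    unfold sz at *
    rw [encode_cons]
    simp only [List.length_cons, List.length_append]
    omega

lemma init_eq (w : List (Option Bool)) :
    (mach M s₀).init w = cfg M s₀ w s₀ 0 (mk [] [] [] [] [] []) := by
  unfold MTM.init cfg cf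
  congr 1
  · funext j
    rw [written_eq]
    fin_cases j <;> rfl
  · funext j
    fin_cases j <;> rfl

end ToTM

open ToTM in
theorem toTM {D : List (Option Bool) → Prop} {T : List (Option Bool) → ℕ}
    {f : List (Option Bool) → List Bool} (hf : C D T f) :
    ∃ (A : MTM) (K : ℕ), ∀ w, D w → A.Outputs w (f w) ∧ A.time w ≤ K * (T w + w.length + 1) := by
  obtain ⟨K1, h1⟩ := hf.sz_le
  obtain ⟨c, K, hc⟩ := hf
  refine ⟨mach (top c) (.inl true), 12 * K + 84 * K1 + 60, fun w hw => ?_⟩
  obtain ⟨p, b, e, r1⟩ := prologue c w w 0 [] rfl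
  have r0 := frB_a (false :: b) [] [] []
  rw [show (false :: b).reverse = encode w by simp [e]] at r0
  have r2 : Rn (pc c none) (mk [] b [] [] [] []) (st [] [] (f w).reverse) _ :=
    Rn.seq (Rn.push .b false _) (Rn.seq (by simpa only [upd_b, mk_b] using! r0)
      (Rn.seq (hc w hw [] [] []) (by simpa only [List.append_nil] using! rn_dec (f w) [])))
  have r3 := simR (M := top c) (s₀ := .inl true) (w := w) (p := p) r2
    (fun l => .inr ⟨none, l⟩) (.inl false) fun _ => rfl
  obtain ⟨m, hm, r4⟩ := r1.trans r3
  rw [← init_eq] at r4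
  have hH : (mach (top c) (.inl true)).Halted ((mach (top c) (.inl true)).run w m) := by
    rw [MTM.run, r4]
    rfl
  refine ⟨⟨m, hH, ?_⟩, (Nat.sInf_le hH).trans (hm.trans ?_)⟩
  · rw [MTM.run, r4, written_eq]
    change wr ((f w).reverse.reverse.map some) = _
    rw [List.reverse_reverse]
  · have q1 := h1 w hw
    have q2 := sz_in w
    have q3 := len_out (f w)
    have q4 : b.length + 1 = sz w := by simpa [sz] using congrArg List.length e
    have q5 : K * (T w + sz w) ≤ K * (6 * (T w + w.length + 1)) :=
      Nat.mul_le_mul_left _ (by omega)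
    have q6 : K1 * (T w + sz w) ≤ K1 * (6 * (T w + w.length + 1)) :=
      Nat.mul_le_mul_left _ (by omega)
    rw [List.length_cons]
    nlinarith

end Vale.Agent.P338
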