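import Vale.Agent.P338.MulCore
import Vale.Agent.P338.Params
import Vale.Agent.P338.ToTM

/-! Job J16: the main step, applied twice, and the machine. -/

namespace Vale.Agent.P338

open PT

attribute [local irreducible] PTime PB C

theorem hasMul_poly : ∃ k, HasMul fun s => (8 * s + 4) ^ k := by
  obtain ⟨k, h⟩ := PTime.toC (f := fun p : List Bool × List Bool => mulB p.1 p.2)
    (PTime.tob (by fun_prop) (by fun_prop) (by fun_prop))
  refine ⟨k, h.weaken (fun _ _ => trivial) ⟨4 ^ k, fun p hp => ?_⟩⟩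
  have h1 := sz_bits_le p.1
  have h2 := sz_bits_le p.2
  have h3 := sz_prod p.1 p.2
  refine (Nat.pow_le_pow_left (show sz (p.1, p.2) + 1 ≤ 8 * p.1.length + 4 by omega) k).trans ?_
  rcases Nat.eq_zero_or_pos p.1.length with h | h
  · rw [h]; exact Nat.le_mul_of_pos_right _ (Nat.add_pos_right _ (sz_pos _))
  · exact ((Nat.le_mul_of_pos_left _ h).trans (Nat.le_add_right _ _)).trans
      (Nat.le_mul_of_pos_left _ (by positivity))

/-- polynomial-time functions of the length are free -/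
lemma C.finLen {α β γ : Type} [TEnc α] [TEnc β] [TEnc γ] {D : α → Prop} {T : α → ℕ} {φ : ℕ → γ}
    (hφ : PTime φ) {l : α → List β} (hl : C D T l) : C D T fun x => φ (l x).length := by
  obtain ⟨k, h⟩ := C.ptime hφ
  obtain ⟨K, -, hK⟩ := ((((SubH.Sm.const 4).mul SubH.Sm.size).add (.const 2)).pow k) 1 one_pos
  refine h hl.length (opBo.mono hl.sz_le ⌈K⌉₊ fun x _ => ?_)
  have := sz_nat_le (l x).length
  refine (Nat.pow_le_pow_left (show _ ≤ 4 * (l x).length.size + 2 by omega) k).trans (le_trans ?_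
    (Nat.mul_le_mul_left _ (length_lt_sz (l x))))
  have := (hK (l x).length).trans (mul_le_mul_of_nonneg_right (Nat.le_ceil K) (by positivity))
  rw [Real.rpow_one] at this
  exact_mod_cast this

theorem mainStep : ∃ τ, Sub τ ∧ ∀ g, Monotone g → HasMul g → ∃ K, HasMul (stepB τ g K) := by
  obtain ⟨H, c, τ, hH, hτ, h⟩ := mulCore
  refine ⟨τ, hτ, fun g hg hm => ?_⟩
  obtain ⟨k0, h⟩ := h g hm
  obtain ⟨par, hp, K, n0, hK⟩ := params hH c k0
  obtain ⟨k, hk⟩ := hasMul_poly
  refine ⟨K, (C.ite' (p := fun p : List Bool × List Bool => p.1.length < n0)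
    (C.finLen (φ := fun n => decide (n < n0)) (by fun_prop) (.fst .id))
    (hk.weaken (fun _ h => h.1) ⟨n0 * (8 * n0 + 4) ^ k, fun p hp => ?_⟩)
    (h.call (f := fun p => (par p.1.length, p)) ((C.finLen hp (.fst .id)).prodMk .id)
      (fun p hp => ?_) ⟨K * (K * K + K), fun p hp => ?_⟩)).of_eq fun _ => ite_self _⟩
  · refine le_trans ?_ (Nat.le_mul_of_pos_right _ (Nat.add_pos_right _ (sz_pos _)))
    have := hp.2.le
    dsimp only
    gcongr
  · exact ⟨(hK _ (not_lt.1 hp.2)).1, hp.1, (hK _ (not_lt.1 hp.2)).2.1⟩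
  · obtain ⟨-, -, a, b, c, d⟩ := hK _ (not_lt.1 hp.2)
    refine le_trans ?_ (Nat.mul_le_mul_left _ (Nat.le_add_right _ _))
    have h1 := hτ.1 (Nat.size_le_size a)
    have h2 := hg d
    dsimp only [stepB]
    generalize p.1.length.size.size = s at *
    calc _ ≤ K * (p.1.length * (s + 1)) * ((K * (s + 1)) ^ 2 * (τ p.1.length.size +
        g (p.1.length.size ^ K) + 1) + K * (s + 1) ^ 2 * (τ p.1.length.size + g (p.1.length.size ^ K) + 1)) := by
          refine Nat.mul_le_mul (b.trans (by gcongr; omega)) (Nat.add_le_add (Nat.mul_le_mul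
            (Nat.pow_le_pow_left (c.trans (by gcongr; omega)) 2) (by omega))
            (Nat.mul_le_mul (c.trans (by gcongr; nlinarith)) (by omega)))
      _ = _ := by ring

lemma fin_bval (x : List Bool) : bval x = val x.reverse := by
  induction x using List.reverseRecOn with
  | nil => rfl
  | append_singleton x b ih => simp [bval, add_comm] at ih ⊢; exact ih

theorem fast_machine : ∃ A : MTM, A.Multiplies ∧ ∃ δ : ℝ, 0 < δ ∧ ∃ K : ℝ, ∀ n : ℕ, 2 ≤ n →
    (A.worst n : ℝ) ≤ K * n * Real.log n ^ (1 - δ) := by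
  obtain ⟨τ, hτ, h⟩ := mainStep
  obtain ⟨k, h0⟩ := hasMul_poly
  have m0 : Monotone fun s : ℕ => (8 * s + 4) ^ k := fun _ _ _ => by dsimp only; gcongr
  obtain ⟨K1, h1⟩ := h _ m0 h0
  obtain ⟨K2, h2⟩ := h _ (stepB_mono hτ.1 m0 K1) h1
  obtain ⟨δ, d0, -, K, hK⟩ := stepB_final hτ hτ k K1 K2
  have g1 : ∀ n, 1 ≤ stepB τ (stepB τ (fun s => (8 * s + 4) ^ k) K1) K2 n := fun n =>
    Nat.mul_pos (by positivity) (Nat.succ_pos _)
  generalize stepB τ (stepB τ (fun s => (8 * s + 4) ^ k) K1) K2 = g at *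
  have e1 : ∀ x y : List Bool, x.length = y.length → (input x y).length / 2 = x.length := fun x y h => by
    simp [input]; omega
  have e2 : ∀ x y : List Bool, (input x y).filterMap (fun o => o) = x ++ y := fun x y => by
    simp [input, List.filterMap_map]
  have e3 : ∀ {D : List (Option Bool) → Prop} {T : List (Option Bool) → ℕ}, ∃ K, ∀ w, D w → w.length / 2 ≤ K * (T w + sz w) :=
    ⟨1, fun w _ => by have := length_lt_sz w; omega⟩
  have e4 : ∀ {D T}, C D T fun w : List (Option Bool) => w.filterMap fun o => o := .filterMap .id .id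
  obtain ⟨A, K', hA⟩ := toTM (D := fun w => ∃ x y, x.length = y.length ∧ input x y = w)
    (T := fun w => w.length / 2 * g (w.length / 2)) (C.call h2
      ((C.take (C.length .id).div2 e4 e3).reverse.prodMk (C.drop (C.length .id).div2 e4 e3).reverse)
      (by rintro _ ⟨x, y, h, rfl⟩; simp [e1 x y h, e2, h])
      ⟨1, by rintro _ ⟨x, y, h, rfl⟩; simp [e1 x y h, e2]⟩).reverse
  refine ⟨A, fun n _ x y hx hy => ?_, δ, d0, K' * (4 * K), fun n hn => ?_⟩
  · have := (hA _ ⟨x, y, hx.trans hy.symm, rfl⟩).1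
    simpa [e1 x y (hx.trans hy.symm), e2, mulB, ← hx, fin_bval, hx ▸ hy, ← two_mul, bin, tob] using this
  · have : A.worst n ≤ K' * (4 * (n * g n)) := Finset.sup_le fun p _ => by
      refine (hA _ ⟨_, _, by simp, rfl⟩).2.trans (Nat.mul_le_mul_left _ ?_)
      rw [e1 _ _ (by simp)]
      simp [input]
      nlinarith [Nat.mul_le_mul_left n (g1 n)]
    calc (A.worst n : ℝ) ≤ K' * (4 * (n * g n)) := by exact_mod_cast this
      _ ≤ K' * (4 * (n * (K * Real.log n ^ (1 - δ)))) := by gcongr; exact hK n hn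
      _ = _ := by ring

theorem not_lower_bound : ¬ ∀ A : MTM, A.Multiplies → ∃ c : ℝ, 0 < c ∧ ∃ N : ℕ, 2 ≤ N ∧
    ∀ n : ℕ, N ≤ n → c * n * Real.log n ≤ A.worst n := by
  intro H
  obtain ⟨A, hA, δ, d0, K, hK⟩ := fast_machine
  obtain ⟨c, c0, N, N2, hN⟩ := H A hA
  obtain ⟨n, h1, h2⟩ := ((((tendsto_rpow_atTop d0).comp (Real.tendsto_log_atTop.comp
    tendsto_natCast_atTop_atTop)).eventually_gt_atTop (K / c)).and (Filter.eventually_ge_atTop N)).exists
  have h3 := (hN n h2).trans (hK n (N2.trans h2))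
  have h4 : (1 : ℝ) < n := by exact_mod_cast N2.trans h2
  have h5 := Real.log_pos h4
  have h6 : Real.log n = Real.log n ^ δ * Real.log n ^ (1 - δ) := by
    rw [← Real.rpow_add h5]; simp
  have h7 := Real.rpow_pos_of_pos h5 (1 - δ)
  rw [div_lt_iff₀ c0] at h1
  simp only [Function.comp] at h1
  nth_rewrite 1 [h6] at h3
  nlinarith [mul_lt_mul_of_pos_right h1 (mul_pos (zero_lt_one.trans h4) h7)]

end Vale.Agent.P338
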