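import Vale.Agent.P338.Spec

/-! Pure list lemmas on flat arrays. -/

namespace Vale.Agent.P338

open PT Finset

variable {α : Type}

@[simp] lemma fl_zero (g : ℕ → List α) : fl 0 g = [] := rfl

lemma fl_succ (n : ℕ) (g : ℕ → List α) : fl (n + 1) g = fl n g ++ g n := by
  simp [fl, List.range_succ]

lemma fl_one (g : ℕ → List α) : fl 1 g = g 0 := by simp [fl]

lemma fl_add (m n : ℕ) (g : ℕ → List α) : fl (m + n) g = fl m g ++ fl n fun i => g (m + i) := by
  induction n with
  | zero => simp
  | succ n ih => rw [← add_assoc, fl_succ, fl_succ, ih, List.append_assoc]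

lemma fl_congr {n : ℕ} {g h : ℕ → List α} (H : ∀ i < n, g i = h i) : fl n g = fl n h := by
  induction n with
  | zero => rfl
  | succ n ih => rw [fl_succ, fl_succ, ih fun i hi => H i (by omega), H n (by omega)]

lemma length_fl_sum (n : ℕ) (g : ℕ → List α) :
    (fl n g).length = ∑ i ∈ range n, (g i).length := by
  induction n with
  | zero => rfl
  | succ n ih => rw [fl_succ, List.length_append, ih, sum_range_succ]

lemma length_fl {n L : ℕ} {g : ℕ → List α} (H : ∀ i < n, (g i).length = L) :
    (fl n g).length = n * L := by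
  rw [length_fl_sum, sum_congr rfl fun i hi => H i (mem_range.1 hi)]; simp

lemma fl_mul (a b : ℕ) (g : ℕ → List α) :
    fl (a * b) g = fl a fun i => fl b fun j => g (i * b + j) := by
  induction a with
  | zero => simp
  | succ a ih => rw [add_mul, one_mul, fl_add, fl_succ, ih]

lemma fl_fl (a b : ℕ) (g : ℕ → ℕ → List α) :
    (fl a fun i => fl b fun j => g i j) = fl (a * b) fun x => g (x / b) (x % b) := by
  rw [fl_mul]
  refine fl_congr fun i _ => fl_congr fun j hj => ?_
  have hb : 0 < b := by omega
  rw [Nat.add_comm, Nat.add_mul_div_right _ _ hb, Nat.add_mul_mod_self_right,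
    Nat.div_eq_of_lt hj, Nat.mod_eq_of_lt hj, zero_add]

lemma length_blk {L i : ℕ} {l : List α} (h : (i + 1) * L ≤ l.length) : (blk L i l).length = L := by
  simp only [blk, List.length_take, List.length_drop]
  rw [add_mul, one_mul] at h; omega

lemma length_blk' {L i n : ℕ} {l : List α} (hl : l.length = n * L) (h : i < n) :
    (blk L i l).length = L :=
  length_blk (hl ▸ Nat.mul_le_mul_right _ h)

lemma length_blk_le (L i : ℕ) (l : List α) : (blk L i l).length ≤ L := by
  simp [blk]

lemma blk_append_left {L i : ℕ} {l : List α} (m : List α) (h : (i + 1) * L ≤ l.length) :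
    blk L i (l ++ m) = blk L i l := by
  rw [add_mul, one_mul] at h
  unfold blk
  rw [List.drop_append_of_le_length (by omega), List.take_append_of_le_length (by simp; omega)]

lemma blk_append_right {L n : ℕ} (i : ℕ) {l : List α} (m : List α) (h : l.length = n * L) :
    blk L (n + i) (l ++ m) = blk L i m := by
  unfold blk
  rw [add_mul, ← h, List.drop_append, List.drop_eq_nil_of_le (by omega)]
  simp

lemma blk_zero_self {L : ℕ} {l : List α} (h : l.length = L) : blk L 0 l = l := by
  simp [blk, ← h]

lemma blk_fl {n L i : ℕ} {g : ℕ → List α} (H : ∀ j < n, (g j).length = L) (hi : i < n) :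
    blk L i (fl n g) = g i := by
  obtain ⟨k, rfl⟩ : ∃ k, n = i + (1 + k) := ⟨n - i - 1, by omega⟩
  rw [fl_add, fl_add, fl_one]
  have h := blk_append_right (L := L) (n := i) 0 (l := fl i g)
    (g (i + 0) ++ fl k fun j => g (i + (1 + j))) (length_fl fun j hj => H j (by omega))
  rw [add_zero] at h ⊢
  rw [h, blk_append_left _ (by rw [H i hi]; omega), blk_zero_self (H i hi)]

lemma fl_blk {n L : ℕ} {l : List α} (h : l.length = n * L) : (fl n fun i => blk L i l) = l := by
  have : ∀ m ≤ n, (fl m fun i => blk L i l) = l.take (m * L) := by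
    intro m hm
    induction m with
    | zero => simp
    | succ m ih => rw [fl_succ, ih (by omega), add_mul, one_mul, List.take_add]; rfl
  rw [this n le_rfl, ← h, List.take_length]

/-- a block of a block -/
lemma blk_blk {L n i j : ℕ} (l : List α) (hj : j < n) :
    blk L j (blk (n * L) i l) = blk L (i * n + j) l := by
  unfold blk
  have : (j + 1) * L ≤ n * L := Nat.mul_le_mul_right _ hj
  rw [add_mul, one_mul] at this
  rw [List.drop_take, List.take_take, List.drop_drop, min_eq_left (by omega)]
  congr 2; ring

/-- a long block as a concatenation of short blocks -/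
lemma blk_mul {L n i : ℕ} {l : List α} (h : (i + 1) * (n * L) ≤ l.length) :
    blk (n * L) i l = fl n fun j => blk L (i * n + j) l := by
  rw [← fl_blk (length_blk h)]
  exact fl_congr fun j hj => blk_blk l hj

lemma blk_fl_fl {a b L i j : ℕ} {g : ℕ → ℕ → List α}
    (H : ∀ i < a, ∀ j < b, (g i j).length = L) (hi : i < a) (hj : j < b) :
    blk L (i * b + j) (fl a fun i => fl b fun j => g i j) = g i j := by
  rw [← blk_blk _ hj, blk_fl (fun i hi => length_fl (H i hi)) hi, blk_fl (H i hi) hj]

lemma ext_blk {n L : ℕ} {l m : List α} (hl : l.length = n * L) (hm : m.length = n * L)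
    (h : ∀ i < n, blk L i l = blk L i m) : l = m := by
  rw [← fl_blk hl, ← fl_blk hm]; exact fl_congr h

lemma blk_replicate {L i n : ℕ} (x : α) (h : (i + 1) * L ≤ n) :
    blk L i (List.replicate n x) = List.replicate L x := by
  rw [add_mul, one_mul] at h
  simp only [blk, List.drop_replicate, List.take_replicate]
  congr 1; omega

lemma fl_replicate (n L : ℕ) (x : α) :
    (fl n fun _ => List.replicate L x) = List.replicate (n * L) x := by
  induction n with
  | zero => simp
  | succ n ih => rw [fl_succ, ih, add_mul, one_mul, List.replicate_add]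

lemma chunks_eq {n L : ℕ} {l : List α} (hL : 0 < L) (h : l.length = n * L) :
    chunks L l = (List.range n).map fun i => blk L i l := by
  rw [chunks, h, Nat.mul_div_cancel _ hL]

lemma flatten_map_range (n : ℕ) (g : ℕ → List α) : ((List.range n).map g).flatten = fl n g := by
  simp [fl, List.flatMap]

lemma lt_mul_of_lt {i j a b : ℕ} (hi : i < a) (hj : j < b) : i * b + j < a * b := by
  have : (i + 1) * b ≤ a * b := Nat.mul_le_mul_right _ hi
  rw [add_mul, one_mul] at this; omega

lemma length_perm {n n' β : ℕ} {π : ℕ → ℕ} {l : List Bool} (hl : l.length = n' * β)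
    (hπ : ∀ i < n, π i < n') : (perm n β π l).length = n * β :=
  length_fl fun i hi => length_blk' hl (hπ i hi)

lemma blk_perm {n n' β i : ℕ} {π : ℕ → ℕ} {l : List Bool} (hl : l.length = n' * β)
    (hπ : ∀ i < n, π i < n') (hi : i < n) : blk β i (perm n β π l) = blk β (π i) l :=
  blk_fl (g := fun i => blk β (π i) l) (fun i hi => length_blk' hl (hπ i hi)) hi

lemma perm_perm {n n' n'' β : ℕ} {π ρ : ℕ → ℕ} {l : List Bool} (hl : l.length = n'' * β)
    (hπ : ∀ i < n, π i < n') (hρ : ∀ i < n', ρ i < n'') :
    perm n β π (perm n' β ρ l) = perm n β (fun i => ρ (π i)) l :=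
  fl_congr fun i hi => blk_perm hl hρ (hπ i hi)

lemma perm_congr {n β : ℕ} {π ρ : ℕ → ℕ} (l : List Bool) (h : ∀ i < n, π i = ρ i) :
    perm n β π l = perm n β ρ l :=
  fl_congr fun i hi => by rw [h i hi]

lemma perm_id {n β : ℕ} {l : List Bool} (hl : l.length = n * β) : perm n β (fun i => i) l = l :=
  fl_blk hl

lemma ax3_eq_perm (O S β : ℕ) (π : ℕ → ℕ → ℕ) (l : List Bool) :
    ax3 O S β π l = perm (O * S) β (fun x => x / S * S + π (x / S) (x % S)) l :=
  fl_fl O S fun o s => blk β (o * S + π o s) l

@[simp] lemma length_tob (L n : ℕ) : (tob L n).length = L := by simp [tob]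

lemma tob_succ (L n : ℕ) : tob (L + 1) n = n.testBit 0 :: tob L (n / 2) := by
  simp [tob, List.range_succ_eq_map, Nat.testBit_succ]

lemma val_tob (L n : ℕ) : val (tob L n) = n % 2 ^ L := by
  induction L generalizing n with
  | zero => simp [tob, Nat.mod_one]
  | succ L ih =>
    rw [tob_succ, val_cons, ih, pow_succ', Nat.mod_mul, Nat.toNat_testBit]; simp

lemma tob_val (l : List Bool) : tob l.length (val l) = l := by
  induction l with
  | nil => rfl
  | cons b l ih =>
    rw [List.length_cons, tob_succ, val_cons]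
    congr 1
    · cases b <;> simp [Nat.testBit_zero, Nat.add_mod]
    · have : (b.toNat + 2 * val l) / 2 = val l := by cases b <;> simp; omega
      rw [this, ih]

lemma eq_tob {l : List Bool} {L n : ℕ} (h : l.length = L) (hv : val l = n % 2 ^ L) :
    l = tob L n := by
  have h1 : tob L (val l) = l := h ▸ tob_val l
  rw [← h1, hv]
  simp only [tob]
  refine List.map_congr_left fun i hi => ?_
  rw [Nat.testBit_mod_two_pow]; simp [List.mem_range.1 hi]

lemma two_mul_half {P : ℕ} (hP : 0 < P) : 2 * half P = 1 := by
  have h : ((2 ^ P - 1 : ℕ) : ZMod (2 ^ P - 1)) = 0 := ZMod.natCast_self _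
  rw [Nat.cast_sub Nat.one_le_two_pow] at h
  push_cast at h
  unfold half
  rw [← pow_succ', Nat.sub_add_cancel hP]
  exact sub_eq_zero.1 h

/-- residues inside a block -/
lemma rv_blk {P n i j : ℕ} (l : List Bool) (hj : j < n) :
    rv P (blk (n * P) i l) j = rv P l (i * n + j) := by
  unfold rv; rw [blk_blk l hj]

end Vale.Agent.P338
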