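import Vale.Agent.P338.GnetF

/-! Job J9: the fast tensor power of the mixing gate. -/

namespace Vale.Agent.P338

open PT

/-- the domain of the fast tensor power -/
structure GOK (H : ℕ) (rs : List ℕ) (nr P ρ : ℕ) : Prop where
  pow : ∃ d, rs.length = H ^ d
  rlt : rs.Pairwise (· < ·)
  rcop : rs.Pairwise Nat.Coprime
  rodd : ∀ r ∈ rs, Odd r ∧ 1 < r ∧ r.size ≤ ρ
  big : 2 ^ rs.length ≤ nr
  pos : 0 < P

namespace Gn

/-- the depth of the recursion -/
def dp (H : ℕ) (rs : List ℕ) : ℕ :=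
  (List.range rs.length).countP fun i => decide (H ^ min i rs.length < rs.length)

lemma countP_lt (d k : ℕ) : ((List.range k).countP fun i => decide (i < d)) = min k d := by
  induction k with
  | zero => simp
  | succ k ih =>
    rw [List.range_succ, List.countP_append, ih, List.countP_singleton]
    split_ifs with h <;> simp only [decide_eq_true_eq] at h <;> omega

lemma dp_eq {H d : ℕ} {rs : List ℕ} (hH : 2 ≤ H) (h : rs.length = H ^ d) : dp H rs = d := by
  have h1 : d < rs.length := h ▸ Nat.lt_pow_self hH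
  rw [dp, List.countP_congr (q := fun i => decide (i < d)) fun i hi => by
    rw [min_eq_left (List.mem_range.1 hi).le, h]
    simp [Nat.pow_lt_pow_iff_right hH], countP_lt, min_eq_right h1.le]

lemma pt_dp (H : ℕ) {α : Type} [TEnc α] {rs : α → List ℕ} (h : PTime rs) :
    PTime (fun a => dp H (rs a)) ∧ PB fun a => dp H (rs a) :=
  ⟨(h.length.range (PB.length h)).countP (((PTime.const H).pow
      (PTime.snd_id.min (h.comp .fst_id).length) ((PB.length (h.comp .fst_id)).of_le fun _ =>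
        min_le_right _ _)).decide_lt (h.comp .fst_id).length),
    (PB.length h).of_le fun _ => List.countP_le_length.trans List.length_range.le⟩

/-- pad or truncate every row -/
def pd (O L L' : ℕ) (l : List Bool) : List Bool := fl O fun o => (blk L o l).takeD L' false

lemma length_pd (O L L' : ℕ) (l : List Bool) : (pd O L L' l).length = O * L' :=
  length_fl fun _ _ => List.takeD_length _ _ _

lemma take_takeD (m n : ℕ) (l : List Bool) (h1 : m ≤ n) (h2 : m ≤ l.length) :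
    (l.takeD n false).take m = l.take m := by
  induction m generalizing n l with
  | zero => rfl
  | succ m ih =>
    obtain _ | n := n
    · omega
    obtain _ | ⟨a, l⟩ := l
    · simp at h2
    simpa using ih n l (by omega) (by simpa using h2)

lemma rv_pd {O n n' P o i : ℕ} {l : List Bool} (hl : l.length = O * (n * P)) (ho : o < O)
    (hi : i < n) (hi' : i < n') :
    rv P (pd O (n * P) (n' * P) l) (o * n' + i) = rv P l (o * n + i) := by
  have e : ∀ m : List Bool, blk P i m = (m.take ((i + 1) * P)).drop (i * P) := fun m => by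
    rw [blk, List.drop_take, add_mul, one_mul, Nat.add_sub_cancel_left]
  rw [← rv_blk _ hi, ← rv_blk _ hi', pd, blk_fl (fun _ _ => List.takeD_length _ _ _) ho, rv, rv,
    e, e, take_takeD _ _ _ (Nat.mul_le_mul_right _ hi')
      ((length_blk' hl ho).symm ▸ Nat.mul_le_mul_right _ hi)]

/-- the padded row length -/
def n2 (H W : ℕ) (e : List ℕ × ℕ × ℕ × ℕ) : ℕ := (e.2.1 / W ^ dp H e.1 + 1) * W ^ dp H e.1

/-- the parameters of the recursion -/
def top (H W : ℕ) (e : List ℕ × ℕ × ℕ × ℕ) : GP :=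
  ⟨dp H e.1, 1, e.1, 1, e.1, n2 H W e, e.2.2.1, e.2.2.2⟩

lemma N_top (H W : ℕ) (e : List ℕ × ℕ × ℕ × ℕ) :
    (top H W e).N = e.1.prod * e.1.prod * (n2 H W e * e.2.2.1) := by
  simp only [top, GP.N, GP.A]; ring

lemma lt_n2 (H : ℕ) {W : ℕ} (hW : 0 < W) (e : List ℕ × ℕ × ℕ × ℕ) : e.2.1 < n2 H W e := by
  rw [n2, mul_comm]
  exact Nat.lt_mul_div_succ _ (Nat.pow_pos hW)

lemma gd_top {H W : ℕ} (hH : 2 ≤ H) (hW : 0 < W) {e : List ℕ × ℕ × ℕ × ℕ}
    (h : GOK H e.1 e.2.1 e.2.2.1 e.2.2.2) : GD H W (top H W e) := by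
  obtain ⟨d, hd⟩ := h.pow
  have h1 : e.1.length = H ^ dp H e.1 := by rw [dp_eq hH hd, hd]
  have h2 : AO e.2.2.2 e.1 := ⟨h.rlt, h.rcop, fun r hr => ⟨(h.rodd r hr).1, (h.rodd r hr).2.2⟩⟩
  exact ⟨h1, h1, h2, h2, one_pos, one_pos, (lt_n2 H hW e).pos, h.pos, dvd_mul_left _ _⟩

end Gn

open Gn in
/-- the parameters `(rs, nr, P, ρ)`, arrays of shape `[rs.prod][rs.prod][nr][P]` -/
theorem gnet : ∃ (H : ℕ) (τ : ℕ → ℕ) (G : List ℕ × ℕ × ℕ × ℕ → List Bool → List Bool),
    2 ≤ H ∧ Sub τ ∧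
    Op (fun e => GOK H e.1 e.2.1 e.2.2.1 e.2.2.2)
      (fun e => e.1.prod * e.1.prod * e.2.1 * e.2.2.1)
      (fun e => e.1.prod * e.1.prod * e.2.1 * e.2.2.1) (fun e => e.2.1)
      (fun e => e.1.prod * e.1.prod * e.2.1 * e.2.2.1 * e.2.2.2 * τ e.1.length) G ∧
    ∀ rs nr P ρ l, GOK H rs nr P ρ → l.length = rs.prod * rs.prod * nr * P →
      ∀ y < rs.prod, ∀ y' < rs.prod, ∀ ι < nr, good rs y = true → good rs y' = true →
        2 ^ rs.length * rv P (G (rs, nr, P, ρ) l) ((y * rs.prod + y') * nr + ι) =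
          ∑ t : Fin rs.length → Bool, ∑ t' : Fin rs.length → Bool, (sgn t t' : ZMod _) *
            rv P l ((reflN rs (List.ofFn t) y * rs.prod + reflN rs (List.ofFn t') y') * nr + ι) := by
  obtain ⟨H, hH⟩ : ∃ H : ℕ, H = 10648 := ⟨_, rfl⟩
  obtain ⟨W, hW⟩ : ∃ W : ℕ, W = 17 ^ 12 := ⟨_, rfl⟩
  obtain ⟨Z, prog, h1, h2, h3⟩ := netB hH hW
  obtain ⟨ax, ho, hs⟩ := axR
  have hH2 : 2 ≤ H := by omega
  have hW0 : 0 < W := by rw [hW]; positivity
  have hWH : W ≤ H ^ 4 := by rw [hW, hH]; norm_num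
  clear hH hW
  have hax : AxS ax := fun n P c l m hP hl hm => ⟨ho.len (n, P, c) _ hP (by
    rw [List.length_append, hl, hm, two_mul]), hs n P c l m hP hl hm⟩
  obtain ⟨τ, hτ, hop⟩ := rec_op ho hH2 hW0 h1 h2
  refine ⟨H, τ, fun e l => pd (e.1.prod * e.1.prod) (n2 H W e * e.2.2.1) (e.2.1 * e.2.2.1)
    ((GX ax H W Z prog).F (top H W e).d (top H W e)
      (pd (e.1.prod * e.1.prod) (e.2.1 * e.2.2.1) (n2 H W e * e.2.2.1) l)), hH2, hτ, ?_, ?_⟩
  · have hB : ∀ e : List ℕ × ℕ × ℕ × ℕ, GOK H e.1 e.2.1 e.2.2.1 e.2.2.2 →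
        e.2.1 ≤ e.1.prod * e.1.prod * e.2.1 * e.2.2.1 := fun e he => by
      have := List.prod_pos fun r hr => (he.rodd r hr).1.pos
      exact (Nat.le_mul_of_pos_left _ (Nat.mul_pos this this)).trans
        (Nat.le_mul_of_pos_right _ he.pos)
    have hV : ∀ e : List ℕ × ℕ × ℕ × ℕ, GOK H e.1 e.2.1 e.2.2.1 e.2.2.2 →
        W ^ dp H e.1 ≤ (sz e + 1) ^ 4 := fun e he => by
      refine (Nat.pow_le_pow_left hWH _).trans ?_
      rw [← pow_mul, mul_comm, pow_mul]
      refine Nat.pow_le_pow_left ((gd_top hH2 hW0 he).len.ge.trans ?_) _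
      have h1 := length_lt_sz e.1
      have h2 := sz_prod e.1 e.2
      change e.1.length ≤ sz (e.1, e.2) + 1
      omega
    have a1 : PTime fun e : List ℕ × ℕ × ℕ × ℕ => e.1 := .fst_id
    have a2 : PTime fun e : List ℕ × ℕ × ℕ × ℕ => e.2.1 := PTime.snd_id.fst
    have a3 : PTime fun e : List ℕ × ℕ × ℕ × ℕ => e.2.2.1 := PTime.snd_id.snd.fst
    have a4 := (PTime.const W).pow (pt_dp H a1).1 (pt_dp H a1).2
    have a5 : PTime (n2 H W) := ((a2.div a4).add (.const 1)).mul a4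
    have a6 := a1.nat_prod.mul a1.nat_prod
    have h2n : ∀ e : List ℕ × ℕ × ℕ × ℕ, GOK H e.1 e.2.1 e.2.2.1 e.2.2.2 ∧ (sz e + 1) ^ 4 ≤ e.2.1 →
        (top H W e).N ≤ 2 * (e.1.prod * e.1.prod * e.2.1 * e.2.2.1) := fun e he => by
      have h1 := (hV e he.1).trans he.2
      have h2 := Nat.div_mul_le_self e.2.1 (W ^ dp H e.1)
      have h3 : n2 H W e ≤ 2 * e.2.1 := by rw [n2, add_mul]; omega
      rw [N_top]
      nlinarith [Nat.mul_le_mul_left (e.1.prod * e.1.prod * e.2.2.1) h3]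
    have hb : ∀ e : List ℕ × ℕ × ℕ × ℕ, GOK H e.1 e.2.1 e.2.2.1 e.2.2.2 → ∀ n, e.2.1 ≤ n →
        e.2.1 / W ^ dp H e.1 ≤ n * e.2.2.1 := fun e he n hn =>
      (Nat.div_le_self _ _).trans (hn.trans (Nat.le_mul_of_pos_right _ he.pos))
    refine Op.assume 4 (Op.scaleB (B2 := fun e => e.2.1 / W ^ dp H e.1)
      (V := fun e => W ^ dp H e.1) ?_ ⟨4, fun e he => hV e he.1⟩
      fun e he => ⟨Nat.pow_pos hW0, hB e he.1, le_rfl⟩) hB
      fun e l _ _ => (length_pd ..).trans (mul_assoc _ _ _).symm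
    refine ((((Op.id fun e he => (Nat.div_le_self _ _).trans (hB e he.1)).pad
      (N'' := fun e => (top H W e).N) a6 (a2.mul a3) (a5.mul a3)
      (fun e he => ⟨mul_assoc _ _ _, N_top H W e, hb e he.1 _ le_rfl⟩)
      ⟨2, fun e he => (h2n e he).trans (by omega)⟩).andThen hop (N'' := fun e => (top H W e).N)
      (GP.pt_mk (pt_dp H a1).1 (.const 1) a1 (.const 1) a1 a5 a3 PTime.snd_id.snd.snd)
      (fun e he => ⟨gd_top hH2 hW0 he.1, rfl, rfl, Nat.div_le_div_right (lt_n2 H hW0 e).le⟩)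
      ⟨2, fun e he => ?_⟩).pad a6 (a5.mul a3) (a2.mul a3)
      (fun e he => ⟨N_top H W e, mul_assoc _ _ _, hb e he.1 _ (lt_n2 H hW0 e).le⟩)
      ⟨1, fun e he => by omega⟩)
    have := Nat.mul_le_mul_right (e.2.2.2 * τ e.1.length) (h2n e he)
    change (top H W e).N * e.2.2.2 * τ e.1.length ≤ _
    nlinarith [Nat.zero_le (e.1.prod * e.1.prod * e.2.1 * e.2.2.1)]
  · intro rs nr P ρ l he hl y hy y' hy' ι hι gy gy'
    have hd := gd_top (e := (rs, nr, P, ρ)) hH2 hW0 he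
    have hι' := hι.trans (lt_n2 H hW0 (rs, nr, P, ρ))
    obtain ⟨s1, s2⟩ := sem hax (by omega) hW0 h2 h3 _ _ hd rfl
      (pd (rs.prod * rs.prod) (nr * P) (n2 H W (rs, nr, P, ρ) * P) l)
      ((length_pd ..).trans (N_top H W (rs, nr, P, ρ)).symm)
    have s3 := s2 0 one_pos y hy 0 one_pos y' hy' ι hι' gy gy'
    rw [← hd.len] at s3
    simp only [GP.vv, GP.ad, top, zero_mul, zero_add, mul_one, add_zero] at s3
    rw [sum_bool fun t t' => rv P l ((reflN rs t y * rs.prod + reflN rs t' y') * nr + ι),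
      rv_pd (s1.trans (N_top H W (rs, nr, P, ρ))) (lt_mul_of_lt hy hy') hι' hι]
    refine s3.trans (Finset.sum_congr rfl fun t _ => Finset.sum_congr rfl fun t' _ =>
      congrArg _ ?_)
    exact rv_pd (hl.trans (mul_assoc _ _ _))
      (lt_mul_of_lt (reflN_lt hd.ok.pos _ _) (reflN_lt hd.ok.pos _ _)) hι hι'

end Vale.Agent.P338
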