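import Vale.Agent.P338.Spec

/-! Job J9, part A: characters of elementary abelian two-groups and masks. -/

namespace Vale.Agent.P338.Gn

open Finset Matrix

/-- the sign character -/
def eps (K : Type) [CommRing K] (x : ZMod 2) : K := if x = 0 then 1 else -1

variable {K : Type} [CommRing K] {ι : Type} [Fintype ι] [DecidableEq ι]

lemma z2 (x : ZMod 2) : x = 0 ∨ x = 1 := by revert x; decide

lemma eps_zero : eps K 0 = 1 := if_pos rfl

lemma eps_add (x y : ZMod 2) : eps K (x + y) = eps K x * eps K y := by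
  have h : (1 + 1 : ZMod 2) = 0 := rfl
  rcases z2 x with rfl | rfl <;> rcases z2 y with rfl | rfl <;> simp [eps, h]

lemma eps_sum {κ : Type} (s : Finset κ) (f : κ → ZMod 2) :
    eps K (∑ i ∈ s, f i) = ∏ i ∈ s, eps K (f i) := by
  classical
  induction s using Finset.induction_on with
  | empty => simp [eps_zero]
  | insert a s ha ih => rw [sum_insert ha, prod_insert ha, eps_add, ih]

lemma orth (x : ι → ZMod 2) :
    ∑ t : ι → ZMod 2, eps K (x ⬝ᵥ t) = if x = 0 then 2 ^ Fintype.card ι else 0 := by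
  have h1 : ∀ a : ZMod 2, ∑ b : ZMod 2, eps K (a * b) = if a = 0 then 2 else 0 := fun a => by
    have : ∑ b : ZMod 2, eps K (a * b) = eps K (a * 0) + eps K (a * 1) := Fin.sum_univ_two _
    rw [this]
    rcases z2 a with rfl | rfl <;> simp [eps, one_add_one_eq_two]
  simp only [dotProduct, eps_sum]
  rw [← Fintype.piFinset_univ, ← prod_univ_sum (fun _ => univ) fun i b => eps K (x i * b)]
  simp only [h1]
  split_ifs with h
  · simp [h]
  · obtain ⟨i, hi⟩ := Function.ne_iff.1 h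
    exact prod_eq_zero (mem_univ i) (if_neg hi)

omit [Fintype ι] [DecidableEq ι] in
lemma add_eq_zero2 {x y : ι → ZMod 2} : x + y = 0 ↔ x = y := by
  have : ∀ a b : ZMod 2, a + b = 0 ↔ a = b := by decide
  simp only [funext_iff, Pi.add_apply, Pi.zero_apply, this]

lemma key (a b : ι → ZMod 2) : ∑ t : ι → ZMod 2, ∑ t' : ι → ZMod 2,
    eps K (t ⬝ᵥ t') * eps K (a ⬝ᵥ t + b ⬝ᵥ t') = 2 ^ Fintype.card ι * eps K (a ⬝ᵥ b) := by
  have : ∀ t t' : ι → ZMod 2, eps K (t ⬝ᵥ t') * eps K (a ⬝ᵥ t + b ⬝ᵥ t') =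
      eps K (a ⬝ᵥ t) * eps K ((t + b) ⬝ᵥ t') := fun t t' => by
    simp only [add_dotProduct, eps_add]; ring
  simp only [this, ← mul_sum, orth, add_eq_zero2, mul_ite, mul_zero, sum_ite_eq', mem_univ,
    if_true]
  exact mul_comm _ _

/-- the character group of pairs of masks -/
abbrev Gam (ι : Type) : Type := (ι → ZMod 2) × (ι → ZMod 2)

/-- Fourier synthesis -/
def syn (a : Gam ι → K) (γ : Gam ι) : K := ∑ α, eps K (α.1 ⬝ᵥ γ.1 + α.2 ⬝ᵥ γ.2) * a α

lemma syn_surj {θ : K} (hθ : 2 * θ = 1) (f : Gam ι → K) : ∃ a, syn a = f := by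
  refine ⟨fun α => θ ^ Fintype.card ι * θ ^ Fintype.card ι * syn f α, funext fun γ => ?_⟩
  have h1 : ∀ α δ : Gam ι, eps K (α.1 ⬝ᵥ γ.1 + α.2 ⬝ᵥ γ.2) *
      (θ ^ Fintype.card ι * θ ^ Fintype.card ι * (eps K (δ.1 ⬝ᵥ α.1 + δ.2 ⬝ᵥ α.2) * f δ)) =
      θ ^ Fintype.card ι * θ ^ Fintype.card ι * f δ *
        (eps K ((δ.1 + γ.1) ⬝ᵥ α.1) * eps K ((δ.2 + γ.2) ⬝ᵥ α.2)) := fun α δ => by
    simp only [add_dotProduct, eps_add, dotProduct_comm α.1, dotProduct_comm α.2]; ring
  have h2 : θ ^ Fintype.card ι * 2 ^ Fintype.card ι = 1 := by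
    rw [← mul_pow, mul_comm, hθ, one_pow]
  simp only [syn, mul_sum, h1]
  rw [sum_comm]
  have h3 : ∀ δ : Gam ι, ∑ α : Gam ι, eps K ((δ.1 + γ.1) ⬝ᵥ α.1) * eps K ((δ.2 + γ.2) ⬝ᵥ α.2) =
      if δ = γ then 2 ^ Fintype.card ι * 2 ^ Fintype.card ι else 0 := fun δ => by
    simp only [Fintype.sum_prod_type, ← sum_mul_sum, orth, add_eq_zero2, Prod.ext_iff, ite_and,
      mul_ite, ite_mul, mul_zero, zero_mul]
    split_ifs <;> rfl
  simp only [← mul_sum, h3, mul_ite, mul_zero, sum_ite_eq', mem_univ, if_true]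
  linear_combination (θ ^ Fintype.card ι * 2 ^ Fintype.card ι + 1) * f γ * h2

lemma syn_zero (γ : Gam ι) : syn (0 : Gam ι → K) γ = 0 := by simp [syn]

lemma syn_axpy (a b : Gam ι → K) (c : K) (γ : Gam ι) :
    syn (fun α => a α + c * b α) γ = syn a γ + c * syn b γ := by
  simp only [syn, mul_add, sum_add_distrib, mul_sum, mul_left_comm c]

/-- convolution with the gate kernel along a linear embedding -/
lemma syn_conv {κ : Type} [Fintype κ] [DecidableEq κ] (a : Gam ι → K) (γ : Gam ι)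
    (U V : Matrix ι κ (ZMod 2)) :
    ∑ s : κ → ZMod 2, ∑ s' : κ → ZMod 2, eps K (s ⬝ᵥ s') * syn a (U *ᵥ s + γ.1, V *ᵥ s' + γ.2) =
      2 ^ Fintype.card κ * syn (fun α => eps K ((α.1 ᵥ* U) ⬝ᵥ (α.2 ᵥ* V)) * a α) γ := by
  have h1 : ∀ (s s' : κ → ZMod 2) (α : Gam ι), eps K (s ⬝ᵥ s') *
      (eps K (α.1 ⬝ᵥ (U *ᵥ s + γ.1) + α.2 ⬝ᵥ (V *ᵥ s' + γ.2)) * a α) =
      eps K (α.1 ⬝ᵥ γ.1 + α.2 ⬝ᵥ γ.2) * a α *
        (eps K (s ⬝ᵥ s') * eps K ((α.1 ᵥ* U) ⬝ᵥ s + (α.2 ᵥ* V) ⬝ᵥ s')) := fun s s' α => by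
    simp only [dotProduct_add, dotProduct_mulVec, eps_add]; ring
  simp only [syn, mul_sum, h1]
  rw [sum_congr rfl fun s _ => sum_comm, sum_comm]
  refine sum_congr rfl fun α _ => ?_
  simp only [← mul_sum, key]
  ring

/-- the mask of a vector -/
def mk {k : ℕ} (t : Fin k → ZMod 2) : List Bool := List.ofFn fun c => decide (t c = 1)

@[simp] lemma length_mk {k : ℕ} (t : Fin k → ZMod 2) : (mk t).length = k := by simp [mk]

lemma mk_add {k : ℕ} (s t : Fin k → ZMod 2) : List.zipWith xor (mk s) (mk t) = mk (s + t) := by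
  have : ∀ a b : ZMod 2, xor (decide (a = 1)) (decide (b = 1)) = decide (a + b = 1) := by decide
  refine List.ext_getElem (by simp) fun i _ _ => ?_
  simp only [mk, List.getElem_zipWith, List.getElem_ofFn, this, Pi.add_apply]

lemma mk_zero {k : ℕ} : ∀ b ∈ mk (0 : Fin k → ZMod 2), b = false := by simp [mk]

/-- tensor product of masks -/
def tk (u s : List Bool) : List Bool := u.flatMap fun b => s.map fun c => b && c

lemma length_tk (u s : List Bool) : (tk u s).length = u.length * s.length := by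
  simp [tk, List.length_flatMap]

lemma tk_append (u v s : List Bool) : tk (u ++ v) s = tk u s ++ tk v s := List.flatMap_append

lemma tk_true (u s : List Bool) : tk (true :: u) s = s ++ tk u s := by simp [tk]

lemma tk_xor (u : List Bool) {s t : List Bool} (h : s.length = t.length) :
    tk u (List.zipWith xor s t) = List.zipWith xor (tk u s) (tk u t) := by
  induction u with
  | nil => rfl
  | cons b u ih =>
    simp only [tk, List.flatMap_cons] at ih ⊢
    rw [List.zipWith_append (by simp [h]), ih]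
    congr 1
    refine List.ext_getElem (by simp) fun i _ _ => ?_
    cases b <;> simp

lemma tk_false {u : List Bool} (h : ∀ b ∈ u, b = false) (s : List Bool) :
    ∀ b ∈ tk u s, b = false := by
  simp only [tk, List.mem_flatMap, List.mem_map]
  rintro _ ⟨b, hb, c, -, rfl⟩
  simp [h b hb]

/-- the bits of a list -/
def bz (H : ℕ) (u : List Bool) : Fin H → ZMod 2 := fun i => if u.getD i false then 1 else 0

/-- the embedding of a small mask along `u` -/
def emb {H : ℕ} (q : ℕ) (u : Fin H → ZMod 2) : Matrix (Fin (H * q)) (Fin q) (ZMod 2) :=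
  fun c j => if c.modNat = j then u c.divNat else 0

lemma tk_mk {H q : ℕ} {u : List Bool} (hu : u.length = H) (s : Fin q → ZMod 2) :
    tk u (mk s) = mk (emb q (bz H u) *ᵥ s) := by
  subst hu
  have e : ∀ (b : Bool) (a : ZMod 2),
      (b && decide (a = 1)) = decide ((if b then 1 else 0) * a = 1) := by decide
  conv_lhs => rw [← List.ofFn_getElem (xs := u)]
  rw [tk, mk, mk, List.ofFn_mul, List.flatMap_def, List.map_ofFn]
  refine congrArg _ (congrArg _ (funext fun i => ?_))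
  rw [Function.comp_apply, List.map_ofFn]
  refine congrArg _ (funext fun j => ?_)
  have hq : 0 < q := j.pos
  have h1 : Fin.modNat (⟨i * q + j, lt_of_lt_of_le (Nat.add_lt_add_left j.2 _) (by
      rw [← Nat.succ_mul]; exact Nat.mul_le_mul_right _ i.2)⟩ : Fin (u.length * q)) = j :=
    Fin.ext (by simp [Fin.modNat, Nat.mod_eq_of_lt j.2])
  have h2 : Fin.divNat (⟨i * q + j, lt_of_lt_of_le (Nat.add_lt_add_left j.2 _) (by
      rw [← Nat.succ_mul]; exact Nat.mul_le_mul_right _ i.2)⟩ : Fin (u.length * q)) = i :=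
    Fin.ext (by simp [Fin.divNat, add_comm, Nat.add_mul_div_right _ _ hq, Nat.div_eq_of_lt j.2])
  simp only [Function.comp_apply, e, mulVec, dotProduct, emb, h1, h2, ite_mul, zero_mul,
    sum_ite_eq, mem_univ, if_true, bz]
  simp

/-- the quadratic form of a label -/
def qf {H : ℕ} (q : ℕ) (M : Matrix (Fin H) (Fin H) (ZMod 2)) (α : Gam (Fin (H * q))) : ZMod 2 :=
  ∑ c : Fin q, (fun i => α.1 (finProdFinEquiv (i, c))) ⬝ᵥ M *ᵥ fun i => α.2 (finProdFinEquiv (i, c))

lemma qf_add {H q : ℕ} (M N : Matrix (Fin H) (Fin H) (ZMod 2)) (α : Gam (Fin (H * q))) :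
    qf q (M + N) α = qf q M α + qf q N α := by
  simp only [qf, add_mulVec, dotProduct_add, sum_add_distrib]

lemma qf_zero {H q : ℕ} (α : Gam (Fin (H * q))) : qf q 0 α = 0 := by simp [qf]

lemma qf_one {H q : ℕ} (α : Gam (Fin (H * q))) : qf q 1 α = α.1 ⬝ᵥ α.2 := by
  simp only [qf, one_mulVec, dotProduct]
  rw [← finProdFinEquiv.sum_comp, Fintype.sum_prod_type_right]

lemma vecMul_emb {H q : ℕ} (u : Fin H → ZMod 2) (a : Fin (H * q) → ZMod 2) (c : Fin q) :
    (a ᵥ* emb q u) c = (fun i => a (finProdFinEquiv (i, c))) ⬝ᵥ u := by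
  simp only [vecMul, dotProduct, emb]
  rw [← finProdFinEquiv.sum_comp, Fintype.sum_prod_type]
  refine sum_congr rfl fun i _ => ?_
  have h : ∀ p : Fin H × Fin q, (finProdFinEquiv p).divNat = p.1 ∧ (finProdFinEquiv p).modNat = p.2 :=
    fun p => Prod.ext_iff.1 (finProdFinEquiv.symm_apply_apply p)
  simp [h]

lemma qf_vv {H q : ℕ} (u v : Fin H → ZMod 2) (α : Gam (Fin (H * q))) :
    qf q (vecMulVec u v) α = (α.1 ᵥ* emb q u) ⬝ᵥ (α.2 ᵥ* emb q v) := by
  rw [qf, dotProduct]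
  refine sum_congr rfl fun c _ => ?_
  rw [vecMul_emb, vecMul_emb, vecMulVec_mulVec, op_smul_eq_smul, dotProduct_smul, smul_eq_mul,
    dotProduct_comm v, mul_comm]

lemma sum_bool {k : ℕ} (F : List Bool → List Bool → K) :
    ∑ t : Fin k → Bool, ∑ t' : Fin k → Bool, (sgn t t' : K) * F (List.ofFn t) (List.ofFn t') =
      ∑ t : Fin k → ZMod 2, ∑ t' : Fin k → ZMod 2, eps K (t ⬝ᵥ t') * F (mk t) (mk t') := by
  let e : ZMod 2 ≃ Bool := ⟨fun a => decide (a = 1), fun b => if b then 1 else 0, by decide,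
    by decide⟩
  rw [← (Equiv.piCongrRight fun _ => e).sum_comp]
  refine sum_congr rfl fun t _ => ?_
  rw [← (Equiv.piCongrRight fun _ => e).sum_comp]
  refine sum_congr rfl fun t' _ => ?_
  refine congrArg₂ _ ?_ rfl
  rw [sgn, dotProduct, eps_sum, Int.cast_prod]
  refine prod_congr rfl fun c _ => ?_
  change ((if decide (t c = 1) && decide (t' c = 1) then -1 else 1 : ℤ) : K) = _
  rcases z2 (t c) with h | h <;> rcases z2 (t' c) with h' | h' <;> simp [h, h', eps]

end Vale.Agent.P338.Gn
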