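import Vale.Agent.P338.GnetA
import Vale.Agent.P338.Crt

/-! Job J9, part B: separating one group of moduli from an axis. -/

namespace Vale.Agent.P338.Gn

open PT

/-- `y'` is the reflection of `y`, residue by residue -/
def Rf (rs : List ℕ) (t : List Bool) (y y' : ℕ) : Prop :=
  ∀ p ∈ rs.zip t, (y' : ZMod p.1) = if p.2 then -(y : ZMod p.1) else y

lemma rf_reflN {rs : List ℕ} (hc : rs.Pairwise Nat.Coprime) (h0 : ∀ r ∈ rs, 0 < r)
    {t : List Bool} (hl : t.length = rs.length) (y : ℕ) : Rf rs t y (reflN rs t y) := by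
  intro p hp
  obtain ⟨c, h, rfl⟩ := List.mem_iff_getElem.1 hp
  have h1 : c < rs.length := by simp at h; omega
  have := reflN_cast hc h0 hl y h1
  rw [List.getD_eq_getElem _ _ h1, List.getD_eq_getElem _ _ (hl ▸ h1)] at this
  rw [List.getElem_zip]
  exact this

lemma eq_reflN {rs : List ℕ} (hc : rs.Pairwise Nat.Coprime) (h0 : ∀ r ∈ rs, 0 < r)
    {t : List Bool} (hl : t.length = rs.length) {y y' : ℕ} (hy : y' < rs.prod)
    (h : Rf rs t y y') : y' = reflN rs t y := by
  refine eq_of_modEq_all hc hy (reflN_lt h0 t y) fun c h1 => ?_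
  have h2 : (rs[c], t[c]'(hl ▸ h1)) ∈ rs.zip t := by
    rw [← List.getElem_zip (h := by simp; omega)]; exact List.getElem_mem _
  rw [List.getD_eq_getElem _ _ h1, ← ZMod.natCast_eq_natCast_iff]
  exact (h _ h2).trans (rf_reflN hc h0 hl y _ h2).symm

lemma cast_eq {r M a b : ℕ} (hr : r ∣ M) (h : a ≡ b [MOD M]) : (a : ZMod r) = b :=
  (ZMod.natCast_eq_natCast_iff a b r).2 (h.of_dvd hr)

lemma div_add {z S w : ℕ} (hw : w < S) : (z * S + w) / S = z := by
  rw [add_comm, Nat.add_mul_div_right _ _ (by omega), Nat.div_eq_of_lt hw, zero_add]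

lemma mod_add {z S w : ℕ} (hw : w < S) : (z * S + w) % S = w := by
  rw [add_comm, Nat.add_mul_mod_self_right, Nat.mod_eq_of_lt hw]

lemma sg_add {g : List ℕ} (a z : ℕ) : sg g (a * g.prod + z) = sg g z :=
  List.map_congr_left fun r hr => by
    obtain ⟨c, hc⟩ := List.dvd_prod hr
    rw [hc, mul_left_comm, add_comm, Nat.add_mul_mod_self_left]

section
variable {A g B : List ℕ} {uA uB s : List Bool} (hc : (A ++ g ++ B).Pairwise Nat.Coprime)
  (ho : ∀ r ∈ A ++ g ++ B, Odd r) (lA : A.length = uA.length * g.length)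
  (lB : B.length = uB.length * g.length) (hs : s.length = g.length)

lemma sub_g : g.Sublist (A ++ g ++ B) := by simp [List.sublist_append_of_sublist_right]

lemma sub_r : (A ++ B).Sublist (A ++ g ++ B) := by simp

include hc in
lemma cop_gr : Nat.Coprime g.prod (A ++ B).prod := by
  have : (g ++ (A ++ B)).Pairwise Nat.Coprime := by
    refine (List.Perm.pairwise_iff (fun h => h.symm) ?_).1 hc
    rw [← List.append_assoc]
    exact List.perm_append_comm.append_right B
  exact Nat.coprime_list_prod_left_iff.2 fun a ha => Nat.coprime_list_prod_right_iff.2 fun b hb =>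
    (List.pairwise_append.1 this).2.2 a ha b hb

lemma prod_gr : g.prod * (A ++ B).prod = (A ++ g ++ B).prod := by
  simp only [List.prod_append]; ring

include lA hs in
lemma mem_zip {p : ℕ × Bool} (hp : p ∈ (A ++ g ++ B).zip (tk (uA ++ true :: uB) s)) :
    p ∈ g.zip s ∨ p ∈ (A ++ B).zip (tk (uA ++ uB) s) := by
  have h : A.length = (tk uA s).length := by rw [length_tk, hs, lA]
  rw [tk_append, tk_true, List.append_assoc, List.zip_append h, List.zip_append hs.symm] at hp
  rw [tk_append, List.zip_append h]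
  simp only [List.mem_append] at hp ⊢
  tauto

include hc ho lA lB hs in
lemma sep1 {z w : ℕ} (gz : good g z = true) :
    cinv g.prod (A ++ B).prod (reflN g s z * (A ++ B).prod +
      reflN (A ++ B) (tk (uA ++ uB) (sg g (reflN g s z))) w) =
    reflN (A ++ g ++ B) (tk (uA ++ true :: uB) s) (cinv g.prod (A ++ B).prod
      (z * (A ++ B).prod + reflN (A ++ B) (tk (uA ++ uB) (sg g z)) w)) := by
  have h0 : ∀ r ∈ A ++ g ++ B, 0 < r := fun r hr => (ho r hr).pos
  have h1 : ∀ r ∈ g, 0 < r := fun r hr => h0 r (sub_g.subset hr)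
  have h2 : ∀ r ∈ A ++ B, 0 < r := fun r hr => h0 r (sub_r.subset hr)
  have hM := List.prod_pos h1
  have hS := List.prod_pos h2
  have hl : ∀ t : List Bool, t.length = g.length → (tk (uA ++ uB) t).length = (A ++ B).length :=
    fun t ht => by simp [length_tk, ht, lA, lB, add_mul]
  have hsg : (sg g z).length = g.length := by simp [sg]
  refine eq_reflN hc h0 (by simp [length_tk, hs, lA, lB]; ring) (prod_gr ▸ cinv_lt hM hS _)
    fun p hp => ?_
  rcases mem_zip lA hs hp with hp | hp
  · have hr := List.dvd_prod (List.of_mem_zip hp).1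
    rw [cast_eq hr (cinv_modEq_left (cop_gr hc) hM hS _),
      cast_eq hr (cinv_modEq_left (cop_gr hc) hM hS _), div_add (reflN_lt h2 _ _),
      div_add (reflN_lt h2 _ _), Nat.cast_mul, Nat.cast_mul,
      rf_reflN (hc.sublist sub_g) h1 hs z p hp]
    split_ifs <;> ring
  · have hr := List.dvd_prod (List.of_mem_zip hp).1
    have e : ∀ a b, b < (A ++ B).prod → (cinv g.prod (A ++ B).prod (a * (A ++ B).prod + b) :
        ZMod p.1) = b := fun a b hb => cast_eq hr (by
      rw [Nat.ModEq, cinv_mod_right, mod_add hb, Nat.mod_eq_of_lt hb])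
    rw [e _ _ (reflN_lt h2 _ _), e _ _ (reflN_lt h2 _ _), sg_reflN (hc.sublist sub_g)
      (fun r hr => ho r (sub_g.subset hr)) hs gz, tk_xor _ (hs.trans hsg.symm),
      ← reflN_reflN (hc.sublist sub_r) h2 (hl _ hs) (hl _ hsg)]
    exact rf_reflN (hc.sublist sub_r) h2 (hl _ hs) _ p hp

include hc ho lA lB hs in
lemma sep2 (hu : ∀ b ∈ uA ++ uB, b = false) {x z : ℕ} (hz : z < g.prod) :
    cinv (A ++ B).prod g.prod (x * g.prod + reflN g s z) =
    reflN (A ++ g ++ B) (tk (uA ++ true :: uB) s) (cinv (A ++ B).prod g.prod (x * g.prod + z)) := by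
  have h0 : ∀ r ∈ A ++ g ++ B, 0 < r := fun r hr => (ho r hr).pos
  have h1 : ∀ r ∈ g, 0 < r := fun r hr => h0 r (sub_g.subset hr)
  have hM := List.prod_pos h1
  have hS := List.prod_pos fun r hr => h0 r (sub_r.subset hr)
  refine eq_reflN hc h0 (by simp [length_tk, hs, lA, lB]; ring)
    (by rw [← prod_gr, mul_comm g.prod]; exact cinv_lt hS hM _) fun p hp => ?_
  rcases mem_zip lA hs hp with hp | hp
  · have hr := List.dvd_prod (List.of_mem_zip hp).1
    have e : ∀ b, b < g.prod → (cinv (A ++ B).prod g.prod (x * g.prod + b) :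
        ZMod p.1) = b := fun b hb => cast_eq hr (by
      rw [Nat.ModEq, cinv_mod_right, mod_add hb, Nat.mod_eq_of_lt hb])
    rw [e _ (reflN_lt h1 _ _), e _ hz]
    exact rf_reflN (hc.sublist sub_g) h1 hs z p hp
  · have hr := List.dvd_prod (List.of_mem_zip hp).1
    rw [cast_eq hr (cinv_modEq_left (cop_gr hc).symm hS hM _),
      cast_eq hr (cinv_modEq_left (cop_gr hc).symm hS hM _), div_add (reflN_lt h1 _ _),
      div_add hz, tk_false hu s _ (List.of_mem_zip hp).2]
    rfl

end

lemma prod_le_prod_of_sorted {g B : List ℕ} (h : ∀ a ∈ g, ∀ b ∈ B, a < b)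
    (hl : g.length ≤ B.length) (h0 : ∀ b ∈ B, 0 < b) : g.prod ≤ B.prod := by
  induction g generalizing B with
  | nil => exact List.prod_pos h0
  | cons a g ih =>
    obtain _ | ⟨b, B⟩ := B
    · simp at hl
    exact Nat.mul_le_mul (h a (by simp) b (by simp)).le (ih
      (fun x hx y hy => h x (by simp [hx]) y (by simp [hy])) (by simpa using hl)
      fun y hy => h0 y (by simp [hy]))

/-- the position of the first `true` -/
def gI (u : List Bool) : ℕ := u.length - (u.dropWhile fun b => !b).length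

/-- the selected group -/
def gG (q : ℕ) (rs : List ℕ) (u : List Bool) : List ℕ := (rs.drop (gI u * q)).take q

/-- the other groups -/
def gS (q : ℕ) (rs : List ℕ) (u : List Bool) : List ℕ :=
  rs.take (gI u * q) ++ rs.drop ((gI u + 1) * q)

/-- the moduli of the inner axis -/
def gR (q : ℕ) (rs : List ℕ) (u : List Bool) : List ℕ :=
  if (gG q rs u).prod ≤ (gS q rs u).prod then gS q rs u else []

/-- the mask of the inner axis -/
def gU (q : ℕ) (rs : List ℕ) (u : List Bool) : List Bool :=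
  if (gG q rs u).prod ≤ (gS q rs u).prod then u.take (gI u) ++ u.drop (gI u + 1) else []

/-- the length of the outer axis -/
def gA (q : ℕ) (rs : List ℕ) (u : List Bool) : ℕ :=
  if (gG q rs u).prod ≤ (gS q rs u).prod then 1 else (gS q rs u).prod

def g1 (q : ℕ) (rs : List ℕ) (u : List Bool) : ℕ := min (gG q rs u).prod (gS q rs u).prod

def g2 (q : ℕ) (rs : List ℕ) (u : List Bool) : ℕ := max (gG q rs u).prod (gS q rs u).prod

/-- the reflection in the split layout -/
def gX (q : ℕ) (rs : List ℕ) (u : List Bool) (j : ℕ) : ℕ :=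
  j / (gR q rs u).prod * (gR q rs u).prod + reflN (gR q rs u)
    (tk (gU q rs u) (sg (gG q rs u) (j / (gR q rs u).prod))) (j % (gR q rs u).prod)

/-- from the new layout to the natural order -/
def gP (q : ℕ) (rs : List ℕ) (u : List Bool) (j : ℕ) : ℕ :=
  cinv (g1 q rs u) (g2 q rs u) (gX q rs u j)

/-- from the natural order to the new layout -/
def gQ (q : ℕ) (rs : List ℕ) (u : List Bool) (y : ℕ) : ℕ :=
  gX q rs u (cidx (g1 q rs u) (g2 q rs u) y)

lemma dec {q : ℕ} {rs : List ℕ} {u : List Bool} (hl : rs.length = u.length * q) (hu : true ∈ u) :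
    ∃ A B uA uB, rs = A ++ gG q rs u ++ B ∧ gS q rs u = A ++ B ∧ u = uA ++ true :: uB ∧
      u.take (gI u) ++ u.drop (gI u + 1) = uA ++ uB ∧ (∀ b ∈ uA, b = false) ∧
      A.length = uA.length * q ∧ B.length = uB.length * q ∧ (gG q rs u).length = q := by
  obtain ⟨uA, uB, rfl, h⟩ := List.eq_append_cons_of_mem hu
  have h1 : ∀ b ∈ uA, b = false := fun b hb => by
    cases b
    exacts [rfl, absurd hb h]
  have h2 : gI (uA ++ true :: uB) = uA.length := by
    rw [gI, List.dropWhile_append_of_pos fun b hb => by simp [h1 b hb]]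
    simp
  rw [List.length_append, List.length_cons, add_mul, add_mul, one_mul] at hl
  refine ⟨_, _, uA, uB, ?_, rfl, rfl, by simp [h2], h1, ?_, ?_, ?_⟩
  · rw [gG, add_mul, one_mul, ← List.drop_drop, List.append_assoc, List.take_append_drop,
      List.take_append_drop]
  · rw [List.length_take, h2]; omega
  · rw [List.length_drop, h2, add_mul]; omega
  · rw [gG, List.length_take, List.length_drop, h2]; omega

/-- admissible data for the change of layout -/
structure AX (q : ℕ) (rs : List ℕ) (u : List Bool) : Prop where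
  len : rs.length = u.length * q
  mem : true ∈ u
  rlt : rs.Pairwise (· < ·)
  cop : rs.Pairwise Nat.Coprime
  odd : ∀ r ∈ rs, Odd r

namespace AX

variable {q : ℕ} {rs : List ℕ} {u : List Bool} (h : AX q rs u)
include h

lemma sub : (gG q rs u).Sublist rs ∧ (gG q rs u).length = q ∧ (gR q rs u).Sublist rs ∧
    (gR q rs u).length = (gU q rs u).length * q ∧
    gA q rs u * (gG q rs u).prod * (gR q rs u).prod = rs.prod ∧ 0 < g1 q rs u ∧
    g1 q rs u ≤ g2 q rs u ∧ Nat.Coprime (g1 q rs u) (g2 q rs u) ∧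
    g1 q rs u * g2 q rs u = rs.prod := by
  obtain ⟨A, B, uA, uB, e1, e2, e3, e4, -, l1, l2, l3⟩ := dec h.len h.mem
  obtain ⟨-, -, -, hc, ho⟩ := h
  unfold gR gU gA g1 g2
  rw [e2, e4]
  generalize gG q rs u = g at *
  subst e1
  have hM : 0 < g.prod := List.prod_pos fun r hr => (ho r (sub_g.subset hr)).pos
  have hS : 0 < (A ++ B).prod := List.prod_pos fun r hr => (ho r (sub_r.subset hr)).pos
  refine ⟨sub_g, l3, ?_, ?_, ?_, lt_min hM hS, min_le_max, ?_, (min_mul_max _ _).trans prod_gr⟩
  · split_ifs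
    exacts [sub_r, List.nil_sublist _]
  · split_ifs <;> simp [l1, l2, add_mul]
  · rw [← prod_gr]
    split_ifs
    · rw [one_mul]
    · rw [List.prod_nil, mul_one, mul_comm]
  · rcases le_total g.prod (A ++ B).prod with h | h
    · rw [min_eq_left h, max_eq_right h]; exact cop_gr hc
    · rw [min_eq_right h, max_eq_left h]; exact (cop_gr hc).symm

lemma pos : ∀ r ∈ rs, 0 < r := fun r hr => (h.odd r hr).pos

lemma posR : ∀ r ∈ gR q rs u, 0 < r := fun r hr => h.pos r (h.sub.2.2.1.subset hr)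

lemma lenU (x : ℕ) : (tk (gU q rs u) (sg (gG q rs u) x)).length = (gR q rs u).length := by
  rw [length_tk, sg, List.length_map, h.sub.2.1, h.sub.2.2.2.1]

lemma gX_lt {j : ℕ} (hj : j < rs.prod) : gX q rs u j < rs.prod := by
  rw [← h.sub.2.2.2.2.1] at hj ⊢
  exact lt_mul_of_lt (Nat.div_lt_of_lt_mul (mul_comm (gR q rs u).prod _ ▸ hj))
    (reflN_lt h.posR _ _)

lemma gX_gX (j : ℕ) : gX q rs u (gX q rs u j) = j := by
  have hc := h.cop.sublist h.sub.2.2.1
  rw [gX, gX, div_add (reflN_lt h.posR _ _), mod_add (reflN_lt h.posR _ _),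
    reflN_reflN hc h.posR (h.lenU _) (h.lenU _), reflN_false hc h.posR (by simp [h.lenU])
      (by simp) (Nat.mod_lt _ (List.prod_pos h.posR)), Nat.div_add_mod']

lemma gP_lt (j : ℕ) : gP q rs u j < rs.prod := by
  obtain ⟨-, -, -, -, -, h1, h2, -, h3⟩ := h.sub
  exact h3 ▸ cinv_lt h1 (h1.trans_le h2) _

lemma gQ_lt (y : ℕ) : gQ q rs u y < rs.prod := by
  obtain ⟨-, -, -, -, -, h1, h2, -, h3⟩ := h.sub
  exact h.gX_lt (h3 ▸ cidx_lt h1 (h1.trans_le h2) _)

lemma gP_gQ {y : ℕ} (hy : y < rs.prod) : gP q rs u (gQ q rs u y) = y := by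
  obtain ⟨-, -, -, -, -, -, -, h2, h3⟩ := h.sub
  rw [gP, gQ, h.gX_gX, cinv_cidx h2 (h3 ▸ hy)]

lemma main {x z w : ℕ} (hx : x < gA q rs u) (hz : z < (gG q rs u).prod)
    (hw : w < (gR q rs u).prod) :
    (good rs (gP q rs u ((x * (gG q rs u).prod + z) * (gR q rs u).prod + w)) = true →
      good (gG q rs u) z = true) ∧
    ∀ s : List Bool, s.length = q → good (gG q rs u) z = true →
      gP q rs u ((x * (gG q rs u).prod + reflN (gG q rs u) s z) * (gR q rs u).prod + w) =
        reflN rs (tk u s) (gP q rs u ((x * (gG q rs u).prod + z) * (gR q rs u).prod + w)) := by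
  obtain ⟨A, B, uA, uB, e1, e2, e3, e4, hA, l1, l2, l3⟩ := dec h.len h.mem
  obtain ⟨-, -, hlt, hc, ho⟩ := h
  simp only [gP, gX, div_add hw, mod_add hw, sg_add]
  unfold gR gA at *
  unfold gU g1 g2
  rw [e2] at hx hw ⊢
  rw [e4]
  generalize gG q rs u = g at *
  subst e1 e3 l3
  have h0 : ∀ r ∈ A ++ g ++ B, 0 < r := fun r hr => (ho r hr).pos
  have h2 : ∀ r ∈ A ++ B, 0 < r := fun r hr => h0 r (sub_r.subset hr)
  have hM : 0 < g.prod := by omega
  have hS := List.prod_pos h2
  have gd : ∀ Y c, (∀ r ∈ g, (Y : ZMod r) = z * (c : ℕ)) → good (A ++ g ++ B) Y = true →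
      good g z = true := fun Y c hY hg => by
    simp only [good, List.all_eq_true, decide_eq_true_eq] at hg ⊢
    refine fun r hr h => hg r (sub_g.subset hr) ?_
    rw [← Nat.dvd_iff_mod_eq_zero, ← ZMod.natCast_eq_zero_iff] at h ⊢
    rw [hY r hr, h, zero_mul]
  by_cases hC : g.prod ≤ (A ++ B).prod
  · simp only [if_pos hC, min_eq_left hC, max_eq_right hC] at hx hw ⊢
    obtain rfl : x = 0 := by omega
    simp only [zero_mul, zero_add]
    refine ⟨gd _ (A ++ B).prod fun r hr => ?_, fun s hs gz => sep1 hc ho l1 l2 hs gz⟩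
    rw [cast_eq (List.dvd_prod hr) (cinv_modEq_left (cop_gr hc) hM hS _),
      div_add (reflN_lt h2 _ _), Nat.cast_mul]
  · have hC' := (not_le.1 hC).le
    have r0 : ∀ t y, reflN [] t y = 0 := fun t y => Nat.mod_one _
    simp only [if_neg hC, min_eq_right hC', max_eq_left hC', r0, List.prod_nil, mul_one, add_zero]
    refine ⟨gd _ 1 fun r hr => ?_, fun s hs _ => sep2 hc ho l1 l2 hs (fun b hb => ?_) hz⟩
    · rw [Nat.cast_one, mul_one]
      exact cast_eq (List.dvd_prod hr) (by
        rw [Nat.ModEq, cinv_mod_right, mod_add hz, Nat.mod_eq_of_lt hz])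
    · obtain _ | ⟨b', uB⟩ := uB
      · exact hA b (by simpa using hb)
      refine absurd ((prod_le_prod_of_sorted (B := B) (fun a ha b hb => ?_) ?_
        fun b hb => h2 b (by simp [hb])).trans ?_) hC
      · exact (List.pairwise_append.1 hlt).2.2 a (by simp [ha]) b hb
      · rw [l2, List.length_cons, add_mul]; omega
      · rw [List.prod_append]
        exact Nat.le_mul_of_pos_left _ (List.prod_pos fun r hr => h2 r (by simp [hr]))

end AX

end Vale.Agent.P338.Gn
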