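import Vale.Agent.P338.Swap

/-! Job J8b: lowering an axis, Chinese remainder layouts, reflections. -/

namespace Vale.Agent.P338

open PT

attribute [local irreducible] PTime PB C

namespace Lw

lemma takeD_eq (n : ℕ) (l : List Bool) : l.takeD n false = (l ++ List.replicate n false).take n := by
  induction l generalizing n with
  | nil => simp
  | cons a l ih =>
    cases n with
    | zero => simp
    | succ n =>
      rw [List.takeD_succ, List.tail_cons, ih, List.replicate_succ', ← List.append_assoc]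
      simp only [List.head?_cons, Option.getD_some, List.cons_append, List.take_succ_cons]
      rw [List.take_append_of_le_length (l₂ := [false]) (by simp)]

lemma blk_take {β s n : ℕ} (l : List Bool) (h : (s + 1) * β ≤ n) :
    blk β s (l.take n) = blk β s l := by
  rw [add_mul, one_mul] at h
  unfold blk
  rw [List.drop_take, List.take_take, min_eq_left (by omega)]

lemma blk_takeD {m : List Bool} {S S' β s : ℕ} (hm : m.length = S * β) (hs : s < S') :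
    blk β s (m.takeD (S' * β) false) = if s < S then blk β s m else List.replicate β false := by
  rw [takeD_eq, blk_take _ (Nat.mul_le_mul_right _ hs)]
  split_ifs with h
  · exact blk_append_left _ (hm ▸ Nat.mul_le_mul_right _ h)
  · obtain ⟨i, rfl⟩ : ∃ i, s = S + i := ⟨s - S, by omega⟩
    rw [blk_append_right _ _ hm, blk_replicate _ (Nat.mul_le_mul_right _ (by omega))]

/-- truncate or pad every block -/
abbrev padF (O L L' : ℕ) (l : List Bool) : List Bool := fl O fun o => (blk L o l).takeD L' false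

lemma length_padF (O L L' : ℕ) (l : List Bool) : (padF O L L' l).length = O * L' :=
  length_fl fun _ _ => List.takeD_length _ _ _

lemma blk_padF {l : List Bool} {O S S' β o s : ℕ} (hl : l.length = O * (S * β)) (ho : o < O)
    (hs : s < S') : blk β (o * S' + s) (padF O (S * β) (S' * β) l) =
      if s < S then blk β (o * S + s) l else List.replicate β false := by
  rw [← blk_blk _ hs, blk_fl (fun _ _ => List.takeD_length _ _ _) ho,
    blk_takeD (length_blk' hl ho) hs]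
  split_ifs with h
  · exact blk_blk _ h
  · rfl

lemma length_swapF {l : List Bool} {Q M β : ℕ} (hl : l.length = Q * M * Q * β) :
    (swapF Q M β l).length = Q * M * (Q * β) := by
  rw [swapF, length_fl fun b hb => length_fl fun μ hμ => length_fl fun a ha =>
    length_blk' hl (lt_mul_of_lt (lt_mul_of_lt ha hμ) hb)]
  ring

lemma blk_swapF {l : List Bool} {Q M β a b μ : ℕ} (hl : l.length = Q * M * Q * β) (ha : a < Q)
    (hb : b < Q) (hμ : μ < M) :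
    blk β ((b * M + μ) * Q + a) (swapF Q M β l) = blk β ((a * M + μ) * Q + b) l := by
  have h : ∀ b < Q, ∀ μ < M, ∀ a < Q, (blk β ((a * M + μ) * Q + b) l).length = β :=
    fun b hb μ hμ a ha => length_blk' hl (lt_mul_of_lt (lt_mul_of_lt ha hμ) hb)
  rw [← blk_blk _ ha, swapF, blk_fl_fl (fun b hb μ hμ => length_fl (h b hb μ hμ)) hb hμ,
    blk_fl (h b hb μ hμ) ha]

lemma pw_pos (S : ℕ) : 0 < pw S := by unfold pw; positivity

lemma pw_eq {S1 S2 : ℕ} (h : S1 ≤ S2) : pw S1 * (pw S2 / pw S1) = pw S2 :=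
  Nat.mul_div_cancel' (pw_dvd h)

lemma M_pos {S1 S2 : ℕ} (h : S1 ≤ S2) : 0 < pw S2 / pw S1 :=
  Nat.div_pos (Nat.le_of_dvd (pw_pos _) (pw_dvd h)) (pw_pos _)

lemma lower_eq {S1 S2 β : ℕ} (h : S1 ≤ S2) {l : List Bool} (hl : l.length = S1 * S2 * β) :
    padF (pw S2) (pw S1 * β) (S1 * β) (swapF (pw S1) (pw S2 / pw S1) β
      ((padF S1 (S2 * β) (pw S2 * β) l).takeD (pw S1 * pw S2 * β) false)) = lowerF S1 S2 β l := by
  have e := pw_eq h
  have hM := M_pos h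
  have l2 : ((padF S1 (S2 * β) (pw S2 * β) l).takeD (pw S1 * pw S2 * β) false).length =
      pw S1 * (pw S2 / pw S1) * pw S1 * β := by
    rw [List.takeD_length, e]
    ring
  refine fl_congr fun ρ hρ => ?_
  rw [← fl_blk (List.takeD_length (S1 * β) _ _)]
  refine fl_congr fun x hx => ?_
  have hx1 : x < pw S1 := hx.trans_le (le_pw S1)
  have hb : ρ / (pw S2 / pw S1) < pw S1 := Nat.div_lt_of_lt_mul (by rw [mul_comm, e]; exact hρ)
  have hμ := Nat.mod_lt ρ hM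
  have hy : rowOf S1 S2 ρ < pw S2 := by
    rw [← e, mul_comm]
    exact lt_mul_of_lt hμ hb
  rw [blk_takeD (length_blk' ((length_swapF l2).trans (by rw [e])) hρ) hx, if_pos hx1,
    blk_blk _ hx1]
  conv_lhs => rw [← Nat.div_add_mod' ρ (pw S2 / pw S1)]
  rw [blk_swapF l2 hx1 hb hμ, show (x * (pw S2 / pw S1) + ρ % (pw S2 / pw S1)) * pw S1 +
      ρ / (pw S2 / pw S1) = x * pw S2 + rowOf S1 S2 ρ by
        rw [rowOf, add_mul, mul_assoc, mul_comm _ (pw S1), e, add_assoc],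
    blk_takeD ((length_padF _ _ _ _).trans (mul_assoc _ _ _).symm) (lt_mul_of_lt hx1 hy),
    if_pos (lt_mul_of_lt hx hy), blk_padF (hl.trans (mul_assoc _ _ _)) hx hy]

lemma raise_eq {S1 S2 β : ℕ} (h : S1 ≤ S2) {l : List Bool} (hl : l.length = pw S2 * S1 * β) :
    padF S1 (pw S2 * β) (S2 * β) ((swapF (pw S1) (pw S2 / pw S1) β
      (padF (pw S2) (S1 * β) (pw S1 * β) l)).takeD (S1 * pw S2 * β) false) = raiseF S1 S2 β l := by
  have e := pw_eq h
  have l2 : (padF (pw S2) (S1 * β) (pw S1 * β) l).length =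
      pw S1 * (pw S2 / pw S1) * pw S1 * β := by
    rw [length_padF, e, mul_assoc]
  refine fl_congr fun x hx => ?_
  rw [← fl_blk (List.takeD_length (S2 * β) _ _)]
  refine fl_congr fun y hy => ?_
  have hx1 : x < pw S1 := hx.trans_le (le_pw S1)
  have hy2 : y < pw S2 := hy.trans_le (le_pw S2)
  have hμ : y / pw S1 < pw S2 / pw S1 := Nat.div_lt_of_lt_mul (by rw [e]; exact hy2)
  have hb := Nat.mod_lt y (pw_pos S1)
  rw [blk_takeD (length_blk' ((List.takeD_length _ _ _).trans (mul_assoc _ _ _)) hx) hy, if_pos hy2,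
    blk_blk _ hy2, blk_takeD (S := pw S1 * pw S2) ((length_swapF l2).trans (by rw [e]; ring))
      (lt_mul_of_lt hx hy2), if_pos (lt_mul_of_lt hx1 hy2),
    show x * pw S2 + y = (x * (pw S2 / pw S1) + y / pw S1) * pw S1 + y % pw S1 by
      rw [add_mul, mul_assoc, mul_comm _ (pw S1), e, add_assoc, Nat.div_add_mod'],
    blk_swapF l2 hb hx1 hμ]
  exact (blk_padF (hl.trans (mul_assoc _ _ _)) (rowInv_lt h hy) hx1).trans (if_pos hx)

lemma size_pw {S : ℕ} (h : 0 < S) : (pw S).size ≤ 1 * S.size + 5 := by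
  refine Nat.size_le.2 ((pw_le h).trans_lt ?_)
  have := Nat.lt_size_self S
  rw [one_mul, pow_add]
  omega

lemma pw_mul_le {S1 S2 : ℕ} (h0 : 0 < S1) (h : S1 ≤ S2) (β : ℕ) :
    pw S1 * pw S2 * β ≤ 289 * (S1 * S2 * β) := by
  calc pw S1 * pw S2 * β ≤ 17 * S1 * (17 * S2) * β := by
        gcongr
        exacts [pw_le h0, pw_le (by omega)]
    _ = _ := by ring

lemma swap_cost {τ : ℕ → ℕ} (hτ : Monotone τ) {S1 S2 : ℕ} (h0 : 0 < S1) (h : S1 ≤ S2) (β N : ℕ) :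
    pw S1 * (pw S2 / pw S1) * pw S1 * β * τ (pw S1).size ≤
      289 * (S1 * S2 * β * τ (1 * S1.size + 5) + N) := by
  rw [pw_eq h, mul_comm (pw S2)]
  calc pw S1 * pw S2 * β * τ (pw S1).size ≤ 289 * (S1 * S2 * β) * τ (1 * S1.size + 5) :=
        Nat.mul_le_mul (pw_mul_le h0 h β) (hτ (size_pw h0))
    _ ≤ _ := by rw [mul_assoc 289]; omega

end Lw

open Lw in
/-- the parameters `(S1, S2, β)` -/
theorem lower_op : ∃ τ, Sub τ ∧
    Op (fun e : ℕ × ℕ × ℕ => 0 < e.1 ∧ e.1 ≤ e.2.1) (fun e => e.1 * e.2.1 * e.2.2)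
      (fun e => pw e.2.1 * e.1 * e.2.2) (fun e => e.2.2)
      (fun e => e.1 * e.2.1 * e.2.2 * τ e.1.size) (fun e => lowerF e.1 e.2.1 e.2.2) ∧
    Op (fun e : ℕ × ℕ × ℕ => 0 < e.1 ∧ e.1 ≤ e.2.1) (fun e => pw e.2.1 * e.1 * e.2.2)
      (fun e => e.1 * e.2.1 * e.2.2) (fun e => e.2.2)
      (fun e => e.1 * e.2.1 * e.2.2 * τ e.1.size) (fun e => raiseF e.1 e.2.1 e.2.2) := by
  obtain ⟨τ, hτ, hs⟩ := swap_op
  have pψ : PTime fun e : ℕ × ℕ × ℕ => (pw e.1, pw e.2.1 / pw e.1, e.2.2) := by fun_prop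
  refine ⟨fun x => τ (1 * x + 5), hτ.affine 1 5, ?_, ?_⟩
  · refine (((((Op.id ?_).pad (O := fun e => e.1) (L := fun e => e.2.1 * e.2.2)
      (L' := fun e => pw e.2.1 * e.2.2) (N'' := fun e => e.1 * (pw e.2.1 * e.2.2))
      (by fun_prop) (by fun_prop) (by fun_prop) ?_ ⟨289, ?_⟩).resize
      (L := fun e => pw e.1 * pw e.2.1 * e.2.2) (by fun_prop) ⟨289, ?_⟩).andThen hs pψ
      (N'' := fun e => pw e.2.1 * (pw e.1 * e.2.2)) ?_ ⟨289, ?_⟩).pad
      (O := fun e => pw e.2.1) (L := fun e => pw e.1 * e.2.2) (L' := fun e => e.1 * e.2.2)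
      (by fun_prop) (by fun_prop) (by fun_prop) ?_ ⟨289, ?_⟩).congr
      fun e l he hl => lower_eq he.2 hl
    all_goals rintro ⟨S1, S2, β⟩ ⟨h0, h⟩
    all_goals dsimp only at h0 h ⊢
    · exact Nat.le_mul_of_pos_left _ (Nat.mul_pos h0 (by omega))
    · exact ⟨mul_assoc _ _ _, rfl, Nat.le_mul_of_pos_left _ (by omega)⟩
    · have := pw_mul_le h0 h β
      have := Nat.mul_le_mul_right (pw S2 * β) (le_pw S1)
      rw [← mul_assoc (pw S1)] at this
      omega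
    · have := pw_mul_le h0 h β
      omega
    · exact ⟨⟨⟨_, rfl⟩, M_pos h⟩, by rw [pw_eq h]; ring, by rw [pw_eq h]; ring, le_rfl⟩
    · exact swap_cost hτ.1 h0 h β _
    · exact ⟨rfl, mul_assoc _ _ _, Nat.le_mul_of_pos_left _ (pw_pos _)⟩
    · have := pw_mul_le h0 h β
      have := Nat.mul_le_mul_right β (Nat.mul_le_mul_left (pw S2) (le_pw S1))
      rw [mul_comm (pw S2) (pw S1)] at this
      omega
  · refine (((((Op.id ?_).pad (O := fun e => pw e.2.1) (L := fun e => e.1 * e.2.2)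
      (L' := fun e => pw e.1 * e.2.2) (N'' := fun e => pw e.2.1 * (pw e.1 * e.2.2))
      (by fun_prop) (by fun_prop) (by fun_prop) ?_ ⟨17, ?_⟩).andThen hs pψ
      (N'' := fun e => pw e.2.1 * (pw e.1 * e.2.2)) ?_ ⟨289, ?_⟩).resize
      (L := fun e => e.1 * pw e.2.1 * e.2.2) (by fun_prop) ⟨1, ?_⟩).pad
      (O := fun e => e.1) (L := fun e => pw e.2.1 * e.2.2) (L' := fun e => e.2.1 * e.2.2)
      (by fun_prop) (by fun_prop) (by fun_prop) ?_ ⟨1, ?_⟩).congr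
      fun e l he hl => raise_eq he.2 hl
    all_goals rintro ⟨S1, S2, β⟩ ⟨h0, h⟩
    all_goals dsimp only at h0 h ⊢
    · exact Nat.le_mul_of_pos_left _ (Nat.mul_pos (pw_pos _) h0)
    · exact ⟨mul_assoc _ _ _, rfl, Nat.le_mul_of_pos_left _ h0⟩
    · have := Nat.mul_le_mul_left (pw S2) (Nat.mul_le_mul_right β (pw_le h0))
      rw [show pw S2 * (17 * S1 * β) = 17 * (pw S2 * S1 * β) by ring] at this
      omega
    · exact ⟨⟨⟨_, rfl⟩, M_pos h⟩, by rw [pw_eq h]; ring, by rw [pw_eq h]; ring, le_rfl⟩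
    · exact swap_cost hτ.1 h0 h β _
    · rw [mul_comm S1]
      omega
    · exact ⟨mul_assoc _ _ _, mul_assoc _ _ _, Nat.le_mul_of_pos_left _ (pw_pos _)⟩
    · have := Nat.mul_le_mul_right β (Nat.mul_le_mul_left S1 (le_pw S2))
      rw [mul_comm S1 (pw S2)] at this
      omega

namespace Lw

lemma length_lowerF {S1 S2 β : ℕ} {l : List Bool} (hl : l.length = S1 * S2 * β) :
    ∀ ρ < pw S2, ∀ x < S1, (if rowOf S1 S2 ρ < S2 then blk β (x * S2 + rowOf S1 S2 ρ) l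
      else List.replicate β false).length = β := by
  intro ρ _ x hx
  split_ifs with h
  · exact length_blk' hl (lt_mul_of_lt hx h)
  · exact List.length_replicate

lemma shear_eq {S1 S2 β : ℕ} (c : ℕ) (h0 : 0 < S1) (h : S1 ≤ S2) {l : List Bool}
    (hl : l.length = S1 * S2 * β) :
    raiseF S1 S2 β (ax3 (pw S2) S1 β (fun ρ s => (s + c * rowOf S1 S2 ρ) % S1) (lowerF S1 S2 β l)) =
      perm (S1 * S2) β (fun j => (j / S2 + c * (j % S2)) % S1 * S2 + j % S2) l := by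
  refine Eq.trans (fl_congr fun x hx => fl_congr fun y hy => ?_)
    (fl_fl S1 S2 fun x y => blk β ((x + c * y) % S1 * S2 + y) l)
  have l1 : (lowerF S1 S2 β l).length = pw S2 * S1 * β := by
    rw [lowerF, length_fl fun ρ hρ => length_fl (length_lowerF hl ρ hρ), mul_assoc]
  have hm := fun z => Nat.mod_lt z h0
  rw [ax3, blk_fl_fl (fun ρ hρ s _ => length_blk' l1 (lt_mul_of_lt hρ (hm _))) (rowInv_lt h hy) hx,
    lowerF, blk_fl_fl (length_lowerF hl) (rowInv_lt h hy) (hm _), rowOf_rowInv h hy, if_pos hy]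

theorem shear_op : ∃ τ, Sub τ ∧ ∀ c : ℕ × ℕ × ℕ → ℕ, PTime c →
    Op (fun e : ℕ × ℕ × ℕ => 0 < e.1 ∧ e.1 ≤ e.2.1)
      (fun e => e.1 * e.2.1 * e.2.2) (fun e => e.1 * e.2.1 * e.2.2) (fun e => e.2.2)
      (fun e => e.1 * e.2.1 * e.2.2 * τ e.1.size) fun e => perm (e.1 * e.2.1) e.2.2
        fun j => (j / e.2.1 + c e * (j % e.2.1)) % e.1 * e.2.1 + j % e.2.1 := by
  obtain ⟨τ, hτ, h1, h2⟩ := lower_op
  refine ⟨τ, hτ, fun c hc => ((h1.shr (O := fun e => pw e.2.1) (S := fun e => e.1)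
    (β := fun e => e.2.2) (φ := fun p => c p.1 * rowOf p.1.1 p.1.2.1 p.2) (by fun_prop)
    (by fun_prop) (by fun_prop) (by unfold rowOf; fun_prop)
    fun e he => ⟨rfl, he.1, Nat.le_mul_of_pos_left _ he.1⟩).andThen h2 (ψ := fun e => e)
    (by fun_prop) (fun e he => ⟨he, rfl, rfl, le_rfl⟩) ⟨1, fun _ _ => by omega⟩).congr
    fun e l he hl => shear_eq (c e) he.1 he.2 hl⟩

lemma cidx_eq {S1 S2 : ℕ} (h0 : 0 < S1) (hc : Nat.Coprime S1 S2) (j : ℕ) :
    (j / S2 + minv S2 S1 * (j % S2)) % S1 * S2 + j % S2 = cidx S1 S2 j := by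
  unfold cidx
  congr 2
  have h1 := (mul_minv hc.symm h0).mul_right (j / S2)
  conv_rhs => rw [← Nat.div_add_mod j S2, mul_add, ← mul_assoc, mul_comm _ S2]
  rw [one_mul] at h1
  exact h1.symm.add_right _

end Lw

open Lw in
/-- natural order to split layout, and back -/
theorem split_op : ∃ τ, Sub τ ∧
    Op (fun e : ℕ × ℕ × ℕ => 0 < e.1 ∧ e.1 ≤ e.2.1 ∧ Nat.Coprime e.1 e.2.1)
      (fun e => e.1 * e.2.1 * e.2.2) (fun e => e.1 * e.2.1 * e.2.2) (fun e => e.2.2)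
      (fun e => e.1 * e.2.1 * e.2.2 * τ e.1.size)
      (fun e => perm (e.1 * e.2.1) e.2.2 (cinv e.1 e.2.1)) ∧
    Op (fun e : ℕ × ℕ × ℕ => 0 < e.1 ∧ e.1 ≤ e.2.1 ∧ Nat.Coprime e.1 e.2.1)
      (fun e => e.1 * e.2.1 * e.2.2) (fun e => e.1 * e.2.1 * e.2.2) (fun e => e.2.2)
      (fun e => e.1 * e.2.1 * e.2.2 * τ e.1.size)
      (fun e => perm (e.1 * e.2.1) e.2.2 (cidx e.1 e.2.1)) := by
  obtain ⟨τ, hτ, h⟩ := shear_op
  exact ⟨τ, hτ, (h (fun e => e.1 - minv e.2.1 e.1) (by fun_prop)).mono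
      (fun e he => ⟨⟨he.1, he.2.1⟩, rfl, rfl, le_rfl⟩) ⟨1, fun _ _ => by omega⟩,
    ((h (fun e => minv e.2.1 e.1) (by fun_prop)).mono
      (fun e he => ⟨⟨he.1, he.2.1⟩, rfl, rfl, le_rfl⟩) ⟨1, fun _ _ => by omega⟩).congr
      fun e l he _ => perm_congr l fun j _ => cidx_eq he.1 he.2.2 j⟩

namespace Lw

/-- negation of the first coordinate in the split layout -/
def nu1 (S1 S2 j : ℕ) : ℕ := (S1 - j / S2) % S1 * S2 + j % S2

/-- negation of the second coordinate in the split layout -/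
def nu2 (S2 j : ℕ) : ℕ := j / S2 * S2 + (S2 - j % S2) % S2

lemma nu1_lt {S1 S2 : ℕ} (h1 : 0 < S1) (h2 : 0 < S2) (j : ℕ) : nu1 S1 S2 j < S1 * S2 :=
  lt_mul_of_lt (Nat.mod_lt _ h1) (Nat.mod_lt _ h2)

lemma nu2_lt {S1 S2 j : ℕ} (h2 : 0 < S2) (hj : j < S1 * S2) : nu2 S2 j < S1 * S2 :=
  lt_mul_of_lt (Nat.div_lt_of_lt_mul (by rwa [mul_comm])) (Nat.mod_lt _ h2)

lemma ax_nu1 {S1 S2 β : ℕ} (h1 : 0 < S1) {l : List Bool} (hl : l.length = S1 * S2 * β) :
    ax3 1 S1 (S2 * β) (fun _ s => (S1 - s) % S1) l = perm (S1 * S2) β (nu1 S1 S2) l := by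
  rw [ax3, fl_one]
  refine Eq.trans (fl_congr fun x _ => ?_)
    (fl_fl S1 S2 fun x y => blk β ((S1 - x) % S1 * S2 + y) l)
  rw [zero_mul, zero_add, blk_mul]
  rw [hl, mul_assoc]
  exact Nat.mul_le_mul_right _ (Nat.mod_lt _ h1)

theorem neg_op : ∃ τ, Sub τ ∧
    Op (fun e : ℕ × ℕ × ℕ => 0 < e.1 ∧ e.1 ≤ e.2.1 ∧ Nat.Coprime e.1 e.2.1 ∧ 0 < e.2.2)
      (fun e => e.1 * e.2.1 * e.2.2) (fun e => e.1 * e.2.1 * e.2.2) (fun e => e.2.2)
      (fun e => e.1 * e.2.1 * e.2.2 * τ e.1.size)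
      (fun e => perm (e.1 * e.2.1) e.2.2 fun X => cinv e.1 e.2.1 (nu1 e.1 e.2.1 (cidx e.1 e.2.1 X))) ∧
    Op (fun e : ℕ × ℕ × ℕ => 0 < e.1 ∧ e.1 ≤ e.2.1 ∧ Nat.Coprime e.1 e.2.1 ∧ 0 < e.2.2)
      (fun e => e.1 * e.2.1 * e.2.2) (fun e => e.1 * e.2.1 * e.2.2) (fun e => e.2.2)
      (fun e => e.1 * e.2.1 * e.2.2 * τ e.1.size)
      (fun e => perm (e.1 * e.2.1) e.2.2 fun X => cinv e.1 e.2.1 (nu2 e.2.1 (cidx e.1 e.2.1 X))) := by
  obtain ⟨τ, hτ, h1, h2⟩ := split_op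
  have h3 := h1.mono (D2 := fun e => 0 < e.1 ∧ e.1 ≤ e.2.1 ∧ Nat.Coprime e.1 e.2.1 ∧ 0 < e.2.2)
    (fun e he => ⟨⟨he.1, he.2.1, he.2.2.1⟩, rfl, rfl, le_rfl⟩)
    (T2 := fun e => e.1 * e.2.1 * e.2.2 * τ e.1.size) ⟨1, fun _ _ => by omega⟩
  refine ⟨τ, hτ, ((h3.neg (O := fun _ => 1) (S := fun e => e.1) (β := fun e => e.2.1 * e.2.2)
      (by fun_prop) (by fun_prop) (by fun_prop) ?_).andThen h2 (ψ := fun e => e) (by fun_prop)
      (fun e he => ⟨⟨he.1, he.2.1, he.2.2.1⟩, rfl, rfl, le_rfl⟩) ⟨1, fun _ _ => by omega⟩).congr ?_,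
    ((h3.neg (O := fun e => e.1) (S := fun e => e.2.1) (β := fun e => e.2.2)
      (by fun_prop) (by fun_prop) (by fun_prop) ?_).andThen h2 (ψ := fun e => e) (by fun_prop)
      (fun e he => ⟨⟨he.1, he.2.1, he.2.2.1⟩, rfl, rfl, le_rfl⟩) ⟨1, fun _ _ => by omega⟩).congr ?_⟩
  · rintro ⟨S1, S2, β⟩ ⟨a, b, -, c⟩
    dsimp only at a b c ⊢
    refine ⟨by ring, Nat.mul_pos (by omega) c, ?_⟩
    rw [← mul_assoc]
    exact Nat.le_mul_of_pos_left _ (Nat.mul_pos a (by omega))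
  · rintro ⟨S1, S2, β⟩ l ⟨a, b, -, c⟩ hl
    dsimp only at a b c hl ⊢
    have b0 : 0 < S2 := by omega
    rw [ax_nu1 a (length_perm hl fun i _ => cinv_lt a b0 i),
      perm_perm hl (fun i _ => nu1_lt a b0 i) fun i _ => cinv_lt a b0 i,
      perm_perm hl (fun i _ => cidx_lt a b0 i) fun i _ => cinv_lt a b0 _]
  · rintro ⟨S1, S2, β⟩ ⟨a, b, -, c⟩
    exact ⟨rfl, c, Nat.le_mul_of_pos_left _ (a.trans_le b)⟩
  · rintro ⟨S1, S2, β⟩ l ⟨a, b, -, c⟩ hl
    dsimp only at a b c hl ⊢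
    have b0 : 0 < S2 := by omega
    rw [ax3_eq_perm, perm_perm (π := fun x => x / S2 * S2 + (S2 - x % S2) % S2) hl
      (fun i hi => nu2_lt b0 hi) fun i _ => cinv_lt a b0 i,
      perm_perm hl (fun i _ => cidx_lt a b0 i) fun i _ => cinv_lt a b0 _]
    rfl

lemma add_div {S u v : ℕ} (hv : v < S) : (u * S + v) / S = u ∧ (u * S + v) % S = v := by
  have hS : 0 < S := by omega
  rw [Nat.add_comm, Nat.add_mul_div_right _ _ hS, Nat.add_mul_mod_self_right,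
    Nat.div_eq_of_lt hv, Nat.mod_eq_of_lt hv, zero_add]
  exact ⟨rfl, rfl⟩

lemma neg_mod {S u : ℕ} (h : u < S) : (S - u) % S + u ≡ 0 [MOD S] := by
  refine ((Nat.mod_modEq _ _).add_right u).trans ?_
  rw [Nat.sub_add_cancel h.le]
  exact Nat.modEq_zero_iff_dvd.2 dvd_rfl

lemma cidx_left {S1 S2 : ℕ} (h1 : 0 < S1) (hc : Nat.Coprime S1 S2) (X : ℕ) :
    minv S2 S1 * X % S1 * S2 ≡ X [MOD S1] := by
  refine ((Nat.mod_modEq _ _).mul_right S2).trans ?_
  have := (mul_minv hc.symm h1).mul_right X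
  rwa [one_mul, mul_assoc, mul_comm] at this

lemma nu1_spec {S1 S2 : ℕ} (h1 : 0 < S1) (h2 : 0 < S2) (hc : Nat.Coprime S1 S2) (X : ℕ) :
    cinv S1 S2 (nu1 S1 S2 (cidx S1 S2 X)) + X ≡ 0 [MOD S1] ∧
      cinv S1 S2 (nu1 S1 S2 (cidx S1 S2 X)) ≡ X [MOD S2] := by
  have hv := Nat.mod_lt X h2
  constructor
  · refine ((cinv_modEq_left hc h1 h2 _).add (cidx_left h1 hc X).symm).trans ?_
    rw [nu1, (add_div (Nat.mod_lt _ h2)).1, cidx, (add_div hv).1, ← add_mul]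
    simpa using (neg_mod (Nat.mod_lt (minv S2 S1 * X) h1)).mul_right S2
  · unfold Nat.ModEq
    rw [cinv_mod_right, nu1, (add_div (Nat.mod_lt _ h2)).2, cidx, (add_div hv).2]

lemma nu2_spec {S1 S2 : ℕ} (h1 : 0 < S1) (h2 : 0 < S2) (hc : Nat.Coprime S1 S2) (X : ℕ) :
    cinv S1 S2 (nu2 S2 (cidx S1 S2 X)) + X ≡ 0 [MOD S2] ∧
      cinv S1 S2 (nu2 S2 (cidx S1 S2 X)) ≡ X [MOD S1] := by
  have hv := Nat.mod_lt X h2
  constructor
  · refine (Nat.ModEq.add (b := (S2 - X % S2) % S2) ?_ (Nat.mod_modEq X S2).symm).trans (neg_mod hv)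
    unfold Nat.ModEq
    rw [cinv_mod_right, nu2, (add_div (Nat.mod_lt _ h2)).2, cidx, (add_div hv).2, Nat.mod_mod]
  · refine (cinv_modEq_left hc h1 h2 _).trans ?_
    rw [nu2, (add_div (Nat.mod_lt _ h2)).1, cidx, (add_div hv).1]
    exact cidx_left h1 hc X

/-- the product of the moduli marked by `b` -/
def sel (b : Bool) (rs : List ℕ) (t : List Bool) : ℕ :=
  (List.zipWith (fun r b' => if b' = b then r else 1) rs t).prod

lemma sel_mul : ∀ {rs : List ℕ} {t : List Bool}, t.length = rs.length →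
    sel true rs t * sel false rs t = rs.prod
  | [], _, _ => by simp [sel]
  | _ :: _, [], h => by simp at h
  | r :: rs, b :: t, h => by
    have := sel_mul (rs := rs) (t := t) (by simpa using h)
    unfold sel at this ⊢
    rw [List.prod_cons, ← this]
    cases b <;> simp <;> ring

lemma sel_cop : ∀ {rs : List ℕ} {t : List Bool}, t.length = rs.length → rs.Pairwise Nat.Coprime →
    Nat.Coprime (sel true rs t) (sel false rs t)
  | [], _, _, _ => by simp [sel]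
  | _ :: _, [], h, _ => by simp at h
  | r :: rs, b :: t, h, hc => by
    have h' : t.length = rs.length := by simpa using h
    have ih := sel_cop h' (List.pairwise_cons.1 hc).2
    have hr : Nat.Coprime r rs.prod := Nat.coprime_list_prod_right_iff.2 (List.pairwise_cons.1 hc).1
    rw [← sel_mul h', Nat.coprime_mul_iff_right] at hr
    unfold sel at ih hr ⊢
    cases b
    · simpa using Nat.Coprime.mul_right hr.1.symm ih
    · simpa using Nat.Coprime.mul_left hr.2 ih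

lemma dvd_sel : ∀ {rs : List ℕ} {t : List Bool} {c : ℕ}, t.length = rs.length →
    rs.getD c 1 ∣ sel (t.getD c false) rs t
  | [], _, _, _ => by simp
  | _ :: _, [], _, h => by simp at h
  | r :: rs, b :: t, 0, _ => by simp [sel]
  | r :: rs, b :: t, c + 1, h => by
    have := dvd_sel (rs := rs) (t := t) (c := c) (by simpa using h)
    unfold sel at this ⊢
    rw [List.getD_cons_succ, List.getD_cons_succ, List.zipWith_cons_cons, List.prod_cons]
    exact this.mul_left _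

lemma refl_eq {rs : List ℕ} {t : List Bool} (hc : rs.Pairwise Nat.Coprime) (h0 : ∀ r ∈ rs, 0 < r)
    (hl : t.length = rs.length) {X Z : ℕ} (hZ : Z < rs.prod)
    (h : Z + X ≡ 0 [MOD sel true rs t] ∧ Z ≡ X [MOD sel false rs t]) : Z = reflN rs t X := by
  refine eq_of_modEq_all hc hZ (reflN_lt h0 _ _) fun c hc' => ?_
  rw [← ZMod.natCast_eq_natCast_iff, reflN_cast hc h0 hl X hc']
  have hd := dvd_sel (c := c) hl
  cases hb : t.getD c false
  · rw [hb] at hd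
    exact (ZMod.natCast_eq_natCast_iff _ _ _).2 (h.2.of_dvd hd)
  · rw [hb] at hd
    have := (ZMod.natCast_eq_natCast_iff _ _ _).2 (h.1.of_dvd hd)
    push_cast at this
    exact eq_neg_of_add_eq_zero_left this

lemma ptime_sel (b : Bool) : PTime fun e : List ℕ × List Bool × ℕ => sel b e.1 e.2.1 := by
  unfold sel
  fun_prop

lemma ptime_sel3 (b b' : Bool) : PTime fun e : List ℕ × List Bool × ℕ =>
    (sel b e.1 e.2.1, sel b' e.1 e.2.1, e.2.2) := by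
  unfold sel
  fun_prop

lemma sel_pos {rs : List ℕ} {t : List Bool} (h0 : ∀ r ∈ rs, 0 < r) (hl : t.length = rs.length) :
    0 < sel true rs t ∧ 0 < sel false rs t :=
  ⟨Nat.pos_of_mul_pos_right (sel_mul hl ▸ List.prod_pos h0),
    Nat.pos_of_mul_pos_left (sel_mul hl ▸ List.prod_pos h0)⟩

lemma sel_cost {τ : ℕ → ℕ} (hτ : Monotone τ) {rs : List ℕ} {t : List Bool} (h0 : ∀ r ∈ rs, 0 < r)
    (hl : t.length = rs.length) (c : Bool) (β N : ℕ) :
    rs.prod * β * τ (sel c rs t).size ≤ 1 * (rs.prod * β * τ rs.prod.size + N) := by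
  have : sel c rs t ≤ rs.prod := by
    rw [← sel_mul hl]
    cases c
    exacts [Nat.le_mul_of_pos_left _ (sel_pos h0 hl).1, Nat.le_mul_of_pos_right _ (sel_pos h0 hl).2]
  have := Nat.mul_le_mul_left (rs.prod * β) (hτ (Nat.size_le_size this))
  omega

/-- the domain of the reflection -/
abbrev DR (e : List ℕ × List Bool × ℕ) : Prop :=
  e.1.Pairwise Nat.Coprime ∧ (∀ r ∈ e.1, 0 < r) ∧ e.2.1.length = e.1.length ∧ 0 < e.2.2

lemma refl1 {τ : ℕ → ℕ} (hτ : Monotone τ)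
    (h1 : Op (fun e : ℕ × ℕ × ℕ => 0 < e.1 ∧ e.1 ≤ e.2.1 ∧ Nat.Coprime e.1 e.2.1 ∧ 0 < e.2.2)
      (fun e => e.1 * e.2.1 * e.2.2) (fun e => e.1 * e.2.1 * e.2.2) (fun e => e.2.2)
      (fun e => e.1 * e.2.1 * e.2.2 * τ e.1.size) fun e => perm (e.1 * e.2.1) e.2.2
        fun X => cinv e.1 e.2.1 (nu1 e.1 e.2.1 (cidx e.1 e.2.1 X))) :
    Op (fun e => DR e ∧ sel true e.1 e.2.1 ≤ sel false e.1 e.2.1)
      (fun e => e.1.prod * e.2.2) (fun e => e.1.prod * e.2.2) (fun e => e.2.2)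
      (fun e => e.1.prod * e.2.2 * τ e.1.prod.size)
      fun e => perm e.1.prod e.2.2 (reflN e.1 e.2.1) := by
  refine ((Op.id ?_).andThen h1 (ptime_sel3 true false) ?_ ⟨1, ?_⟩).congr ?_
  · exact fun e he => Nat.le_mul_of_pos_left _ (List.prod_pos he.1.2.1)
  · rintro ⟨rs, t, β⟩ ⟨⟨hc, h0, hl, hβ⟩, h⟩
    dsimp only at hc h0 hl hβ h ⊢
    rw [sel_mul hl]
    exact ⟨⟨(sel_pos h0 hl).1, h, sel_cop hl hc, hβ⟩, rfl, rfl, le_rfl⟩
  · rintro ⟨rs, t, β⟩ ⟨⟨hc, h0, hl, hβ⟩, h⟩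
    dsimp only at hc h0 hl hβ h ⊢
    rw [sel_mul hl]
    exact sel_cost hτ h0 hl _ _ _
  · rintro ⟨rs, t, β⟩ l ⟨⟨hc, h0, hl, hβ⟩, -⟩ -
    dsimp only at hc h0 hl hβ ⊢
    obtain ⟨a, b⟩ := sel_pos h0 hl
    rw [sel_mul hl]
    exact perm_congr l fun X _ => refl_eq hc h0 hl ((cinv_lt a b _).trans_eq (sel_mul hl))
      (nu1_spec a b (sel_cop hl hc) X)

lemma refl2 {τ : ℕ → ℕ} (hτ : Monotone τ)
    (h2 : Op (fun e : ℕ × ℕ × ℕ => 0 < e.1 ∧ e.1 ≤ e.2.1 ∧ Nat.Coprime e.1 e.2.1 ∧ 0 < e.2.2)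
      (fun e => e.1 * e.2.1 * e.2.2) (fun e => e.1 * e.2.1 * e.2.2) (fun e => e.2.2)
      (fun e => e.1 * e.2.1 * e.2.2 * τ e.1.size) fun e => perm (e.1 * e.2.1) e.2.2
        fun X => cinv e.1 e.2.1 (nu2 e.2.1 (cidx e.1 e.2.1 X))) :
    Op (fun e => DR e ∧ ¬ sel true e.1 e.2.1 ≤ sel false e.1 e.2.1)
      (fun e => e.1.prod * e.2.2) (fun e => e.1.prod * e.2.2) (fun e => e.2.2)
      (fun e => e.1.prod * e.2.2 * τ e.1.prod.size)
      fun e => perm e.1.prod e.2.2 (reflN e.1 e.2.1) := by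
  refine ((Op.id ?_).andThen h2 (ptime_sel3 false true) ?_ ⟨1, ?_⟩).congr ?_
  · exact fun e he => Nat.le_mul_of_pos_left _ (List.prod_pos he.1.2.1)
  · rintro ⟨rs, t, β⟩ ⟨⟨hc, h0, hl, hβ⟩, h⟩
    dsimp only at hc h0 hl hβ h ⊢
    rw [mul_comm (sel false rs t), sel_mul hl]
    exact ⟨⟨(sel_pos h0 hl).2, by omega, (sel_cop hl hc).symm, hβ⟩, rfl, rfl, le_rfl⟩
  · rintro ⟨rs, t, β⟩ ⟨⟨hc, h0, hl, hβ⟩, h⟩
    dsimp only at hc h0 hl hβ h ⊢
    rw [mul_comm (sel false rs t), sel_mul hl]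
    exact sel_cost hτ h0 hl _ _ _
  · rintro ⟨rs, t, β⟩ l ⟨⟨hc, h0, hl, hβ⟩, -⟩ -
    dsimp only at hc h0 hl hβ ⊢
    obtain ⟨a, b⟩ := sel_pos h0 hl
    rw [mul_comm (sel false rs t), sel_mul hl]
    exact perm_congr l fun X _ => refl_eq hc h0 hl
      ((cinv_lt b a _).trans_eq ((mul_comm _ _).trans (sel_mul hl)))
      (nu2_spec b a (sel_cop hl hc).symm X)

end Lw

open Lw in
/-- the parameters `(rs, t, β)` -/
theorem refl_op : ∃ τ, Sub τ ∧
    Op (fun e : List ℕ × List Bool × ℕ => e.1.Pairwise Nat.Coprime ∧ (∀ r ∈ e.1, 0 < r) ∧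
        e.2.1.length = e.1.length ∧ 0 < e.2.2)
      (fun e => e.1.prod * e.2.2) (fun e => e.1.prod * e.2.2) (fun e => e.2.2)
      (fun e => e.1.prod * e.2.2 * τ e.1.prod.size)
      fun e => perm e.1.prod e.2.2 (reflN e.1 e.2.1) := by
  obtain ⟨τ, hτ, h1, h2⟩ := neg_op
  exact ⟨τ, hτ, (Op.ite ((ptime_sel true).decide_le (ptime_sel false)) (refl1 hτ.1 h1)
    (refl2 hτ.1 h2)).congr fun _ _ _ _ => ite_self _⟩

end Vale.Agent.P338
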