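import Vale.Agent.P338.GnetB
import Vale.Agent.P338.Lower

/-! Job J9, part C: the change of layout as an operation on arrays. -/

namespace Vale.Agent.P338.Gn

open PT

lemma length_ax3 {O S β : ℕ} {π : ℕ → ℕ → ℕ} {l : List Bool} (hl : l.length = O * S * β)
    (hπ : ∀ o < O, ∀ s < S, π o s < S) : (ax3 O S β π l).length = O * S * β := by
  rw [mul_assoc]
  exact length_fl fun o ho => length_fl fun s hs => length_blk' hl (lt_mul_of_lt ho (hπ o ho s hs))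

lemma blk_ax3 {O S β o s : ℕ} {π : ℕ → ℕ → ℕ} {l : List Bool} (hl : l.length = O * S * β)
    (hπ : ∀ o < O, ∀ s < S, π o s < S) (ho : o < O) (hs : s < S) :
    blk β (o * S + s) (ax3 O S β π l) = blk β (o * S + π o s) l :=
  blk_fl_fl (g := fun o s => blk β (o * S + π o s) l)
    (fun o ho s hs => length_blk' hl (lt_mul_of_lt ho (hπ o ho s hs))) ho hs

lemma ax3_ax3 {O S β : ℕ} {π ρ : ℕ → ℕ → ℕ} {l : List Bool} (hl : l.length = O * S * β)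
    (hπ : ∀ o < O, ∀ s < S, π o s < S) (hρ : ∀ o < O, ∀ s < S, ρ o s < S) :
    ax3 O S β π (ax3 O S β ρ l) = ax3 O S β (fun o s => ρ o (π o s)) l :=
  fl_congr fun o ho => fl_congr fun s hs => blk_ax3 hl hρ ho (hπ o ho s hs)

lemma ax3_refine (O X S β : ℕ) (φ : ℕ → ℕ → ℕ) (l : List Bool) : ax3 (O * X) S β φ l =
    ax3 O (X * S) β (fun o j => j / S * S + φ (o * X + j / S) (j % S)) l := by
  rw [ax3, ax3, fl_mul]
  refine fl_congr fun o _ => ?_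
  rw [fl_mul]
  refine fl_congr fun x _ => fl_congr fun s hs => ?_
  rw [div_add hs, mod_add hs]
  congr 1; ring

lemma rv_ax3 {O S n P o s i : ℕ} {π : ℕ → ℕ → ℕ} {l : List Bool} (hl : l.length = O * S * (n * P))
    (hπ : ∀ o < O, ∀ s < S, π o s < S) (ho : o < O) (hs : s < S) (hi : i < n) :
    rv P (ax3 O S (n * P) π l) ((o * S + s) * n + i) = rv P l ((o * S + π o s) * n + i) := by
  rw [← rv_blk _ hi, ← rv_blk _ hi, blk_ax3 hl hπ ho hs]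

lemma length_trF {A B β : ℕ} {l : List Bool} (hl : l.length = A * B * β) :
    (trF A B β l).length = B * A * β := by
  rw [mul_assoc]
  exact length_fl fun b hb => length_fl fun a ha => length_blk' hl (lt_mul_of_lt ha hb)

lemma rv_trF {A B n P a b i : ℕ} {l : List Bool} (hl : l.length = A * B * (n * P))
    (ha : a < A) (hb : b < B) (hi : i < n) :
    rv P (trF A B (n * P) l) ((b * A + a) * n + i) = rv P l ((a * B + b) * n + i) := by
  rw [← rv_blk _ hi, ← rv_blk _ hi, trF, blk_fl_fl (g := fun b a => blk (n * P) (a * B + b) l)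
    (fun b hb a ha => length_blk' hl (lt_mul_of_lt ha hb)) hb ha]

section
variable {ε ε1 : Type} [TEnc ε] [TEnc ε1] {D : ε → Prop} {N N' B T : ε → ℕ}
  {f : ε → List Bool → List Bool} {D1 : ε1 → Prop} {S1 β1 B1 T1 : ε1 → ℕ} {π : ε1 → ℕ → ℕ}

theorem op_ax3 (hf : Op D N N' B T f) (hh : Op D1 (fun e => S1 e * β1 e) (fun e => S1 e * β1 e)
    B1 T1 fun e => perm (S1 e) (β1 e) (π e)) {ψ : ε × ℕ → ε1} (hψ : PTime ψ) {O S β : ε → ℕ}
    (hO : PTime O) (hS : PTime S) (hβ : PTime β) (H0 : ∀ e, D e → N' e = O e * S e * β e)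
    (H : ∀ e, D e → ∀ i < O e, D1 (ψ (e, i)) ∧ S1 (ψ (e, i)) = S e ∧ β1 (ψ (e, i)) = β e ∧
      B e ≤ B1 (ψ (e, i)) ∧ ∀ s < S e, π (ψ (e, i)) s < S e)
    (hT : ∃ K, ∀ e, D e → ∀ i < O e, O e * T1 (ψ (e, i)) ≤ K * (T e + N e)) :
    Op D N N' B T fun e l => ax3 (O e) (S e) (β e) (fun o => π (ψ (e, o))) (f e l) := by
  refine (hf.blocks hh hψ hO (hS.mul hβ) (L' := fun e => S e * β e)
    (fun e he => ⟨by rw [H0 e he, mul_assoc], by rw [H0 e he, mul_assoc]⟩)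
    (fun e he i hi => ?_) hT).congr fun e l he _ => fl_congr fun i hi => ?_
  · obtain ⟨h1, h2, h3, h4, -⟩ := H e he i hi
    exact ⟨h1, by rw [h2, h3], by rw [h2, h3], h4⟩
  · obtain ⟨-, h2, h3, -, h5⟩ := H e he i hi
    rw [h2, h3]
    exact fl_congr fun s hs => blk_blk _ (h5 s hs)

variable {q : ε → ℕ} {rs : ε → List ℕ} {u s : ε → List Bool}

lemma ptime_tk (hu : PTime u) (hs : PTime s) : PTime fun e => tk (u e) (s e) :=
  hu.flatMap ((hs.comp .fst_id).map (PTime.fst_id.snd.and .snd_id))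

lemma ptime_gI (hu : PTime u) : PTime fun e => gI (u e) :=
  hu.length.sub (hu.dropWhile PTime.snd_id.not).length

variable (hq : PTime q) (hr : PTime rs) (hu : PTime u)
include hq hr hu

lemma ptime_gG : PTime fun e => gG (q e) (rs e) (u e) := hq.take (((ptime_gI hu).mul hq).drop hr)

lemma ptime_gS : PTime fun e => gS (q e) (rs e) (u e) :=
  (((ptime_gI hu).mul hq).take hr).append ((((ptime_gI hu).add (.const 1)).mul hq).drop hr)

lemma ptime_gC : PTime fun e => decide ((gG (q e) (rs e) (u e)).prod ≤ (gS (q e) (rs e) (u e)).prod) :=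
  (ptime_gG hq hr hu).nat_prod.decide_le (ptime_gS hq hr hu).nat_prod

lemma ptime_gR : PTime fun e => gR (q e) (rs e) (u e) :=
  (ptime_gC hq hr hu).ite (ptime_gS hq hr hu) (.const _)

lemma ptime_gU : PTime fun e => gU (q e) (rs e) (u e) :=
  (ptime_gC hq hr hu).ite (((ptime_gI hu).take hu).append
    (((ptime_gI hu).add (.const 1)).drop hu)) (.const _)

lemma ptime_gA : PTime fun e => gA (q e) (rs e) (u e) :=
  (ptime_gC hq hr hu).ite (.const _) (ptime_gS hq hr hu).nat_prod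

lemma ptime_g1 : PTime fun e => g1 (q e) (rs e) (u e) :=
  (ptime_gG hq hr hu).nat_prod.min (ptime_gS hq hr hu).nat_prod

lemma ptime_g2 : PTime fun e => g2 (q e) (rs e) (u e) :=
  (ptime_gG hq hr hu).nat_prod.max (ptime_gS hq hr hu).nat_prod

end

/-- the parameters `(O, q, rs, u, β)` -/
abbrev AP : Type := ℕ × ℕ × List ℕ × List Bool × ℕ

/-- the length of the array -/
abbrev AP.N (e : AP) : ℕ := e.1 * e.2.2.1.prod * e.2.2.2.2

/-- an operation on the middle axis -/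
abbrev AOp (τ : ℕ → ℕ) (D : AP → Prop) (π : AP → ℕ → ℕ) : Prop :=
  Op (fun e => D e ∧ 0 < e.2.2.2.2) AP.N AP.N (fun e => e.2.2.2.2)
    (fun e => e.N * τ e.2.2.1.prod.size) fun e => ax3 e.1 e.2.2.1.prod e.2.2.2.2 fun _ => π e

theorem axisOp : ∃ τ, Sub τ ∧
    AOp τ (fun e => 0 < e.1 ∧ e.2.2.1.Pairwise Nat.Coprime ∧ (∀ r ∈ e.2.2.1, 0 < r) ∧
      e.2.2.2.1.length = e.2.2.1.length) (fun e => reflN e.2.2.1 e.2.2.2.1) ∧
    AOp τ (fun e => 0 < e.1 ∧ AX e.2.1 e.2.2.1 e.2.2.2.1) (fun e => gP e.2.1 e.2.2.1 e.2.2.2.1) ∧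
    AOp τ (fun e => 0 < e.1 ∧ AX e.2.1 e.2.2.1 e.2.2.2.1) fun e => gQ e.2.1 e.2.2.1 e.2.2.2.1 := by
  obtain ⟨τ1, s1, hs, hm⟩ := split_op
  obtain ⟨τ2, s2, hr⟩ := refl_op
  have a1 : PTime fun e : AP => e.1 := .fst_id
  have a2 : PTime fun e : AP => e.2.1 := PTime.snd_id.fst
  have a3 : PTime fun e : AP => e.2.2.1 := PTime.snd_id.snd.fst
  have a4 : PTime fun e : AP => e.2.2.2.1 := PTime.snd_id.snd.snd.fst
  have a5 : PTime fun e : AP => e.2.2.2.2 := PTime.snd_id.snd.snd.snd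
  have hB : ∀ e : AP, 0 < e.1 → 0 < e.2.2.1.prod → e.2.2.2.2 ≤ e.N := fun e h1 h2 =>
    Nat.le_mul_of_pos_left _ (Nat.mul_pos h1 h2)
  have cost : ∀ {N x y K t : ℕ} {τ : ℕ → ℕ}, Sub τ → x ≤ y → τ y.size ≤ t → K = N * τ x.size →
      K ≤ 1 * (N * t + N) := fun {N _ _ _ _ _} h h1 h2 h3 => by
    have := Nat.mul_le_mul_left N ((h.1 (Nat.size_le_size h1)).trans h2)
    omega
  refine ⟨fun x => τ1 x + τ2 x, s1.add s2, ?_, ?_⟩
  · exact op_ax3 (Op.id fun e he => hB e he.1.1 (List.prod_pos he.1.2.2.1)) hr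
      (ψ := fun x => (x.1.2.2.1, x.1.2.2.2.1, x.1.2.2.2.2)) PTime.fst_id.snd.snd a1
      a3.nat_prod a5 (fun _ _ => rfl)
      (fun e he i _ => ⟨⟨he.1.2.1, he.1.2.2.1, he.1.2.2.2, he.2⟩, rfl, rfl, le_rfl,
        fun s _ => reflN_lt he.1.2.2.1 _ _⟩)
      ⟨1, fun e he i _ => cost s2 le_rfl (Nat.le_add_left _ _) (by simp only [AP.N]; ring)⟩
  have sp : ∀ {c : ℕ → ℕ → ℕ → ℕ} {f : AP → List Bool → List Bool},
      (∀ a b j, 0 < a → 0 < b → c a b j < a * b) →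
      Op (fun e : ℕ × ℕ × ℕ => 0 < e.1 ∧ e.1 ≤ e.2.1 ∧ Nat.Coprime e.1 e.2.1)
      (fun e => e.1 * e.2.1 * e.2.2) (fun e => e.1 * e.2.1 * e.2.2) (fun e => e.2.2)
      (fun e => e.1 * e.2.1 * e.2.2 * τ1 e.1.size)
      (fun e => perm (e.1 * e.2.1) e.2.2 (c e.1 e.2.1)) →
      Op (fun e => (0 < e.1 ∧ AX e.2.1 e.2.2.1 e.2.2.2.1) ∧ 0 < e.2.2.2.2) AP.N AP.N
        (fun e => e.2.2.2.2) (fun e => e.N * (τ1 e.2.2.1.prod.size + τ2 e.2.2.1.prod.size)) f →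
      Op (fun e => (0 < e.1 ∧ AX e.2.1 e.2.2.1 e.2.2.2.1) ∧ 0 < e.2.2.2.2) AP.N AP.N
        (fun e => e.2.2.2.2) (fun e => e.N * (τ1 e.2.2.1.prod.size + τ2 e.2.2.1.prod.size))
        fun e l => ax3 e.1 e.2.2.1.prod e.2.2.2.2
          (fun _ => c (g1 e.2.1 e.2.2.1 e.2.2.2.1) (g2 e.2.1 e.2.2.1 e.2.2.2.1)) (f e l) := by
    intro c f hc h hf
    refine op_ax3 hf h (ψ := fun x => (g1 x.1.2.1 x.1.2.2.1 x.1.2.2.2.1,
      g2 x.1.2.1 x.1.2.2.1 x.1.2.2.2.1, x.1.2.2.2.2))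
      (((ptime_g1 a2 a3 a4).prodMk ((ptime_g2 a2 a3 a4).prodMk a5)).comp .fst_id) a1 a3.nat_prod a5
      (fun _ _ => rfl) (fun e he i _ => ?_) ⟨1, fun e he i _ => ?_⟩
    · obtain ⟨-, -, -, -, -, h1, h2, h3, h4⟩ := he.1.2.sub
      exact ⟨⟨h1, h2, h3⟩, h4, rfl, le_rfl, fun s _ => h4 ▸ hc _ _ _ h1 (h1.trans_le h2)⟩
    · obtain ⟨-, -, -, -, -, h1, h2, -, h4⟩ := he.1.2.sub
      exact cost s1 (h4 ▸ Nat.le_mul_of_pos_right _ (h1.trans_le h2)) (Nat.le_add_right _ _)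
        (by simp only [AP.N, h4]; ring)
  have rf : ∀ {f : AP → List Bool → List Bool},
      Op (fun e => (0 < e.1 ∧ AX e.2.1 e.2.2.1 e.2.2.2.1) ∧ 0 < e.2.2.2.2) AP.N AP.N
        (fun e => e.2.2.2.2) (fun e => e.N * (τ1 e.2.2.1.prod.size + τ2 e.2.2.1.prod.size)) f →
      Op (fun e => (0 < e.1 ∧ AX e.2.1 e.2.2.1 e.2.2.2.1) ∧ 0 < e.2.2.2.2) AP.N AP.N
        (fun e => e.2.2.2.2) (fun e => e.N * (τ1 e.2.2.1.prod.size + τ2 e.2.2.1.prod.size))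
        fun e l => ax3 e.1 e.2.2.1.prod e.2.2.2.2
          (fun _ => gX e.2.1 e.2.2.1 e.2.2.2.1) (f e l) := by
    intro f hf
    refine (op_ax3 hf hr (ψ := fun x => (gR x.1.2.1 x.1.2.2.1 x.1.2.2.2.1,
      tk (gU x.1.2.1 x.1.2.2.1 x.1.2.2.2.1) (sg (gG x.1.2.1 x.1.2.2.1 x.1.2.2.2.1) x.2),
      x.1.2.2.2.2)) (((ptime_gR a2 a3 a4).comp .fst_id).prodMk ((ptime_tk
        ((ptime_gU a2 a3 a4).comp .fst_id) (ptime_sg ((ptime_gG a2 a3 a4).comp .fst_id)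
          .snd_id)).prodMk (a5.comp .fst_id))) (O := fun e => e.1 * (gA e.2.1 e.2.2.1 e.2.2.2.1 *
        (gG e.2.1 e.2.2.1 e.2.2.2.1).prod)) (S := fun e => (gR e.2.1 e.2.2.1 e.2.2.2.1).prod)
      (β := fun e => e.2.2.2.2) (a1.mul ((ptime_gA a2 a3 a4).mul (ptime_gG a2 a3 a4).nat_prod))
      (ptime_gR a2 a3 a4).nat_prod a5 (fun e he => ?_)
      (fun e he i _ => ?_) ⟨1, fun e he i _ => ?_⟩).congr fun e l he _ => ?_
    · simp only [AP.N, ← he.1.2.sub.2.2.2.2.1]; ring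
    · exact ⟨⟨he.1.2.cop.sublist he.1.2.sub.2.2.1, he.1.2.posR, he.1.2.lenU _, he.2⟩, rfl, rfl,
        le_rfl, fun s _ => reflN_lt he.1.2.posR _ _⟩
    · have h4 := he.1.2.sub.2.2.2.2.1
      exact cost s2 (Nat.le_of_dvd (List.prod_pos he.1.2.pos) (Dvd.intro_left _ h4))
        (Nat.le_add_left _ _) (by simp only [AP.N, ← h4]; ring)
    · rw [ax3_refine, he.1.2.sub.2.2.2.2.1]
      simp only [← mul_assoc, sg_add]
      rfl
  have hi : Op (fun e : AP => (0 < e.1 ∧ AX e.2.1 e.2.2.1 e.2.2.2.1) ∧ 0 < e.2.2.2.2) AP.N AP.N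
      (fun e => e.2.2.2.2) (fun e => e.N * (τ1 e.2.2.1.prod.size + τ2 e.2.2.1.prod.size))
      fun _ l => l := Op.id fun e he => hB e he.1.1 (List.prod_pos he.1.2.pos)
  refine ⟨(rf (sp (fun a b j ha hb => cinv_lt ha hb j) hs hi)).congr fun e l he hl => ?_,
    (sp (fun a b j ha hb => cidx_lt ha hb j) hm (rf hi)).congr fun e l he hl => ?_⟩
  all_goals obtain ⟨-, -, -, -, -, h1, h2, -, h4⟩ := he.1.2.sub
  · exact ax3_ax3 hl (fun _ _ s hs => he.1.2.gX_lt hs)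
      fun _ _ s _ => h4 ▸ cinv_lt h1 (h1.trans_le h2) _
  · exact ax3_ax3 hl (fun _ _ s _ => h4 ▸ cidx_lt h1 (h1.trans_le h2) _)
      fun _ _ s hs => he.1.2.gX_lt hs

end Vale.Agent.P338.Gn
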