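import Vale.Agent.P338.GnetC
import Vale.Agent.P338.Bits

/-! Job J9, part D: the recursive algorithm and the semantics of a pass. -/

namespace Vale.Agent.P338.Gn

open PT Finset Matrix

/-- parameters of the recursion: arrays of shape `[O][rs.prod][M][rs'.prod][nr][P]` -/
structure GP : Type where
  d : ℕ
  O : ℕ
  rs : List ℕ
  M : ℕ
  rs' : List ℕ
  nr : ℕ
  P : ℕ
  ρ : ℕ

namespace GP

def A (e : GP) : ℕ := e.O * e.rs.prod * e.M * e.rs'.prod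

def N (e : GP) : ℕ := e.A * e.nr * e.P

/-- the parameters of one wire -/
def w (W : ℕ) (e : GP) : GP := { e with nr := e.nr / W }

def q (H : ℕ) (e : GP) : ℕ := e.rs.length / H

/-- the parameters of the recursive call -/
def sub (H : ℕ) (e : GP) (u v : List Bool) : GP :=
  ⟨e.d - 1, e.O * gA (e.q H) e.rs u, gG (e.q H) e.rs u,
    (gR (e.q H) e.rs u).prod * e.M * gA (e.q H) e.rs' v, gG (e.q H) e.rs' v,
    (gR (e.q H) e.rs' v).prod * e.nr, e.P, e.ρ⟩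

def ad (e : GP) (o y μ y' : ℕ) : ℕ := ((o * e.rs.prod + y) * e.M + μ) * e.rs'.prod + y'

def vv (e : GP) (l : List Bool) (o y μ y' ι : ℕ) : ZMod (2 ^ e.P - 1) :=
  rv e.P l (e.ad o y μ y' * e.nr + ι)

def x1 (e : GP) (π : ℕ → ℕ) : List Bool → List Bool :=
  ax3 e.O e.rs.prod (e.M * e.rs'.prod * e.nr * e.P) fun _ => π

def x2 (e : GP) (π : ℕ → ℕ) : List Bool → List Bool :=
  ax3 (e.O * e.rs.prod * e.M) e.rs'.prod (e.nr * e.P) fun _ => π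

variable {e : GP} {l : List Bool} {o y μ y' ι : ℕ} {π : ℕ → ℕ}

lemma ad_lt (ho : o < e.O) (hy : y < e.rs.prod) (hμ : μ < e.M) (hy' : y' < e.rs'.prod) :
    e.ad o y μ y' < e.A :=
  lt_mul_of_lt (lt_mul_of_lt (lt_mul_of_lt ho hy) hμ) hy'

lemma N1 (e : GP) : e.N = e.O * e.rs.prod * (e.M * e.rs'.prod * e.nr * e.P) := by
  unfold N A; ring

lemma N2 (e : GP) : e.N = e.O * e.rs.prod * e.M * e.rs'.prod * (e.nr * e.P) := mul_assoc _ _ _

lemma len_x1 (hl : l.length = e.N) (hπ : ∀ s < e.rs.prod, π s < e.rs.prod) :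
    (e.x1 π l).length = e.N :=
  (length_ax3 (hl.trans e.N1) fun _ _ => hπ).trans e.N1.symm

lemma len_x2 (hl : l.length = e.N) (hπ : ∀ s < e.rs'.prod, π s < e.rs'.prod) :
    (e.x2 π l).length = e.N :=
  (length_ax3 (hl.trans e.N2) fun _ _ => hπ).trans e.N2.symm

variable (ho : o < e.O) (hy : y < e.rs.prod) (hμ : μ < e.M) (hy' : y' < e.rs'.prod) (hι : ι < e.nr)
include ho hy hμ hy' hι

lemma vv_x1 (hl : l.length = e.N) (hπ : ∀ s < e.rs.prod, π s < e.rs.prod) :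
    e.vv (e.x1 π l) o y μ y' ι = e.vv l o (π y) μ y' ι := by
  have h : ∀ y, e.ad o y μ y' * e.nr + ι = (o * e.rs.prod + y) * (e.M * e.rs'.prod * e.nr) +
      ((μ * e.rs'.prod + y') * e.nr + ι) := fun y => by unfold ad; ring
  rw [vv, vv, h, h]
  exact rv_ax3 (hl.trans e.N1) (fun _ _ => hπ) ho hy (lt_mul_of_lt (lt_mul_of_lt hμ hy') hι)

lemma vv_x2 (hl : l.length = e.N) (hπ : ∀ s < e.rs'.prod, π s < e.rs'.prod) :
    e.vv (e.x2 π l) o y μ y' ι = e.vv l o y μ (π y') ι :=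
  rv_ax3 (hl.trans e.N2) (fun _ _ => hπ) (lt_mul_of_lt (lt_mul_of_lt ho hy) hμ) hy' hι

end GP

/-- admissible moduli -/
def AO (ρ : ℕ) (rs : List ℕ) : Prop :=
  rs.Pairwise (· < ·) ∧ rs.Pairwise Nat.Coprime ∧ ∀ r ∈ rs, Odd r ∧ r.size ≤ ρ

lemma AO.pos {ρ : ℕ} {rs : List ℕ} (h : AO ρ rs) : ∀ r ∈ rs, 0 < r := fun r hr => (h.2.2 r hr).1.pos

lemma AO.sub {ρ : ℕ} {rs g : List ℕ} (h : AO ρ rs) (hg : g.Sublist rs) : AO ρ g :=
  ⟨h.1.sublist hg, h.2.1.sublist hg, fun r hr => h.2.2 r (hg.subset hr)⟩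

/-- the domain of the recursion -/
structure GD (H W : ℕ) (e : GP) : Prop where
  len : e.rs.length = H ^ e.d
  len' : e.rs'.length = H ^ e.d
  ok : AO e.ρ e.rs
  ok' : AO e.ρ e.rs'
  O : 0 < e.O
  M : 0 < e.M
  nr : 0 < e.nr
  P : 0 < e.P
  dvd : W ^ e.d ∣ e.nr

/-- the specification -/
def Spec (k : ℕ) (e : GP) (F : List Bool → List Bool) : Prop :=
  ∀ l, l.length = e.N → (F l).length = e.N ∧ ∀ o < e.O, ∀ y < e.rs.prod, ∀ μ < e.M,
    ∀ y' < e.rs'.prod, ∀ ι < e.nr, good e.rs y = true → good e.rs' y' = true →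
      2 ^ k * e.vv (F l) o y μ y' ι = ∑ t : Fin k → ZMod 2, ∑ t' : Fin k → ZMod 2,
        eps _ (t ⬝ᵥ t') * e.vv l o (reflN e.rs (mk t) y) μ (reflN e.rs' (mk t') y') ι

lemma split3 {a M b j : ℕ} (hj : j < a * M * b) :
    ∃ x < a, ∃ z < M, ∃ w < b, j = (x * M + z) * b + w := by
  have hb : 0 < b := Nat.pos_of_ne_zero fun h => by simp [h] at hj
  have h1 : j / b < a * M := Nat.div_lt_of_lt_mul (mul_comm b _ ▸ hj)
  have hM : 0 < M := Nat.pos_of_ne_zero fun h => by simp [h] at h1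
  exact ⟨j / b / M, Nat.div_lt_of_lt_mul (mul_comm M _ ▸ h1), j / b % M, Nat.mod_lt _ hM, j % b,
    Nat.mod_lt _ hb, by rw [Nat.div_add_mod', Nat.div_add_mod']⟩

section
variable {H : ℕ} {e : GP} {u v : List Bool} (hu : AX (e.q H) e.rs u) (hv : AX (e.q H) e.rs' v)
include hu hv

lemma N_sub : (e.sub H u v).N = e.N := by
  simp only [GP.N, GP.A, GP.sub, ← hu.sub.2.2.2.2.1, ← hv.sub.2.2.2.2.1]; ring

lemma vv_sub (l : List Bool) (o μ ι x z w x' z' w' : ℕ) :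
    (e.sub H u v).vv l (o * gA (e.q H) e.rs u + x) z
      ((w * e.M + μ) * gA (e.q H) e.rs' v + x') z' (w' * e.nr + ι) =
    e.vv l o ((x * (gG (e.q H) e.rs u).prod + z) * (gR (e.q H) e.rs u).prod + w) μ
      ((x' * (gG (e.q H) e.rs' v).prod + z') * (gR (e.q H) e.rs' v).prod + w') ι := by
  refine congrArg (rv e.P l) ?_
  simp only [GP.ad, GP.sub, ← hu.sub.2.2.2.2.1, ← hv.sub.2.2.2.2.1]; ring

lemma pass_sem {F : List Bool → List Bool} (hF : Spec (e.q H) (e.sub H u v) F) {l : List Bool}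
    (hl : l.length = e.N) :
    (e.x2 (gQ (e.q H) e.rs' v) (e.x1 (gQ (e.q H) e.rs u)
      (F (e.x2 (gP (e.q H) e.rs' v) (e.x1 (gP (e.q H) e.rs u) l))))).length = e.N ∧
    ∀ o < e.O, ∀ y < e.rs.prod, ∀ μ < e.M,
    ∀ y' < e.rs'.prod, ∀ ι < e.nr, good e.rs y = true → good e.rs' y' = true →
      2 ^ e.q H * e.vv (e.x2 (gQ (e.q H) e.rs' v) (e.x1 (gQ (e.q H) e.rs u)
        (F (e.x2 (gP (e.q H) e.rs' v) (e.x1 (gP (e.q H) e.rs u) l))))) o y μ y' ι =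
      ∑ t : Fin (e.q H) → ZMod 2, ∑ t' : Fin (e.q H) → ZMod 2, eps _ (t ⬝ᵥ t') *
        e.vv l o (reflN e.rs (tk u (mk t)) y) μ (reflN e.rs' (tk v (mk t')) y') ι := by
  have l1 := GP.len_x1 hl fun s _ => hu.gP_lt s
  have l2 := GP.len_x2 l1 fun s _ => hv.gP_lt s
  obtain ⟨l3, h3⟩ := hF _ (l2.trans (N_sub hu hv).symm)
  rw [N_sub hu hv] at l3
  have l4 := GP.len_x1 l3 fun s _ => hu.gQ_lt s
  refine ⟨GP.len_x2 l4 fun s _ => hv.gQ_lt s, fun o ho y hy μ hμ y' hy' ι hι gy gy' => ?_⟩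
  rw [GP.vv_x2 ho hy hμ hy' hι l4 fun s _ => hv.gQ_lt s,
    GP.vv_x1 ho hy hμ (hv.gQ_lt _) hι l3 fun s _ => hu.gQ_lt s]
  have k1 := hu.gP_gQ hy
  have k2 := hv.gP_gQ hy'
  obtain ⟨x, hx, z, hz, w, hw, h1⟩ := split3 (hu.sub.2.2.2.2.1 ▸ hu.gQ_lt y)
  obtain ⟨x', hx', z', hz', w', hw', h2⟩ := split3 (hv.sub.2.2.2.2.1 ▸ hv.gQ_lt y')
  rw [h1] at k1
  rw [h2] at k2
  obtain ⟨m1, m2⟩ := hu.main hx hz hw
  obtain ⟨m1', m2'⟩ := hv.main hx' hz' hw'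
  rw [k1] at m1 m2
  rw [k2] at m1' m2'
  rw [h1, h2, ← vv_sub hu hv]
  refine (h3 _ (lt_mul_of_lt ho hx) z hz _ (lt_mul_of_lt (lt_mul_of_lt hw hμ) hx') z' hz' _
    (lt_mul_of_lt hw' hι) (m1 gy) (m1' gy')).trans (sum_congr rfl fun t _ =>
      sum_congr rfl fun t' _ => congrArg _ ((vv_sub hu hv ..).trans ?_))
  have b1 := hu.sub.2.2.2.2.1 ▸ lt_mul_of_lt (lt_mul_of_lt hx
    (reflN_lt (fun r hr => hu.pos r (hu.sub.1.subset hr)) (mk t) z)) hw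
  have b2 := hv.sub.2.2.2.2.1 ▸ lt_mul_of_lt (lt_mul_of_lt hx'
    (reflN_lt (fun r hr => hv.pos r (hv.sub.1.subset hr)) (mk t') z')) hw'
  refine (GP.vv_x2 ho b1 hμ b2 hι l1 fun s _ => hv.gP_lt s).trans
    ((GP.vv_x1 ho b1 hμ (hv.gP_lt _) hι hl fun s _ => hu.gP_lt s).trans ?_)
  rw [m2 _ (length_mk t) (m1 gy), m2' _ (length_mk t') (m1' gy')]

end

/-- the type of the arithmetic routine -/
abbrev AxT : Type := ℕ × ℕ × ℤ → List Bool → List Bool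

/-- its specification -/
def AxS (ax : AxT) : Prop := ∀ n P c l m, 0 < P → l.length = n * P → m.length = n * P →
  (ax (n, P, c) (l ++ m)).length = n * P ∧ ∀ j < n,
    rv P (ax (n, P, c) (l ++ m)) j = rv P l j + (c : ZMod _) * half P * rv P m j

/-- `1 - τ'` -/
def b1 (ax : AxT) (e : GP) (l : List Bool) : List Bool :=
  ax (e.A * e.nr, e.P, -2) (l ++ e.x2 (reflN e.rs' [true]) l)

/-- `1 - τ` -/
def b2 (ax : AxT) (e : GP) (l : List Bool) : List Bool :=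
  ax (e.A * e.nr, e.P, -2) (l ++ e.x1 (reflN e.rs [true]) l)

/-- the data of the recursion -/
def GX (ax : AxT) (H W Z : ℕ) (prog : List (NI (List Bool × List Bool))) :
    NetData GP (List Bool × List Bool) where
  W := W
  Z := Z
  prog := prog
  N := GP.N
  base e l := ax (e.A * e.nr, e.P, -1) (l ++ b2 ax e (b1 ax e l))
  ini e := trF e.A W (e.nr / W * e.P)
  fin e := trF W e.A (e.nr / W * e.P)
  pre x l := (x.1.w W).x2 (gP (x.1.q H) x.1.rs' x.2.2) ((x.1.w W).x1 (gP (x.1.q H) x.1.rs x.2.1) l)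
  post x l := (x.1.w W).x2 (gQ (x.1.q H) x.1.rs' x.2.2) ((x.1.w W).x1 (gQ (x.1.q H) x.1.rs x.2.1) l)
  sub x := (x.1.w W).sub H x.2.1 x.2.2
  ax x := ax (x.1.A * (x.1.nr / W), x.1.P, x.2)

lemma base_sem {ax : AxT} (hax : AxS ax) {H W : ℕ} {e : GP} (he : GD H W e) (hd : e.d = 0) :
    Spec 1 e fun l => ax (e.A * e.nr, e.P, -1) (l ++ b2 ax e (b1 ax e l)) := by
  intro l hl
  have p1 : ∀ s < e.rs.prod, reflN e.rs [true] s < e.rs.prod := fun s _ => reflN_lt he.ok.pos _ _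
  have p2 : ∀ s < e.rs'.prod, reflN e.rs' [true] s < e.rs'.prod :=
    fun s _ => reflN_lt he.ok'.pos _ _
  obtain ⟨l1, h1⟩ := hax _ _ (-2) _ _ he.P hl (GP.len_x2 hl p2)
  obtain ⟨l2, h2⟩ := hax _ _ (-2) (b1 ax e l) _ he.P l1 (GP.len_x1 (l := b1 ax e l) l1 p1)
  obtain ⟨l3, h3⟩ := hax _ _ (-1) _ (b2 ax e (b1 ax e l)) he.P hl l2
  refine ⟨l3, fun o ho y hy μ hμ y' hy' ι hι _ _ => ?_⟩
  have k1 : ∀ y < e.rs.prod, e.vv (b1 ax e l) o y μ y' ι = e.vv l o y μ y' ι +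
      ((-2 : ℤ) : ZMod _) * half e.P * e.vv l o y μ (reflN e.rs' [true] y') ι := fun y hy => by
    rw [← GP.vv_x2 ho hy hμ hy' hι hl p2]
    exact h1 _ (lt_mul_of_lt (GP.ad_lt ho hy hμ hy') hι)
  have k2 : e.vv (b2 ax e (b1 ax e l)) o y μ y' ι = e.vv (b1 ax e l) o y μ y' ι +
      ((-2 : ℤ) : ZMod _) * half e.P * e.vv (b1 ax e l) o (reflN e.rs [true] y) μ y' ι := by
    rw [← GP.vv_x1 (l := b1 ax e l) ho hy hμ hy' hι l1 p1]
    exact h2 _ (lt_mul_of_lt (GP.ad_lt ho hy hμ hy') hι)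
  have k3 := h3 _ (lt_mul_of_lt (GP.ad_lt ho hy hμ hy') hι)
  change e.vv _ o y μ y' ι = e.vv l o y μ y' ι + _ * _ * e.vv (b2 ax e (b1 ax e l)) o y μ y' ι at k3
  have s2 : ∀ F : (Fin 1 → ZMod 2) → ZMod (2 ^ e.P - 1), ∑ t, F t = F 0 + F 1 := fun F => by
    rw [← (Equiv.funUnique (Fin 1) (ZMod 2)).symm.sum_comp]
    exact Fin.sum_univ_two _
  have r0 : reflN e.rs (mk (0 : Fin 1 → ZMod 2)) y = y :=
    reflN_false he.ok.2.1 he.ok.pos (by rw [he.len, hd]; rfl) mk_zero hy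
  have r0' : reflN e.rs' (mk (0 : Fin 1 → ZMod 2)) y' = y' :=
    reflN_false he.ok'.2.1 he.ok'.pos (by rw [he.len', hd]; rfl) mk_zero hy'
  have e1 : eps (ZMod (2 ^ e.P - 1)) ((1 : Fin 1 → ZMod 2) ⬝ᵥ 1) = -1 := if_neg (by decide)
  have hh := two_mul_half he.P
  simp only [s2, r0, r0', zero_dotProduct, dotProduct_zero, eps_zero, e1,
    show mk (1 : Fin 1 → ZMod 2) = [true] from rfl]
  rw [k3, k2, k1 _ hy, k1 _ (p1 _ hy)]
  push_cast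
  generalize half e.P = θ at hh
  linear_combination (-e.vv l o y μ y' ι + (2 * θ + 1) * (e.vv l o y μ (reflN e.rs' [true] y') ι +
    e.vv l o (reflN e.rs [true] y) μ y' ι) - (4 * θ ^ 2 + 2 * θ + 1) *
    e.vv l o (reflN e.rs [true] y) μ (reflN e.rs' [true] y') ι) * hh

end Vale.Agent.P338.Gn
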