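import Vale.Agent.P338.GnetD

/-! Job J9, part E: correctness of the recursive algorithm. -/

namespace Vale.Agent.P338.Gn

open PT Finset Matrix

namespace GD

variable {H W d : ℕ} {e : GP} (he : GD H W e) (hd : e.d = d + 1)
include he hd

lemma q_eq (hH : 0 < H) : e.q H = H ^ d := by
  rw [GP.q, he.len, hd, pow_succ, Nat.mul_div_cancel _ hH]

lemma ax (hH : 0 < H) {p : List Bool × List Bool} (hp : OkB H p) :
    AX (e.q H) e.rs p.1 ∧ AX (e.q H) e.rs' p.2 :=
  ⟨⟨by rw [he.q_eq hd hH, he.len, hp.1, hd, pow_succ'], hp.2.2.1, he.ok.1, he.ok.2.1,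
    fun r hr => (he.ok.2.2 r hr).1⟩, ⟨by rw [he.q_eq hd hH, he.len', hp.2.1, hd, pow_succ'],
    hp.2.2.2, he.ok'.1, he.ok'.2.1, fun r hr => (he.ok'.2.2 r hr).1⟩⟩

lemma nr_eq : e.nr = W * (e.nr / W) :=
  (Nat.mul_div_cancel' ((dvd_pow_self W (by omega)).trans he.dvd)).symm

lemma nr_pos : 0 < e.nr / W := Nat.pos_of_mul_pos_left (he.nr_eq hd ▸ he.nr)

lemma N_eq : e.N = W * (e.w W).N := by
  conv_lhs => rw [GP.N, he.nr_eq hd]
  simp only [GP.N, GP.w, GP.A]; ring

lemma N_div (hW : 0 < W) : e.N / W = (e.w W).N := by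
  rw [he.N_eq hd, Nat.mul_div_cancel_left _ hW]

lemma sub (hH : 0 < H) (hW : 0 < W) {p : List Bool × List Bool} (hp : OkB H p) :
    GD H W ((e.w W).sub H p.1 p.2) := by
  obtain ⟨hu, hv⟩ := he.ax hd hH hp
  have e1 : ((e.w W).sub H p.1 p.2).d = d := by simp [GP.sub, GP.w, hd]
  have a1 := hu.sub.2.2.2.2.1 ▸ List.prod_pos hu.pos
  have a2 := hv.sub.2.2.2.2.1 ▸ List.prod_pos hv.pos
  refine ⟨by rw [e1, ← he.q_eq hd hH]; exact hu.sub.2.1, by
    rw [e1, ← he.q_eq hd hH]; exact hv.sub.2.1, he.ok.sub hu.sub.1, he.ok'.sub hv.sub.1,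
    Nat.mul_pos he.O (Nat.pos_of_mul_pos_right (Nat.pos_of_mul_pos_right a1)),
    Nat.mul_pos (Nat.mul_pos (List.prod_pos hu.posR) he.M)
      (Nat.pos_of_mul_pos_right (Nat.pos_of_mul_pos_right a2)),
    Nat.mul_pos (List.prod_pos hv.posR) (he.nr_pos hd), he.P, ?_⟩
  rw [e1]
  refine Dvd.dvd.mul_left (Nat.dvd_div_of_mul_dvd ?_) _
  rw [← pow_succ', ← hd]
  exact he.dvd

omit hd in
lemma A_pos : 0 < e.A :=
  Nat.mul_pos (Nat.mul_pos (Nat.mul_pos he.O (List.prod_pos he.ok.pos)) he.M)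
    (List.prod_pos he.ok'.pos)

end GD

lemma forall₂_rep {α β : Type} {R : α → β → Prop} {a : α} {b : β} (h : R a b) (n : ℕ) :
    List.Forall₂ R (List.replicate n a) (List.replicate n b) := by
  induction n with
  | zero => exact .nil
  | succ n ih => exact .cons h ih

lemma forall₂_range {β : Type} {R : List Bool → β → Prop} {L : List (List Bool)} {n : ℕ}
    {g : ℕ → β} (h : List.Forall₂ R L ((List.range n).map g)) :
    ∃ f, L.flatten = fl n f ∧ ∀ j < n, R (f j) (g j) := by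
  obtain ⟨h1, h2⟩ := List.forall₂_iff_get.1 h
  rw [List.length_map, List.length_range] at h1
  refine ⟨fun j => L.getD j [], ?_, fun j hj => ?_⟩
  · rw [← flatten_map_range]
    refine congrArg _ (List.ext_getElem (by simp [h1]) fun i hi _ => ?_)
    simp [List.getElem?_eq_getElem hi]
  · simpa [List.getElem?_eq_getElem (h1 ▸ hj)] using h2 j (h1 ▸ hj) (by simpa using hj)

lemma cancel2 {P q : ℕ} (hP : 0 < P) {a b : ZMod (2 ^ P - 1)} (h : 2 ^ q * a = 2 ^ q * b) :
    a = b := by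
  have h2 : half P ^ q * 2 ^ q = 1 := by rw [← mul_pow, mul_comm, two_mul_half hP, one_pow]
  rw [← one_mul a, ← one_mul b, ← h2, mul_assoc, h, mul_assoc]

/-- the network computes the identity label -/
def NetS (H W Z : ℕ) (prog : List (NI (List Bool × List Bool))) : Prop :=
  ∀ (A V : Type) [CommRing A] [AddCommGroup V] [Module A V] (θ : A)
    (O : Matrix (Fin H) (Fin H) (ZMod 2) → V →ₗ[A] V), 2 * θ = 1 →
    (∀ M N v, O (M + N) v = O M (O N v)) → (∀ v, O 0 v = v) →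
    ∀ ξ : List V, ξ.length = W →
    (NI.run (fun p => O (matB H p)) (fun c => (c : A) * θ) prog
      (ξ ++ List.replicate Z 0)).take W = ξ.map (O 1)

variable {ax : AxT} {H W Z : ℕ} {prog : List (NI (List Bool × List Bool))}

/-- the relation between a wire and its Fourier coefficients along an orbit -/
def Rl (k : ℕ) (e : GP) (o y μ y' ι : ℕ) (l : List Bool) (a : Gam (Fin k) → ZMod (2 ^ e.P - 1)) :
    Prop :=
  ∀ γ : Gam (Fin k), e.vv l o (reflN e.rs (mk γ.1) y) μ (reflN e.rs' (mk γ.2) y') ι = syn a γ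

theorem step_sem (hax : AxS ax) (hH : 0 < H) (hW : 0 < W)
    (hprog : ∀ a ∈ prog, a.Ok (OkB H) (W + Z)) (hnet : NetS H W Z prog) {d : ℕ}
    (ih : ∀ e, GD H W e → e.d = d → Spec (H ^ d) e ((GX ax H W Z prog).F d e))
    {e : GP} (he : GD H W e) (hd : e.d = d + 1) :
    Spec (H * e.q H) e ((GX ax H W Z prog).F (d + 1) e) := by
  intro l hl
  have hq := he.q_eq hd hH
  have k1 : e.rs.length = H * e.q H := by rw [hq, he.len, hd, pow_succ']
  have k2 : e.rs'.length = H * e.q H := by rw [hq, he.len', hd, pow_succ']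
  have hl' : l.length = e.A * W * (e.nr / W * e.P) := by
    rw [hl, he.N_eq hd]; simp only [GP.N, GP.w, GP.A]; ring
  have li : (trF e.A W (e.nr / W * e.P) l).length = W * (e.w W).N :=
    (length_trF hl').trans (by simp only [GP.N, GP.w, GP.A]; ring)
  have hn : 0 < (e.w W).N := Nat.mul_pos (Nat.mul_pos he.A_pos (he.nr_pos hd)) he.P
  have key : ∀ o y μ y' ι, ∃ f : ℕ → List Bool, (GX ax H W Z prog).F (d + 1) e l =
      trF W e.A (e.nr / W * e.P) (fl W f) ∧ ∀ j < W, (f j).length = (e.w W).N ∧ (o < e.O →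
        y < e.rs.prod → μ < e.M → y' < e.rs'.prod → ι < e.nr / W → good e.rs y = true →
        good e.rs' y' = true → ∃ a, Rl (H * e.q H) (e.w W) o y μ y' ι
          (blk (e.w W).N j (trF e.A W (e.nr / W * e.P) l)) a ∧ Rl (H * e.q H) (e.w W) o y μ y' ι
            (f j) fun α => eps _ (α.1 ⬝ᵥ α.2) * a α) := by
    intro o y μ y' ι
    choose ξ hξ using fun j => syn_surj (ι := Fin (H * e.q H)) (two_mul_half he.P) fun γ =>
      (e.w W).vv (blk (e.w W).N j (trF e.A W (e.nr / W * e.P) l)) o (reflN e.rs (mk γ.1) y) μ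
        (reflN e.rs' (mk γ.2) y') ι
    let O : Matrix (Fin H) (Fin H) (ZMod 2) → (Gam (Fin (H * e.q H)) → ZMod (2 ^ e.P - 1)) →ₗ[
        Gam (Fin (H * e.q H)) → ZMod (2 ^ e.P - 1)] Gam (Fin (H * e.q H)) → ZMod (2 ^ e.P - 1) :=
      fun M => LinearMap.mul _ _ fun α => eps _ (qf (e.q H) M α)
    have hO : ∀ M a, O M a = fun α => eps _ (qf (e.q H) M α) * a α := fun _ _ => rfl
    have h1 := hnet _ _ (fun _ => half e.P) O (funext fun _ => two_mul_half he.P)
      (fun M N v => by simp only [hO, qf_add, eps_add, mul_assoc])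
      (fun v => by simp only [hO, qf_zero, eps_zero, one_mul]) ((List.range W).map ξ) (by simp)
    have h2 := List.forall₂_take W (run_sim (fun p => O (matB H p)) (fun c =>
      (c : Gam (Fin (H * e.q H)) → ZMod (2 ^ e.P - 1)) * fun _ => half e.P) prog (fun p v => (GX ax H W Z prog).post (e, p) ((GX ax H W Z prog).F d
        ((GX ax H W Z prog).sub (e, p)) ((GX ax H W Z prog).pre (e, p) v)))
      (fun c => (GX ax H W Z prog).ax (e, c)) (e.w W).N (fun l' a => l'.length = (e.w W).N ∧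
        (o < e.O → y < e.rs.prod → μ < e.M → y' < e.rs'.prod → ι < e.nr / W →
        good e.rs y = true → good e.rs' y' = true → Rl (H * e.q H) (e.w W) o y μ y' ι l' a))
      ⟨by simp, fun _ _ _ _ _ _ _ γ => rv_zero.trans (syn_zero γ).symm⟩ (fun w p hp l' a h => ?_)
      (fun _ _ c _ l1 a1 l2 a2 h1 h2 => ?_)
      (ws := chunks (e.w W).N (trF e.A W (e.nr / W * e.P) l) ++
        List.replicate Z (List.replicate (e.w W).N false))
      (ξ := (List.range W).map ξ ++ List.replicate Z 0) (List.rel_append ?_ (forall₂_rep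
        ⟨by simp, fun _ _ _ _ _ _ _ γ => rv_zero.trans (syn_zero γ).symm⟩ Z)))
    · rw [h1, List.map_map] at h2
      obtain ⟨f, f1, f2⟩ := forall₂_range h2
      refine ⟨f, ?_, fun j hj => ⟨(f2 j hj).1, fun a1 a2 a3 a4 a5 a6 a7 => ⟨ξ j,
        fun γ => (congrFun (hξ j) γ).symm, ?_⟩⟩⟩
      · rw [← f1, ← he.N_div hd hW]; rfl
      · have := (f2 j hj).2 a1 a2 a3 a4 a5 a6 a7
        simp only [Function.comp_apply, hO, qf_one] at this
        exact this
    · have hp' : OkB H p := (hprog _ hp).2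
      obtain ⟨hu, hv⟩ := he.ax hd hH hp'
      obtain ⟨s1, s2⟩ := pass_sem (e := e.w W) hu hv (hq ▸ ih _ (he.sub hd hH hW hp')
        (by simp [GP.sub, GP.w, hd])) h.1
      refine ⟨s1, fun a1 a2 a3 a4 a5 a6 a7 γ => cancel2 (q := e.q H) he.P ?_⟩
      refine (s2 o a1 _ (reflN_lt he.ok.pos _ _) μ a3 _ (reflN_lt he.ok'.pos _ _) ι a5
        ((good_reflN he.ok.2.1 he.ok.pos ((length_mk _).trans k1.symm) y).trans a6)
        ((good_reflN he.ok'.2.1 he.ok'.pos ((length_mk _).trans k2.symm) y').trans a7)).trans ?_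
      have e1 : O (matB H p) a = fun α => eps _ ((α.1 ᵥ* emb (e.q H) (bz H p.1)) ⬝ᵥ
          (α.2 ᵥ* emb (e.q H) (bz H p.2))) * a α := funext fun α => by rw [← qf_vv]; rfl
      have e2 := syn_conv a γ (emb (e.q H) (bz H p.1)) (emb (e.q H) (bz H p.2))
      rw [Fintype.card_fin, ← e1] at e2
      refine Eq.trans (sum_congr rfl fun t _ => sum_congr rfl fun t' _ => congrArg _
        (Eq.trans ?_ (h.2 a1 a2 a3 a4 a5 a6 a7 _))) e2
      rw [← mk_add, ← mk_add, tk_mk hp'.1, tk_mk hp'.2.1]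
      exact congrArg₂ (fun s s' => (e.w W).vv l' o s μ s' ι)
        (reflN_reflN he.ok.2.1 he.ok.pos ((length_mk _).trans k1.symm)
          ((length_mk _).trans k1.symm) y)
        (reflN_reflN he.ok'.2.1 he.ok'.pos ((length_mk _).trans k2.symm)
          ((length_mk _).trans k2.symm) y')
    · obtain ⟨s1, s2⟩ := hax _ _ c _ _ he.P h1.1 h2.1
      refine ⟨s1, fun b1 b2 b3 b4 b5 b6 b7 γ => ?_⟩
      refine (s2 _ (lt_mul_of_lt (GP.ad_lt (e := e.w W) b1 (reflN_lt he.ok.pos _ _) b3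
        (reflN_lt he.ok'.pos _ _)) b5)).trans (Eq.trans ?_ (syn_axpy a1 a2 (c * half e.P) γ).symm)
      exact congrArg₂ (fun s t => s + c * half e.P * t) (h1.2 b1 b2 b3 b4 b5 b6 b7 γ)
        (h2.2 b1 b2 b3 b4 b5 b6 b7 γ)
    · rw [chunks_eq hn li, List.forall₂_map_left_iff, List.forall₂_map_right_iff,
        List.forall₂_same]
      exact fun j hj => ⟨length_blk' li (List.mem_range.1 hj),
        fun _ _ _ _ _ _ _ γ => (congrFun (hξ j) γ).symm⟩
  have lf : ∀ f : ℕ → List Bool, (∀ j < W, (f j).length = (e.w W).N) →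
      (fl W f).length = W * e.A * (e.nr / W * e.P) := fun f hf =>
    (length_fl hf).trans (by simp only [GP.N, GP.w, GP.A]; ring)
  refine ⟨?_, fun o ho y hy μ hμ y' hy' ι hι gy gy' => ?_⟩
  · obtain ⟨f, f1, f2⟩ := key 0 0 0 0 0
    rw [f1, length_trF (lf f fun j hj => (f2 j hj).1), ← hl, hl']
  have hn' := he.nr_pos hd
  have hj : ι / (e.nr / W) < W := Nat.div_lt_of_lt_mul (mul_comm W _ ▸ he.nr_eq hd ▸ hι)
  have hι' := Nat.mod_lt ι hn'
  obtain ⟨f, f1, f2⟩ := key o y μ y' (ι % (e.nr / W))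
  obtain ⟨a, r1, r2⟩ := (f2 _ hj).2 ho hy hμ hy' hι' gy gy'
  have ad : ∀ x, x * e.nr + ι = (x * W + ι / (e.nr / W)) * (e.nr / W) + ι % (e.nr / W) :=
    fun x => by rw [add_mul, mul_assoc, ← he.nr_eq hd, add_assoc, Nat.div_add_mod']
  have ad' : ∀ x, ι / (e.nr / W) * (e.A * (e.nr / W)) + (x * (e.nr / W) + ι % (e.nr / W)) =
      (ι / (e.nr / W) * e.A + x) * (e.nr / W) + ι % (e.nr / W) := fun x => by ring
  have v1 : e.vv (trF W e.A (e.nr / W * e.P) (fl W f)) o y μ y' ι =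
      (e.w W).vv (f (ι / (e.nr / W))) o y μ y' (ι % (e.nr / W)) := by
    have ha := GP.ad_lt ho hy hμ hy'
    rw [GP.vv, ad, rv_trF (lf f fun j hj => (f2 j hj).1) hj ha hι', ← ad',
      ← rv_blk _ (lt_mul_of_lt ha hι')]
    exact congrArg (fun s => rv e.P s _) (blk_fl (fun j hj => (f2 j hj).1) hj)
  have v2 : ∀ Y < e.rs.prod, ∀ Y' < e.rs'.prod, e.vv l o Y μ Y' ι = (e.w W).vv
      (blk (e.w W).N (ι / (e.nr / W)) (trF e.A W (e.nr / W * e.P) l)) o Y μ Y'
      (ι % (e.nr / W)) := fun Y hY Y' hY' => by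
    have ha := GP.ad_lt ho hY hμ hY'
    rw [GP.vv, ad, ← rv_trF hl' ha hj hι', ← ad', ← rv_blk _ (lt_mul_of_lt ha hι')]
    rfl
  have r3 := r2 0
  change (e.w W).vv _ o (reflN e.rs (mk 0) y) μ (reflN e.rs' (mk 0) y') _ = _ at r3
  rw [reflN_false he.ok.2.1 he.ok.pos ((length_mk _).trans k1.symm) mk_zero hy,
    reflN_false he.ok'.2.1 he.ok'.pos ((length_mk _).trans k2.symm) mk_zero hy'] at r3
  have := syn_conv (κ := Fin (H * e.q H)) a 0 1 1
  simp only [one_mulVec, vecMul_one, Prod.fst_zero, Prod.snd_zero, add_zero,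
    Fintype.card_fin] at this
  rw [f1, v1, r3]
  refine this.symm.trans (sum_congr rfl fun t _ => sum_congr rfl fun t' _ => congrArg _ ?_)
  rw [v2 _ (reflN_lt he.ok.pos _ _) _ (reflN_lt he.ok'.pos _ _)]
  exact (r1 (t, t')).symm

theorem sem (hax : AxS ax) (hH : 0 < H) (hW : 0 < W)
    (hprog : ∀ a ∈ prog, a.Ok (OkB H) (W + Z)) (hnet : NetS H W Z prog) (d : ℕ) :
    ∀ e, GD H W e → e.d = d → Spec (H ^ d) e ((GX ax H W Z prog).F d e) := by
  induction d with
  | zero => exact fun e he hd => base_sem hax he hd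
  | succ d ih =>
    intro e he hd
    have := step_sem hax hH hW hprog hnet ih he hd
    rwa [he.q_eq hd hH, ← pow_succ'] at this

end Vale.Agent.P338.Gn
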