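import Vale.Agent.P338.GnetE

/-! Job J9, part F: the cost of the recursive algorithm. -/

namespace Vale.Agent.P338.Gn

open PT

instance : TEnc GP := ⟨fun e => TEnc.enc (e.d, e.O, e.rs, e.M, e.rs', e.nr, e.P, e.ρ)⟩

namespace GP

lemma pt : PTime fun e : GP => (e.d, e.O, e.rs, e.M, e.rs', e.nr, e.P, e.ρ) :=
  PTime.of_enc_eq fun _ => rfl

variable {α : Type} [TEnc α]

lemma pt_mk {d O M nr P ρ : α → ℕ} {rs rs' : α → List ℕ} (h1 : PTime d) (h2 : PTime O)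
    (h3 : PTime rs) (h4 : PTime M) (h5 : PTime rs') (h6 : PTime nr) (h7 : PTime P) (h8 : PTime ρ) :
    PTime fun a => (⟨d a, O a, rs a, M a, rs' a, nr a, P a, ρ a⟩ : GP) :=
  (h1.prodMk (h2.prodMk (h3.prodMk (h4.prodMk (h5.prodMk (h6.prodMk (h7.prodMk h8))))))).of_enc
    fun _ => rfl

variable {g : α → GP} (hg : PTime g)
include hg

lemma pt_d : PTime fun a => (g a).d := (pt.comp hg).fst
lemma pt_O : PTime fun a => (g a).O := (pt.comp hg).snd.fst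
lemma pt_rs : PTime fun a => (g a).rs := (pt.comp hg).snd.snd.fst
lemma pt_M : PTime fun a => (g a).M := (pt.comp hg).snd.snd.snd.fst
lemma pt_rs' : PTime fun a => (g a).rs' := (pt.comp hg).snd.snd.snd.snd.fst
lemma pt_nr : PTime fun a => (g a).nr := (pt.comp hg).snd.snd.snd.snd.snd.fst
lemma pt_P : PTime fun a => (g a).P := (pt.comp hg).snd.snd.snd.snd.snd.snd.fst
lemma pt_ρ : PTime fun a => (g a).ρ := (pt.comp hg).snd.snd.snd.snd.snd.snd.snd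

lemma pt_A : PTime fun a => (g a).A :=
  (((pt_O hg).mul (pt_rs hg).nat_prod).mul (pt_M hg)).mul (pt_rs' hg).nat_prod

lemma pt_N : PTime fun a => (g a).N := ((pt_A hg).mul (pt_nr hg)).mul (pt_P hg)

lemma pt_q (H : ℕ) : PTime fun a => (g a).q H := (pt_rs hg).length.div (.const H)

lemma pt_w (W : ℕ) : PTime fun a => (g a).w W :=
  pt_mk (pt_d hg) (pt_O hg) (pt_rs hg) (pt_M hg) (pt_rs' hg) ((pt_nr hg).div (.const W)) (pt_P hg)
    (pt_ρ hg)

lemma pt_sub (H : ℕ) {u v : α → List Bool} (hu : PTime u) (hv : PTime v) :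
    PTime fun a => (g a).sub H (u a) (v a) :=
  pt_mk ((pt_d hg).sub (.const 1)) ((pt_O hg).mul (ptime_gA (pt_q hg H) (pt_rs hg) hu))
    (ptime_gG (pt_q hg H) (pt_rs hg) hu) (((ptime_gR (pt_q hg H) (pt_rs hg) hu).nat_prod.mul
      (pt_M hg)).mul (ptime_gA (pt_q hg H) (pt_rs' hg) hv)) (ptime_gG (pt_q hg H) (pt_rs' hg) hv)
    ((ptime_gR (pt_q hg H) (pt_rs' hg) hv).nat_prod.mul (pt_nr hg)) (pt_P hg) (pt_ρ hg)

end GP

/-- all axes are nonempty -/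
structure Pos (e : GP) : Prop where
  O : 0 < e.O
  R : 0 < e.rs.prod
  M : 0 < e.M
  R' : 0 < e.rs'.prod
  nr : 0 < e.nr
  P : 0 < e.P

lemma GD.pos {H W : ℕ} {e : GP} (he : GD H W e) : Pos e :=
  ⟨he.O, List.prod_pos he.ok.pos, he.M, List.prod_pos he.ok'.pos, he.nr, he.P⟩

lemma GD.posw {H W d : ℕ} {e : GP} (he : GD H W e) (hd : e.d = d + 1) : Pos (e.w W) :=
  ⟨he.O, List.prod_pos he.ok.pos, he.M, List.prod_pos he.ok'.pos, he.nr_pos hd, he.P⟩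

lemma Pos.le {e : GP} (h : Pos e) : e.O ≤ e.N ∧ e.M ≤ e.N ∧ e.nr ≤ e.N ∧ e.P ≤ e.N := by
  have : 0 < e.N := Nat.mul_pos (Nat.mul_pos (Nat.mul_pos (Nat.mul_pos (Nat.mul_pos h.O h.R) h.M)
    h.R') h.nr) h.P
  refine ⟨Nat.le_of_dvd this ?_, Nat.le_of_dvd this ?_, Nat.le_of_dvd this ?_,
    Nat.le_of_dvd this ?_⟩ <;> simp only [GP.N, GP.A]
  exacts [((((dvd_mul_right _ _).mul_right _).mul_right _).mul_right _).mul_right _,
    (((dvd_mul_left _ _).mul_right _).mul_right _).mul_right _, (dvd_mul_left _ _).mul_right _,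
    dvd_mul_left _ _]

section
variable {ε : Type} [TEnc ε] {D : ε → Prop} {N N' B T : ε → ℕ} {f f' : ε → List Bool → List Bool}
  {τ : ℕ → ℕ} {D0 : ℕ → List ℕ → List Bool → Prop} {π : ℕ → List ℕ → List Bool → ℕ → ℕ}
  {g : ε → GP} {q : ε → ℕ} {u : ε → List Bool}

theorem op_x1 (hA : AOp τ (fun e => 0 < e.1 ∧ D0 e.2.1 e.2.2.1 e.2.2.2.1)
      fun e => π e.2.1 e.2.2.1 e.2.2.2.1) (hf : Op D N N' B T f) (hg : PTime g) (hq : PTime q)
    (hu : PTime u) (H : ∀ e, D e → Pos (g e) ∧ D0 (q e) (g e).rs (u e) ∧ (g e).N = N' e ∧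
      B e ≤ (g e).nr)
    (hT : ∃ K, ∀ e, D e → (g e).N * τ (g e).rs.prod.size ≤ K * (T e + N e)) :
    Op D N N' B T fun e l => (g e).x1 (π (q e) (g e).rs (u e)) (f e l) := by
  refine hf.andThen hA (ψ := fun e => ((g e).O, q e, (g e).rs, u e,
    (g e).M * (g e).rs'.prod * (g e).nr * (g e).P)) ((GP.pt_O hg).prodMk (hq.prodMk
      ((GP.pt_rs hg).prodMk (hu.prodMk ((((GP.pt_M hg).mul (GP.pt_rs' hg).nat_prod).mul
        (GP.pt_nr hg)).mul (GP.pt_P hg)))))) (fun e he => ?_) (hT.imp fun K hK e he =>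
      (congrArg (· * _) (g e).N1).ge.trans (hK e he))
  obtain ⟨h1, h2, h3, h4⟩ := H e he
  exact ⟨⟨⟨h1.O, h2⟩, Nat.mul_pos (Nat.mul_pos (Nat.mul_pos h1.M h1.R') h1.nr) h1.P⟩,
    (g e).N1.symm.trans h3, (g e).N1.symm.trans h3, h4.trans ((Nat.le_mul_of_pos_left _
      (Nat.mul_pos h1.M h1.R')).trans (Nat.le_mul_of_pos_right _ h1.P))⟩

theorem op_x2 (hA : AOp τ (fun e => 0 < e.1 ∧ D0 e.2.1 e.2.2.1 e.2.2.2.1)
      fun e => π e.2.1 e.2.2.1 e.2.2.2.1) (hf : Op D N N' B T f) (hg : PTime g) (hq : PTime q)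
    (hu : PTime u) (H : ∀ e, D e → Pos (g e) ∧ D0 (q e) (g e).rs' (u e) ∧ (g e).N = N' e ∧
      B e ≤ (g e).nr)
    (hT : ∃ K, ∀ e, D e → (g e).N * τ (g e).rs'.prod.size ≤ K * (T e + N e)) :
    Op D N N' B T fun e l => (g e).x2 (π (q e) (g e).rs' (u e)) (f e l) := by
  refine hf.andThen hA (ψ := fun e => ((g e).O * (g e).rs.prod * (g e).M, q e, (g e).rs', u e,
    (g e).nr * (g e).P)) ((((GP.pt_O hg).mul (GP.pt_rs hg).nat_prod).mul (GP.pt_M hg)).prodMk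
      (hq.prodMk ((GP.pt_rs' hg).prodMk (hu.prodMk ((GP.pt_nr hg).mul (GP.pt_P hg))))))
    (fun e he => ?_) (hT.imp fun K hK e he => (congrArg (· * _) (g e).N2).ge.trans (hK e he))
  obtain ⟨h1, h2, h3, h4⟩ := H e he
  exact ⟨⟨⟨Nat.mul_pos (Nat.mul_pos h1.O h1.R) h1.M, h2⟩, Nat.mul_pos h1.nr h1.P⟩,
    (g e).N2.symm.trans h3, (g e).N2.symm.trans h3, h4.trans (Nat.le_mul_of_pos_right _ h1.P)⟩

/-- the cost statement of the arithmetic routine -/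
abbrev AxO (ax : AxT) : Prop :=
  Op (fun e => 0 < e.2.1) (fun e => 2 * (e.1 * e.2.1)) (fun e => e.1 * e.2.1)
    (fun e => e.1 * e.2.1) (fun e => (e.2.2.natAbs + 1) * (e.1 * e.2.1)) ax

theorem op_ax {ax : AxT} (hax : AxO ax) (hf : Op D N N B T f) (hf' : Op D N N B T f')
    (hg : PTime g) (c : ℤ) (H : ∀ e, D e → 0 < (g e).P ∧ (g e).N = N e) :
    Op D N N B T fun e l => ax ((g e).A * (g e).nr, (g e).P, c) (f e l ++ f' e l) :=
  (hf.append hf').andThen hax (((GP.pt_A hg).mul (GP.pt_nr hg)).prodMk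
    ((GP.pt_P hg).prodMk (.const c))) (fun e he => ⟨(H e he).1,
      (two_mul _).trans (congrArg₂ _ (H e he).2 (H e he).2), (H e he).2,
      (hf.le e he).trans (H e he).2.ge⟩)
    ⟨c.natAbs + 1, fun e he => Nat.mul_le_mul_left _ ((H e he).2.le.trans (Nat.le_add_left _ _))⟩

end

lemma AO.size_le {ρ : ℕ} {rs : List ℕ} (h : AO ρ rs) (h0 : 0 < rs.length) :
    rs.prod.size ≤ rs.length * ρ ∧ 1 ≤ ρ := by
  have h1 : ∀ r ∈ rs, r ≤ 2 ^ ρ - 1 := fun r hr =>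
    Nat.le_sub_one_of_lt (Nat.size_le.1 (h.2.2 r hr).2)
  refine ⟨Nat.size_le.2 ((List.prod_le_pow_card _ _ h1).trans_lt ?_), ?_⟩
  · rw [mul_comm, pow_mul]
    exact Nat.pow_lt_pow_left (Nat.sub_one_lt (by positivity)) h0.ne'
  · obtain ⟨r, hr⟩ := List.exists_mem_of_length_pos h0
    exact (Nat.size_pos.2 (h.pos r hr)).trans_le (h.2.2 r hr).2

theorem rec_op {ax : AxT} (hax : AxO ax) {H W Z : ℕ} (hH : 2 ≤ H) (hW : 0 < W)
    {prog : List (NI (List Bool × List Bool))} (hp : NI.passes prog < W * H)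
    (hprog : ∀ a ∈ prog, a.Ok (OkB H) (W + Z)) : ∃ τ, Sub τ ∧
      Op (GD H W) GP.N GP.N (fun e => e.nr / W ^ e.d) (fun e => e.N * e.ρ * τ e.rs.length)
        fun e l => (GX ax H W Z prog).F e.d e l := by
  obtain ⟨τ, hτ, h0, hP, hQ⟩ := axisOp
  obtain ⟨τ', hτ', hs⟩ := hτ.split
  obtain ⟨t, τ2, hτ2, t1, t2, t3⟩ := hτ'.recur hH hp
  have hH0 : 0 < H := by omega
  have hρ : ∀ {e}, GD H W e → 1 ≤ e.ρ := fun he =>
    (he.ok.size_le (he.len ▸ Nat.pow_pos hH0)).2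
  have cost : ∀ {e}, GD H W e → τ e.rs.prod.size ≤ e.ρ * τ' (H ^ e.d) ∧
      τ e.rs'.prod.size ≤ e.ρ * τ' (H ^ e.d) := fun {e} he => by
    have := hs (H ^ e.d) e.ρ (hρ he)
    rw [mul_comm (τ' _)] at this
    exact ⟨(hτ.1 (he.len ▸ (he.ok.size_le (he.len ▸ Nat.pow_pos hH0)).1)).trans this,
      (hτ.1 (he.len' ▸ (he.ok'.size_le (he.len' ▸ Nat.pow_pos hH0)).1)).trans this⟩
  have hB : ∀ {e}, GD H W e → e.nr / W ^ e.d ≤ e.N := fun he =>
    (Nat.div_le_self _ _).trans he.pos.le.2.2.1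
  have hd : ∀ {e : GP}, 0 < e.d → e.d = e.d - 1 + 1 := fun h => by omega
  have hB' : ∀ {e : GP}, 0 < e.d → e.nr / W ^ e.d ≤ (e.w W).nr := fun h =>
    Nat.div_le_div_left (Nat.le_self_pow h.ne' W) hW
  have hB2 : ∀ {e}, GD H W e → 0 < e.d → e.nr / W ^ e.d ≤ e.N / W := fun he h =>
    (hB' h).trans ((he.posw (hd h)).le.2.2.1.trans (he.N_div (hd h) hW).ge)
  have pp : ∀ {π : ℕ → List ℕ → List Bool → ℕ → ℕ}, AOp τ (fun e => 0 < e.1 ∧
      AX e.2.1 e.2.2.1 e.2.2.2.1) (fun e => π e.2.1 e.2.2.1 e.2.2.2.1) →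
      Op (fun x : GP × List Bool × List Bool => GD H W x.1 ∧ 0 < x.1.d ∧ ∃ w, NI.pass w x.2 ∈ prog)
        (fun x => x.1.N / W) (fun x => x.1.N / W) (fun x => x.1.nr / W ^ x.1.d)
        (fun x => x.1.N * x.1.ρ * τ' (H ^ x.1.d)) fun x l =>
        (x.1.w W).x2 (π (x.1.q H) x.1.rs' x.2.2) ((x.1.w W).x1 (π (x.1.q H) x.1.rs x.2.1) l) := by
    intro π h
    have c : ∀ {e : GP} {s : ℕ}, GD H W e → 0 < e.d → s ≤ e.ρ * τ' (H ^ e.d) →
        (e.w W).N * s ≤ 1 * (e.N * e.ρ * τ' (H ^ e.d) + e.N / W) := fun he h hs => by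
      rw [one_mul, mul_assoc, ← he.N_div (hd h) hW]
      exact (Nat.mul_le_mul (Nat.div_le_self _ _) hs).trans (Nat.le_add_right _ _)
    refine op_x2 h (op_x1 h (Op.id fun x hx => hB2 hx.1 hx.2.1) (GP.pt_w .fst_id W)
      (GP.pt_q .fst_id H) PTime.snd_id.fst (fun x ⟨h1, h2, w, h3⟩ => ?_)
      ⟨1, fun x hx => c hx.1 hx.2.1 (cost hx.1).1⟩) (GP.pt_w .fst_id W)
      (GP.pt_q .fst_id H) PTime.snd_id.snd (fun x ⟨h1, h2, w, h3⟩ => ?_)
      ⟨1, fun x hx => c hx.1 hx.2.1 (cost hx.1).2⟩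
    exacts [⟨h1.posw (hd h2), (h1.ax (hd h2) hH0 (hprog _ h3).2).1, (h1.N_div (hd h2) hW).symm,
      hB' h2⟩, ⟨h1.posw (hd h2), (h1.ax (hd h2) hH0 (hprog _ h3).2).2, (h1.N_div (hd h2) hW).symm,
      hB' h2⟩]
  have e3 : ∀ {e}, GD H W e → 0 < e.d → e.N = e.A * W * (e.nr / W * e.P) := fun he h => by
    rw [he.N_eq (hd h)]; simp only [GP.N, GP.w, GP.A]; ring
  have pβ : PTime fun e : GP => e.nr / W * e.P := ((GP.pt_nr .id).div (.const W)).mul (GP.pt_P .id)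
  refine ⟨τ2, hτ2, (netRec (GX ax H W Z prog) hW hprog (D := GD H W) (dep := GP.d)
    (B := fun e => e.nr / W ^ e.d) (T := fun e => e.N * e.ρ * t e.d)
    (T1 := fun e => e.N * e.ρ * τ' (H ^ e.d)) (U := fun e => e.N / W * e.ρ * t (e.d - 1))
    (E := fun e => 16 * e.N.size + sz e.rs + sz e.rs' + 4 * e.rs.length + sz e.ρ + 20)
    (GP.pt_d .id) (GP.pt_N .id) (GP.pt_sub (GP.pt_w .fst_id W) H PTime.snd_id.fst PTime.snd_id.snd)
    ?_ ?_ ?_ (pp hP) (pp hQ) ?_ (fun e he h => ?_) (fun e he => ?_) ?_).mono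
    (fun e he => ⟨he, rfl, rfl, le_rfl⟩) ⟨1, fun e he => ?_⟩⟩
  · have hi : Op (fun e => GD H W e ∧ e.d = 0) GP.N GP.N (fun e => e.nr / W ^ e.d)
        (fun e => e.N * e.ρ * t e.d) fun _ l => l := Op.id fun e he => hB he.1
    have c : ∀ {e : GP} {s : ℕ}, s ≤ e.ρ * τ' (H ^ e.d) → e.d = 0 →
        e.N * s ≤ τ' 1 * (e.N * e.ρ * t e.d + e.N) := fun {e s} hs h => by
      rw [h, pow_zero] at hs
      have h1 := Nat.mul_le_mul_left e.N hs
      have h2 := Nat.mul_le_mul_left (τ' 1 * (e.N * e.ρ)) (t1 e.d)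
      nlinarith [Nat.zero_le (τ' 1 * e.N)]
    have hP : ∀ e, GD H W e ∧ e.d = 0 → 0 < e.P ∧ e.N = e.N := fun e he => ⟨he.1.P, rfl⟩
    have o1 := op_ax hax hi (op_x2 (π := fun _ => reflN) (D0 := fun _ rs u =>
      rs.Pairwise Nat.Coprime ∧ (∀ r ∈ rs, 0 < r) ∧ u.length = rs.length) h0 hi .id (.const 0)
      (.const [true]) (fun e he => ⟨he.1.pos, ⟨he.1.ok'.2.1, he.1.ok'.pos, by
        rw [he.1.len', he.2]; rfl⟩, rfl, Nat.div_le_self _ _⟩)
      ⟨_, fun e he => c (cost he.1).2 he.2⟩) .id (-2) hP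
    exact op_ax hax hi (op_ax hax o1 (op_x1 (π := fun _ => reflN) (D0 := fun _ rs u =>
      rs.Pairwise Nat.Coprime ∧ (∀ r ∈ rs, 0 < r) ∧ u.length = rs.length) h0 o1 .id (.const 0)
      (.const [true]) (fun e he => ⟨he.1.pos, ⟨he.1.ok.2.1, he.1.ok.pos, by
        rw [he.1.len, he.2]; rfl⟩, rfl, Nat.div_le_self _ _⟩)
      ⟨_, fun e he => c (cost he.1).1 he.2⟩) .id (-2) hP) .id (-1) hP
  · exact (Op.id fun e he => hB he.1).tr (GP.pt_A .id) (.const W) pβ (fun e he => ⟨e3 he.1 he.2,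
      he.1.A_pos, hW, Nat.mul_pos (he.1.nr_pos (hd he.2)) he.1.P⟩)
      ⟨W, fun e he => Nat.mul_le_mul (min_le_right _ _) (Nat.le_add_left _ _)⟩
  · exact (Op.id fun e he => hB he.1).tr (.const W) (GP.pt_A .id) pβ (fun e he =>
      ⟨mul_comm W e.A ▸ e3 he.1 he.2, hW, he.1.A_pos, Nat.mul_pos (he.1.nr_pos (hd he.2)) he.1.P⟩)
      ⟨W, fun e he => Nat.mul_le_mul (min_le_left _ _) (Nat.le_add_left _ _)⟩
  · refine (Op.id fun x hx => (hB2 hx.1 hx.2.1).trans (Nat.le_mul_of_pos_left _ two_pos)).andThen hax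
      (((GP.pt_A .fst_id).mul ((GP.pt_nr .fst_id).div (.const W))).prodMk
        ((GP.pt_P .fst_id).prodMk .snd_id)) (fun x hx => ?_) ⟨3, fun x hx => ?_⟩
    all_goals have h := hx.1.N_div (hd hx.2.1) hW
    · exact ⟨hx.1.P, congrArg _ h.symm, h.symm, (hB2 hx.1 hx.2.1).trans h.le⟩
    · have : x.2.natAbs ≤ 2 := by have := abs_le.1 hx.2.2; omega
      exact Nat.mul_le_mul (Nat.succ_le_succ this) (h.ge.trans (by
        change x.1.N / W ≤ _ + 2 * (x.1.N / W); omega))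
  · refine ⟨Dvd.intro _ (he.N_eq (hd h)).symm, hB2 he h, ?_, fun w p hw => ?_⟩
    · have h1 := Nat.mul_le_mul_left ((e.w W).N * e.ρ) (t2 (e.d - 1))
      have h2 := Nat.mul_le_mul_left (W * (e.w W).N) (hρ he)
      rw [← hd h] at h1
      change e.N * e.ρ * _ + e.N + NI.passes prog * (e.N / W * e.ρ * _) ≤ e.N * e.ρ * _
      rw [he.N_div (hd h) hW, he.N_eq (hd h)]
      nlinarith
    · have hp' : OkB H p := (hprog _ hw).2
      obtain ⟨hu, hv⟩ := he.ax (hd h) hH0 hp'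
      have hN : ((e.w W).sub H p.1 p.2).N = e.N / W :=
        (N_sub (e := e.w W) hu hv).trans (he.N_div (hd h) hW).symm
      refine ⟨he.sub (hd h) hH0 hW hp', (hd h).symm, hN, ?_, ?_, ?_⟩
      · change _ ≤ (gR (e.q H) e.rs' p.2).prod * (e.nr / W) / W ^ (e.d - 1)
        rw [hd h, pow_succ', ← Nat.div_div_eq_div_mul]
        exact Nat.div_le_div_right (Nat.le_mul_of_pos_left _ (List.prod_pos hv.posR))
      · have h1 := Nat.size_le_size (hN.le.trans (Nat.div_le_self _ _))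
        have h2 := sz_sublist hu.sub.1
        have h3 := sz_sublist hv.sub.1
        have h4 := hu.sub.1.length_le
        change 16 * ((e.w W).sub H p.1 p.2).N.size + sz (gG (e.q H) e.rs p.1) +
          sz (gG (e.q H) e.rs' p.2) + 4 * (gG (e.q H) e.rs p.1).length + sz e.ρ + 20 ≤ _
        omega
      · exact (congrArg (· * e.ρ * t (e.d - 1)) hN).le
  · obtain ⟨a1, a2, a3, a4⟩ := he.pos.le
    have b : ∀ {x}, x ≤ e.N → sz x ≤ 4 * e.N.size + 1 := fun h =>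
      (sz_nat_le _).trans (by have := Nat.size_le_size h; omega)
    have h1 : sz e = sz (e.d, e.O, e.rs, e.M, e.rs', e.nr, e.P, e.ρ) := rfl
    have h2 := sz_nat_le_self e.d
    have h3 : e.d < e.rs.length := he.len ▸ Nat.lt_pow_self hH
    have := b a1
    have := b a2
    have := b a3
    have := b a4
    simp only [sz_prod] at h1
    exact ⟨by omega, (Nat.le_mul_of_pos_right _ (hρ he)).trans (Nat.le_mul_of_pos_right _ (t1 _))⟩
  · obtain ⟨j, hj⟩ := PB.le_pow ((((((PB.const 16).mul (PB.size (GP.pt_N .id))).add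
      (GP.pt_rs .id).sz_PB).add (GP.pt_rs' .id).sz_PB).add ((PB.const 4).mul
        (PB.length (GP.pt_rs .id)))).add (GP.pt_ρ .id).sz_PB |>.add (PB.const 20))
    exact ⟨j, fun e _ => (Nat.le_succ _).trans (hj e)⟩
  · rw [one_mul, he.len]
    exact (Nat.mul_le_mul_left _ (t3 _)).trans (Nat.le_add_right _ _)

end Vale.Agent.P338.Gn
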