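import Vale.Agent.P338.HWordA

/-! Job J10c: the normalised discrete Fourier transform of both rows as a short word. -/

namespace Vale.Agent.P338

open PT Finset

namespace CA

/-- the chirp angle -/
def ca (p : ℕ) (c : ℤ) (x : ℕ) : ℚ := ((c * (x : ℤ) ^ 2 : ℤ) : ℚ) / p

/-- `a += q * F b` for the transform with the character `2 c x y` -/
def shF (p : ℕ) (q : ℚ) (c : ℤ) : List HI :=
  tab p (fun x => ce q⁻¹ (-ca p c x)) (fun x => ce 1 (ca p c x)) ++ shc p (-c) ++
    tab p (fun x => ce q (ca p c x)) fun x => ce 1 (-ca p c x)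

/-- exchange of the rows -/
def swp (p : ℕ) : List HI :=
  shr p false 0 (fun _ => true) ++ neg p (fun _ => true) ++ shr p true 0 (fun _ => true) ++
    sca p (-1) ++ shr p false 0 (fun _ => true) ++ sca p (-1)

def hf (p : ℕ) : ℤ := ((p + 1) / 2 : ℕ)

def ww (p : ℕ) (σ : ℚ) : List HI :=
  shF p (σ / p) (-hf p) ++ swp p ++ shF p (-σ) (hf p) ++ swp p ++ shF p (σ / p) (-hf p)

def be (p y : ℕ) : Ent :=
  (1, 0, (List.range p).map fun j : ℕ => ((-hf p * (j : ℤ) ^ 2 + j * y : ℤ) : ℚ) / p, 0, some true)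

def hw (p : ℕ) : List HI :=
  tab p (fun x => ce 1 (ca p (hf p) x)) (fun x => ce 1 (ca p (hf p) x)) ++ ww p (-1) ++
    tab p (be p) (be p) ++ ww p 1 ++
    tab p (fun x => ce (p : ℚ)⁻¹ (ca p (hf p) x)) fun x => ce (p : ℚ)⁻¹ (ca p (hf p) x)

section PT
variable {α : Type} [TEnc α] {p : α → ℕ} (hp : PTime p) (hB : PB p)
include hp

lemma ptime_ca {c : α → ℤ} (hc : PTime c) : PTime fun q : α × ℕ => ca (p q.1) (c q.1) q.2 :=
  ((hc.comp PTime.fst_id).int_mul (PTime.snd_id.natCast_int.int_pow (.const 2)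
    (.const 2))).intCast_rat.rat_div (hp.comp PTime.fst_id).natCast_rat

lemma ptime_hf : PTime fun a => hf (p a) := ((hp.add (.const 1)).div (.const 2)).natCast_int

include hB

lemma ptime_shF {q : α → ℚ} {c : α → ℤ} (hq : PTime q) (hc : PTime c) :
    PTime fun a => shF (p a) (q a) (c a) := by
  have h1 := ptime_ca hp hc
  have q1 : PTime fun x : α × ℕ => q x.1 := hq.comp PTime.fst_id
  have a1 := ptime_tab (fa := fun a x => ce (q a)⁻¹ (-ca (p a) (c a) x))
    (fb := fun a x => ce 1 (ca (p a) (c a) x)) hp hB (ptime_ce q1.rat_inv h1.rat_neg)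
    (ptime_ce (.const _) h1)
  have a2 := ptime_tab (fa := fun a x => ce (q a) (ca (p a) (c a) x))
    (fb := fun a x => ce 1 (-ca (p a) (c a) x)) hp hB (ptime_ce q1 h1)
    (ptime_ce (.const _) h1.rat_neg)
  exact (a1.append (ptime_shc hp hB hc.int_neg)).append a2

lemma ptime_swp : PTime fun a => swp (p a) := by
  have a1 : ∀ d, PTime fun a => shr (p a) d 0 fun _ => true := fun d =>
    ptime_shr (d := fun _ => d) (g := fun _ => 0) (m := fun _ _ => true) hp hB (.const _)
      (.const _) (.const _)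
  have a2 := ptime_neg (m := fun _ _ => true) hp hB (.const _)
  have a3 := ptime_sca (q := fun _ => -1) hp hB (.const _)
  exact (((((a1 false).append a2).append (a1 true)).append a3).append (a1 false)).append a3

lemma ptime_ww (σ : ℚ) : PTime fun a => ww (p a) σ := by
  have a1 := ptime_shF hp hB ((PTime.const σ).rat_div hp.natCast_rat) (ptime_hf hp).int_neg
  have a2 := ptime_shF hp hB (PTime.const (-σ)) (ptime_hf hp)
  have a3 := ptime_swp hp hB
  exact (((a1.append a3).append a2).append a3).append a1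

lemma ptime_hw : PTime fun a => hw (p a) := by
  have h1 := ptime_ca hp (ptime_hf hp)
  have p1 : PTime fun x : α × ℕ => p x.1 := hp.comp PTime.fst_id
  have p2 : PTime fun x : (α × ℕ) × ℕ => p x.1.1 := hp.comp PTime.fst_id.fst
  have j2 : PTime fun x : (α × ℕ) × ℕ => (x.2 : ℤ) := PTime.snd_id.natCast_int
  have h2 : PTime fun x : α × ℕ => (List.range (p x.1)).map
      fun j : ℕ => ((-hf (p x.1) * (j : ℤ) ^ 2 + j * x.2 : ℤ) : ℚ) / p x.1 :=
    PTime.map (f := fun (x : α × ℕ) (j : ℕ) =>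
      ((-hf (p x.1) * (j : ℤ) ^ 2 + j * x.2 : ℤ) : ℚ) / p x.1) (p1.range (hB.comp PTime.fst_id))
      ((((ptime_hf p2).int_neg.int_mul (j2.int_pow (.const 2) (.const 2))).int_add
        (j2.int_mul PTime.fst_id.snd.natCast_int)).intCast_rat.rat_div p2.natCast_rat)
  have h3 : PTime fun x : α × ℕ => be (p x.1) x.2 :=
    (PTime.const _).prodMk ((PTime.const _).prodMk (h2.prodMk (.const _)))
  have a1 := ptime_tab (fa := fun a x => ce 1 (ca (p a) (hf (p a)) x))
    (fb := fun a x => ce 1 (ca (p a) (hf (p a)) x)) hp hB (ptime_ce (.const _) h1)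
    (ptime_ce (.const _) h1)
  have a2 := ptime_tab (fa := fun a => be (p a)) (fb := fun a => be (p a)) hp hB h3 h3
  have a3 := ptime_tab (fa := fun a x => ce (p a : ℚ)⁻¹ (ca (p a) (hf (p a)) x))
    (fb := fun a x => ce (p a : ℚ)⁻¹ (ca (p a) (hf (p a)) x)) hp hB
    (ptime_ce p1.natCast_rat.rat_inv h1) (ptime_ce p1.natCast_rat.rat_inv h1)
  exact (((a1.append (ptime_ww hp hB _)).append a2).append (ptime_ww hp hB _)).append a3

end PT

/-! admissibility and length -/

lemma gd_shF {p : ℕ} (hp : 25 ≤ p) {q : ℚ} (h1 : |q| ≤ 4 * p) (h2 : |q⁻¹| ≤ 4 * p) (c : ℤ) :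
    Gd p (shF p q c) := by
  have h0 : (25 : ℚ) ≤ p := by exact_mod_cast hp
  have h3 : |(1 : ℚ)| ≤ 4 * p := by rw [abs_one]; linarith
  exact ((gd_tab (fun _ => ge_ce _ h2) fun _ => ge_ce _ h3).append (gd_shc hp _)).append
    (gd_tab (fun _ => ge_ce _ h1) fun _ => ge_ce _ h3)

lemma gd_ww {p : ℕ} (hp : 25 ≤ p) {σ : ℚ} (hσ : |σ| = 1) : Gd p (ww p σ) := by
  have h0 : (25 : ℚ) ≤ p := by exact_mod_cast hp
  have hm : |(-1 : ℚ)| ≤ 4 * p := by rw [abs_neg, abs_one]; linarith
  have h1 : Gd p (swp p) := (((((gd_shr _ _ _).append (gd_tab (fun _ => ge_one (by omega))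
    fun _ => ge_ce _ hm)).append (gd_shr _ _ _)).append (gd_sca (by omega) hm)).append
    (gd_shr _ _ _)).append (gd_sca (by omega) hm)
  have h2 : Gd p (shF p (σ / p) (-hf p)) := by
    refine gd_shF hp ?_ ?_ _
    · rw [abs_div, hσ, Nat.abs_cast]
      exact (div_le_one_of_le₀ (by linarith) (by linarith)).trans (by linarith)
    · rw [inv_div, abs_div, hσ, Nat.abs_cast]; linarith
  have h3 : Gd p (shF p (-σ) (hf p)) := by
    refine gd_shF hp ?_ ?_ _
    · rw [abs_neg, hσ]; linarith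
    · rw [abs_inv, abs_neg, hσ]; linarith
  exact (((h2.append h1).append h3).append h1).append h2

lemma be_val (p y : ℕ) : (be p y).val =
    ∑ j ∈ range p, ee (((-hf p * (j : ℤ) ^ 2 + j * y : ℤ) : ℚ) / p) := by
  simp only [be, Ent.val, Ent.mu, List.map_map, sum_range_eq, Function.comp_apply, ee_zero,
    Option.elim, if_true, Rat.cast_one, Nat.cast_zero, one_mul, zero_add]

lemma gd_hw {p : ℕ} (hp : 25 ≤ p) : Gd p (hw p) := by
  have h0 : (25 : ℚ) ≤ p := by exact_mod_cast hp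
  have h3 : |(1 : ℚ)| ≤ 4 * p := by rw [abs_one]; linarith
  have h4 : |(p : ℚ)⁻¹| ≤ 4 * p := by
    rw [abs_inv, Nat.abs_cast]
    exact (inv_le_one_of_one_le₀ (by linarith)).trans (by linarith)
  have h5 : ∀ y, GE p (be p y) := fun y => by
    refine ⟨fun h => by simp [be] at h, ?_⟩
    rw [be_val]
    refine (norm_sum_le _ _).trans ?_
    simp only [norm_ee, sum_const, card_range, nsmul_eq_mul, mul_one]
    linarith [Nat.cast_nonneg (α := ℝ) p]
  exact ((((gd_tab (fun _ => ge_ce _ h3) fun _ => ge_ce _ h3).append (gd_ww hp (by simp))).append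
    (gd_tab h5 h5)).append (gd_ww hp (by simp))).append
    (gd_tab (fun _ => ge_ce _ h4) fun _ => ge_ce _ h4)

lemma length_hw {p : ℕ} (hp : 25 ≤ p) : (hw p).length ≤ 53000 * p.size := by
  have h1 := length_shc hp (-hf p)
  have h2 := length_shc hp (- -hf p)
  have h3 : 0 < p.size := Nat.size_pos.2 (by omega)
  simp only [hw, ww, shF, swp, neg, List.length_append, length_shr, length_sca, length_tab]
  omega

/-! semantics -/

variable {p : ℕ} [NeZero p]

/-- the transform for the character `e x y` -/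
noncomputable def FF (e : ZMod p) (u : ZMod p → ℂ) (x : ZMod p) : ℂ := ∑ y, ps p (e * x * y) * u y

lemma ee_ca (c : ℤ) (x : ZMod p) : ee (ca p c x.val) = ps p (c * x ^ 2) := by
  rw [ca, ee_div]; congr 1; push_cast; rw [ZMod.natCast_zmod_val]

lemma run_shF (hp : 25 ≤ p) {q : ℚ} (hq : q ≠ 0) (c : ℤ) (a b : ZMod p → ℂ) :
    run p (shF p q c) (pr a b) = pr (fun x => a x + q * FF (2 * (c : ZMod p)) b x) b := by
  rw [shF, run_append, run_append, run_tab, run_shc hp, run_tab]
  have hq' : (q : ℂ) ≠ 0 := by exact_mod_cast hq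
  refine pr_congr (fun x => ?_) fun x => ?_
  · have h1 : ∀ y : ZMod p, ps p (c * x ^ 2) * (ps p ((-c : ℤ) * (x - y) ^ 2) *
        ((ce 1 (ca p c y.val)).val * b y)) = ps p (2 * c * x * y) * b y := fun y => by
      rw [ce_val, ee_ca, Rat.cast_one, one_mul, ← mul_assoc, ← mul_assoc, ← AddChar.map_add_eq_mul,
        ← AddChar.map_add_eq_mul]
      congr 2
      push_cast
      ring
    have h2 := ee_neg_mul (ca p c x.val)
    rw [FF, ← sum_congr rfl fun y _ => h1 y, ← mul_sum, ce_val, ce_val, ← ee_ca]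
    push_cast
    field_simp
    linear_combination a x * h2
  · rw [ce_val, ce_val, Rat.cast_one]
    linear_combination b x * ee_neg_mul (ca p c x.val)

lemma run_swp (a b : ZMod p → ℂ) : run p (swp p) (pr a b) = pr b a := by
  simp only [swp, neg, run_append, run_sa, run_sb, run_sca, run_tab, if_true, one_val, ce_val,
    ee_zero, Nat.cast_zero, add_zero]
  refine pr_congr (fun x => ?_) fun x => ?_ <;> push_cast <;> ring

lemma FF_FF {e : ZMod p} (he : e * e = 1) (u : ZMod p → ℂ) (x : ZMod p) :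
    FF (-e) (FF e u) x = p * u x := by
  have h1 : ∀ z, ∑ y, ps p (-e * x * y) * (ps p (e * y * z) * u z) =
      if z = x then p * u z else 0 := fun z => by
    have h2 : ∀ y, ps p (-e * x * y) * (ps p (e * y * z) * u z) = ps p (y * (e * (z - x))) * u z :=
      fun y => by rw [← mul_assoc, ← AddChar.map_add_eq_mul]; congr 2; ring
    have h3 : e * (z - x) = 0 ↔ z = x := by
      refine ⟨fun h => ?_, fun h => by rw [h, sub_self, mul_zero]⟩
      have : z - x = 0 := by linear_combination e * h - (z - x) * he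
      exact sub_eq_zero.1 this
    simp only [h2]
    rw [← sum_mul, AddChar.sum_mulShift _ (ZMod.isPrimitive_stdAddChar p), ZMod.card]
    simp only [h3]
    split_ifs <;> simp
  simp only [FF, mul_sum]
  rw [sum_comm]
  simp only [h1, sum_ite_eq', mem_univ, if_true]

lemma FF_add (e : ZMod p) (u v : ZMod p → ℂ) (k : ℂ) (x : ZMod p) :
    FF e (fun y => u y + k * v y) x = FF e u x + k * FF e v x := by
  simp only [FF, mul_sum, ← sum_add_distrib]
  exact sum_congr rfl fun y _ => by ring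

omit [NeZero p] in
lemma two_hf (ho : Odd p) : (2 * (hf p : ℤ) : ZMod p) = 1 := by
  obtain ⟨k, hk⟩ := ho
  have h1 : ((2 * ((p + 1) / 2) : ℕ) : ZMod p) = ((p + 1 : ℕ) : ZMod p) := by
    congr 1; omega
  rw [Nat.cast_add, ZMod.natCast_self, zero_add, Nat.cast_mul] at h1
  rw [hf, Int.cast_natCast]
  exact_mod_cast h1

lemma run_ww (hp : 25 ≤ p) (ho : Odd p) {σ : ℚ} (hσ : σ * σ = 1) (a b : ZMod p → ℂ) :
    run p (ww p σ) (pr a b) =
      pr (fun x => σ / p * FF (-1) b x) (fun x => -σ * FF 1 a x) := by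
  have h0 : σ ≠ 0 := fun h => by simp [h] at hσ
  have hp0 : (p : ℚ) ≠ 0 := by positivity
  have hp1 : (p : ℂ) ≠ 0 := by exact_mod_cast NeZero.ne p
  have hσ' : (σ : ℂ) * σ = 1 := by exact_mod_cast hσ
  have e1 : (2 * (-hf p : ℤ) : ZMod p) = -1 := by rw [Int.cast_neg, mul_neg, two_hf ho]
  have f1 := FF_FF (e := (-1 : ZMod p)) (by ring) b
  have f2 := FF_FF (e := (1 : ZMod p)) (by ring) a
  rw [neg_neg] at f1
  simp only [ww, run_append]
  rw [run_shF hp (div_ne_zero h0 hp0), run_swp, run_shF hp (neg_ne_zero.2 h0), run_swp, e1,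
    two_hf ho]
  have e2 : (fun x => b x + ((-σ : ℚ) : ℂ) *
      FF 1 (fun x => a x + ((σ / p : ℚ) : ℂ) * FF (-1) b x) x) =
      fun x => 0 + (-σ : ℂ) * FF 1 a x := by
    funext x
    rw [FF_add, f1]
    push_cast
    field_simp
    linear_combination (-b x) * hσ'
  rw [e2, run_shF hp (div_ne_zero h0 hp0), e1]
  refine pr_congr (fun x => ?_) fun x => zero_add _
  rw [FF_add, f2]
  have : FF (-1) (fun _ => (0 : ℂ)) x = 0 := by simp [FF]
  rw [this]
  push_cast
  field_simp
  linear_combination (-(p : ℂ) * a x) * hσ'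

lemma FF_conv {e : ZMod p} (he : e * e = 1) (c : ZMod p) (u : ZMod p → ℂ) (x : ZMod p) :
    FF (-e) (fun y => (∑ j, ps p (c * j ^ 2 + j * y)) * FF e u y) x =
      p * ∑ z, ps p (c * (x - z) ^ 2) * u z := by
  rw [← FF_FF he (fun x => ∑ z, ps p (c * (x - z) ^ 2) * u z)]
  congr 1
  funext y
  simp only [FF, mul_sum]
  rw [sum_comm]
  refine sum_congr rfl fun z _ => ?_
  rw [sum_mul]
  refine Fintype.sum_bijective (fun j => e * j + z) ?_ _ _ fun j => ?_
  · refine Function.bijective_iff_has_inverse.2 ⟨fun w => e * (w - z), fun j => ?_, fun w => ?_⟩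
    · linear_combination j * he
    · linear_combination (w - z) * he
  · rw [← mul_assoc, ← mul_assoc, ← AddChar.map_add_eq_mul, ← AddChar.map_add_eq_mul]
    congr 2
    linear_combination (-(c * j ^ 2) - j * y) * he

lemma be_val' (y : ZMod p) : (be p y.val).val = ∑ j, ps p ((-hf p : ℤ) * j ^ 2 + j * y) := by
  rw [be_val, sum_zmod]
  refine sum_congr rfl fun j _ => ?_
  rw [ee_div]; congr 1; push_cast; rw [ZMod.natCast_zmod_val]

lemma chirp (ho : Odd p) (u : ZMod p → ℂ) (y : ZMod p) :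
    (ce (p : ℚ)⁻¹ (ca p (hf p) y.val)).val * ∑ z, ps p ((-hf p : ℤ) * (y - z) ^ 2) *
      ((ce 1 (ca p (hf p) z.val)).val * u z) =
    (p : ℂ)⁻¹ * ∑ x : ZMod p, ee (x.val * y.val / p) * u x := by
  rw [ce_val, ee_ca, mul_assoc, mul_sum, Rat.cast_inv, Rat.cast_natCast]
  congr 1
  refine sum_congr rfl fun z _ => ?_
  have h1 := ee_div (p := p) ((z.val * y.val : ℕ) : ℤ)
  push_cast at h1
  rw [ZMod.natCast_zmod_val, ZMod.natCast_zmod_val] at h1
  rw [h1, ce_val, ee_ca, Rat.cast_one, one_mul, ← mul_assoc, ← mul_assoc, ← AddChar.map_add_eq_mul,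
    ← AddChar.map_add_eq_mul]
  congr 2
  push_cast
  linear_combination z * y * two_hf ho

lemma run_hw (hp : 25 ≤ p) (ho : Odd p) (a b : ZMod p → ℂ) : run p (hw p) (pr a b) =
    pr (fun y => (p : ℂ)⁻¹ * ∑ x : ZMod p, ee (x.val * y.val / p) * a x)
      fun y => (p : ℂ)⁻¹ * ∑ x : ZMod p, ee (x.val * y.val / p) * b x := by
  have hp1 : (p : ℂ) ≠ 0 := by exact_mod_cast NeZero.ne p
  simp only [hw, run_append]
  rw [run_tab, run_ww hp ho (by norm_num), run_tab, run_ww hp ho (by norm_num), run_tab]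
  refine pr_congr (fun y => ?_) fun y => ?_
  · rw [← chirp ho]
    congr 1
    simp only [be_val', Rat.cast_neg, Rat.cast_one, neg_neg, one_mul]
    rw [FF_conv (e := 1) (by ring)]
    field_simp
  · rw [← chirp ho]
    congr 1
    have h1 := FF_conv (e := (-1 : ZMod p)) (by ring) (-hf p : ℤ)
      (fun x => (ce 1 (ca p (hf p) x.val)).val * b x) y
    have h2 := FF_add 1 (fun _ => 0)
      (fun y : ZMod p => (∑ j : ZMod p, ps p (((-hf p : ℤ) : ZMod p) * j ^ 2 + j * y)) *
      FF (-1) (fun x => (ce 1 (ca p (hf p) x.val)).val * b x) y) (-1 / p) y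
    have h3 : FF 1 (fun _ => (0 : ℂ)) y = 0 := by simp [FF]
    rw [neg_neg] at h1
    rw [h1, h3] at h2
    simp only [be_val', Rat.cast_neg, Rat.cast_one, mul_left_comm _ (-1 / (p : ℂ))]
    simp only [zero_add] at h2
    rw [h2]
    field_simp

end CA

open CA

theorem hword : ∃ (hw : ℕ → List HI) (c : ℕ), PTime (fun u : List Unit => hw u.length) ∧
    ∀ p, Odd p → 25 ≤ p → (hw p).length ≤ c * p.size ∧
      (∀ hi ∈ hw p, ∀ en ∈ hi.1, en.ok ∧ ‖en.val‖ ≤ 4 * p) ∧
      ∀ [NeZero p] (v : Bool → ZMod p → ℂ) s y, (hw p).foldl (hstep p) v s y =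
        (p : ℂ)⁻¹ * ∑ x : ZMod p, ee (x.val * y.val / p) * v s x := by
  refine ⟨hw, 53000, ptime_hw PTime.id.length (PB.length PTime.id), fun p ho hp =>
    ⟨length_hw hp, gd_hw hp, fun v s y => ?_⟩⟩
  have h := run_hw hp ho (v false) (v true)
  rw [pr_eta] at h
  change run p (hw p) v s y = _
  rw [h]
  cases s <;> rfl

end Vale.Agent.P338
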