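import Vale.Agent.P338.Circ

/-! The shear `a += Circ(κ) b` for a chirp `κ`, by Toeplitz blocks embedded in circulants. -/

namespace Vale.Agent.P338.CA

open PT Finset

/-! the words -/

def neg (p : ℕ) (m : ℕ → Bool) : List HI :=
  tab p (fun _ => Ent.one) fun x => if m x then ce (-1) 0 else Ent.one

/-- `b x -= b (x + g)` under the mask `m` -/
def insN (p g : ℕ) (m : ℕ → Bool) : List HI := neg p m ++ ins p g m ++ neg p m

/-- `a x += q * b (x + g)` under the mask `m` -/
def saq (p : ℕ) (q : ℚ) (g : ℕ) (m : ℕ → Bool) : List HI :=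
  sca p q⁻¹ ++ shr p false g m ++ sca p q

def ex (p : ℕ) : ℕ := (2 * (p / 5) - 1).size

def th (p : ℕ) (c : ℤ) (I J : ℕ) : List ℚ :=
  (List.range (2 ^ ex p)).map fun d : ℕ => ((c * (((I : ℤ) - J) * (p / 5 : ℕ) +
    if 2 * d < 2 ^ ex p then (d : ℤ) else d - (2 ^ ex p : ℕ)) ^ 2 : ℤ) : ℚ) / p

def mX (p J x : ℕ) : Bool :=
  decide (pos p (J * (p / 5) + p / 5) x < p / 5 ∧ J * (p / 5) + pos p (J * (p / 5) + p / 5) x < p)

def mY (p I x : ℕ) : Bool := decide (I * (p / 5) ≤ x ∧ x < I * (p / 5) + p / 5)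

def mZ (p I J x : ℕ) : Bool := mY p I x && decide (J * (p / 5) + (x - I * (p / 5)) < p)

def cM (p : ℕ) (c : ℤ) (I J : ℕ) (b : Bool) : List HI :=
  cpw p (ex p) (J * (p / 5) + p / 5) (th p c I J) b

def blkw (p : ℕ) (c : ℤ) (I J : ℕ) : List HI :=
  ins p (p - p / 5) (mX p J) ++ cM p c I J false ++
    shr p false (J * (p / 5) + p / 5 + (p - I * (p / 5))) (mY p I) ++ cM p c I J true ++
    insN p (p - p / 5) (mX p J) ++ cM p c I J false ++
    saq p (-1) (J * (p / 5) + p / 5 + (p - I * (p / 5))) (mY p I) ++ cM p c I J true ++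
    saq p (-(2 ^ (ex p + 1) : ℕ)) (J * (p / 5) + (p - I * (p / 5))) (mZ p I J)

def shc (p : ℕ) (c : ℤ) : List HI :=
  (List.range 6).flatMap fun I => (List.range 6).flatMap fun J => blkw p c I J

lemma two_pow_size_le (m : ℕ) : 2 ^ m.size ≤ 2 * m + 1 := by
  rcases Nat.eq_zero_or_pos m with rfl | h
  · simp
  · have h1 : 0 < m.size := Nat.size_pos.2 h
    have h2 : 2 ^ (m.size - 1) ≤ m := Nat.lt_size.1 (by omega)
    have h3 : 2 ^ m.size = 2 * 2 ^ (m.size - 1) := by
      rw [← pow_succ']; congr 1; omega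
    omega

lemma ex_le (p : ℕ) : 2 ^ ex p ≤ p + 1 := by
  have := two_pow_size_le (2 * (p / 5) - 1)
  unfold ex; omega

lemma ex_bounds {p : ℕ} (hp : 25 ≤ p) : 2 * (p / 5) ≤ 2 ^ ex p ∧ 2 ^ ex p + p / 5 ≤ p := by
  have h1 := two_pow_size_le (2 * (p / 5) - 1)
  have h2 := Nat.lt_size_self (2 * (p / 5) - 1)
  unfold ex; omega

lemma length_th (p c I J) : (th p c I J).length = 2 ^ ex p := by simp [th]

section PT
variable {α : Type} [TEnc α] {p : α → ℕ} (hp : PTime p) (hB : PB p)
include hp hB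

lemma ptime_neg {m : α → ℕ → Bool} (hm : PTime fun q : α × ℕ => m q.1 q.2) :
    PTime fun a => neg (p a) (m a) :=
  ptime_tab (fa := fun _ _ => Ent.one) (fb := fun a x => if m a x then ce (-1) 0 else Ent.one)
    hp hB (.const _) (PTime.ite hm.decide_eq_true (.const _) (.const _))

lemma ptime_insN {g : α → ℕ} {m : α → ℕ → Bool} (hg : PTime g)
    (hm : PTime fun q : α × ℕ => m q.1 q.2) : PTime fun a => insN (p a) (g a) (m a) :=
  ((ptime_neg hp hB hm).append (ptime_ins hp hB hg hm)).append (ptime_neg hp hB hm)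

lemma ptime_saq {q : α → ℚ} {g : α → ℕ} {m : α → ℕ → Bool} (hq : PTime q) (hg : PTime g)
    (hm : PTime fun q : α × ℕ => m q.1 q.2) : PTime fun a => saq (p a) (q a) (g a) (m a) :=
  ((ptime_sca hp hB hq.rat_inv).append (ptime_shr (d := fun _ => false) hp hB (.const _) hg
    hm)).append (ptime_sca hp hB hq)

omit hB in
lemma ptime_ex : PTime (fun a => ex (p a)) ∧ PB fun a => ex (p a) :=
  have h := ((PTime.const 2).mul (hp.div (.const 5))).sub (.const 1)
  ⟨h.size, PB.size h⟩

lemma ptime_th {c : α → ℤ} (hc : PTime c) (I J : ℕ) : PTime fun a => th (p a) (c a) I J := by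
  have h1 : PTime fun a => 2 ^ ex (p a) := ptime_two_pow (ptime_ex hp).1 (ptime_ex hp).2
  have h2 : PB fun a => 2 ^ ex (p a) := (hB.add (.const 1)).of_le fun a => ex_le _
  have p1 : PTime fun q : α × ℕ => p q.1 := hp.comp PTime.fst_id
  have h3 : PTime fun q : α × ℕ => 2 ^ ex (p q.1) := ptime_two_pow (ptime_ex p1).1 (ptime_ex p1).2
  have h4 : PTime fun q : α × ℕ =>
      if 2 * q.2 < 2 ^ ex (p q.1) then (q.2 : ℤ) else q.2 - (2 ^ ex (p q.1) : ℕ) :=
    PTime.ite (((PTime.const 2).mul PTime.snd_id).decide_lt h3) PTime.snd_id.natCast_int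
      (PTime.snd_id.natCast_int.int_sub h3.natCast_int)
  have h5 := ((PTime.const ((I : ℤ) - J)).int_mul (p1.div (.const 5)).natCast_int).int_add h4
  have h6 := ((hc.comp PTime.fst_id).int_mul (h5.int_pow (.const 2) (.const 2))).intCast_rat.rat_div
    p1.natCast_rat
  exact PTime.map (f := fun a (d : ℕ) => ((c a * (((I : ℤ) - J) * (p a / 5 : ℕ) +
    if 2 * d < 2 ^ ex (p a) then (d : ℤ) else d - (2 ^ ex (p a) : ℕ)) ^ 2 : ℤ) : ℚ) / p a)
    (h1.range h2) h6

lemma ptime_blkw {c : α → ℤ} (hc : PTime c) (I J : ℕ) : PTime fun a => blkw (p a) (c a) I J := by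
  have g0 := hp.div (.const 5)
  have p1 : PTime fun q : α × ℕ => p q.1 := hp.comp PTime.fst_id
  have g1 := p1.div (.const 5)
  have j1 := (PTime.const J).mul g1
  have i1 := (PTime.const I).mul g1
  have w1 := ptime_pos p1 (j1.add g1) PTime.snd_id
  have hX : PTime fun q : α × ℕ => mX (p q.1) J q.2 :=
    (w1.decide_lt g1 (inst := inferInstance)).decide_and
      ((j1.add w1).decide_lt p1 (inst := inferInstance))
  have hY : PTime fun q : α × ℕ => mY (p q.1) I q.2 :=
    (i1.decide_le PTime.snd_id (inst := inferInstance)).decide_and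
      (PTime.snd_id.decide_lt (i1.add g1) (inst := inferInstance))
  have hZ : PTime fun q : α × ℕ => mZ (p q.1) I J q.2 :=
    hY.and ((j1.add (PTime.snd_id.sub i1)).decide_lt p1)
  have j0 := (PTime.const J).mul g0
  have i0 := hp.sub ((PTime.const I).mul g0)
  have hM : ∀ b, PTime fun a => cM (p a) (c a) I J b := fun b =>
    ptime_cpw hp hB (ptime_ex hp).1 (ptime_ex hp).2 (j0.add g0) (ptime_th hp hB hc I J) (.const b)
  have a1 := ptime_ins (m := fun a => mX (p a) J) hp hB (hp.sub g0) hX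
  have a2 := ptime_shr (m := fun a => mY (p a) I) (d := fun _ => false) hp hB (.const _)
    ((j0.add g0).add i0) hY
  have a3 := ptime_insN (m := fun a => mX (p a) J) hp hB (hp.sub g0) hX
  have a4 := ptime_saq (m := fun a => mY (p a) I) hp hB (.const (-1)) ((j0.add g0).add i0) hY
  have a5 := ptime_saq (m := fun a => mZ (p a) I J) hp hB (ptime_two_pow
    ((ptime_ex hp).1.add (.const 1)) ((ptime_ex hp).2.add (.const 1))).natCast_rat.rat_neg
    (j0.add i0) hZ
  exact (((((((a1.append (hM false)).append a2).append (hM true)).append a3).append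
    (hM false)).append a4).append (hM true)).append a5

omit hp hB in
lemma ptime_flat {w : α → ℕ → List HI} (h : ∀ i, PTime fun a => w a i) (l : List ℕ) :
    PTime fun a => l.flatMap (w a) := by
  induction l with
  | nil => exact .const _
  | cons i l ih => exact (h i).append ih

lemma ptime_shc {c : α → ℤ} (hc : PTime c) : PTime fun a => shc (p a) (c a) :=
  ptime_flat (w := fun a I => (List.range 6).flatMap fun J => blkw (p a) (c a) I J)
    (fun I => ptime_flat (w := fun a J => blkw (p a) (c a) I J)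
      (fun J => ptime_blkw hp hB hc I J) _) _

end PT

/-! admissibility and length -/

lemma gd_saq {p : ℕ} (hp : 1 ≤ p) {q : ℚ} (h1 : 1 ≤ |q|) (h2 : |q| ≤ 4 * p) (g m) :
    Gd p (saq p q g m) :=
  ((gd_sca hp (by rw [abs_inv]; exact (inv_le_one_of_one_le₀ h1).trans (h1.trans h2))).append
    (gd_shr _ _ _)).append (gd_sca hp h2)

lemma gd_shc {p : ℕ} (hp : 25 ≤ p) (c : ℤ) : Gd p (shc p c) := by
  have hp1 : 1 ≤ p := by omega
  have h1 : (1 : ℚ) ≤ p := by exact_mod_cast hp1
  have hn : 2 ^ ex p ≤ p := by have := ex_bounds hp; omega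
  have hm : |(-1 : ℚ)| ≤ 4 * p := by rw [abs_neg, abs_one]; linarith
  have hN : ∀ m, Gd p (neg p m) := fun m => gd_tab (fun _ => ge_one hp1) fun x => by
    split_ifs
    · exact ge_ce 0 hm
    · exact ge_one hp1
  refine Gd.flatMap fun I _ => Gd.flatMap fun J _ => ?_
  have hM : ∀ b, Gd p (cM p c I J b) := fun b => gd_cpw hn _ (length_th _ _ _ _) b
  refine ((((((((gd_ins hp1 _ _).append (hM _)).append (gd_shr _ _ _)).append (hM _)).append
    (((hN _).append (gd_ins hp1 _ _)).append (hN _))).append (hM _)).append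
    (gd_saq hp1 (by simp) hm _ _)).append (hM _)).append (gd_saq hp1 ?_ ?_ _ _)
  · rw [abs_neg, Nat.abs_cast]
    exact_mod_cast Nat.one_le_two_pow
  · rw [abs_neg, Nat.abs_cast]
    have : 2 ^ (ex p + 1) ≤ 4 * p := by rw [pow_succ]; omega
    exact_mod_cast this

lemma length_shc {p : ℕ} (hp : 25 ≤ p) (c : ℤ) : (shc p c).length ≤ 8820 * p.size := by
  have h1 : ex p ≤ p.size := Nat.size_le_size (by omega)
  have h2 : 0 < p.size := Nat.size_pos.2 (by omega)
  have h3 : ∀ I J, (blkw p c I J).length ≤ 245 * p.size := fun I J => by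
    have h4 := length_cpw p (ex p) (J * (p / 5) + p / 5) (th p c I J) false
    have h5 := length_cpw p (ex p) (J * (p / 5) + p / 5) (th p c I J) true
    simp only [blkw, cM, insN, saq, neg, List.length_append, length_ins, length_shr, length_sca,
      length_tab]
    omega
  have h6 := length_flatMap_le (l := List.range 6) (c := 6 * (245 * p.size))
    (w := fun I => (List.range 6).flatMap fun J => blkw p c I J) fun I _ =>
      length_flatMap_le (l := List.range 6) fun J _ => h3 I J
  rw [List.length_range] at h6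
  unfold shc
  omega

/-! semantics -/

variable {p : ℕ} [NeZero p]

/-- the standard additive character -/
noncomputable abbrev ps (p : ℕ) [NeZero p] : AddChar (ZMod p) ℂ := ZMod.stdAddChar

lemma ee_div (k : ℤ) : ee ((k : ℚ) / p) = ps p k := by
  rw [ZMod.stdAddChar_coe, ee]; congr 1; push_cast; ring

lemma sum_zmod (f : ZMod p → ℂ) : ∑ y, f y = ∑ t ∈ range p, f t :=
  sum_nbij' ZMod.val (fun t => (t : ZMod p)) (fun y _ => mem_range.2 (ZMod.val_lt y))
    (fun _ _ => mem_univ _) (fun y _ => ZMod.natCast_zmod_val y)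
    (fun _ ht => ZMod.val_cast_of_lt (mem_range.1 ht)) fun y _ => by rw [ZMod.natCast_zmod_val]

lemma run_insN {g : ℕ} {m : ℕ → Bool} (h : ∀ x : ZMod p, m x.val → m (x + g).val = false)
    (a b : ZMod p → ℂ) :
    run p (insN p g m) (pr a b) = pr a (fun x => b x - if m x.val then b (x + g) else 0) := by
  rw [insN, run_append, run_append, neg, run_tab, run_ins h, run_tab]
  refine pr_congr (fun x => by simp only [one_val, one_mul]) fun x => ?_
  by_cases hx : m x.val
  · simp [hx, h x hx, ce_val, ee_zero, one_val]; ring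
  · simp [hx, one_val]

lemma run_saq {q : ℚ} (hq : q ≠ 0) (g : ℕ) (m : ℕ → Bool) (a b : ZMod p → ℂ) :
    run p (saq p q g m) (pr a b) =
      pr (fun x => a x + q * if m x.val then b (x + g) else 0) b := by
  rw [saq, run_append, run_append, run_sca, run_sa, run_sca]
  refine pr_congr (fun x => ?_) fun _ => rfl
  have : (q : ℂ) ≠ 0 := by exact_mod_cast hq
  push_cast
  field_simp

lemma ee_th (hp : 25 ≤ p) (c : ℤ) (I J : ℕ) {i j : ℕ} (hi : i < p / 5) (hj : j < p / 5) :
    ee ((th p c I J).getD ((j + 2 ^ ex p - i) % 2 ^ ex p) 0) =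
      ps p (c * (((I * (p / 5) + j : ℕ) : ZMod p) - (J * (p / 5) + i : ℕ)) ^ 2) := by
  obtain ⟨h1, -⟩ := ex_bounds hp
  have h2 : (j + 2 ^ ex p - i) % 2 ^ ex p < 2 ^ ex p := Nat.mod_lt _ (by positivity)
  have h3 : (if 2 * ((j + 2 ^ ex p - i) % 2 ^ ex p) < 2 ^ ex p then
      (((j + 2 ^ ex p - i) % 2 ^ ex p : ℕ) : ℤ)
      else ((j + 2 ^ ex p - i) % 2 ^ ex p : ℕ) - (2 ^ ex p : ℕ)) = j - i := by
    generalize 2 ^ ex p = n at *
    rcases le_or_gt i j with h | h
    · rw [Nat.mod_eq_sub_mod (by omega), Nat.mod_eq_of_lt (by omega), if_pos (by omega)]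
      omega
    · rw [Nat.mod_eq_of_lt (by omega), if_neg (by omega)]
      omega
  rw [th, List.getD_eq_getElem _ _ (by simpa using h2), List.getElem_map, List.getElem_range, h3,
    ee_div]
  congr 1
  generalize p / 5 = g
  push_cast
  ring

lemma run_blkw (hp : 25 ≤ p) (c : ℤ) {I : ℕ} (hI : I < 6) (J : ℕ) (a b : ZMod p → ℂ) :
    run p (blkw p c I J) (pr a b) = pr (fun x => a x + if mY p I x.val then
      ∑ i ∈ range (p / 5), (if J * (p / 5) + i < p then
        ps p (c * (x - (J * (p / 5) + i : ℕ)) ^ 2) * b (J * (p / 5) + i : ℕ) else 0) else 0) b := by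
  obtain ⟨h1, h2⟩ := ex_bounds hp
  have hn : 2 ^ ex p ≤ p := by omega
  have hg : p / 5 ≤ p := Nat.div_le_self _ _
  have hIg : I * (p / 5) ≤ p := by
    have : I * (p / 5) ≤ 5 * (p / 5) := Nat.mul_le_mul_right _ (by omega)
    omega
  have hX : ∀ x : ZMod p, mX p J x.val → mX p J (x + (p - p / 5 : ℕ)).val = false := by
    intro x hx
    simp only [mX, pos_val, add_cast_sub _ hg, decide_eq_true_eq, decide_eq_false_iff_not] at hx ⊢
    rw [w_sub' hx.1 hg]
    omega
  have e1 : (fun x => (fun x => b x + if mX p J x.val then b (x + (p - p / 5 : ℕ)) else 0) x -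
      if mX p J x.val then (fun x => b x + if mX p J x.val then b (x + (p - p / 5 : ℕ)) else 0)
        (x + (p - p / 5 : ℕ)) else 0) = b := by
    funext x
    by_cases hx : mX p J x.val
    · simp [hx, hX x hx]
    · simp [hx]
  simp only [blkw, cM, run_append]
  rw [run_ins hX, run_M _ hn (length_th _ _ _ _), run_sa, run_Minv _ hn (length_th _ _ _ _),
    run_insN hX, e1, run_M _ hn (length_th _ _ _ _), run_saq (by norm_num),
    run_Minv _ hn (length_th _ _ _ _), run_saq (neg_ne_zero.2 (by positivity))]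
  refine pr_congr (fun x => ?_) fun _ => rfl
  by_cases hY : mY p I x.val
  · have hY' := hY
    simp only [mY, decide_eq_true_eq] at hY'
    obtain ⟨j, hj⟩ : ∃ j, x.val = I * (p / 5) + j := ⟨x.val - I * (p / 5), by omega⟩
    have hjg : j < p / 5 := by omega
    have hx : x = ((I * (p / 5) + j : ℕ) : ZMod p) := by rw [← hj, ZMod.natCast_zmod_val]
    have e2 : ∀ o : ℕ, x + ((o + (p - I * (p / 5)) : ℕ) : ZMod p) = ((o + j : ℕ) : ZMod p) := by
      intro o
      rw [hx, ← Nat.cast_add, show I * (p / 5) + j + (o + (p - I * (p / 5))) = o + j + p by omega,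
        Nat.cast_add, ZMod.natCast_self, add_zero]
    have e3 : ∀ i < 2 ^ ex p, (if mX p J ((J * (p / 5) + p / 5 + i : ℕ) : ZMod p).val then
        b (((J * (p / 5) + p / 5 + i : ℕ) : ZMod p) + (p - p / 5 : ℕ)) else 0) =
        if i < p / 5 ∧ J * (p / 5) + i < p then b (J * (p / 5) + i : ℕ) else 0 := by
      intro i hi
      simp only [mX, pos_val, w_nat _ (hi.trans_le hn), decide_eq_true_eq]
      congr 2
      rw [← Nat.cast_add, show J * (p / 5) + p / 5 + i + (p - p / 5) = J * (p / 5) + i + p by omega,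
        Nat.cast_add, ZMod.natCast_self, add_zero]
    have hjn : j < 2 ^ ex p := by omega
    have e4 : ∑ i ∈ range (2 ^ ex p), ee ((th p c I J).getD ((j + 2 ^ ex p - i) % 2 ^ ex p) 0) *
        (b ((J * (p / 5) + p / 5 + i : ℕ) : ZMod p) +
          if mX p J ((J * (p / 5) + p / 5 + i : ℕ) : ZMod p).val then
          b (((J * (p / 5) + p / 5 + i : ℕ) : ZMod p) + (p - p / 5 : ℕ)) else 0) =
        ∑ i ∈ range (2 ^ ex p), ee ((th p c I J).getD ((j + 2 ^ ex p - i) % 2 ^ ex p) 0) *
          b ((J * (p / 5) + p / 5 + i : ℕ) : ZMod p) +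
        ∑ i ∈ range (p / 5), (if J * (p / 5) + i < p then
          ps p (c * (x - (J * (p / 5) + i : ℕ)) ^ 2) * b (J * (p / 5) + i : ℕ) else 0) := by
      simp only [mul_add, sum_add_distrib]
      congr 1
      rw [sum_congr rfl fun i hi => by rw [e3 i (mem_range.1 hi)]]
      symm
      refine sum_subset_zero_on_sdiff (range_subset_range.2 (by omega)) (fun i hi => ?_)
        fun i hi => ?_
      · rw [mem_sdiff, mem_range, mem_range] at hi
        rw [if_neg fun h => hi.2 h.1, mul_zero]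
      · have hi' := mem_range.1 hi
        rw [ee_th hp c I J hi' hjg, ← hx]
        simp only [hi', true_and, mul_ite, mul_zero]
    simp only [mZ, hY, if_true, e2, Mop, w_nat _ (hjn.trans_le hn), hjn, Bool.true_and,
      decide_eq_true_eq]
    rw [e4, e3 j hjn, hj, Nat.add_sub_cancel_left]
    simp only [hjg, true_and]
    push_cast
    ring
  · simp [mZ, hY]

omit [NeZero p] in
lemma sum_blocks (F : ℕ → ℂ) (g N : ℕ) :
    ∑ J ∈ range N, ∑ i ∈ range g, F (J * g + i) = ∑ t ∈ range (N * g), F t := by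
  induction N with
  | zero => simp
  | succ N ih => rw [sum_range_succ, ih, add_mul, one_mul, sum_range_add]

theorem run_shc (hp : 25 ≤ p) (c : ℤ) (a b : ZMod p → ℂ) : run p (shc p c) (pr a b) =
    pr (fun x => a x + ∑ y, ps p (c * (x - y) ^ 2) * b y) b := by
  rw [shc, run_flatMap_a fun I hI a => run_flatMap_a (fun J _ a => run_blkw hp c hI J a b) a]
  refine pr_congr (fun x => ?_) fun _ => rfl
  have hx := ZMod.val_lt x
  have hg : 0 < p / 5 := by omega
  have h1 := Nat.div_add_mod x.val (p / 5)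
  have h2 := Nat.mod_lt x.val hg
  rw [mul_comm] at h1
  congr 1
  rw [sum_eq_single (x.val / (p / 5))]
  · have hY : mY p (x.val / (p / 5)) x.val = true := by
      simp only [mY, decide_eq_true_eq]; omega
    simp only [hY, if_true]
    rw [sum_blocks (fun t => if t < p then ps p (c * (x - (t : ℕ)) ^ 2) * b (t : ℕ) else 0),
      sum_zmod]
    symm
    refine sum_subset_zero_on_sdiff (range_subset_range.2 (by omega)) (fun i hi => ?_)
      fun i hi => ?_
    · rw [mem_sdiff, mem_range, mem_range] at hi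
      rw [if_neg hi.2]
    · rw [if_pos (mem_range.1 hi)]
  · intro I _ hI
    refine sum_eq_zero fun J _ => if_neg fun h => hI ?_
    simp only [mY, decide_eq_true_eq] at h
    exact (Nat.div_eq_of_lt_le h.1 (by rw [add_mul, one_mul]; exact h.2)).symm
  · intro h
    exact absurd (mem_range.2 ((Nat.div_lt_iff_lt_mul hg).2 (by omega))) h

end Vale.Agent.P338.CA
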