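import Vale.Agent.P338.Fl

/-! Job J2: linear-time list programming. -/

namespace Vale.Agent.P338

open PT

attribute [local irreducible] PTime PB C

variable {α β γ δ σ ε : Type} [TEnc α] [TEnc β] [TEnc γ] [TEnc δ] [TEnc σ] [TEnc ε]
variable {D : α → Prop} {T : α → ℕ}

/-- a case distinction on a type with a `nil`-coded and a `cons`-coded part -/
theorem C.cas_enc {f : α → β} (hf : C D T f) {g : α → γ} {h : α → δ → γ} {Q : α → Prop}
    {P : α → δ → Prop} (hg : C (fun x => D x ∧ Q x) T g)
    (hh : C (fun p : α × δ => D p.1 ∧ P p.1 p.2) (fun p => T p.1) fun p => h p.1 p.2) {F : α → γ}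
    (hF : ∀ x, D x → (TEnc.enc (f x) = .nil ∧ Q x ∧ F x = g x) ∨
      ∃ z : δ, TEnc.enc (f x) ≠ .nil ∧ TEnc.enc z = TEnc.enc (f x) ∧ P x z ∧ F x = h x z) :
    C D T F := by
  classical
  rcases isEmpty_or_nonempty δ with hδ | ⟨⟨z0⟩⟩
  · have H : ∀ x, D x → Q x ∧ F x = g x := fun x hx => by
      rcases hF x hx with h | ⟨z, _⟩
      · exact h.2
      · exact hδ.elim z
    exact hg.mono (fun x hx => ⟨hx, (H x hx).1⟩) (fun x hx => (H x hx).2.symm)
      ⟨1, fun _ _ => by omega⟩
  have H : ∀ x, ∃ z : δ, D x → TEnc.enc (f x) ≠ .nil →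
      TEnc.enc z = TEnc.enc (f x) ∧ P x z ∧ F x = h x z := fun x => by
    by_cases hx : D x
    · rcases hF x hx with h | ⟨z, _, h⟩
      · exact ⟨z0, fun _ h' => absurd h.1 h'⟩
      · exact ⟨z, fun _ _ => h⟩
    · exact ⟨z0, fun h => absurd h hx⟩
  choose z hz using H
  refine (C.cas (g := g) (h := fun x _ => h x (z x)) hf.enc (hg.weaken ?_ ⟨1, fun _ _ => by omega⟩)
    (hh.call (f := fun p : α × (BT × BT) => (p.1, z p.1)) (C.id.of_enc ?_) ?_
      ⟨1, fun _ _ => by simp⟩)).congr ?_
  · rintro x ⟨hx, h0⟩
    rcases hF x hx with h | ⟨_, h, _⟩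
    · exact ⟨hx, h.2.1⟩
    · exact absurd h0 h
  · rintro ⟨x, y, y'⟩ ⟨hx, h0⟩
    have := (hz x hx (by rw [h0]; simp)).1
    change BT.cons _ (TEnc.enc (z x)) = BT.cons _ (BT.cons y y')
    rw [this, h0]
  · rintro ⟨x, y, y'⟩ ⟨hx, h0⟩
    exact ⟨hx, (hz x hx (by rw [h0]; simp)).2.1⟩
  · intro x hx
    cases h0 : TEnc.enc (f x) with
    | nil =>
      rcases hF x hx with h | ⟨_, h, _⟩
      · exact h.2.2.symm
      · exact absurd h0 h
    | cons y y' => exact (hz x hx (by rw [h0]; simp)).2.2.symm

/-- forget a part of the domain -/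
lemma C.lstAnd {Q : α → Prop} {f : α → β} (hf : C D T f) : C (fun x => D x ∧ Q x) T f :=
  hf.weaken (fun _ h => h.1) ⟨1, fun _ _ => by omega⟩

/-- use a function of the first component -/
lemma C.lstFst {f : α → β} (hf : C D T f) {D' : α × γ → Prop} (h : ∀ p, D' p → D p.1) :
    C D' (fun p => T p.1) fun p => f p.1 :=
  hf.call (C.fst C.id) h ⟨1, fun _ _ => by omega⟩

/-- conditional with refined domains -/
theorem C.ite' {p : α → Prop} [DecidablePred p] {f g : α → β} (hp : C D T fun x => decide (p x))
    (hf : C (fun x => D x ∧ p x) T f) (hg : C (fun x => D x ∧ ¬ p x) T g) :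
    C D T fun x => if p x then f x else g x := by
  refine C.cas_enc hp (δ := Unit × Unit) (Q := fun x => ¬ p x) (P := fun x _ => p x)
    (h := fun x _ => f x) hg (hf.call (C.fst C.id) (fun _ h => h) ⟨1, fun _ _ => by omega⟩)
    fun x _ => ?_
  by_cases h : p x
  · exact Or.inr ⟨((), ()), by simp [h, TEnc.enc], by simp [h, TEnc.enc], h, by simp [h]⟩
  · exact Or.inl ⟨by simp [h, TEnc.enc], h, by simp [h]⟩

@[fun_prop] theorem C.ite {p : α → Prop} {inst : ∀ x, Decidable (p x)} {f g : α → β}
    (hp : C D T fun x => @decide (p x) (inst x)) (hf : C D T f) (hg : C D T g) :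
    C D T fun x => @ite _ (p x) (inst x) (f x) (g x) := by
  exact @C.ite' _ _ _ _ _ _ p inst _ _ hp hf.lstAnd hg.lstAnd

@[fun_prop] theorem C.cond {c : α → Bool} {f g : α → β} (hc : C D T c) (hf : C D T f)
    (hg : C D T g) : C D T fun x => bif c x then f x else g x := by
  refine (C.ite (p := fun x => c x = true) (inst := fun _ => inferInstance)
    (hc.of_eq fun x => by simp) hf hg).of_eq fun x => ?_
  cases c x <;> rfl

@[fun_prop] theorem C.decide_eq_true {c : α → Bool} (hc : C D T c)
    {inst : ∀ x, Decidable (c x = true)} : C D T fun x => @decide (c x = true) (inst x) := by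
  exact hc.of_eq fun x => by simp

@[fun_prop] theorem C.not {c : α → Bool} (hc : C D T c) : C D T fun x => !c x := by
  exact (hc.cond (.const false) (.const true)).of_eq fun a => by cases c a <;> rfl

@[fun_prop] theorem C.and {c d : α → Bool} (hc : C D T c) (hd : C D T d) :
    C D T fun x => c x && d x := by
  exact (hc.cond hd (.const false)).of_eq fun a => by cases c a <;> rfl

@[fun_prop] theorem C.or {c d : α → Bool} (hc : C D T c) (hd : C D T d) :
    C D T fun x => c x || d x := by
  exact (hc.cond (.const true) hd).of_eq fun a => by cases c a <;> rfl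

@[fun_prop] theorem C.xor {c d : α → Bool} (hc : C D T c) (hd : C D T d) :
    C D T fun x => xor (c x) (d x) := by
  exact (hc.cond hd.not hd).of_eq fun a => by cases c a <;> simp

@[fun_prop] theorem C.some {f : α → β} (hf : C D T f) : C D T fun x => some (f x) := by
  exact ((C.const ()).prodMk hf).of_enc fun _ _ => rfl

@[fun_prop] theorem C.option_elim {o : α → Option β} {g : α → γ} {h : α → β → γ} (ho : C D T o)
    (hg : C D T g) (hh : C (fun p : α × β => D p.1) (fun p => T p.1) fun p => h p.1 p.2) :
    C D T fun x => (o x).elim (g x) (h x) := by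
  refine ho.cas_enc (δ := Unit × β) (Q := fun _ => True) (P := fun _ _ => True)
    (h := fun a x => h a x.2) hg.lstAnd
    (hh.call (f := fun p : α × Unit × β => (p.1, p.2.2)) (by fun_prop) (fun _ h => h.1)
      ⟨1, fun _ _ => by simp⟩) fun a _ => ?_
  cases o a with
  | none => exact Or.inl ⟨rfl, trivial, rfl⟩
  | some b => exact Or.inr ⟨((), b), by simp [TEnc.enc], rfl, trivial, rfl⟩

@[fun_prop] theorem C.inl {f : α → β} (hf : C D T f) : C D T fun x => (Sum.inl (f x) : β ⊕ γ) := by
  exact ((C.const false).prodMk hf).of_enc fun _ _ => rfl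

@[fun_prop] theorem C.inr {f : α → γ} (hf : C D T f) : C D T fun x => (Sum.inr (f x) : β ⊕ γ) := by
  exact ((C.const true).prodMk hf).of_enc fun _ _ => rfl

@[fun_prop] theorem C.cons {f : α → β} {l : α → List β} (hf : C D T f) (hl : C D T l) :
    C D T fun x => f x :: l x := by
  exact (hf.prodMk hl).of_enc fun _ _ => rfl

/-- list case distinction with refined domains -/
theorem C.lcas' {l : α → List β} {g : α → γ} {h : α → β → List β → γ} (hl : C D T l)
    (hg : C (fun x => D x ∧ l x = []) T g)
    (hh : C (fun p : α × β × List β => D p.1 ∧ l p.1 = p.2.1 :: p.2.2) (fun p => T p.1)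
      fun p => h p.1 p.2.1 p.2.2) : C D T fun x => lcas (l x) (g x) (h x) := by
  refine hl.cas_enc (δ := β × List β) (Q := fun x => l x = []) (P := fun x z => l x = z.1 :: z.2)
    (h := fun a x => h a x.1 x.2) hg hh fun a _ => ?_
  cases l a with
  | nil => exact Or.inl ⟨rfl, rfl, rfl⟩
  | cons b l => exact Or.inr ⟨(b, l), by simp [TEnc.enc, encList], rfl, rfl, rfl⟩

@[fun_prop] theorem C.tail {l : α → List β} (hl : C D T l) : C D T fun x => (l x).tail := by
  exact (hl.lcas' (.const []) (h := fun _ _ t => t) (by fun_prop)).of_eq fun a => by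
    cases l a <;> rfl

@[fun_prop] theorem C.headD {l : α → List β} {g : α → β} (hl : C D T l) (hg : C D T g) :
    C D T fun x => (l x).headD (g x) := by
  exact (hl.lcas' hg.lstAnd (h := fun _ b _ => b) (by fun_prop)).of_eq fun a => by
    cases l a <;> rfl

@[fun_prop] theorem C.isEmpty {l : α → List β} (hl : C D T l) :
    C D T fun x => (l x).isEmpty := by
  exact (hl.lcas' (.const true) (h := fun _ _ _ => false) (by fun_prop)).of_eq fun a => by
    cases l a <;> rfl

lemma lst_scanDom_true {β γ σ : Type} (f : β × σ → List γ × σ) (l : List β) :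
    ∀ s, scanDom f (fun _ => True) l s := by
  induction l with
  | nil => intro s; trivial
  | cons y l ih => intro s; exact ⟨trivial, ih _⟩

@[fun_prop] theorem C.reverse {l : α → List β} (hl : C D T l) :
    C D T fun x => (l x).reverse := by
  have hf : Lin fun p : β × Unit => ([p.1], p.2) := by unfold Lin; fun_prop
  have h1 : ∀ m : List β, scan (fun p : β × Unit => ([p.1], p.2)) m () = (m, ()) := fun m => by
    induction m with
    | nil => rfl
    | cons y m ih => simp [scan, ih]
  have h3 : ∀ m : List β,
      scanCost (fun p : β × Unit => ([p.1], p.2)) (fun _ => 0) m () ≤ sz m := fun m => by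
    induction m with
    | nil => simp [scanCost]
    | cons y m ih => simp only [scanCost, sz_cons, sz_unit]; omega
  obtain ⟨K, hK⟩ := hl.sz_le
  exact ((C.scanR hf).call (hl.prodMk (.const ())) (fun x _ => lst_scanDom_true _ _ _)
    ⟨K, fun x hx => (h3 _).trans (hK x hx)⟩).fst.of_eq fun x => by simp [h1]

/-- streaming with an invariant -/
theorem C.scan {f : β × σ → List γ × σ} {D' : β × σ → Prop} {T' : β × σ → ℕ} (hf : C D' T' f)
    {l : α → List β} {s : α → σ} (hl : C D T l) (hs : C D T s)
    (hD : ∀ x, D x → scanDom f D' (l x) (s x))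
    (hT : ∃ K, ∀ x, D x → scanCost f T' (l x) (s x) ≤ K * (T x + sz x)) :
    C D T fun x => scan f (l x) (s x) := by
  have h := (C.scanR hf).call (hl.prodMk hs) hD hT
  exact (h.fst.reverse.prodMk h.snd).of_eq fun x => by simp

/-- a fold with an invariant `I` and a uniform bound `U` for the cost of a step -/
theorem C.foldl {f : σ → β → σ} {D' : β × σ → Prop} {T' : β × σ → ℕ}
    (hf : C D' T' fun p => f p.2 p.1) {l : α → List β} {s : α → σ} (hl : C D T l) (hs : C D T s)
    (I : α → σ → Prop) (U : α → ℕ) (h0 : ∀ x, D x → I x (s x))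
    (hI : ∀ x, D x → ∀ y ∈ l x, ∀ t, I x t →
      D' (y, t) ∧ I x (f t y) ∧ T' (y, t) + sz y + sz t ≤ U x)
    (hT : ∃ K, ∀ x, D x → (l x).length * U x ≤ K * (T x + sz x)) :
    C D T fun x => (l x).foldl f (s x) := by
  have hf' : C D' T' fun p : β × σ => (([] : List Unit), f p.2 p.1) := (C.const []).prodMk hf
  have h1 : ∀ (m : List β) (t : σ),
      (P338.scan (fun p : β × σ => (([] : List Unit), f p.2 p.1)) m t).2 = m.foldl f t :=
    fun m => by
      induction m with
      | nil => intro t; rfl
      | cons y m ih => intro t; simp [P338.scan, ih]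
  have h2 : ∀ x, D x → ∀ m : List β, (∀ y ∈ m, y ∈ l x) → ∀ t, I x t →
      scanDom (fun p : β × σ => (([] : List Unit), f p.2 p.1)) D' m t ∧
      scanCost (fun p : β × σ => (([] : List Unit), f p.2 p.1)) T' m t ≤ m.length * U x :=
    fun x hx m => by
      induction m with
      | nil => intro _ t _; exact ⟨trivial, by simp [scanCost]⟩
      | cons y m ih =>
        intro hm t ht
        obtain ⟨a1, a2, a3⟩ := hI x hx y (hm y List.mem_cons_self) t ht
        obtain ⟨b1, b2⟩ := ih (fun z hz => hm z (List.mem_cons_of_mem _ hz)) _ a2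
        refine ⟨⟨a1, b1⟩, ?_⟩
        simp only [scanCost, List.length_cons, add_mul]; omega
  obtain ⟨K, hK⟩ := hT
  exact (hf'.scan hl hs (fun x hx => (h2 x hx _ (fun _ h => h) _ (h0 x hx)).1)
    ⟨K, fun x hx => (h2 x hx _ (fun _ h => h) _ (h0 x hx)).2.trans (hK x hx)⟩).snd.of_eq
    fun x => h1 _ _

/-- `flatMap` with an environment, which is paid for once per element -/
theorem C.flatMapE {f : ε → β → List γ} {D' : ε × β → Prop} {T' : ε × β → ℕ}
    (hf : C D' T' fun p => f p.1 p.2) {e : α → ε} {l : α → List β} (he : C D T e) (hl : C D T l)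
    (hD : ∀ x, D x → ∀ y ∈ l x, D' (e x, y))
    (hT : ∃ K, ∀ x, D x → ((l x).map fun y => T' (e x, y) + sz (e x)).sum ≤ K * (T x + sz x)) :
    C D T fun x => (l x).flatMap (f (e x)) := by
  have hf' : C (fun p : β × ε => D' (p.2, p.1)) (fun p => T' (p.2, p.1))
      fun p => (f p.2 p.1, p.2) :=
    (hf.call (f := fun p : β × ε => (p.2, p.1)) (by fun_prop) (fun _ h => h)
      ⟨1, fun _ _ => by omega⟩).prodMk (by fun_prop)
  have h1 : ∀ (t : ε) (m : List β),
      (P338.scan (fun p : β × ε => (f p.2 p.1, p.2)) m t).1 = m.flatMap (f t) := fun t m => by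
    induction m with
    | nil => rfl
    | cons y m ih => simp [P338.scan, ih]
  have h2 : ∀ (t : ε) (m : List β), (∀ y ∈ m, D' (t, y)) →
      scanDom (fun p : β × ε => (f p.2 p.1, p.2)) (fun p => D' (p.2, p.1)) m t := fun t m => by
    induction m with
    | nil => intro _; trivial
    | cons y m ih =>
      intro hm
      exact ⟨hm y List.mem_cons_self, ih fun z hz => hm z (List.mem_cons_of_mem _ hz)⟩
  have h3 : ∀ (t : ε) (m : List β),
      scanCost (fun p : β × ε => (f p.2 p.1, p.2)) (fun p => T' (p.2, p.1)) m t ≤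
        (m.map fun y => T' (t, y) + sz t).sum + sz m := fun t m => by
    induction m with
    | nil => simp [scanCost]
    | cons y m ih => simp only [scanCost, List.map_cons, List.sum_cons, sz_cons]; omega
  obtain ⟨K, hK⟩ := hT
  obtain ⟨K', hK'⟩ := hl.sz_le
  refine (hf'.scan hl he (fun x hx => h2 _ _ (hD x hx)) ⟨K + K', fun x hx => ?_⟩).fst.of_eq
    fun x => h1 _ _
  have := h3 (e x) (l x)
  have := hK x hx
  have := hK' x hx
  rw [add_mul]; omega

theorem C.mapE {f : ε → β → γ} {D' : ε × β → Prop} {T' : ε × β → ℕ}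
    (hf : C D' T' fun p => f p.1 p.2) {e : α → ε} {l : α → List β} (he : C D T e) (hl : C D T l)
    (hD : ∀ x, D x → ∀ y ∈ l x, D' (e x, y))
    (hT : ∃ K, ∀ x, D x → ((l x).map fun y => T' (e x, y) + sz (e x)).sum ≤ K * (T x + sz x)) :
    C D T fun x => (l x).map (f (e x)) := by
  exact (C.flatMapE (f := fun e y => [f e y]) (hf.cons (.const [])) he hl hD hT).of_eq fun x => by
    rw [List.map_eq_flatMap]

/-- `map` without environment, with a cost -/
theorem C.mapT {f : β → γ} {D' : β → Prop} {T' : β → ℕ} (hf : C D' T' f) {l : α → List β}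
    (hl : C D T l) (hD : ∀ x, D x → ∀ y ∈ l x, D' y)
    (hT : ∃ K, ∀ x, D x → ((l x).map T').sum ≤ K * (T x + sz x)) :
    C D T fun x => (l x).map f := by
  obtain ⟨K, hK⟩ := hT
  obtain ⟨K', hK'⟩ := hl.sz_le
  refine C.mapE (ε := Unit) (f := fun _ y => f y) (D' := fun p => D' p.2) (T' := fun p => T' p.2)
    (hf.call (C.snd C.id) (fun _ h => h) ⟨1, fun _ _ => by omega⟩) (.const ()) hl hD
    ⟨K + K', fun x hx => ?_⟩
  have := hK x hx
  have := hK' x hx
  have := length_lt_sz (l x)
  simp only [sz_unit, List.sum_map_add, List.map_const', List.sum_replicate, smul_eq_mul]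
  rw [add_mul]; omega

@[fun_prop] theorem C.map {f : β → γ} {l : α → List β} (hf : C (fun _ => True) (fun _ => 0) f)
    (hl : C D T l) : C D T fun x => (l x).map f := by
  exact hf.mapT hl (fun _ _ _ _ => trivial) ⟨0, fun _ _ => by simp⟩

@[fun_prop] theorem C.flatMap {f : β → List γ} {l : α → List β}
    (hf : C (fun _ => True) (fun _ => 0) f) (hl : C D T l) : C D T fun x => (l x).flatMap f := by
  obtain ⟨K', hK'⟩ := hl.sz_le
  refine C.flatMapE (ε := Unit) (f := fun _ y => f y) (D' := fun _ => True) (T' := fun _ => 0)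
    (hf.comp (C.snd C.id)) (.const ()) hl (fun _ _ _ _ => trivial) ⟨K', fun x hx => ?_⟩
  have := hK' x hx
  have := length_lt_sz (l x)
  simp only [sz_unit, List.map_const', List.sum_replicate, smul_eq_mul]
  omega

@[fun_prop] theorem C.filterMap {f : β → Option γ} {l : α → List β}
    (hf : C (fun _ => True) (fun _ => 0) f) (hl : C D T l) : C D T fun x => (l x).filterMap f := by
  refine (C.flatMap (f := fun y => (f y).elim [] fun z => [z])
    (hf.option_elim (.const []) (by fun_prop)) hl).of_eq fun x => ?_
  induction l x with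
  | nil => rfl
  | cons y m ih => cases h : f y <;> simp [h, ih]

@[fun_prop] theorem C.flatten {l : α → List (List β)} (hl : C D T l) :
    C D T fun x => (l x).flatten := by
  exact (C.flatMap (f := fun y : List β => y) C.id hl).of_eq fun x => by simp

@[fun_prop] theorem C.append {l m : α → List β} (hl : C D T l) (hm : C D T m) :
    C D T fun x => l x ++ m x := by
  exact (hl.cons (hm.cons (.const []))).flatten.of_eq fun x => by simp

@[fun_prop] theorem C.zip {l : α → List β} {m : α → List γ} (hl : C D T l) (hm : C D T m) :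
    C D T fun x => (l x).zip (m x) := by
  exact (C.comp Lin.zipR (hl.prodMk hm)).fst.reverse.of_eq fun x => by simp

@[fun_prop] theorem C.zipWith {f : β → γ → δ} {l : α → List β} {m : α → List γ}
    (hf : C (fun _ => True) (fun _ => 0) fun p : β × γ => f p.1 p.2) (hl : C D T l)
    (hm : C D T m) : C D T fun x => List.zipWith f (l x) (m x) := by
  exact (hf.map (hl.zip hm)).of_eq fun x => by
    rw [List.map_zip_eq_zipWith]; rfl

theorem C.take_len {l : α → List β} {u : α → List γ} (hl : C D T l) (hu : C D T u) :
    C D T fun x => (l x).take (u x).length := by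
  refine (C.map (f := fun p : β × γ => p.1) (by fun_prop) (hl.zip hu)).of_eq fun x => ?_
  generalize u x = u
  induction l x generalizing u with
  | nil => simp
  | cons y m ih => cases u <;> simp [ih]

theorem C.drop_len {l : α → List β} {u : α → List γ} (hl : C D T l) (hu : C D T u) :
    C D T fun x => (l x).drop (u x).length := by
  exact (C.comp Lin.zipR (hu.prodMk hl)).snd

lemma lst_sz_rep (k : ℕ) : sz (List.replicate k ()) = 2 * k + 1 := by
  induction k with
  | zero => rfl
  | succ k ih => simp only [List.replicate_succ, sz_cons, sz_unit, ih]; omega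

def unStep (p : Bool × List Unit) : List Unit × List Unit :=
  ([], p.2 ++ (p.2 ++ bif p.1 then [()] else []))

lemma unStep_spec (l : List Bool) : ∀ k : ℕ,
    (scan unStep l (List.replicate k ())).2 =
      List.replicate (l.foldl (fun k b => 2 * k + b.toNat) k) () ∧
    scanCost unStep (fun _ => 0) l (List.replicate k ()) + 2 * k ≤
      4 * l.length + 2 * l.foldl (fun k b => 2 * k + b.toNat) k := by
  induction l with
  | nil => intro k; simp [scan, scanCost]
  | cons b l ih =>
    intro k
    have e : (unStep (b, List.replicate k ())).2 = List.replicate (2 * k + b.toNat) () := by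
      apply List.eq_replicate_iff.2
      cases b <;> simp [unStep] <;> omega
    obtain ⟨h1, h2⟩ := ih (2 * k + b.toNat)
    refine ⟨by simp only [scan, e, h1, List.foldl_cons], ?_⟩
    have := sz_bool_le b
    simp only [scanCost, e, List.foldl_cons, lst_sz_rep, List.length_cons]
    omega

/-- binary to unary, by doubling -/
theorem C.unary {n : α → ℕ} (hn : C D T n) (hT : ∃ K, ∀ x, D x → n x ≤ K * (T x + sz x)) :
    C D T fun x => List.replicate (n x) () := by
  have hf : Lin unStep := by unfold Lin unStep; fun_prop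
  obtain ⟨K, hK⟩ := hT
  obtain ⟨K', hK'⟩ := hn.sz_le
  have hb : C D T fun x => (n x).bits := hn.of_enc fun _ _ => rfl
  have e : ∀ m : ℕ, m.bits.reverse.foldl (fun k b => 2 * k + b.toNat) 0 = m := fun m => by
    rw [List.foldl_reverse]
    conv_rhs => rw [← val_bits m]
    induction m.bits with
    | nil => rfl
    | cons b l ih => rw [List.foldr_cons, ih, val_cons, add_comm]
  refine (C.scan hf hb.reverse (.const []) (fun _ _ => lst_scanDom_true _ _ _)
    ⟨2 * K + 4 * K', fun x hx => ?_⟩).snd.of_eq fun x => ?_
  · have h1 := (unStep_spec (n x).bits.reverse 0).2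
    rw [e, List.length_reverse] at h1
    have := hK x hx
    have := hK' x hx
    have : (n x).bits.length < sz (n x) := length_lt_sz (n x).bits
    simp only [List.replicate_zero] at h1
    rw [add_mul, mul_assoc, mul_assoc]; omega
  · have h1 := (unStep_spec (n x).bits.reverse 0).1
    rwa [e] at h1

@[fun_prop] lemma C.lstBits {n : α → ℕ} (hn : C D T n) : C D T fun x => (n x).bits :=
  hn.of_enc fun _ _ => rfl

@[fun_prop] lemma C.lstBit {b : α → Bool} {f : α → ℕ} (hb : C D T b) (hf : C D T f) :
    C D T fun a => Nat.bit (b a) (f a) := by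
  refine C.of_enc (f := fun a => bif (f a).bits.isEmpty && !b a then [] else b a :: (f a).bits)
    (by fun_prop) fun a _ => ?_
  show TEnc.enc (Nat.bit (b a) (f a)).bits = _
  congr 1
  by_cases h : f a = 0 → b a = true
  · rw [Nat.bits_append_bit _ _ h]
    by_cases h0 : f a = 0
    · simp [h h0]
    · have : (f a).bits ≠ [] := fun h1 => h0 (by rw [← val_bits (f a), h1]; rfl)
      cases hb : (f a).bits <;> simp_all
  · push Not at h
    simp [h.1, h.2]

def hfStep (p : Unit × Bool) : List Unit × Bool := (bif p.2 then [()] else [], !p.2)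

lemma hfStep_spec (u : List Unit) : ∀ s : Bool,
    2 * (scan hfStep u s).1.length + (scan hfStep u s).2.toNat = u.length + s.toNat ∧
    scanCost hfStep (fun _ => 0) u s ≤ 4 * u.length := by
  induction u with
  | nil => intro s; simp [scan, scanCost]
  | cons y u ih =>
    intro s
    obtain ⟨h1, h2⟩ := ih (!s)
    have := sz_bool_le s
    refine ⟨?_, ?_⟩
    · cases s <;> simp [scan, hfStep] at h1 ⊢ <;> omega
    · simp only [scanCost, hfStep, sz_unit, List.length_cons]; omega

def lenPre (u : List Unit) : ℕ ⊕ Bool × List Unit :=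
  bif u.isEmpty then .inl 0 else .inr ((scan hfStep u false).2, (scan hfStep u false).1)

lemma lenPre_ev (n : ℕ) : ∀ u : List Unit, u.length = n →
    ∃ m, Ev lenPre (fun p : Bool × ℕ => Sum.inl (Nat.bit p.1 p.2)) (fun _ => True) (fun _ => 0)
      (fun _ => True) (fun _ => 0) (lenPre u) n m ∧ m ≤ 20 * n := by
  induction n using Nat.strong_induction_on with
  | _ n ih =>
    intro u hu
    cases u with
    | nil => subst hu; exact ⟨0, .ret _, le_rfl⟩
    | cons y u =>
      have h1 := (hfStep_spec (y :: u) false).1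
      have e : lenPre (y :: u) =
        .inr ((scan hfStep (y :: u) false).2, (scan hfStep (y :: u) false).1) := rfl
      rw [e]
      generalize (scan hfStep (y :: u) false).2 = b at h1
      generalize (scan hfStep (y :: u) false).1 = v at h1
      rw [hu] at h1
      simp only [List.length_cons] at hu
      simp only [Bool.toNat_false, add_zero] at h1
      obtain ⟨m, hm, hm'⟩ := ih v.length (by omega) v rfl
      have e2 : Nat.bit b v.length = n := by rw [Nat.bit_val]; omega
      refine ⟨_, .call trivial hm trivial (by rw [← e2]; exact .ret _), ?_⟩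
      have := sz_bool_le b
      have := sz_nat_le_self v.length
      have : sz v = 2 * v.length + 1 := by
        rw [← lst_sz_rep, ← List.eq_replicate_iff.2 ⟨rfl, fun _ _ => rfl⟩]
      omega

/-- unary to binary, by halving -/
@[fun_prop] theorem C.length {l : α → List β} (hl : C D T l) : C D T fun x => (l x).length := by
  have hf : Lin hfStep := by unfold Lin hfStep; fun_prop
  have hs : Lin fun u : List Unit => P338.scan hfStep u false := by
    refine C.scan hf C.id (.const false) (fun _ _ => lst_scanDom_true _ _ _) ⟨4, fun u _ => ?_⟩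
    have := (hfStep_spec u false).2
    have := length_lt_sz u
    omega
  have h1 : Lin lenPre := by
    unfold lenPre
    exact C.cond (C.isEmpty C.id) (.const _) ((C.snd hs).prodMk (C.fst hs)).inr
  have h2 : Lin fun p : Bool × ℕ => (Sum.inl (Nat.bit p.1 p.2) : ℕ ⊕ Bool × List Unit) :=
    (C.lstBit (C.fst C.id) (C.snd C.id)).inl
  have h3 : C (fun _ => True) (fun u : List Unit => 20 * u.length) fun u => u.length :=
    C.recur h1 h2 fun u _ => ⟨trivial, by simpa using lenPre_ev u.length u rfl⟩
  obtain ⟨K, hK⟩ := hl.sz_le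
  refine (h3.call (C.map (f := fun _ : β => ()) (.const ()) hl) (fun _ _ => trivial)
    ⟨20 * K, fun x hx => ?_⟩).of_eq fun x => by simp
  have := hK x hx
  have := length_lt_sz (l x)
  rw [List.length_map, mul_assoc]; omega

theorem C.replicate {n : α → ℕ} {g : α → β} (hn : C D T n) (hg : C D T g)
    (hT : ∃ K, ∀ x, D x → n x * sz (g x) ≤ K * (T x + sz x)) :
    C D T fun x => List.replicate (n x) (g x) := by
  obtain ⟨K, hK⟩ := hT
  have hu := hn.unary ⟨K, fun x hx =>
    (Nat.le_mul_of_pos_right _ (sz_pos (g x))).trans (hK x hx)⟩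
  exact (C.mapE (f := fun (e : β) (_ : Unit) => e) (D' := fun _ => True) (T' := fun _ => 0)
    (C.fst C.id) hg hu (fun _ _ _ _ => trivial) ⟨K, fun x hx => by simpa using hK x hx⟩).of_eq
    fun x => by simp

theorem C.take {n : α → ℕ} {l : α → List β} (hn : C D T n) (hl : C D T l)
    (hT : ∃ K, ∀ x, D x → n x ≤ K * (T x + sz x)) : C D T fun x => (l x).take (n x) := by
  exact (hl.take_len (hn.unary hT)).of_eq fun x => by simp

theorem C.drop {n : α → ℕ} {l : α → List β} (hn : C D T n) (hl : C D T l)
    (hT : ∃ K, ∀ x, D x → n x ≤ K * (T x + sz x)) : C D T fun x => (l x).drop (n x) := by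
  exact (hl.drop_len (hn.unary hT)).of_eq fun x => by simp

theorem C.getD {n : α → ℕ} {l : α → List β} {d : α → β} (hn : C D T n) (hl : C D T l)
    (hd : C D T d) (hT : ∃ K, ∀ x, D x → n x ≤ K * (T x + sz x)) :
    C D T fun x => (l x).getD (n x) (d x) := by
  refine ((hn.drop hl hT).headD hd).of_eq fun x => ?_
  simp [List.headD_eq_head?_getD, List.getD_eq_getElem?_getD]

theorem C.set {n : α → ℕ} {l : α → List β} {d : α → β} (hn : C D T n) (hl : C D T l)
    (hd : C D T d) (hT : ∃ K, ∀ x, D x → n x ≤ K * (T x + sz x)) :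
    C D T fun x => (l x).set (n x) (d x) := by
  have h := hn.drop hl hT
  refine (h.isEmpty.cond hl ((hn.take hl hT).append (hd.cons h.tail))).of_eq fun x => ?_
  by_cases hx : n x < (l x).length
  · have : ((l x).drop (n x)).isEmpty = false := by simpa using hx
    rw [this, List.set_eq_take_append_cons_drop, if_pos hx]; simp
  · have : ((l x).drop (n x)).isEmpty = true := by simpa using hx
    rw [this, List.set_eq_of_length_le (by omega)]; rfl

def incStep (p : Bool × Bool) : List Bool × Bool := ([xor p.1 p.2], p.1 && p.2)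

lemma incStep_false (l : List Bool) : scan incStep l false = (l, false) := by
  induction l with
  | nil => rfl
  | cons b l ih => simp [scan, incStep, ih]

lemma incStep_spec (n : ℕ) : (scan incStep n.bits true).1 ++
    (bif (scan incStep n.bits true).2 then [true] else []) = (n + 1).bits := by
  induction n using Nat.binaryRec' with
  | zero => simp [scan]
  | bit b n h ih =>
    rw [Nat.bits_append_bit n b h]
    cases b
    · have : Nat.bit false n + 1 = Nat.bit true n := by simp [Nat.bit_val]
      rw [this, Nat.bits_append_bit n true fun _ => rfl]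
      simp [scan, incStep, incStep_false]
    · have : Nat.bit true n + 1 = Nat.bit false (n + 1) := by simp [Nat.bit_val]; omega
      rw [this, Nat.bits_append_bit (n + 1) false (by omega), ← ih]
      simp [scan, incStep]

@[fun_prop] lemma C.lstSucc {n : α → ℕ} (hn : C D T n) : C D T fun x => n x + 1 := by
  have hf : Lin incStep := by unfold Lin incStep; fun_prop
  have h1 : ∀ (l : List Bool) (s : Bool), scanCost incStep (fun _ => 0) l s ≤ 6 * l.length :=
    fun l => by
      induction l with
      | nil => intro s; simp [scanCost]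
      | cons b l ih =>
        intro s
        have := ih (incStep (b, s)).2
        have := sz_bool_le b
        have := sz_bool_le s
        simp only [scanCost, List.length_cons]; omega
  obtain ⟨K, hK⟩ := hn.sz_le
  have hs := C.scan hf hn.lstBits (.const true) (fun _ _ => lst_scanDom_true _ _ _)
    ⟨6 * K, fun x hx => by
      have := h1 (n x).bits true
      have := hK x hx
      have : (n x).bits.length < sz (n x) := length_lt_sz (n x).bits
      rw [mul_assoc]; omega⟩
  refine (hs.fst.append (hs.snd.cond (.const [true]) (.const []))).of_enc fun x _ => ?_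
  rw [incStep_spec]; rfl

theorem C.range {n : α → ℕ} (hn : C D T n)
    (hT : ∃ K, ∀ x, D x → n x * (n x).size ≤ K * (T x + sz x)) :
    C D T fun x => List.range (n x) := by
  have hf : Lin fun p : Unit × ℕ => ([p.2], p.2 + 1) := by unfold Lin; fun_prop
  obtain ⟨K, hK⟩ := hT
  have hle : ∀ m : ℕ, m ≤ m * m.size := fun m => by
    rcases Nat.eq_zero_or_pos m with h | h
    · simp [h]
    · exact Nat.le_mul_of_pos_right _ (Nat.size_pos.2 h)
  have hu := hn.unary ⟨K, fun x hx => (hle _).trans (hK x hx)⟩
  have h1 : ∀ (N m k : ℕ), k + m ≤ N →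
      (P338.scan (fun p : Unit × ℕ => ([p.2], p.2 + 1)) (List.replicate m ()) k).1 =
        List.range' k m ∧
      scanCost (fun p : Unit × ℕ => ([p.2], p.2 + 1)) (fun _ => 0) (List.replicate m ()) k ≤
        m * (4 * N.size + 2) := fun N m => by
    induction m with
    | zero => intro k _; simp [P338.scan, scanCost]
    | succ m ih =>
      intro k hk
      obtain ⟨a1, a2⟩ := ih (k + 1) (by omega)
      have := sz_nat_le k
      have := Nat.size_le_size (show k ≤ N by omega)
      refine ⟨by simp [List.replicate_succ, P338.scan, a1, List.range'_succ], ?_⟩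
      simp only [List.replicate_succ, scanCost, sz_unit, add_mul]; omega
  refine (C.scan hf hu (.const 0) (fun _ _ => lst_scanDom_true _ _ _)
    ⟨6 * K, fun x hx => ?_⟩).fst.of_eq fun x => ?_
  · have := (h1 (n x) (n x) 0 (by omega)).2
    have := hK x hx
    have := hle (n x)
    rw [mul_assoc]; nlinarith
  · rw [(h1 (n x) (n x) 0 (by omega)).1, List.range_eq_range']

lemma lst_sz_bits (l : List Bool) : sz l ≤ 4 * l.length + 1 := by
  have := sz_list_le l (B := 3) fun b _ => sz_bool_le b
  omega

lemma lst_pow_le (k s : ℕ) : (s + 1) ^ k ≤ k ^ k * 2 ^ s := by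
  rcases Nat.eq_zero_or_pos k with rfl | hk
  · simpa using Nat.one_le_two_pow
  have h1 : s + 1 ≤ k * 2 ^ (s / k) :=
    (Nat.lt_mul_div_succ s hk).trans_le (Nat.mul_le_mul_left _ Nat.lt_two_pow_self)
  refine (Nat.pow_le_pow_left h1 k).trans ?_
  rw [mul_pow, ← pow_mul]
  exact Nat.mul_le_mul_left _ (Nat.pow_le_pow_right (by norm_num) (Nat.div_mul_le_self _ _))

/-- a power of the length of two binary numbers is linear in the numbers -/
lemma lst_polylog (k : ℕ) : ∃ c, ∀ a b : ℕ, (sz (a, b) + 1) ^ k ≤ c * (a + b + 1) := by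
  refine ⟨8 ^ k * (k ^ k * 2), fun a b => ?_⟩
  have h1 := sz_nat_le a
  have h2 := sz_nat_le b
  have h3 := Nat.size_le_size (Nat.le_add_right a b)
  have h4 := Nat.size_le_size (Nat.le_add_left b a)
  have h5 : 2 ^ (a + b).size ≤ 2 * (a + b + 1) := by
    rcases h : (a + b).size with _ | s
    · omega
    · have := Nat.lt_size.1 (show s < (a + b).size by omega)
      rw [pow_succ]; omega
  calc (sz (a, b) + 1) ^ k ≤ (8 * ((a + b).size + 1)) ^ k :=
        Nat.pow_le_pow_left (by rw [sz_prod]; omega) k
    _ ≤ 8 ^ k * (k ^ k * (2 * (a + b + 1))) := by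
        rw [mul_pow]
        exact Nat.mul_le_mul_left _ ((lst_pow_le k _).trans (Nat.mul_le_mul_left _ h5))
    _ = _ := by ring

def chEmit (p : β × Bool) : List Bool := (bif p.2 then [false, true] else []) ++ true :: encode p.1

lemma chEmit_false (c : List β) :
    (c.zip (List.replicate c.length false)).flatMap chEmit ++ [false] = encode c := by
  induction c with
  | nil => rfl
  | cons y c ih => simp [List.replicate_succ, chEmit, encode_cons, ← ih]

lemma chEmit_all {L : ℕ} (hL : 0 < L) (ls : List (List β)) (h : ∀ c ∈ ls, c.length = L) :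
    (ls.flatten.zip (List.replicate ls.length (true :: (List.replicate L false).tail)).flatten).flatMap
      chEmit ++ [false, false] = false :: encode ls := by
  induction ls with
  | nil => rfl
  | cons c ls ih =>
    have h1 := h c List.mem_cons_self
    have h2 := ih fun d hd => h d (List.mem_cons_of_mem _ hd)
    rw [List.flatten_cons, List.length_cons, List.replicate_succ, List.flatten_cons,
      List.zip_append (by simp; omega), List.flatMap_append, List.append_assoc, h2, encode_cons]
    cases c with
    | nil => simp at h1; omega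
    | cons y c =>
      subst h1
      rw [encode_cons, ← chEmit_false c]
      simp [List.replicate_succ, chEmit]

/-- cutting into blocks: zip with a marker list, emit raw bits, and use `C.unser` -/
theorem C.chunks {L : α → ℕ} {l : α → List β} (hL : C D T L) (hl : C D T l)
    (h0 : ∀ x, D x → 0 < L x ∧ L x ∣ (l x).length)
    (hT : ∃ K, ∀ x, D x → L x ≤ K * (T x + sz x)) : C D T fun x => chunks (L x) (l x) := by
  obtain ⟨K, hK⟩ := hT
  obtain ⟨K', hK'⟩ := hl.sz_le
  obtain ⟨k, hk⟩ := PTime.toC (f := fun p : ℕ × ℕ => p.1 / p.2) (by fun_prop)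
  obtain ⟨c, hc⟩ := lst_polylog k
  have hq : C D T fun x => (l x).length / L x := by
    refine hk.call (hl.length.prodMk hL) (fun _ _ => trivial) ⟨c * (K + K'), fun x hx => ?_⟩
    refine (hc _ _).trans ?_
    have := hK x hx
    have := hK' x hx
    have := length_lt_sz (l x)
    rw [mul_assoc, add_mul]
    exact Nat.mul_le_mul_left _ (by omega)
  have hm : C D T fun x => true :: (List.replicate (L x) false).tail :=
    (C.const true).cons (hL.replicate (.const false) ⟨K, fun x hx => by
      have : sz false = 1 := rfl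
      rw [this, mul_one]; exact hK x hx⟩).tail
  have hM := (hq.replicate hm ⟨5 * K', fun x hx => by
    have h1 := lst_sz_bits (true :: (List.replicate (L x) false).tail)
    have h2 := (h0 x hx).1
    have h3 : (true :: (List.replicate (L x) false).tail).length = L x := by simp; omega
    have h4 := Nat.div_mul_le_self (l x).length (L x)
    have := hK' x hx
    have := length_lt_sz (l x)
    rw [h3] at h1
    calc _ ≤ (l x).length / L x * (5 * L x) := Nat.mul_le_mul_left _ (by omega)
      _ = 5 * ((l x).length / L x * L x) := by ring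
      _ ≤ _ := by rw [mul_assoc]; omega⟩).flatten
  have he : Lin (chEmit (β := β)) := by unfold Lin chEmit; fun_prop
  refine C.unser ((((C.flatMap he (hl.zip hM)).append (.const [false, false])).tail).congr
    fun x hx => ?_)
  obtain ⟨h1, n, h2⟩ := h0 x hx
  rw [mul_comm] at h2
  have h3 : (P338.chunks (L x) (l x)).flatten = l x := by
    rw [chunks_eq h1 h2, flatten_map_range, fl_blk h2]
  have h4 : (P338.chunks (L x) (l x)).length = (l x).length / L x := by simp [P338.chunks]
  have h5 := chEmit_all h1 (P338.chunks (L x) (l x)) (by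
    rw [chunks_eq h1 h2]
    intro c hc
    obtain ⟨i, hi, rfl⟩ := List.mem_map.1 hc
    exact length_blk' h2 (List.mem_range.1 hi))
  rw [h3, h4] at h5
  rw [h5]; rfl

/-- a polynomial-time function of a small argument -/
theorem C.ptime {φ : β → γ} (hφ : PTime φ) :
    ∃ k, ∀ {α : Type} [TEnc α] {D : α → Prop} {T : α → ℕ} {e : α → β}, C D T e →
      (∃ K, ∀ x, D x → (sz (e x) + 1) ^ k ≤ K * (T x + sz x)) → C D T fun x => φ (e x) := by
  obtain ⟨k, h⟩ := PTime.toC hφ
  exact ⟨k, fun he hT => h.call he (fun _ _ => trivial) hT⟩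

lemma sz_bits_le (l : List Bool) : sz l ≤ 4 * l.length + 1 := by
  exact lst_sz_bits l

end Vale.Agent.P338
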