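import Vale.Agent.Lib.PTime.Rat

/-! A structured language on six Boolean stacks: the four stacks of the polynomial-time library
and two more value stacks. -/

namespace Vale.Agent.P338

open Function

/-- the six stacks -/
inductive Rg : Type
  | a | b | c | d | i | o
  deriving DecidableEq

instance : Fintype Rg := ⟨{.a, .b, .c, .d, .i, .o}, fun x => by cases x <;> simp⟩

abbrev St := Rg → List Bool

def mk (a b c d i o : List Bool) : St
  | .a => a
  | .b => b
  | .c => c
  | .d => d
  | .i => i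
  | .o => o

@[simp] lemma mk_a (a b c d i o) : mk a b c d i o .a = a := rfl
@[simp] lemma mk_b (a b c d i o) : mk a b c d i o .b = b := rfl
@[simp] lemma mk_c (a b c d i o) : mk a b c d i o .c = c := rfl
@[simp] lemma mk_d (a b c d i o) : mk a b c d i o .d = d := rfl
@[simp] lemma mk_i (a b c d i o) : mk a b c d i o .i = i := rfl
@[simp] lemma mk_o (a b c d i o) : mk a b c d i o .o = o := rfl
@[simp] lemma upd_a (a b c d i o x) : update (mk a b c d i o) .a x = mk x b c d i o := by
  funext k; cases k <;> simp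
@[simp] lemma upd_b (a b c d i o x) : update (mk a b c d i o) .b x = mk a x c d i o := by
  funext k; cases k <;> simp
@[simp] lemma upd_c (a b c d i o x) : update (mk a b c d i o) .c x = mk a b x d i o := by
  funext k; cases k <;> simp
@[simp] lemma upd_d (a b c d i o x) : update (mk a b c d i o) .d x = mk a b c x i o := by
  funext k; cases k <;> simp
@[simp] lemma upd_i (a b c d i o x) : update (mk a b c d i o) .i x = mk a b c d x o := by
  funext k; cases k <;> simp
@[simp] lemma upd_o (a b c d i o x) : update (mk a b c d i o) .o x = mk a b c d i x := by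
  funext k; cases k <;> simp

inductive Cm : Type
  | push (k : Rg) (x : Bool)
  | skip
  | seq (p q : Cm)
  | cases (k : Rg) (p0 pf pt : Cm)
  | loop (k : Rg) (pf pt : Cm)

inductive Ex : Cm → St → St → ℕ → Prop
  | push (k x S) : Ex (.push k x) S (update S k (x :: S k)) 1
  | skip (S) : Ex .skip S S 1
  | seq {p q S S' S'' n m} : Ex p S S' n → Ex q S' S'' m → Ex (.seq p q) S S'' (n + m)
  | casesE {k p0 pf pt S S' n} : S k = [] → Ex p0 S S' n → Ex (.cases k p0 pf pt) S S' (n + 1)
  | casesF {k p0 pf pt S S' n l} : S k = false :: l → Ex pf (update S k l) S' n →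
      Ex (.cases k p0 pf pt) S S' (n + 1)
  | casesT {k p0 pf pt S S' n l} : S k = true :: l → Ex pt (update S k l) S' n →
      Ex (.cases k p0 pf pt) S S' (n + 1)
  | loopE {k pf pt S} : S k = [] → Ex (.loop k pf pt) S S 1
  | loopF {k pf pt S S' S'' n m l} : S k = false :: l → Ex pf (update S k l) S' n →
      Ex (.loop k pf pt) S' S'' m → Ex (.loop k pf pt) S S'' (n + m + 1)
  | loopT {k pf pt S S' S'' n m l} : S k = true :: l → Ex pt (update S k l) S' n →
      Ex (.loop k pf pt) S' S'' m → Ex (.loop k pf pt) S S'' (n + m + 1)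

/-- total length of the stacks -/
def tot (S : St) : ℕ :=
  (S .a).length + (S .b).length + (S .c).length + (S .d).length + (S .i).length + (S .o).length

lemma tot_update (S : St) (k : Rg) (l : List Bool) :
    tot (update S k l) + (S k).length = tot S + l.length := by
  cases k <;> simp [tot] <;> omega

lemma Ex.tot_le {c : Cm} {S S' : St} {n : ℕ} (h : Ex c S S' n) : tot S' ≤ tot S + n := by
  induction h with
  | push k x S => have := tot_update S k (x :: S k); simp at this; omega
  | skip S => omega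
  | seq _ _ ih1 ih2 => omega
  | casesE _ _ ih => omega
  | @casesF k _ _ _ S _ _ l h0 _ ih => have := tot_update S k l; simp [h0] at this; omega
  | @casesT k _ _ _ S _ _ l h0 _ ih => have := tot_update S k l; simp [h0] at this; omega
  | loopE _ => omega
  | @loopF k _ _ S _ _ _ _ l h0 _ _ ih1 ih2 =>
    have := tot_update S k l; simp [h0] at this; omega
  | @loopT k _ _ S _ _ _ _ l h0 _ _ ih1 ih2 =>
    have := tot_update S k l; simp [h0] at this; omega

/-- execution within a time bound -/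
def Rn (c : Cm) (S S' : St) (t : ℕ) : Prop := ∃ n ≤ t, Ex c S S' n

lemma Rn.mono {c S S' t t'} (h : Rn c S S' t) (ht : t ≤ t') : Rn c S S' t' :=
  let ⟨n, h1, h2⟩ := h; ⟨n, h1.trans ht, h2⟩

lemma Rn.push (k x S) : Rn (.push k x) S (update S k (x :: S k)) 1 := ⟨1, le_rfl, .push _ _ _⟩
lemma Rn.skip (S) : Rn .skip S S 1 := ⟨1, le_rfl, .skip _⟩
lemma Rn.seq {p q S S' S'' n m} (h : Rn p S S' n) (h' : Rn q S' S'' m) :
    Rn (.seq p q) S S'' (n + m) :=
  let ⟨_, h1, h2⟩ := h; let ⟨_, h3, h4⟩ := h'; ⟨_, add_le_add h1 h3, .seq h2 h4⟩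
lemma Rn.casesE {k p0 pf pt S S' n} (h0 : S k = []) (h : Rn p0 S S' n) :
    Rn (.cases k p0 pf pt) S S' (n + 1) :=
  let ⟨_, h1, h2⟩ := h; ⟨_, by omega, .casesE h0 h2⟩
lemma Rn.casesF {k p0 pf pt S S' n l} (h0 : S k = false :: l) (h : Rn pf (update S k l) S' n) :
    Rn (.cases k p0 pf pt) S S' (n + 1) :=
  let ⟨_, h1, h2⟩ := h; ⟨_, by omega, .casesF h0 h2⟩
lemma Rn.casesT {k p0 pf pt S S' n l} (h0 : S k = true :: l) (h : Rn pt (update S k l) S' n) :
    Rn (.cases k p0 pf pt) S S' (n + 1) :=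
  let ⟨_, h1, h2⟩ := h; ⟨_, by omega, .casesT h0 h2⟩
lemma Rn.loopE {k pf pt S} (h0 : S k = []) : Rn (.loop k pf pt) S S 1 := ⟨1, le_rfl, .loopE h0⟩
lemma Rn.loopF {k pf pt S S' S'' n m l} (h0 : S k = false :: l) (h : Rn pf (update S k l) S' n)
    (h' : Rn (.loop k pf pt) S' S'' m) : Rn (.loop k pf pt) S S'' (n + m + 1) :=
  let ⟨_, h1, h2⟩ := h; let ⟨_, h3, h4⟩ := h'; ⟨_, by omega, .loopF h0 h2 h4⟩
lemma Rn.loopT {k pf pt S S' S'' n m l} (h0 : S k = true :: l) (h : Rn pt (update S k l) S' n)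
    (h' : Rn (.loop k pf pt) S' S'' m) : Rn (.loop k pf pt) S S'' (n + m + 1) :=
  let ⟨_, h1, h2⟩ := h; let ⟨_, h3, h4⟩ := h'; ⟨_, by omega, .loopT h0 h2 h4⟩

/-- only the three value stacks are non-empty -/
abbrev st (a i o : List Bool) : St := mk a [] [] [] i o

/-! ### embedding of the four-stack language -/

def emb (ρ : PT.R → Rg) : PT.Cmd → Cm
  | .push k x => .push (ρ k) x
  | .skip => .skip
  | .seq p q => .seq (emb ρ p) (emb ρ q)
  | .cases k p0 pf pt => .cases (ρ k) (emb ρ p0) (emb ρ pf) (emb ρ pt)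
  | .loop k pf pt => .loop (ρ k) (emb ρ pf) (emb ρ pt)

lemma ex_emb (ρ : PT.R → Rg) (X : PT.St → St) (h1 : ∀ S k, X S (ρ k) = S k)
    (h2 : ∀ S k l, X (update S k l) = update (X S) (ρ k) l) {c S S' n} (h : PT.Exec c S S' n) :
    Ex (emb ρ c) (X S) (X S') n := by
  induction h with
  | push k x S => rw [h2, ← h1 S k]; exact .push _ _ _
  | skip S => exact .skip _
  | seq _ _ ih1 ih2 => exact .seq ih1 ih2
  | casesE h0 _ ih => exact .casesE (by rw [h1, h0]) ih
  | casesF h0 _ ih => exact .casesF (by rw [h1, h0]) (by rw [← h2]; exact ih)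
  | casesT h0 _ ih => exact .casesT (by rw [h1, h0]) (by rw [← h2]; exact ih)
  | loopE h0 => exact .loopE (by rw [h1, h0])
  | loopF h0 _ _ ih1 ih2 => exact .loopF (by rw [h1, h0]) (by rw [← h2]; exact ih1) ih2
  | loopT h0 _ _ ih1 ih2 => exact .loopT (by rw [h1, h0]) (by rw [← h2]; exact ih1) ih2

def ren (v : Rg) : PT.R → Rg
  | .a => v
  | .b => .b
  | .c => .c
  | .d => .d

lemma rnA {c a b c' d a' b' c'' d' n} (h : PT.Run c (PT.mk a b c' d) (PT.mk a' b' c'' d') n)
    (i o) : Rn (emb (ren .a) c) (mk a b c' d i o) (mk a' b' c'' d' i o) n := by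
  obtain ⟨m, hm, h⟩ := h
  exact ⟨m, hm, ex_emb (ren .a) (fun S => mk (S .a) (S .b) (S .c) (S .d) i o)
    (fun S k => by cases k <;> rfl) (fun S k l => by cases k <;> simp [ren]) h⟩

lemma rnI {c a b c' d a' b' c'' d' n} (h : PT.Run c (PT.mk a b c' d) (PT.mk a' b' c'' d') n)
    (x o) : Rn (emb (ren .i) c) (mk x b c' d a o) (mk x b' c'' d' a' o) n := by
  obtain ⟨m, hm, h⟩ := h
  exact ⟨m, hm, ex_emb (ren .i) (fun S => mk x (S .b) (S .c) (S .d) (S .a) o)
    (fun S k => by cases k <;> rfl) (fun S k l => by cases k <;> simp [ren]) h⟩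

lemma rnO {c a b c' d a' b' c'' d' n} (h : PT.Run c (PT.mk a b c' d) (PT.mk a' b' c'' d') n)
    (x i) : Rn (emb (ren .o) c) (mk x b c' d i a) (mk x b' c'' d' i a') n := by
  obtain ⟨m, hm, h⟩ := h
  exact ⟨m, hm, ex_emb (ren .o) (fun S => mk x (S .b) (S .c) (S .d) i (S .a))
    (fun S k => by cases k <;> rfl) (fun S k l => by cases k <;> simp [ren]) h⟩

/-! ### the cost predicate -/

open PT

instance instSum {α β : Type} [TEnc α] [TEnc β] : TEnc (α ⊕ β) :=
  ⟨fun s => match s with
    | .inl a => TEnc.enc (false, a)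
    | .inr b => TEnc.enc (true, b)⟩

abbrev Dom (α : Type) : Type := α → Prop
abbrev Cost (α : Type) : Type := α → ℕ

/-- On the inputs satisfying `D`, the function `f` is computed in time `O(T x + size of x)`. -/
@[fun_prop]
def C {α β : Type} [TEnc α] [TEnc β] (D : Dom α) (T : Cost α) (f : α → β) : Prop :=
  ∃ (c : Cm) (K : ℕ), ∀ x, D x → ∀ r i o,
    Rn c (st (encode x ++ r) i o) (st (encode (f x) ++ r) i o) (K * (T x + sz x))

/-- `f` is computed in linear time on all inputs -/
abbrev Lin {α β : Type} [TEnc α] [TEnc β] (f : α → β) : Prop := C (fun _ => True) (fun _ => 0) f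

end Vale.Agent.P338
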