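import Vale.Agent.P338.Lower
import Vale.Agent.P338.Bits
import Vale.Agent.P338.Conv

/-! Preparation and extraction steps of the multiplication. -/

namespace Vale.Agent.P338

open PT Finset

attribute [local irreducible] PTime PB C

/-- the small parameters `(A1, A2, P, b, κ)` -/
abbrev SP : Type := ℕ × ℕ × ℕ × ℕ × ℕ

def SP.D (s : SP) : Prop :=
  0 < s.1 ∧ s.1 ≤ s.2.1 ∧ Nat.Coprime s.1 s.2.1 ∧ 0 < s.2.2.2.1 ∧ 0 < s.2.2.2.2 ∧
    6 * s.2.2.2.2 + 3 * s.2.2.2.1 + 1 ≤ s.2.2.1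

lemma val_replicate_false (n : ℕ) : val (List.replicate n false) = 0 := by
  induction n with
  | zero => rfl
  | succ n ih => simp [List.replicate_succ, ih]

lemma val_take (l : List Bool) (k : ℕ) : val (l.take k) = val l % 2 ^ k := by
  rcases le_total l.length k with h | h
  · rw [List.take_of_length_le h, Nat.mod_eq_of_lt
      ((val_lt l).trans_le (Nat.pow_le_pow_right (by omega) h))]
  · conv_rhs => rw [← List.take_append_drop k l, val_append, List.length_take, min_eq_left h]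
    rw [Nat.add_mul_mod_self_left, Nat.mod_eq_of_lt]
    simpa [min_eq_left h] using val_lt (l.take k)

lemma val_drop (l : List Bool) {k : ℕ} (h : k ≤ l.length) : val (l.drop k) = val l / 2 ^ k := by
  conv_rhs => rw [← List.take_append_drop k l, val_append, List.length_take, min_eq_left h]
  rw [Nat.add_mul_div_left _ _ (by positivity), Nat.div_eq_of_lt, zero_add]
  simpa [min_eq_left h] using val_lt (l.take k)

lemma takeD_of_le {l : List Bool} {L : ℕ} (h : l.length ≤ L) :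
    l.takeD L false = l ++ List.replicate (L - l.length) false := by
  induction l generalizing L with
  | nil => simp
  | cons a l ih =>
    cases L with
    | zero => simp at h
    | succ L => simp [ih (by simpa using h)]

lemma val_takeD_of_le {l : List Bool} {L : ℕ} (h : l.length ≤ L) : val (l.takeD L false) = val l := by
  rw [takeD_of_le h, val_append, val_replicate_false]; simp

theorem mc_prep : ∃ τ, Sub τ ∧ ∃ prep : SP → List Bool → List Bool,
    Op SP.D (fun s => s.1 * s.2.1 * s.2.2.2.1) (fun s => s.1 * s.2.1 * (2 * s.2.2.1))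
      (fun s => s.2.2.2.1) (fun s => s.1 * s.2.1 * s.2.2.1 * τ s.1.size) prep ∧
    ∀ s l, s.D → l.length = s.1 * s.2.1 * s.2.2.2.1 → Rep s.2.2.1 (s.1 * s.2.1) (prep s l)
      fun j => ((val (blk s.2.2.2.1 (cinv s.1 s.2.1 j) l) : ℕ) : GaussianInt) := by
  obtain ⟨τ, hτ, hsp, -⟩ := split_op
  refine ⟨fun x => τ x + 1, hτ.add (Sub.const 1), _,
    ((Op.id (D := SP.D) (N := fun s => s.1 * s.2.1 * s.2.2.2.1) ?_).pad
      (O := fun s => s.1 * s.2.1) (L := fun s => s.2.2.2.1) (L' := fun s => 2 * s.2.2.1)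
      (N'' := fun s => s.1 * s.2.1 * (2 * s.2.2.1)) (by fun_prop) (by fun_prop) (by fun_prop)
      (fun s _ => ⟨rfl, rfl, le_rfl⟩) ⟨2, ?_⟩).andThen hsp
      (ψ := fun s => (s.1, s.2.1, 2 * s.2.2.1)) (by fun_prop) ?_ ⟨2, ?_⟩, ?_⟩
  · rintro ⟨A1, A2, P, b, κ⟩ ⟨h1, h2, -⟩
    exact Nat.le_mul_of_pos_left _ (Nat.mul_pos h1 (h1.trans_le h2))
  · rintro ⟨A1, A2, P, b, κ⟩ -
    simp only; nlinarith [Nat.zero_le (A1 * A2 * P * τ A1.size), Nat.zero_le (A1 * A2 * b)]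
  · rintro ⟨A1, A2, P, b, κ⟩ ⟨h1, h2, h3, h4, h5, h6⟩
    exact ⟨⟨h1, h2, h3⟩, rfl, rfl, by simp only at *; omega⟩
  · rintro ⟨A1, A2, P, b, κ⟩ -
    simp only; nlinarith [Nat.zero_le (A1 * A2 * P), Nat.zero_le (A1 * A2 * b)]
  · rintro ⟨A1, A2, P, b, κ⟩ l ⟨h1, h2, h3, h4, h5, h6⟩ hl
    simp only at *
    have hA2 : 0 < A2 := h1.trans_le h2
    have hlen : (fl (A1 * A2) fun o => (blk b o l).takeD (2 * P) false).length =
        A1 * A2 * (2 * P) := length_fl fun i _ => List.takeD_length _ _ _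
    refine ⟨length_perm hlen fun i _ => cinv_lt h1 hA2 i, fun i hi => ?_⟩
    have hc := cinv_lt h1 hA2 i
    have hb : (blk b (cinv A1 A2 i) l).length = b := length_blk' hl hc
    have e : blk (2 * P) i (perm (A1 * A2) (2 * P) (cinv A1 A2)
        (fl (A1 * A2) fun o => (blk b o l).takeD (2 * P) false)) =
        (blk b (cinv A1 A2 i) l ++ List.replicate (P - b) false) ++ List.replicate P false := by
      rw [blk_perm hlen (fun i _ => cinv_lt h1 hA2 i) hi,
        blk_fl (g := fun o => (blk b o l).takeD (2 * P) false)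
          (fun i _ => List.takeD_length _ _ _) hc, takeD_of_le (by omega), hb, List.append_assoc,
        ← List.replicate_add]
      congr 2; omega
    have hP : (blk b (cinv A1 A2 i) l ++ List.replicate (P - b) false).length = P := by
      simp [hb]; omega
    constructor
    · rw [mul_comm 2 i, ← add_zero (i * 2), ← rv_blk _ (by omega : 0 < 2), e, rv,
        blk_append_left _ (by omega), blk_zero_self hP, val_append, val_replicate_false]
      simp
    · rw [mul_comm 2 i, ← rv_blk _ (by omega : 1 < 2), e, rv,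
        blk_append_right (n := 1) 0 _ (by omega), blk_zero_self (by simp), val_replicate_false]
      simp

/-- three overlapping numbers -/
lemma val_three {R b : ℕ} {w : List Bool} (hw : w.length = R * (3 * b)) :
    val (blk (R * b) 0 (trF R 3 b w)) + 2 ^ b * val (blk (R * b) 1 (trF R 3 b w)) +
      2 ^ (2 * b) * val (blk (R * b) 2 (trF R 3 b w)) =
      ∑ X ∈ range R, val (blk (3 * b) X w) * 2 ^ (b * X) := by
  have hw' : w.length = R * 3 * b := by rw [hw]; ring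
  have hb : ∀ t < 3, ∀ X < R, (blk b (X * 3 + t) w).length = b := fun t ht X hX =>
    length_blk' hw' (lt_mul_of_lt hX ht)
  have e : ∀ t < 3, val (blk (R * b) t (trF R 3 b w)) =
      ∑ X ∈ range R, val (blk b (X * 3 + t) w) * 2 ^ (b * X) := fun t ht => by
    rw [trF, blk_fl (fun t ht => length_fl (hb t ht)) ht, val_fl (hb t ht)]
  rw [e 0 (by omega), e 1 (by omega), e 2 (by omega), mul_sum, mul_sum, ← sum_add_distrib,
    ← sum_add_distrib]
  refine sum_congr rfl fun X hX => ?_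
  have hX' := mem_range.1 hX
  rw [blk_mul (n := 3) (hw ▸ Nat.mul_le_mul_right _ hX'), val_fl fun t ht => hb t ht X hX']
  simp only [sum_range_succ, sum_range_zero]
  ring

def SP.R (s : SP) : ℕ := s.1 * s.2.1
def SP.N (s : SP) : ℕ := s.1 * s.2.1 * (2 * s.2.2.1)
def SP.T (τ : ℕ → ℕ) (s : SP) : ℕ := s.1 * s.2.1 * s.2.2.1 * τ s.1.size

lemma SP.hR (s : SP) (h : s.D) : 0 < s.1 * s.2.1 := Nat.mul_pos h.1 (h.1.trans_le h.2.1)
lemma SP.hbP (s : SP) (h : s.D) : 3 * s.2.2.2.1 < s.2.2.1 := by have := h.2.2.2.2.2; omega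
lemma SP.hB (s : SP) (h : s.D) : s.2.2.2.1 ≤ s.N :=
  le_trans (by have := s.hbP h; omega) (Nat.le_mul_of_pos_left _ (s.hR h))
lemma SP.hle (τ : ℕ → ℕ) (s : SP) (u : ℕ) (hu : u ≤ 2 * s.2.2.1) :
    s.1 * s.2.1 * u ≤ 1 * (s.T τ + s.N) := by
  have := Nat.mul_le_mul_left (s.1 * s.2.1) hu; unfold SP.N; omega
lemma SP.hle' (τ : ℕ → ℕ) (s : SP) (h : s.D) (u : ℕ) (hu : u ≤ 2 * s.2.2.1) :
    u ≤ 1 * (s.T τ + s.N) := (Nat.le_mul_of_pos_left _ (s.hR h)).trans (s.hle τ u hu)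

def mcRe (s : SP) (l : List Bool) : List Bool :=
  fl (s.1 * s.2.1) fun o => (blk (2 * s.2.2.1) o (ax3 1 (s.1 * s.2.1) (2 * s.2.2.1)
    (fun _ x => (s.1 * s.2.1 - x) % (s.1 * s.2.1))
    (perm (s.1 * s.2.1) (2 * s.2.2.1) (cidx s.1 s.2.1) l))).takeD s.2.2.1 false

def mcCs (s : SP) : List Bool :=
  fl (s.1 * s.2.1) fun _ => List.replicate (6 * s.2.2.2.2 - 1) false ++ [true] ++
    List.replicate (s.2.2.1 - 6 * s.2.2.2.2) false

def mcW (s : SP) (l : List Bool) : List Bool :=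
  fl (s.1 * s.2.1) fun i => ((blk s.2.2.1 i l).drop (6 * s.2.2.2.2)).take (3 * s.2.2.2.1)

def mcSum (s : SP) (l : List Bool) : List Bool :=
  tob (s.1 * s.2.1 * s.2.2.2.1 + 2 * s.2.2.2.1)
    (val (tob (s.1 * s.2.1 * s.2.2.2.1 + 2 * s.2.2.2.1)
      (val ((l.take (s.1 * s.2.1 * s.2.2.2.1)).takeD
          (s.1 * s.2.1 * s.2.2.2.1 + 2 * s.2.2.2.1) false) +
        val ((List.replicate s.2.2.2.1 false ++ (l.drop (s.1 * s.2.1 * s.2.2.2.1)).take
          (s.1 * s.2.1 * s.2.2.2.1)).takeD (s.1 * s.2.1 * s.2.2.2.1 + 2 * s.2.2.2.1) false))) +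
      val ((List.replicate (2 * s.2.2.2.1) false ++ l.drop (2 * (s.1 * s.2.1 * s.2.2.2.1))).takeD
        (s.1 * s.2.1 * s.2.2.2.1 + 2 * s.2.2.2.1) false))

lemma op_mcRe : ∃ τ, Sub τ ∧
    Op SP.D SP.N (fun s => s.1 * s.2.1 * s.2.2.1) (fun s => s.2.2.2.1) (SP.T τ) mcRe := by
  obtain ⟨τ, hτ, -, hmg⟩ := split_op
  refine ⟨τ, hτ, ?_⟩
  exact (((Op.id (T := SP.T τ) SP.hB).andThen hmg
    (ψ := fun s => (s.1, s.2.1, 2 * s.2.2.1)) (by fun_prop) (N'' := SP.N)
    (fun s h => ⟨⟨h.1, h.2.1, h.2.2.1⟩, rfl, rfl, by have := s.hbP h; simp only; omega⟩)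
    ⟨2, fun s h => by simp only [SP.T]; nlinarith [Nat.zero_le s.N]⟩).neg
    (O := fun _ => 1) (S := fun s => s.1 * s.2.1) (β := fun s => 2 * s.2.2.1)
    (by fun_prop) (by fun_prop) (by fun_prop)
    (fun s h => ⟨by simp [SP.N], by have := s.hbP h; omega, s.hB h⟩)).pad
    (O := fun s => s.1 * s.2.1) (L := fun s => 2 * s.2.2.1) (L' := fun s => s.2.2.1)
    (N'' := fun s => s.1 * s.2.1 * s.2.2.1) (by fun_prop) (by fun_prop) (by fun_prop)
    (fun s h => ⟨rfl, rfl, by have := s.hbP h; omega⟩) ⟨1, fun s h => s.hle τ _ (by omega)⟩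

lemma op_mcCs (τ : ℕ → ℕ) : Op SP.D SP.N (fun s => s.1 * s.2.1 * s.2.2.1) (fun s => s.2.2.2.1)
    (SP.T τ) fun s _ => mcCs s :=
  (((Op.zeros (T := SP.T τ) (L := fun s => 6 * s.2.2.2.2 - 1) (by fun_prop) SP.hB
      ⟨1, fun s h => s.hle' τ h _ (by have := h.2.2.2.2.2; omega)⟩).append
    (Op.ptime (t := fun _ => [true]) (N' := fun _ => 1) (by fun_prop) SP.hB fun _ _ => rfl)).append
    (Op.zeros (L := fun s => s.2.2.1 - 6 * s.2.2.2.2) (by fun_prop) SP.hB
      ⟨1, fun s h => s.hle' τ h _ (by omega)⟩)).rep (r := fun s => s.1 * s.2.1)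
    (N'' := fun s => s.1 * s.2.1 * s.2.2.1) (by fun_prop)
    (fun s h => by have := h.2.2.2.2.2; have := h.2.2.2.2.1; congr 1; omega)
    ⟨1, fun s h => s.hle τ _ (by have := h.2.2.2.2.2; have := h.2.2.2.2.1; omega)⟩

lemma op_mcW {τ : ℕ → ℕ} {f : SP → List Bool → List Bool}
    (hf : Op SP.D SP.N (fun s => s.1 * s.2.1 * s.2.2.1) (fun s => s.2.2.2.1) (SP.T τ) f) :
    Op SP.D SP.N (fun s => s.1 * s.2.1 * (3 * s.2.2.2.1)) (fun s => s.2.2.2.1) (SP.T τ)
      fun s l => trF (s.1 * s.2.1) 3 s.2.2.2.1 (mcW s (f s l)) := by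
  have o3 : Op SP.D (fun s => s.2.2.1) (fun s => 3 * s.2.2.2.1) (fun s => s.2.2.2.1) (fun _ => 0)
      fun s l => (l.drop (6 * s.2.2.2.2)).take (3 * s.2.2.2.1) :=
    ((Op.id (D := SP.D) (N := fun s => s.2.2.1) (B := fun s => s.2.2.2.1)
      fun s h => by have := s.hbP h; omega).drop (r := fun s => 6 * s.2.2.2.2)
      (N'' := fun s => s.2.2.1 - 6 * s.2.2.2.2) (by fun_prop)
      fun s h => by have := h.2.2.2.2.2; omega).take (r := fun s => 3 * s.2.2.2.1) (by fun_prop)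
      fun s h => by have := h.2.2.2.2.2; omega
  exact (hf.blocks o3 (ψ := Prod.fst) (by fun_prop) (O := fun s => s.1 * s.2.1)
    (L := fun s => s.2.2.1) (L' := fun s => 3 * s.2.2.2.1)
    (N'' := fun s => s.1 * s.2.1 * (3 * s.2.2.2.1))
    (by fun_prop) (by fun_prop) (fun s h => ⟨rfl, rfl⟩) (fun s h i _ => ⟨h, rfl, rfl, le_rfl⟩)
    ⟨0, fun s h i _ => by simp⟩).tr (A := fun s => s.1 * s.2.1) (A' := fun _ => 3)
    (β := fun s => s.2.2.2.1) (by fun_prop) (by fun_prop) (by fun_prop)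
    (fun s h => ⟨by ring, s.hR h, by omega, h.2.2.2.1⟩)
    ⟨3, fun s h => by
      have := s.hle τ (3 * s.2.2.2.1) (by have := s.hbP h; omega)
      exact (Nat.mul_le_mul_right _ (min_le_right _ _)).trans (by omega)⟩

lemma op_mcSum {τ : ℕ → ℕ} {f : SP → List Bool → List Bool}
    (o4 : Op SP.D SP.N (fun s => s.1 * s.2.1 * (3 * s.2.2.2.1)) (fun s => s.2.2.2.1) (SP.T τ) f) :
    Op SP.D SP.N (fun s => s.1 * s.2.1 * s.2.2.2.1 + 2 * s.2.2.2.1) (fun s => s.2.2.2.1) (SP.T τ)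
      fun s l => mcSum s (f s l) := by
  have hLw : ∃ K, ∀ s : SP, s.D → s.1 * s.2.1 * s.2.2.2.1 + 2 * s.2.2.2.1 ≤
      K * (s.T τ + s.N) := ⟨2, fun s h => by
    have := s.hle τ s.2.2.2.1 (by have := s.hbP h; omega)
    have := s.hle' τ h (2 * s.2.2.2.1) (by have := s.hbP h; omega)
    omega⟩
  have u0 := (o4.take (r := fun s => s.1 * s.2.1 * s.2.2.2.1) (by fun_prop)
    fun s _ => Nat.mul_le_mul_left _ (by omega)).resize
    (L := fun s => s.1 * s.2.1 * s.2.2.2.1 + 2 * s.2.2.2.1) (by fun_prop) hLw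
  have u1 := ((Op.zeros (L := fun s => s.2.2.2.1) (by fun_prop) SP.hB
      ⟨1, fun s h => s.hle' τ h _ (by have := s.hbP h; omega)⟩).append
    ((o4.drop (r := fun s => s.1 * s.2.1 * s.2.2.2.1)
      (N'' := fun s => 2 * (s.1 * s.2.1 * s.2.2.2.1)) (by fun_prop) fun s _ => by ring).take
      (r := fun s => s.1 * s.2.1 * s.2.2.2.1) (by fun_prop) fun s _ => by omega)).resize
      (L := fun s => s.1 * s.2.1 * s.2.2.2.1 + 2 * s.2.2.2.1) (by fun_prop) hLw
  have u2 := ((Op.zeros (L := fun s => 2 * s.2.2.2.1) (by fun_prop) SP.hB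
      ⟨1, fun s h => s.hle' τ h _ (by have := s.hbP h; omega)⟩).append
    (o4.drop (r := fun s => 2 * (s.1 * s.2.1 * s.2.2.2.1))
      (N'' := fun s => s.1 * s.2.1 * s.2.2.2.1) (by fun_prop) fun s _ => by ring)).resize
      (L := fun s => s.1 * s.2.1 * s.2.2.2.1 + 2 * s.2.2.2.1) (by fun_prop) hLw
  exact (u0.addN u1).addN u2

lemma mcSum_eq {A1 A2 P b κ : ℕ} {w : List Bool} (lw : w.length = A1 * A2 * (3 * b))
    (hV : ∑ X ∈ range (A1 * A2), val (blk (3 * b) X w) * 2 ^ (b * X) < 2 ^ (A1 * A2 * b + 2 * b)) :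
    mcSum (A1, A2, P, b, κ) (trF (A1 * A2) 3 b w) =
      tob (A1 * A2 * b + 2 * b) (∑ X ∈ range (A1 * A2), val (blk (3 * b) X w) * 2 ^ (b * X)) := by
  have v3 := val_three lw
  simp only [mcSum]
  generalize A1 * A2 = R at *
  have l4' : (trF R 3 b w).length = R * b + (R * b + R * b) := by
    rw [trF, length_fl (L := R * b) fun t ht => length_fl fun X hX =>
      length_blk' (n := R * 3) (by rw [lw]; ring) (lt_mul_of_lt hX ht)]
    ring
  have b0 : blk (R * b) 0 (trF R 3 b w) = (trF R 3 b w).take (R * b) := by simp [blk]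
  have b1 : blk (R * b) 1 (trF R 3 b w) = ((trF R 3 b w).drop (R * b)).take (R * b) := by
    simp [blk]
  have b2 : blk (R * b) 2 (trF R 3 b w) = (trF R 3 b w).drop (2 * (R * b)) := by
    rw [blk, List.take_of_length_le (by rw [List.length_drop, l4']; omega)]
  rw [b0, b1, b2] at v3
  rw [val_tob, val_takeD_of_le (by simp), val_takeD_of_le (by simp; omega),
    val_takeD_of_le (by simp [l4']; omega), val_append, val_append, val_replicate_false,
    val_replicate_false, List.length_replicate, List.length_replicate, zero_add, zero_add,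
    Nat.mod_eq_of_lt (by omega), v3]

lemma rv_mcRe {A1 A2 P b κ X : ℕ} {l : List Bool} {z : ℕ → GaussianInt} (h1 : 0 < A1)
    (hA2 : 0 < A2) (hz : Rep P (A1 * A2) l z) (hX : X < A1 * A2) :
    rv P (mcRe (A1, A2, P, b, κ) l) X =
      ((z (cidx A1 A2 ((A1 * A2 - X) % (A1 * A2)))).re : ℤ) := by
  have hR' : 0 < A1 * A2 := Nat.mul_pos h1 hA2
  have hX' : (A1 * A2 - X) % (A1 * A2) < A1 * A2 := Nat.mod_lt _ hR'
  have hj := cidx_lt h1 hA2 ((A1 * A2 - X) % (A1 * A2))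
  have lp : (perm (A1 * A2) (2 * P) (cidx A1 A2) l).length = A1 * A2 * (2 * P) :=
    length_perm hz.1 fun i _ => cidx_lt h1 hA2 i
  simp only [mcRe]
  rw [← (hz.2 _ hj).1, rv, blk_fl (fun i _ => List.takeD_length _ _ _) hX, ax3, fl_one,
    blk_fl (g := fun s => blk (2 * P) (0 * (A1 * A2) + (A1 * A2 - s) % (A1 * A2))
      (perm (A1 * A2) (2 * P) (cidx A1 A2) l))
      (fun i _ => length_blk' lp (by simpa using Nat.mod_lt _ hR')) hX,
    zero_mul, zero_add, blk_perm hz.1 (fun i _ => cidx_lt h1 hA2 i) hX',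
    List.takeD_eq_take _ (by rw [length_blk' hz.1 hj]; omega), mul_comm 2 (cidx _ _ _),
    ← add_zero (_ * 2), ← rv_blk _ (by omega : 0 < 2), rv]
  simp [blk]

lemma extract_digit {P b κ c X : ℕ} {l : List Bool} {r : ℤ} (h5 : 0 < κ)
    (h6 : 6 * κ + 3 * b + 1 ≤ P) (hl : (X + 1) * P ≤ l.length)
    (h : rv P l X = ((r + 2 ^ (6 * κ - 1) : ℤ) : ZMod _)) (c1 : c < 2 ^ (3 * b))
    (c2 : |r - 2 ^ (6 * κ) * c| < 2 ^ (6 * κ - 1)) :
    val (((blk P X l).drop (6 * κ)).take (3 * b)) = c := by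
  rw [abs_lt] at c2
  have p1 : (2 : ℤ) ^ (6 * κ) = 2 * 2 ^ (6 * κ - 1) := by rw [← pow_succ']; congr 1; omega
  have p2 : (2 : ℤ) ^ (6 * κ) * (c + 1) ≤ 2 ^ (P - 1) := by
    have : (c : ℤ) + 1 ≤ 2 ^ (3 * b) := by exact_mod_cast c1
    calc (2 : ℤ) ^ (6 * κ) * (c + 1) ≤ 2 ^ (6 * κ) * 2 ^ (3 * b) := by gcongr
      _ ≤ 2 ^ (P - 1) := by rw [← pow_add]; exact pow_le_pow_right₀ (by omega) (by omega)
  have p3 : (2 : ℤ) ^ P = 2 * 2 ^ (P - 1) := by rw [← pow_succ']; congr 1; omega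
  have p4 : (0 : ℤ) < 2 ^ (P - 1) := by positivity
  have p5 : (0 : ℤ) ≤ 2 ^ (6 * κ) * c := by positivity
  have e3 := val_eq_of_rv hl h (by linarith) (by linarith)
  rw [val_take, val_drop _ (by rw [length_blk hl]; omega)]
  have : val (blk P X l) / 2 ^ (6 * κ) = c := by
    refine Nat.div_eq_of_lt_le ?_ ?_
    · zify; rw [e3]; linarith
    · zify; rw [e3]; linarith
  rw [this, Nat.mod_eq_of_lt c1]

theorem mc_post : ∃ τ, Sub τ ∧ ∃ post : SP → List Bool → List Bool,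
    Op SP.D SP.N (fun s => s.1 * s.2.1 * s.2.2.2.1 + 2 * s.2.2.2.1)
      (fun s => s.2.2.2.1) (SP.T τ) post ∧
    ∀ A1 A2 P b κ l z (c : ℕ → ℕ), SP.D (A1, A2, P, b, κ) → Rep P (A1 * A2) l z →
      (∀ X < A1 * A2, c X < 2 ^ (3 * b) ∧
        |(z (cidx A1 A2 ((A1 * A2 - X) % (A1 * A2)))).re - 2 ^ (6 * κ) * c X| < 2 ^ (6 * κ - 1)) →
      ∑ X ∈ range (A1 * A2), c X * 2 ^ (b * X) < 2 ^ (A1 * A2 * b + 2 * b) →
      post (A1, A2, P, b, κ) l =
        tob (A1 * A2 * b + 2 * b) (∑ X ∈ range (A1 * A2), c X * 2 ^ (b * X)) := by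
  obtain ⟨τ, hτ, o1⟩ := op_mcRe
  obtain ⟨ax, hax, sax⟩ := axR
  have o2 := op_mcCs τ
  have o3 : Op SP.D SP.N (fun s => s.1 * s.2.1 * s.2.2.1) (fun s => s.2.2.2.1) (SP.T τ)
      fun s l => ax (s.1 * s.2.1, s.2.2.1, 2) (mcRe s l ++ mcCs s) :=
    (o1.append o2).andThen hax (ψ := fun s => (s.1 * s.2.1, s.2.2.1, (2 : ℤ)))
    (by fun_prop) (fun s h => ⟨by have := s.hbP h; simp only; omega, by simp only; omega, rfl,
      le_trans (b := s.2.2.1) (by have := s.hbP h; omega) (Nat.le_mul_of_pos_left _ (s.hR h))⟩)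
    ⟨3, fun s h => by have := s.hle τ s.2.2.1 (by omega); simp only [Int.reduceAbs]; omega⟩
  refine ⟨τ, hτ, _, op_mcSum (op_mcW o3), ?_⟩
  intro A1 A2 P b κ l z c hs hz hc hV
  have l1 := o1.len _ l hs hz.1
  have l2 := o2.len _ l hs hz.1
  have lax := o3.len _ l hs hz.1
  obtain ⟨h1, h2, h3, h4, h5, h6⟩ := hs
  simp only at *
  have hA2 : 0 < A2 := h1.trans_le h2
  set u := ax (A1 * A2, P, 2) (mcRe (A1, A2, P, b, κ) l ++ mcCs (A1, A2, P, b, κ)) with hu
  have lb : ∀ X < A1 * A2, (((blk P X u).drop (6 * κ)).take (3 * b)).length = 3 * b :=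
    fun X hX => by rw [List.length_take, List.length_drop, length_blk' lax hX]; omega
  have key : ∀ X ∈ range (A1 * A2), val (blk (3 * b) X (mcW (A1, A2, P, b, κ) u)) * 2 ^ (b * X) =
      c X * 2 ^ (b * X) := by
    intro X hX
    have hX := mem_range.1 hX
    have e2 : rv P (mcCs (A1, A2, P, b, κ)) X = 2 ^ (6 * κ - 1) := by
      simp only [mcCs]
      rw [rv, blk_fl (fun i _ => by simp; omega) hX, val_append, val_append,
        val_replicate_false, val_replicate_false]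
      simp
    simp only [mcW]
    rw [blk_fl lb hX, extract_digit h5 h6 (lax ▸ Nat.mul_le_mul_right _ hX) ?_ (hc X hX).1
      (hc X hX).2]
    rw [hu, sax _ P 2 _ _ (by omega) l1 l2 X hX, rv_mcRe h1 hA2 hz hX, e2]
    push_cast
    rw [two_mul_half (by omega), one_mul]
  rw [← sum_congr rfl key] at hV ⊢
  exact mcSum_eq (length_fl lb) hV

/-- propagation of the errors through the three transforms -/
lemma err_chain {ps qs : List ℕ} {a b z1 z2 z3 : ℕ → ℂ} {s δ Za Zb : ℝ} (hs : 0 ≤ s) (hδ : 0 ≤ δ)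
    (hδ1 : δ ≤ 1) (hZa : 0 ≤ Za) (hZb : 0 ≤ Zb) (ha : ∀ i < ps.prod * qs.prod, ‖a i‖ ≤ Za)
    (hb : ∀ i < ps.prod * qs.prod, ‖b i‖ ≤ Zb)
    (h1 : ∀ i < ps.prod * qs.prod, ‖z1 i - s * dft2 ps qs a i‖ ≤ s * δ * Za)
    (h2 : ∀ i < ps.prod * qs.prod, ‖z2 i - s * dft2 ps qs b i‖ ≤ s * δ * Zb) :
    (∀ i < ps.prod * qs.prod, ‖z1 i * z2 i‖ ≤ 4 * s ^ 2 * (Za * Zb)) ∧
    ∀ j, ‖z3 j - s * dft2 ps qs (fun i => z1 i * z2 i) j‖ ≤ s * δ * (4 * s ^ 2 * (Za * Zb)) →
      ‖z3 j - s ^ 3 * dft2 ps qs (fun i => dft2 ps qs a i * dft2 ps qs b i) j‖ ≤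
        7 * s ^ 3 * δ * (Za * Zb) := by
  have fa := norm_dft2_le hZa ha
  have fb := norm_dft2_le hZb hb
  have ns : ‖(s : ℂ)‖ = s := by simp [abs_of_nonneg hs]
  have ga : ∀ i, ‖s * dft2 ps qs a i‖ ≤ s * Za := fun i => by
    rw [norm_mul, ns]; exact mul_le_mul_of_nonneg_left (fa i) hs
  have gb : ∀ i, ‖s * dft2 ps qs b i‖ ≤ s * Zb := fun i => by
    rw [norm_mul, ns]; exact mul_le_mul_of_nonneg_left (fb i) hs
  have n1 : ∀ i < ps.prod * qs.prod, ‖z1 i‖ ≤ 2 * s * Za := fun i hi => by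
    have := norm_add_le (z1 i - s * dft2 ps qs a i) (s * dft2 ps qs a i)
    rw [sub_add_cancel] at this
    have := h1 i hi
    have := ga i
    nlinarith [mul_nonneg (mul_nonneg hs hZa) (sub_nonneg.2 hδ1)]
  have n2 : ∀ i < ps.prod * qs.prod, ‖z2 i‖ ≤ 2 * s * Zb := fun i hi => by
    have := norm_add_le (z2 i - s * dft2 ps qs b i) (s * dft2 ps qs b i)
    rw [sub_add_cancel] at this
    have := h2 i hi
    have := gb i
    nlinarith [mul_nonneg (mul_nonneg hs hZb) (sub_nonneg.2 hδ1)]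
  refine ⟨fun i hi => ?_, fun j hj => ?_⟩
  · rw [norm_mul]
    calc ‖z1 i‖ * ‖z2 i‖ ≤ 2 * s * Za * (2 * s * Zb) :=
          mul_le_mul (n1 i hi) (n2 i hi) (norm_nonneg _) (by positivity)
      _ = _ := by ring
  · have d : ∀ i < ps.prod * qs.prod, ‖z1 i * z2 i - s ^ 2 * (dft2 ps qs a i * dft2 ps qs b i)‖ ≤
        3 * s ^ 2 * δ * (Za * Zb) := fun i hi => by
      have e : z1 i * z2 i - s ^ 2 * (dft2 ps qs a i * dft2 ps qs b i) =
          (z1 i - s * dft2 ps qs a i) * z2 i + s * dft2 ps qs a i * (z2 i - s * dft2 ps qs b i) := by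
        ring
      rw [e]
      refine (norm_add_le _ _).trans ?_
      rw [norm_mul, norm_mul _ (z2 i - _)]
      calc _ ≤ s * δ * Za * (2 * s * Zb) + s * Za * (s * δ * Zb) :=
            add_le_add (mul_le_mul (h1 i hi) (n2 i hi) (norm_nonneg _) (by positivity))
              (mul_le_mul (ga i) (h2 i hi) (norm_nonneg _) (by positivity))
        _ = _ := by ring
    have d2 := norm_dft2_le (by positivity) d j
    have e : dft2 ps qs (fun i => z1 i * z2 i - s ^ 2 * (dft2 ps qs a i * dft2 ps qs b i)) j =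
        dft2 ps qs (fun i => z1 i * z2 i) j -
          s ^ 2 * dft2 ps qs (fun i => dft2 ps qs a i * dft2 ps qs b i) j := by
      generalize dft2 ps qs a = fa
      generalize dft2 ps qs b = fb
      simp only [dft2, mul_sub, sum_sub_distrib, mul_sum]
      congr 1
      exact sum_congr rfl fun _ _ => sum_congr rfl fun _ _ => by ring
    have e2 : z3 j - s ^ 3 * dft2 ps qs (fun i => dft2 ps qs a i * dft2 ps qs b i) j =
        (z3 j - s * dft2 ps qs (fun i => z1 i * z2 i) j) + s *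
          dft2 ps qs (fun i => z1 i * z2 i - s ^ 2 * (dft2 ps qs a i * dft2 ps qs b i)) j := by
      rw [e]; ring
    rw [e2]
    refine (norm_add_le _ _).trans ?_
    rw [norm_mul, ns]
    have := mul_le_mul_of_nonneg_left d2 hs
    nlinarith

end Vale.Agent.P338
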