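import Vale.Agent.P338.Spec

/-! The components of the parameters are computed in polynomial time; simple consequences of
the hypotheses on the parameters. -/

namespace Vale.Agent.P338

open PT

attribute [local irreducible] PTime PB C

namespace OP

variable {α : Type} [TEnc α] {f : α → OP}

lemma pt_q1 : PTime fun e : OP => e.q1 := ptime_tup.fst
lemma pt_q2 : PTime fun e : OP => e.q2 := ptime_tup.snd.fst
lemma pt_q3 : PTime fun e : OP => e.q3 := ptime_tup.snd.snd.fst
lemma pt_q4 : PTime fun e : OP => e.q4 := ptime_tup.snd.snd.snd.fst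
lemma pt_qr : PTime fun e : OP => e.qr := ptime_tup.snd.snd.snd.snd.fst
lemma pt_uP : PTime fun e : OP => e.uP := ptime_tup.snd.snd.snd.snd.snd.fst
lemma pt_upi : PTime fun e : OP => e.upi := ptime_tup.snd.snd.snd.snd.snd.snd.fst
lemma pt_uL : PTime fun e : OP => e.uL := ptime_tup.snd.snd.snd.snd.snd.snd.snd.fst
lemma pt_ub : PTime fun e : OP => e.ub := ptime_tup.snd.snd.snd.snd.snd.snd.snd.snd

lemma pt_len {q : OP → List (List Unit)} (h : PTime q) : PTime fun e => (q e).map List.length :=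
  PTime.map (f := fun _ u => u.length) h (by fun_prop)

@[fun_prop] lemma pt_p1 (hf : PTime f) : PTime fun a => (f a).p1 := (pt_len pt_q1).comp hf
@[fun_prop] lemma pt_p2 (hf : PTime f) : PTime fun a => (f a).p2 := (pt_len pt_q2).comp hf
@[fun_prop] lemma pt_p3 (hf : PTime f) : PTime fun a => (f a).p3 := (pt_len pt_q3).comp hf
@[fun_prop] lemma pt_p4 (hf : PTime f) : PTime fun a => (f a).p4 := (pt_len pt_q4).comp hf
@[fun_prop] lemma pt_rs (hf : PTime f) : PTime fun a => (f a).rs := (pt_len pt_qr).comp hf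
@[fun_prop] lemma pt_P (hf : PTime f) : PTime fun a => (f a).P := pt_uP.length.comp hf
@[fun_prop] lemma pt_pi (hf : PTime f) : PTime fun a => (f a).pi := pt_upi.length.comp hf
@[fun_prop] lemma pt_L (hf : PTime f) : PTime fun a => (f a).L := pt_uL.length.comp hf
@[fun_prop] lemma pt_b (hf : PTime f) : PTime fun a => (f a).b := pt_ub.length.comp hf
@[fun_prop] lemma pt_A1 (hf : PTime f) : PTime fun a => (f a).A1 := by unfold A1; fun_prop
@[fun_prop] lemma pt_A2 (hf : PTime f) : PTime fun a => (f a).A2 := by unfold A2; fun_prop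
@[fun_prop] lemma pt_R (hf : PTime f) : PTime fun a => (f a).R := by unfold R; fun_prop
@[fun_prop] lemma pt_kap (hf : PTime f) : PTime fun a => (f a).kap := by unfold kap; fun_prop

lemma pb_P : PB fun e : OP => e.P := PB.length pt_uP
lemma pb_pi : PB fun e : OP => e.pi := PB.length pt_upi
lemma pb_L : PB fun e : OP => e.L := PB.length pt_uL
lemma pb_b : PB fun e : OP => e.b := PB.length pt_ub

lemma pb_sum {q q' : OP → List (List Unit)} (h : PTime q) (h' : PTime q') :
    PB fun e => ((q e).map List.length ++ (q' e).map List.length).sum :=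
  (PB.length (h.append h').flatten).of_le fun e => by
    rw [List.length_flatten, List.map_append]

lemma pb_12 : PB fun e : OP => (e.p1 ++ e.p2).sum := pb_sum pt_q1 pt_q2
lemma pb_34 : PB fun e : OP => (e.p3 ++ e.p4).sum := pb_sum pt_q3 pt_q4

variable {H c k0 : ℕ} {e : OP}

lemma OK.pos12 (h : e.OK H c k0) : ∀ p ∈ e.p1 ++ e.p2, 0 < p := fun p hp => by
  have := (h.r2.odd p hp).2.1; omega
lemma OK.pos34 (h : e.OK H c k0) : ∀ p ∈ e.p3 ++ e.p4, 0 < p := fun p hp => by
  have := (h.r1.odd p hp).2.1; omega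
lemma OK.A1_pos (h : e.OK H c k0) : 0 < e.A1 := List.prod_pos h.pos12
lemma OK.A2_pos (h : e.OK H c k0) : 0 < e.A2 := List.prod_pos h.pos34
lemma OK.R_pos (h : e.OK H c k0) : 0 < e.R := Nat.mul_pos h.A1_pos h.A2_pos
lemma OK.A1_le (h : e.OK H c k0) : e.A1 ≤ e.R := Nat.le_mul_of_pos_right _ h.A2_pos
lemma OK.p1_le (h : e.OK H c k0) : e.p1.prod ≤ e.A1 := by
  unfold A1
  rw [List.prod_append]
  exact Nat.le_mul_of_pos_right _ (List.prod_pos fun p hp => h.pos12 p (by simp [hp]))
lemma OK.big_R (h : e.OK H c k0) : (sz e + 1) ^ k0 ≤ e.R :=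
  (h.big e.p1 (by simp)).trans (h.p1_le.trans h.A1_le)
lemma OK.k_pos (h : e.OK H c k0) (hH : 2 ≤ H) : 0 < e.rs.length := by
  obtain ⟨d, hd⟩ := h.r1.pow
  rw [hd]; positivity
lemma OK.L_pos (h : e.OK H c k0) (hH : 2 ≤ H) : 0 < e.L := by
  obtain ⟨r, hr⟩ := List.exists_mem_of_length_pos (h.k_pos hH)
  obtain ⟨h1, -, h2⟩ := h.r1.rodd r hr
  exact (Nat.size_pos.2 h1.pos).trans_le h2
lemma OK.b_pos (h : e.OK H c k0) : 0 < e.b := (Nat.pow_pos (by omega)).trans_le h.sm
lemma OK.kap_pos (h : e.OK H c k0) (hH : 2 ≤ H) : 0 < e.kap :=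
  Nat.mul_pos (h.L_pos hH) (by have := h.k_pos hH; omega)

end OP

end Vale.Agent.P338
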