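import Vale.Agent.P338.FT
import Vale.Agent.P338.MulA
import Vale.Agent.P338.OPp

/-! Job J15b: multiplication with given parameters. -/

namespace Vale.Agent.P338

open PT Finset

attribute [local irreducible] PTime PB C

def OP.sp (e : OP) : SP := (e.A1, e.A2, e.P, e.b, e.kap)

lemma OP.OK.spD {H c k0 : ℕ} {e : OP} (h : e.OK H c k0) (hH : 2 ≤ H) : e.sp.D :=
  ⟨h.A1_pos, h.le, h.cop, h.b_pos, h.kap_pos hH, h.wide⟩

/-- zero padding to the length `n` -/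
def padTo (n : ℕ) (x : List Bool) : List Bool := (x ++ List.replicate n false).take n

lemma padTo_eq {n : ℕ} {x : List Bool} (h : x.length ≤ n) :
    padTo n x = x ++ List.replicate (n - x.length) false := by
  rw [padTo, List.take_append, List.take_of_length_le h, List.take_replicate, min_eq_left (by omega)]

lemma padTo_digit {R b i : ℕ} {x : List Bool} (h : x.length ≤ b * (R / 2)) (hi : R / 2 ≤ i) :
    val (blk b i (padTo (R * b) x)) = 0 := by
  have h1 : b * (R / 2) ≤ i * b := by rw [mul_comm]; exact Nat.mul_le_mul_right _ hi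
  have h2 : b * (R / 2) ≤ R * b := by
    rw [mul_comm]; exact Nat.mul_le_mul_right _ (Nat.div_le_self _ _)
  rw [padTo_eq (by omega), blk, List.drop_append, List.drop_eq_nil_of_le (by omega),
    List.nil_append, List.drop_replicate, List.take_replicate, val_replicate_false]

lemma val_blk_lt (b i : ℕ) (l : List Bool) : val (blk b i l) < 2 ^ b :=
  (val_lt _).trans_le (Nat.pow_le_pow_right (by omega) (length_blk_le _ _ _))

lemma take_tob {L n : ℕ} (v : ℕ) (h : n ≤ L) : (tob L v).take n = tob n v := by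
  rw [tob, tob, ← List.map_take, List.take_range, min_eq_left h]

/-- the numerical heart: the third transform determines the coefficients of the product -/
lemma mc_round {H c : ℕ} {e : OP} (h : e.OK H c 0) (hH : 2 ≤ H) {x y : ℕ → ℕ}
    (hx : ∀ i, x i < 2 ^ e.b) (hy : ∀ i, y i < 2 ^ e.b) (hx0 : ∀ i, e.R / 2 ≤ i → x i = 0)
    (hy0 : ∀ i, e.R / 2 ≤ i → y i = 0) {F : List Bool → List Bool}
    (sF : ∀ l z (Z : ℝ), Rep e.P e.R l z → (∀ i < e.R, ‖(z i : ℂ)‖ ≤ Z) →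
      ∃ z', Rep e.P e.R (F l) z' ∧ ∀ j < e.R,
        ‖(z' j : ℂ) - (2 ^ (2 * e.kap) : ℝ) *
          dft2 (e.p1 ++ e.p2) (e.p3 ++ e.p4) (fun i => z i) j‖ ≤
        2 ^ (2 * e.kap) * (3 * (2 ^ e.ex / 2 ^ e.pi)) * Z)
    {mp : List Bool → List Bool} (smp : ∀ l m z w, Rep e.P e.R l z → Rep e.P e.R m w →
      Rep e.P e.R (mp (l ++ m)) fun i => z i * w i) {l m : List Bool}
    (hl : Rep e.P e.R l fun j => (x (cinv e.A1 e.A2 j) : GaussianInt) * ⟨(e.R ^ 2 : ℕ), 0⟩)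
    (hm : Rep e.P e.R m fun j => (y (cinv e.A1 e.A2 j) : GaussianInt)) :
    ∃ z, Rep e.P e.R (F (mp (F l ++ F m))) z ∧ ∀ X < e.R,
      ∑ i ∈ range (X + 1), x i * y (X - i) < 2 ^ (3 * e.b) ∧
      |(z (cidx e.A1 e.A2 ((e.R - X) % e.R))).re -
        2 ^ (6 * e.kap) * (∑ i ∈ range (X + 1), x i * y (X - i) : ℕ)| < 2 ^ (6 * e.kap - 1) := by
  have hR : (e.R : ℝ) ≤ 2 ^ e.b := by exact_mod_cast h.rb
  have ea : ∀ j, (((x (cinv e.A1 e.A2 j) : GaussianInt) * ⟨(e.R ^ 2 : ℕ), 0⟩ : GaussianInt) : ℂ) =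
      (x (cinv e.A1 e.A2 j) : ℂ) * (e.R : ℂ) ^ 2 := fun j => by
    rw [map_mul, map_natCast, GaussianInt.toComplex_def']; simp
  have na : ∀ j < e.R, ‖(((x (cinv e.A1 e.A2 j) : GaussianInt) * ⟨(e.R ^ 2 : ℕ), 0⟩ :
      GaussianInt) : ℂ)‖ ≤ 2 ^ e.b * (2 ^ e.b) ^ 2 := fun j _ => by
    rw [ea, norm_mul, norm_pow, Complex.norm_natCast, Complex.norm_natCast]
    have : (x (cinv e.A1 e.A2 j) : ℝ) ≤ 2 ^ e.b := by exact_mod_cast (hx _).le
    gcongr
  have nb : ∀ j < e.R, ‖(((y (cinv e.A1 e.A2 j) : GaussianInt)) : ℂ)‖ ≤ 2 ^ e.b := fun j _ => by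
    rw [map_natCast, Complex.norm_natCast]
    exact_mod_cast (hy _).le
  obtain ⟨z1, r1, e1⟩ := sF _ _ _ hl na
  obtain ⟨z2, r2, e2⟩ := sF _ _ _ hm nb
  have hδ : (2 : ℝ) ^ e.ex / 2 ^ e.pi * (2 ^ e.b * (2 ^ e.b) ^ 2 * 2 ^ e.b) ≤ 1 / 128 := by
    rw [div_mul_eq_mul_div, div_le_div_iff₀ (by positivity) (by norm_num), one_mul]
    calc _ = (2 : ℝ) ^ (e.ex + 4 * e.b + 7) := by ring
      _ ≤ _ := pow_le_pow_right₀ (by norm_num) h.prec
  have hδ1 : 3 * ((2 : ℝ) ^ e.ex / 2 ^ e.pi) ≤ 1 := by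
    have h1 : (1 : ℝ) ≤ 2 ^ e.b * (2 ^ e.b) ^ 2 * 2 ^ e.b := by
      rw [← pow_mul, ← pow_add, ← pow_add]; exact one_le_pow₀ (by norm_num)
    have h2 : (0 : ℝ) ≤ 2 ^ e.ex / 2 ^ e.pi := by positivity
    nlinarith
  have ch := fun z3 => err_chain (ps := e.p1 ++ e.p2) (qs := e.p3 ++ e.p4) (z3 := z3)
    (by positivity) (by positivity) hδ1 (by positivity) (by positivity) na nb e1 e2
  obtain ⟨z3, r3, e3⟩ := sF _ _ _ (smp _ _ _ _ r1 r2) fun i hi => by
    rw [map_mul]; exact (ch fun _ => 0).1 i hi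
  refine ⟨z3, r3, fun X hX => ⟨?_, ?_⟩⟩
  · calc ∑ i ∈ range (X + 1), x i * y (X - i) < ∑ i ∈ range (X + 1), 2 ^ e.b * 2 ^ e.b :=
          sum_lt_sum_of_nonempty (by simp) fun i _ => Nat.mul_lt_mul'' (hx _) (hy _)
      _ = (X + 1) * (2 ^ e.b * 2 ^ e.b) := by simp
      _ ≤ 2 ^ e.b * (2 ^ e.b * 2 ^ e.b) := Nat.mul_le_mul_right _ (le_trans hX h.rb)
      _ = _ := by ring
  · have hj : cidx e.A1 e.A2 ((e.R - X) % e.R) < e.R := cidx_lt h.A1_pos h.A2_pos _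
    have e4 := (ch fun i => z3 i).2 _ (by simpa only [map_mul] using e3 _ hj)
    have cv := dft2_conv h.r2.cop h.r1.cop h.pos12 h.pos34 h.cop
      (a := fun i => (x i : ℂ) * (e.R : ℂ) ^ 2) (b := fun i => (y i : ℂ))
      (fun i hi => by simp [hx0 i hi]) (fun i hi => by simp [hy0 i hi]) hX
    simp only [ea, map_natCast] at e4
    erw [cv] at e4
    have hR0 : (e.R : ℂ) ≠ 0 := by exact_mod_cast h.R_pos.ne'
    have e5 : ((((e.p1 ++ e.p2).prod * (e.p3 ++ e.p4).prod : ℕ) : ℂ) ^ 2)⁻¹ *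
        ∑ i ∈ range (X + 1), (x i : ℂ) * (e.R : ℂ) ^ 2 * y (X - i) =
        ((∑ i ∈ range (X + 1), x i * y (X - i) : ℕ) : ℂ) := by
      change (((e.R : ℕ) : ℂ) ^ 2)⁻¹ * _ = _
      push_cast
      rw [mul_sum]
      exact sum_congr rfl fun i _ => by field_simp
    rw [e5] at e4
    have e6 := (Complex.abs_re_le_norm _).trans e4
    have p1 : (2 : ℝ) ^ (6 * e.kap) = 2 * 2 ^ (6 * e.kap - 1) := by
      rw [← pow_succ']; congr 1; have := h.kap_pos hH; omega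
    have p2 : ((2 : ℝ) ^ (2 * e.kap)) ^ 3 = 2 ^ (6 * e.kap) := by rw [← pow_mul]; congr 1; ring
    rw [← Complex.ofReal_pow, p2, Complex.sub_re, Complex.re_ofReal_mul, Complex.natCast_re,
      GaussianInt.toComplex_def, Complex.add_re] at e6
    simp only [Complex.intCast_re, Complex.mul_re, Complex.I_re, mul_zero, Complex.intCast_im,
      Complex.I_im, zero_mul, sub_zero, add_zero] at e6
    have p3 : (0 : ℝ) < 2 ^ (6 * e.kap - 1) := by positivity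
    have : |((z3 (cidx e.A1 e.A2 ((e.R - X) % e.R))).re : ℝ) -
        2 ^ (6 * e.kap) * (∑ i ∈ range (X + 1), x i * y (X - i) : ℕ)| < 2 ^ (6 * e.kap - 1) := by
      refine e6.trans_lt ?_
      rw [p1]; nlinarith
    exact_mod_cast this

theorem mulCore : ∃ (H c : ℕ) (τ : ℕ → ℕ), 2 ≤ H ∧ Sub τ ∧ ∀ g, HasMul g → ∃ k0,
    C (fun x : OP × List Bool × List Bool => x.1.OK H c k0 ∧ x.2.1.length = x.2.2.length ∧
        x.2.1.length ≤ x.1.b * (x.1.R / 2))
      (fun x => x.1.R * x.1.P * (x.1.L ^ 2 * τ x.1.R.size + x.1.L * g x.1.P))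
      fun x => mulB x.2.1 x.2.2 := by
  obtain ⟨H, c, τ1, F, hH, hτ1, hF, sF⟩ := ft
  obtain ⟨τ2, hτ2, prep, hprep, sprep⟩ := mc_prep
  obtain ⟨τ3, hτ3, post, hpost, spost⟩ := mc_post
  obtain ⟨mp, hmp, smp⟩ := mulP
  obtain ⟨dg, hdg, sdg⟩ := diagP (ε := OP) (ent := fun x => (((x.1.R ^ 2 : ℕ) : ℤ), 0))
    (by fun_prop) (n := OP.R) (A := fun _ => 1) (P := OP.P) (by fun_prop) (by fun_prop)
    (by fun_prop) OP.pb_P
  refine ⟨H, c, fun n => τ1 n + τ2 n + τ3 n + 1,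
    hH, ((hτ1.add hτ2).add hτ3).add (Sub.const 1), fun g hg => ?_⟩
  obtain ⟨k1, c1⟩ := hF g hg
  obtain ⟨k2, c2⟩ := hprep.use
  obtain ⟨k3, c3⟩ := hpost.use
  obtain ⟨k4, c4⟩ := (hdg g hg).use
  obtain ⟨k5, c5⟩ := ((Op.id (D := fun e : OP => e.OK H c 0) (N := fun e => 2 * (e.R * (2 * e.P)))
    (B := OP.R) (T := fun e => e.R * e.P * g e.P) fun e h => by
      have := h.r1.pos; nlinarith).andThen (hmp g hg) (ψ := fun e => (e.R, e.P)) (by fun_prop)
    (N'' := fun e => e.R * (2 * e.P))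
    (fun e h => ⟨h.r1.pos, rfl, rfl, Nat.le_mul_of_pos_right _ (by have := h.r1.pos; omega)⟩)
    ⟨1, fun e h => by simp⟩).use
  obtain ⟨k6, c6⟩ := C.ptime (φ := OP.sp) (by unfold OP.sp; fun_prop)
  obtain ⟨k7, c7⟩ := C.ptime (φ := fun e : OP => e.R * e.b) (by fun_prop)
  refine ⟨k1 + k2 + k3 + k4 + k5 + k6 + k7, ?_⟩
  set D := fun x : OP × List Bool × List Bool =>
    x.1.OK H c (k1 + k2 + k3 + k4 + k5 + k6 + k7) ∧ x.2.1.length = x.2.2.length ∧
      x.2.1.length ≤ x.1.b * (x.1.R / 2) with hD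
  set T := fun x : OP × List Bool × List Bool => x.1.R * x.1.P *
    (x.1.L ^ 2 * (τ1 x.1.R.size + τ2 x.1.R.size + τ3 x.1.R.size + 1) + x.1.L * g x.1.P) with hT
  have ok : ∀ x, D x → x.1.OK H c 0 := fun x h => h.1.mono (by omega)
  have hle : ∀ x, D x → ∀ u, u ≤ x.1.L ^ 2 * (τ1 x.1.R.size + τ2 x.1.R.size + τ3 x.1.R.size + 1) +
      x.1.L * g x.1.P → x.1.R * x.1.P * u ≤ 1 * (T x + sz x) := fun x _ u hu => by
    have := Nat.mul_le_mul_left (x.1.R * x.1.P) hu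
    simp only [hT]; omega
  have hL : ∀ x, D x → ∀ u, u ≤ x.1.L ^ 2 * u ∧ u ≤ x.1.L * u := fun x h u =>
    ⟨Nat.le_mul_of_pos_left _ (Nat.pow_pos (h.1.L_pos hH)),
      Nat.le_mul_of_pos_left _ (h.1.L_pos hH)⟩
  have hbP : ∀ x, D x → x.1.R * x.1.b ≤ 1 * (T x + sz x) ∧ x.1.R ≤ 1 * (T x + sz x) :=
    fun x h => by
      have h1 := hle x h 1 (by have := (hL x h (τ1 x.1.R.size + τ2 x.1.R.size +
        τ3 x.1.R.size + 1)).1; omega)
      have h2 : x.1.R * x.1.b ≤ x.1.R * x.1.P :=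
        Nat.mul_le_mul_left _ (by have := h.1.wide; omega)
      have h3 : x.1.R ≤ x.1.R * x.1.b := Nat.le_mul_of_pos_right _ h.1.b_pos
      omega
  have csp : C D T fun x => x.1.sp := c6 (by fun_prop)
    ⟨1, fun x h => (h.1.mono (by omega)).big_R.trans (hbP x h).2⟩
  have cRb : C D T fun x => x.1.R * x.1.b := c7 (e := Prod.fst) (by fun_prop)
    ⟨1, fun x h => (h.1.mono (by omega)).big_R.trans (hbP x h).2⟩
  have lpad : ∀ n (u : List Bool), (padTo n u).length = n := fun n u => by simp [padTo]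
  have cprep : ∀ u : OP × List Bool × List Bool → List Bool, C D T u →
      C D T fun x => prep x.1.sp (padTo (x.1.R * x.1.b) (u x)) := fun u hu =>
    c2 csp (C.take cRb (hu.append (C.replicate cRb (C.const false)
        ⟨1, fun x h => (mul_one _).le.trans (hbP x h).1⟩)) ⟨1, fun x h => (hbP x h).1⟩)
      (fun x h => ⟨h.1.spD hH, lpad _ _, (h.1.mono (by omega)).sm⟩)
      ⟨1, fun x h => hle x h _ (by
        have := hτ2.1 (Nat.size_le_size h.1.A1_le)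
        have := (hL x h (τ1 x.1.R.size + τ2 x.1.R.size + τ3 x.1.R.size + 1)).1
        simp only [OP.sp]; omega)⟩
  have lprep : ∀ x, D x → ∀ u, (prep x.1.sp (padTo (x.1.R * x.1.b) u)).length =
      x.1.R * (2 * x.1.P) := fun x h u => hprep.len _ _ (h.1.spD hH) (lpad _ _)
  have cF : ∀ u : OP × List Bool × List Bool → List Bool, C D T u →
      (∀ x, D x → (u x).length = x.1.R * (2 * x.1.P)) → C D T fun x => F x.1 (u x) :=
    fun u hu hl => c1.call (f := fun x => (x.1, u x)) (by fun_prop)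
      (fun x h => ⟨h.1.mono (by omega), hl x h⟩) ⟨1, fun x h => hle x h _ (by
        simp only [mul_add]; omega)⟩
  have cdg : C D T fun x => dg x.1 (prep x.1.sp (padTo (x.1.R * x.1.b) x.2.1)) :=
    c4 (e := Prod.fst) (by fun_prop) (cprep _ (by fun_prop))
      (fun x h => ⟨⟨h.1.r1.pos, by omega⟩, by rw [lprep x h, mul_one], (h.1.mono (by omega)).big_R⟩)
      ⟨1, fun x h => by
        rw [mul_one]; exact hle x h _ (by have := (hL x h (g x.1.P)).2; omega)⟩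
  have sF' : ∀ e : OP, e.OK H c 0 → ∀ l z (Z : ℝ), Rep e.P e.R l z →
      (∀ i < e.R, ‖(z i : ℂ)‖ ≤ Z) → ∃ z', Rep e.P e.R (F e l) z' ∧ ∀ j < e.R,
        ‖(z' j : ℂ) - (2 ^ (2 * e.kap) : ℝ) *
          dft2 (e.p1 ++ e.p2) (e.p3 ++ e.p4) (fun i => z i) j‖ ≤
        2 ^ (2 * e.kap) * (3 * (2 ^ e.ex / 2 ^ e.pi)) * Z := fun e h l z Z h1 h2 => by
    obtain ⟨z', r, hz⟩ := sF e l z Z h h1 h2
    refine ⟨z', r, fun j hj => ?_⟩
    have := hz (j / e.A2) (Nat.div_lt_of_lt_mul (by rw [mul_comm]; exact hj)) (j % e.A2)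
      (Nat.mod_lt _ h.A2_pos)
    rw [Nat.div_add_mod'] at this
    push_cast
    exact this
  have rx : ∀ x, D x → Rep x.1.P x.1.R (dg x.1 (prep x.1.sp (padTo (x.1.R * x.1.b) x.2.1)))
      fun j => (val (blk x.1.b (cinv x.1.A1 x.1.A2 j) (padTo (x.1.R * x.1.b) x.2.1)) :
        GaussianInt) * ⟨(x.1.R ^ 2 : ℕ), 0⟩ := fun x h => by
    have := sdg x.1 _ _ h.1.r1.pos (by omega)
      (by rw [mul_one]; exact sprep x.1.sp _ (h.1.spD hH) (lpad _ x.2.1))
    rwa [mul_one] at this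
  have ry : ∀ x, D x → Rep x.1.P x.1.R (prep x.1.sp (padTo (x.1.R * x.1.b) x.2.2))
      fun j => (val (blk x.1.b (cinv x.1.A1 x.1.A2 j) (padTo (x.1.R * x.1.b) x.2.2)) :
        GaussianInt) := fun x h => sprep x.1.sp _ (h.1.spD hH) (lpad _ x.2.2)
  have lF : ∀ x, D x → ∀ l z, Rep x.1.P x.1.R l z →
      ∃ z', Rep x.1.P x.1.R (F x.1 l) z' := fun x h l z hz => by
    obtain ⟨z', r, -⟩ := sF' x.1 (ok x h) l z (∑ i ∈ range x.1.R, ‖(z i : ℂ)‖) hz fun i hi =>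
      single_le_sum (f := fun i => ‖(z i : ℂ)‖) (fun _ _ => norm_nonneg _) (mem_range.2 hi)
    exact ⟨z', r⟩
  have fin := fun x (h : D x) => mc_round (ok x h) hH
    (x := fun i => val (blk x.1.b i (padTo (x.1.R * x.1.b) x.2.1)))
    (y := fun i => val (blk x.1.b i (padTo (x.1.R * x.1.b) x.2.2)))
    (fun i => val_blk_lt _ _ _) (fun i => val_blk_lt _ _ _) (fun i => padTo_digit h.2.2)
    (fun i => padTo_digit (h.2.1 ▸ h.2.2)) (sF' x.1 (ok x h))
    (fun l m z w => smp x.1.R x.1.P l m z w h.1.r1.pos) (rx x h) (ry x h)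
  have cm : C D T fun x => mp (x.1.R, x.1.P)
      (F x.1 (dg x.1 (prep x.1.sp (padTo (x.1.R * x.1.b) x.2.1))) ++
        F x.1 (prep x.1.sp (padTo (x.1.R * x.1.b) x.2.2))) :=
    c5 (e := Prod.fst) (by fun_prop) ((cF _ cdg fun x h => (rx x h).1).append
      (cF _ (cprep _ (by fun_prop)) fun x h => (ry x h).1))
      (fun x h => ⟨ok x h, by
        obtain ⟨_, r1⟩ := lF x h _ _ (rx x h)
        obtain ⟨_, r2⟩ := lF x h _ _ (ry x h)
        rw [List.length_append, r1.1, r2.1, ← two_mul], (h.1.mono (by omega)).big_R⟩)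
      ⟨1, fun x h => hle x h _ (by have := (hL x h (g x.1.P)).2; omega)⟩
  have call := c3 csp (cF _ cm fun x h => by
      obtain ⟨_, r1⟩ := lF x h _ _ (rx x h)
      obtain ⟨_, r2⟩ := lF x h _ _ (ry x h)
      exact (smp _ _ _ _ _ _ h.1.r1.pos r1 r2).1)
    (fun x h => ⟨h.1.spD hH, (fin x h).choose_spec.1.1, (h.1.mono (by omega)).sm⟩)
    ⟨1, fun x h => hle x h _ (by
      have := hτ3.1 (Nat.size_le_size h.1.A1_le)
      have := (hL x h (τ1 x.1.R.size + τ2 x.1.R.size + τ3 x.1.R.size + 1)).1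
      simp only [OP.sp]; omega)⟩
  refine (C.take_len call (u := fun x => x.2.1 ++ x.2.2) (by fun_prop)).congr fun x h => ?_
  obtain ⟨z, r, hz⟩ := fin x h
  have h2 : x.1.b * (x.1.R / 2) * 2 ≤ x.1.R * x.1.b := by
    rw [mul_assoc, mul_comm]; exact Nat.mul_le_mul_right _ (Nat.div_mul_le_self _ _)
  have hx := h.2.2
  have hy := h.2.1
  have ev := val_mul_eq_sum (lpad (x.1.R * x.1.b) x.2.1) (lpad (x.1.R * x.1.b) x.2.2)
    (fun i => padTo_digit h.2.2) (fun i => padTo_digit (h.2.1 ▸ h.2.2))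
  have ev' : val (padTo (x.1.R * x.1.b) x.2.1) * val (padTo (x.1.R * x.1.b) x.2.2) =
      val x.2.1 * val x.2.2 := by
    rw [padTo_eq (by omega), padTo_eq (by omega), val_append, val_append, val_replicate_false,
      val_replicate_false]; simp
  have hV : val x.2.1 * val x.2.2 < 2 ^ (x.1.R * x.1.b + 2 * x.1.b) :=
    (Nat.mul_lt_mul'' (val_lt _) (val_lt _)).trans_le (by
      rw [← pow_add]; exact Nat.pow_le_pow_right (by omega) (by omega))
  rw [ev'] at ev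
  have := spost x.1.A1 x.1.A2 x.1.P x.1.b x.1.kap _ z _ (h.1.spD hH) r hz (ev ▸ hV)
  erw [← ev] at this
  refine (congrArg (List.take _) this).trans ?_
  rw [List.length_append, mulB]
  exact take_tob _ (by change _ ≤ x.1.R * x.1.b + _; omega)

end Vale.Agent.P338
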