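import Mathlib

/-! P338: abstract wire programs (linear combinations and frame moves) and the local shears. -/

namespace Vale.Agent.P338.Net

open Finset

/-- Coefficients `0, 1, -1, θ, -θ`. -/
inductive Cf where
  | z | p | n | hp | hn
  deriving DecidableEq

/-- Negation of a coefficient. -/
def Cf.neg : Cf → Cf
  | .z => .z | .p => .n | .n => .p | .hp => .hn | .hn => .hp

/-- Value of a coefficient. -/
def Cf.ev {K : Type} [CommRing K] (θ : K) : Cf → K
  | .z => 0 | .p => 1 | .n => -1 | .hp => θ | .hn => -θ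

@[simp] theorem Cf.ev_neg {K : Type} [CommRing K] (θ : K) (c : Cf) : c.neg.ev θ = -c.ev θ := by
  cases c <;> simp [Cf.neg, Cf.ev]

@[simp] theorem Cf.ev_p {K : Type} [CommRing K] (θ : K) : Cf.p.ev θ = 1 := rfl
@[simp] theorem Cf.ev_n {K : Type} [CommRing K] (θ : K) : Cf.n.ev θ = -1 := rfl

/-- Instructions: `lin w w' c` adds `c` times wire `w'` to wire `w`; `mov w D r` applies the frame
operator of `D` to wire `w` at the price of `r` passes. -/
inductive Ins (W Λ : Type) where
  | lin (w w' : W) (c : Cf)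
  | mov (w : W) (D : Λ) (r : ℕ)

/-- A frame system. -/
structure Model (Λ : Type) [AddCommGroup Λ] : Type 1 where
  K : Type
  V : Type
  [cr : CommRing K]
  [ag : AddCommGroup V]
  [md : Module K V]
  θ : K
  O : Λ → V →ₗ[K] V
  O_add : ∀ M N v, O (M + N) v = O M (O N v)
  O_zero : ∀ v, O 0 v = v

attribute [instance] Model.cr Model.ag Model.md

variable {W W' Λ : Type} [AddCommGroup Λ]

/-- Number of passes of an instruction. -/
def Ins.cost : Ins W Λ → ℕ
  | .lin _ _ _ => 0
  | .mov _ _ r => r

/-- Well-formed instructions. -/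
def Ins.WF (Rk : Λ → ℕ → Prop) : Ins W Λ → Prop
  | .lin w w' _ => w ≠ w'
  | .mov _ D r => Rk D r

/-- Renaming of wires. -/
def Ins.map (e : W → W') : Ins W Λ → Ins W' Λ
  | .lin w w' c => .lin (e w) (e w') c
  | .mov w D r => .mov (e w) D r

/-- One step. -/
def Ins.step [DecidableEq W] (M : Model Λ) (ξ : W → M.V) : Ins W Λ → W → M.V
  | .lin w w' c => Function.update ξ w (ξ w + c.ev M.θ • ξ w')
  | .mov w D _ => Function.update ξ w (M.O D (ξ w))

/-- Running a program. -/
def run [DecidableEq W] (M : Model Λ) (p : List (Ins W Λ)) (ξ : W → M.V) : W → M.V :=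
  p.foldl (Ins.step M) ξ

variable [DecidableEq W] [DecidableEq W'] {I : Type 1} {M : I → Model Λ} (Rk : Λ → ℕ → Prop)

/-- One program with at most `r` passes transforms `S` into `S'` in all instances. -/
def Can (r : ℕ) (S S' : ∀ i, W → (M i).V) : Prop :=
  ∃ p : List (Ins W Λ), (∀ a ∈ p, a.WF Rk) ∧ (p.map Ins.cost).sum ≤ r ∧
    ∀ i, run (M i) p (S i) = S' i

variable {Rk}

theorem Can.refl (S : ∀ i, W → (M i).V) : Can Rk 0 S S := ⟨[], by simp, by simp, fun _ => rfl⟩

theorem Can.trans {r r' : ℕ} {S S' S'' : ∀ i, W → (M i).V} (h : Can Rk r S S')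
    (h' : Can Rk r' S' S'') : Can Rk (r + r') S S'' := by
  obtain ⟨p, h1, h2, h3⟩ := h
  obtain ⟨p', h1', h2', h3'⟩ := h'
  refine ⟨p ++ p', fun a ha => (List.mem_append.1 ha).elim (h1 a) (h1' a), by
    simpa using add_le_add h2 h2', fun i => ?_⟩
  rw [← h3', ← h3, run, List.foldl_append]; rfl

theorem Can.mono {r r' : ℕ} {S S' : ∀ i, W → (M i).V} (h : Can Rk r S S') (hr : r ≤ r') :
    Can Rk r' S S' := by
  obtain ⟨p, h1, h2, h3⟩ := h
  exact ⟨p, h1, h2.trans hr, h3⟩

theorem Can.chain {J : Type} [DecidableEq J] (r : J → ℕ) (S : Finset J → ∀ i, W → (M i).V)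
    (h : ∀ s j, j ∉ s → Can Rk (r j) (S s) (S (insert j s))) (s : Finset J) :
    Can Rk (∑ j ∈ s, r j) (S ∅) (S s) := by
  induction s using Finset.induction_on with
  | empty => simpa using Can.refl _
  | insert j s hj ih => rw [sum_insert hj, add_comm]; exact ih.trans (h s j hj)

theorem Can.mov [Fintype W] {S S' : ∀ i, W → (M i).V} (D : W → Λ) (r : W → ℕ)
    (h : ∀ w, Rk (D w) (r w)) (hS : ∀ i w, S' i w = (M i).O (D w) (S i w)) :
    Can Rk (∑ w, r w) S S' := by
  have := Can.chain (Rk := Rk) (M := M) r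
    (fun s i w => if w ∈ s then (M i).O (D w) (S i w) else S i w) (fun s j hj =>
      ⟨[.mov j (D j) (r j)], by simpa [Ins.WF] using h j, by simp [Ins.cost], fun i => by
        funext w
        by_cases hw : w = j
        · subst hw; simp [run, Ins.step, hj]
        · simp [run, Ins.step, hw]⟩) univ
  simp only [notMem_empty, if_false, mem_univ, if_true, ← hS] at this
  exact this

theorem Can.lin {J : Type} [Fintype J] {S S' : ∀ i, W → (M i).V} (tgt src : J → W) (c : J → Cf)
    (hd : ∀ j j', tgt j ≠ src j')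
    (hS : ∀ i w, S' i w = S i w + ∑ j, if tgt j = w then (c j).ev (M i).θ • S i (src j) else 0) :
    Can Rk 0 S S' := by
  classical
  have := Can.chain (Rk := Rk) (M := M) (fun _ : J => 0)
    (fun s i w => S i w + ∑ j ∈ s, if tgt j = w then (c j).ev (M i).θ • S i (src j) else 0)
    (fun s j hj => ⟨[.lin (tgt j) (src j) (c j)], by simpa [Ins.WF] using hd j j,
      by simp [Ins.cost], fun i => by
        funext w
        simp only [run, List.foldl_cons, List.foldl_nil, Ins.step, sum_insert hj]
        by_cases hw : w = tgt j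
        · subst hw
          simp only [Function.update_self, if_true, fun j' => hd j' j, if_false, sum_const_zero,
            add_zero]
          abel
        · simp [hw, Ne.symm hw]⟩) univ
  simp only [sum_empty, add_zero, ← hS, sum_const_zero] at this
  exact this

theorem run_map (M : Model Λ) {e : W → W'} (he : Function.Injective e) (p : List (Ins W Λ)) :
    ∀ ξ : W' → M.V, (∀ w, run M (p.map (Ins.map e)) ξ (e w) = run M p (fun w => ξ (e w)) w) ∧
      ∀ w, (∀ u, e u ≠ w) → run M (p.map (Ins.map e)) ξ w = ξ w := by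
  induction p with
  | nil => exact fun ξ => ⟨fun _ => rfl, fun _ _ => rfl⟩
  | cons a p ih =>
    intro ξ
    have key : (fun w => Ins.step M ξ (a.map e) (e w)) = Ins.step M (fun w => ξ (e w)) a := by
      funext w
      cases a <;> simp [Ins.map, Ins.step, Function.update_apply, he.eq_iff]
    obtain ⟨h1, h2⟩ := ih (Ins.step M ξ (a.map e))
    refine ⟨fun w => (h1 w).trans (by rw [key]; rfl), fun w hw => (h2 w hw).trans ?_⟩
    cases a <;> simp [Ins.map, Ins.step, Function.update_apply, Ne.symm (hw _)]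

theorem Can.emb {r : ℕ} {e : W → W'} (he : Function.Injective e) {S S' : ∀ i, W' → (M i).V}
    (h : Can Rk r (fun i w => S i (e w)) (fun i w => S' i (e w)))
    (ho : ∀ i w, (∀ u, e u ≠ w) → S' i w = S i w) : Can Rk r S S' := by
  obtain ⟨p, h1, h2, h3⟩ := h
  refine ⟨p.map (Ins.map e), fun a ha => ?_, ?_, fun i => funext fun w => ?_⟩
  · obtain ⟨b, hb, rfl⟩ := List.mem_map.1 ha
    have := h1 b hb
    cases b with
    | lin w w' c => exact fun h => this (he h)
    | mov w D r => exact this
  · rw [List.map_map]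
    refine le_of_eq_of_le (congrArg List.sum (List.map_congr_left fun a _ => ?_)) h2
    cases a <;> rfl
  · by_cases hw : ∃ u, e u = w
    · obtain ⟨u, rfl⟩ := hw
      rw [(run_map (M i) he p (S i)).1, h3]
    · push Not at hw
      rw [(run_map (M i) he p (S i)).2 w hw, ho i w hw]

theorem Can.par {J : Type} [Fintype J] {r : ℕ} (e : J → W → W')
    (he : ∀ j u j' u', e j u = e j' u' → j = j' ∧ u = u') {S S' : ∀ i, W' → (M i).V}
    (h : ∀ j, Can Rk r (fun i w => S i (e j w)) (fun i w => S' i (e j w)))
    (ho : ∀ i w, (∀ j u, e j u ≠ w) → S' i w = S i w) :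
    Can Rk (Fintype.card J * r) S S' := by
  classical
  have := Can.chain (Rk := Rk) (M := M) (fun _ : J => r)
    (fun s i w => if ∃ j ∈ s, ∃ u, e j u = w then S' i w else S i w) (fun s j hj => by
      refine Can.emb (e := e j) (fun u u' huu => (he _ _ _ _ huu).2) ?_ fun i w hw => ?_
      · have e1 : ∀ w, ¬ ∃ j' ∈ s, ∃ u, e j' u = e j w := by
          rintro w ⟨j', hj', u, hu⟩
          exact hj ((he _ _ _ _ hu).1 ▸ hj')
        have e2 : ∀ w, ∃ j' ∈ insert j s, ∃ u, e j' u = e j w :=
          fun w => ⟨j, mem_insert_self _ _, w, rfl⟩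
        simp only [e1, e2, if_true, if_false]
        exact h j
      · simp [hw]) univ
  simp only [notMem_empty, false_and, exists_false, if_false, mem_univ, true_and, sum_const,
    card_univ, smul_eq_mul] at this
  have e : (fun i w => if ∃ j u, e j u = w then S' i w else S i w) = S' := by
    funext i w
    split_ifs with hw
    · rfl
    · push Not at hw
      exact (ho i w hw).symm
  rwa [e] at this

end Vale.Agent.P338.Net
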