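import Vale.Agent.P338.NetA

/-! P338: the two local shear networks. -/

namespace Vale.Agent.P338.Net

open Finset

set_option linter.unusedSectionVars false

/-- Combinatorial data of a local network. -/
structure Loc (Tr Nb Zi : Type) where
  f1 : Nb → Tr
  f2 : Nb → Tr
  sc : Tr → Zi → Cf
  ga : Zi → Tr → Cf
  ka : Nb → Cf

variable {Tr Nb Zi : Type} [Fintype Tr] [Fintype Nb] [Fintype Zi] [DecidableEq Tr]
  [DecidableEq Nb] [DecidableEq Zi] {Λ : Type} [AddCommGroup Λ]

/-- The identity matrix is the low rank part plus the corrections. -/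
def Loc.Ok (L : Loc Tr Nb Zi) {K : Type} [CommRing K] (θ : K) : Prop :=
  ∀ S T, ∑ i, (L.sc S i).ev θ * (L.ga i T).ev θ +
    ∑ n, (if L.f1 n = S ∧ L.f2 n = T then (L.ka n).ev θ else 0) = if S = T then 1 else 0

/-- Wires of a local network. -/
abbrev W1 (Tr Nb Zi : Type) := (Tr ⊕ Tr) ⊕ (Nb ⊕ Zi)

/-- A state of a local network. -/
def st {V : Type} (x y : Tr → V) (a : Nb → V) (z : Zi → V) : W1 Tr Nb Zi → V :=
  Sum.elim (Sum.elim x y) (Sum.elim a z)

/-- Number of passes of a local network. -/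
def locR (Tr Nb Zi : Type) [Fintype Tr] [Fintype Nb] [Fintype Zi] (h : ℕ) : ℕ :=
  2 * Fintype.card Tr * (h - 1) + Fintype.card Nb * h + Fintype.card Zi * h

variable {I : Type 1} {M : I → Model Λ} {Rk : Λ → ℕ → Prop}

theorem Can.stmov {x y x' y' : ∀ i, Tr → (M i).V} {a a' : ∀ i, Nb → (M i).V}
    {z z' : ∀ i, Zi → (M i).V} (Dx Dy : Tr → Λ) (Da : Nb → Λ) (Dz : Zi → Λ) (rx ry ra rz : ℕ)
    (h1 : ∀ T, Rk (Dx T) rx) (h2 : ∀ T, Rk (Dy T) ry) (h3 : ∀ n, Rk (Da n) ra)
    (h4 : ∀ j, Rk (Dz j) rz) (e1 : ∀ i T, x' i T = (M i).O (Dx T) (x i T))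
    (e2 : ∀ i T, y' i T = (M i).O (Dy T) (y i T)) (e3 : ∀ i n, a' i n = (M i).O (Da n) (a i n))
    (e4 : ∀ i j, z' i j = (M i).O (Dz j) (z i j)) :
    Can Rk (Fintype.card Tr * rx + Fintype.card Tr * ry + Fintype.card Nb * ra +
      Fintype.card Zi * rz) (fun i => st (x i) (y i) (a i) (z i))
      (fun i => st (x' i) (y' i) (a' i) (z' i)) := by
  have := Can.mov (Rk := Rk) (S := fun i => st (x i) (y i) (a i) (z i))
    (S' := fun i => st (x' i) (y' i) (a' i) (z' i)) (st Dx Dy Da Dz)
    (st (fun _ => rx) (fun _ => ry) (fun _ => ra) fun _ => rz)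
    (by rintro ((T | T) | (n | j)); exacts [h1 T, h2 T, h3 n, h4 j])
    (by rintro i ((T | T) | (n | j)); exacts [e1 i T, e2 i T, e3 i n, e4 i j])
  refine this.mono (le_of_eq ?_)
  simp [st, Fintype.sum_sum_type, add_assoc]

theorem Model.O_mov (M : Model Λ) {D A B : Λ} (h : B = D + A) (v : M.V) :
    M.O B v = M.O D (M.O A v) := by rw [h, M.O_add]

theorem sum_ite_smul {K V J : Type} [CommRing K] [AddCommGroup V] [Module K V] [Fintype J]
    (f : V →ₗ[K] V) (p : J → Prop) [DecidablePred p] (c : J → K) (v : J → V) :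
    f (∑ j, if p j then c j • v j else 0) = ∑ j, if p j then c j • f (v j) else 0 := by
  rw [map_sum]
  refine sum_congr rfl fun j _ => ?_
  split_ifs <;> simp

section

variable (L : Loc Tr Nb Zi) (hL : ∀ i, L.Ok (M i).θ) {h : ℕ} (hh : 2 ≤ h) (B E : Λ) (P : Tr → Λ)
  (h0 : Rk 0 0) (hP : ∀ T, Rk (P T) 1) (hQ : ∀ T, Rk (E - P T) (h - 1))
  (hQP : ∀ n, Rk (E - P (L.f1 n) - P (L.f2 n)) (h - 2)) (hE : Rk E h) (hE' : Rk (-E) h)
  (X Y : ∀ i, Tr → (M i).V) (A : ∀ i, Nb → (M i).V)

include hL in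
theorem Loc.key (i : I) (S : Tr) (X : Tr → (M i).V) :
    ∑ j, (L.sc S j).ev (M i).θ • ∑ T, (L.ga j T).ev (M i).θ • X T +
      ∑ n, (if L.f1 n = S then (L.ka n).ev (M i).θ • X (L.f2 n) else 0) = X S := by
  have e : X S = ∑ T, (if S = T then (1 : (M i).K) else 0) • X T := by simp
  rw [e]
  simp only [← hL i S, add_smul, sum_add_distrib, Finset.sum_smul, Finset.smul_sum, smul_smul]
  rw [sum_comm]
  congr 1
  rw [sum_comm]
  refine sum_congr rfl fun n _ => ?_
  by_cases h1 : L.f1 n = S <;> simp [h1, ite_smul]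

include hL in
theorem Loc.key' (i : I) (T : Tr) (Y : Tr → (M i).V) :
    ∑ j, (L.ga j T).ev (M i).θ • ∑ S, (L.sc S j).ev (M i).θ • Y S +
      ∑ n, (if L.f2 n = T then (L.ka n).ev (M i).θ • Y (L.f1 n) else 0) = Y T := by
  have e : Y T = ∑ S, (if S = T then (1 : (M i).K) else 0) • Y S := by simp
  rw [e]
  simp only [← fun S => hL i S T, add_smul, sum_add_distrib, Finset.sum_smul, Finset.smul_sum,
    smul_smul, mul_comm ((L.ga _ T).ev _)]
  rw [sum_comm]
  congr 1
  rw [sum_comm]
  refine sum_congr rfl fun n _ => ?_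
  by_cases h1 : L.f2 n = T <;> simp [h1, ite_smul]

include hL hh h0 hP hQ hQP hE' in
theorem shear1 : ∃ z : ∀ i, Zi → (M i).V, Can Rk (locR Tr Nb Zi h)
    (fun i => st (fun T => (M i).O (B + P T) (X i T)) (fun S => (M i).O B (Y i S))
      (fun n => (M i).O B (A i n)) fun _ => 0)
    (fun i => st (fun T => (M i).O (B + E) (X i T))
      (fun S => (M i).O (B + (E - P S)) (Y i S + X i S))
      (fun n => (M i).O (B + E) (A i n)) (z i)) := by
  let Y1 := fun i S => Y i S + ∑ n, if L.f1 n = S then (L.ka n).neg.ev (M i).θ • A i n else 0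
  let A1 := fun i n => A i n + X i (L.f2 n)
  let Z1 := fun i j => ∑ T, (L.ga j T).ev (M i).θ • X i T
  let Y2 := fun i S => Y1 i S + ∑ j, (L.sc S j).ev (M i).θ • Z1 i j
  have hY : ∀ i S, Y i S + X i S =
      Y2 i S + ∑ n, if L.f1 n = S then (L.ka n).ev (M i).θ • A1 i n else 0 := fun i S => by
    rw [← L.key hL i S (X i)]
    have : ∀ n, (if L.f1 n = S then (L.ka n).ev (M i).θ • A1 i n else 0) =
        (if L.f1 n = S then (L.ka n).ev (M i).θ • X i (L.f2 n) else 0) -
          if L.f1 n = S then (L.ka n).neg.ev (M i).θ • A i n else 0 := fun n => by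
      split_ifs <;> simp [A1, add_comm]
    simp only [this, sum_sub_distrib, Y2, Y1, Z1]
    abel
  refine ⟨fun i j => (M i).O B (Z1 i j), ?_⟩
  have s1 : Can Rk 0 _ (fun i => st (fun T => (M i).O (B + P T) (X i T))
      (fun S => (M i).O B (Y1 i S)) (fun n => (M i).O B (A i n)) fun _ : Zi => 0) :=
    Can.lin (S := fun i => st (fun T => (M i).O (B + P T) (X i T)) (fun S => (M i).O B (Y i S))
      (fun n => (M i).O B (A i n)) fun _ => 0) (fun n => .inl (.inr (L.f1 n)))
      (fun n => .inr (.inl n)) (fun n => (L.ka n).neg) (by simp) (by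
        rintro i ((T | T) | (n | j)) <;> simp [st, Y1, apply_ite ((M i).O B)])
  have s2 := Can.stmov (Rk := Rk) (x := fun i T => (M i).O (B + P T) (X i T))
    (y := fun i S => (M i).O B (Y1 i S)) (a := fun i n => (M i).O B (A i n)) (z := fun i _ => 0)
    (x' := fun i T => (M i).O (B + P T) (X i T)) (y' := fun i S => (M i).O B (Y1 i S))
    (a' := fun i n => (M i).O (B + P (L.f2 n)) (A i n)) (z' := fun i (_ : Zi) => 0)
    0 0 (fun n => P (L.f2 n)) 0 0 0 1 0 (fun _ => h0) (fun _ => h0) (fun _ => hP _) (fun _ => h0)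
    (by simp [Model.O_zero]) (by simp [Model.O_zero])
    (fun i n => (M i).O_mov (by abel) _) (by simp)
  have s3 : Can Rk 0 _ (fun i => st (fun T => (M i).O (B + P T) (X i T))
      (fun S => (M i).O B (Y1 i S)) (fun n => (M i).O (B + P (L.f2 n)) (A1 i n))
      fun _ : Zi => 0) :=
    Can.lin (S := fun i => st (fun T => (M i).O (B + P T) (X i T)) (fun S => (M i).O B (Y1 i S))
      (fun n => (M i).O (B + P (L.f2 n)) (A i n)) fun _ => 0) (fun n => .inr (.inl n))
      (fun n => .inl (.inl (L.f2 n))) (fun _ => .p) (by simp) (by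
        rintro i ((T | T) | (n | j)) <;> simp [st, A1])
  have s4 := Can.stmov (Rk := Rk) (x := fun i T => (M i).O (B + P T) (X i T))
    (y := fun i S => (M i).O B (Y1 i S)) (a := fun i n => (M i).O (B + P (L.f2 n)) (A1 i n))
    (z := fun i _ => 0)
    (x' := fun i T => (M i).O (B + E) (X i T)) (y' := fun i S => (M i).O B (Y1 i S))
    (a' := fun i n => (M i).O (B + (E - P (L.f1 n))) (A1 i n)) (z' := fun i (_ : Zi) => 0)
    (fun T => E - P T) 0 (fun n => E - P (L.f1 n) - P (L.f2 n)) 0 (h - 1) 0 (h - 2) 0 hQ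
    (fun _ => h0) hQP (fun _ => h0) (fun i n => (M i).O_mov (by abel) _)
    (by simp [Model.O_zero]) (fun i n => (M i).O_mov (by abel) _) (by simp)
  have s5 : Can Rk 0 _ (fun i => st (fun T => (M i).O (B + E) (X i T))
      (fun S => (M i).O B (Y1 i S)) (fun n => (M i).O (B + (E - P (L.f1 n))) (A1 i n))
      fun j => (M i).O (B + E) (Z1 i j)) :=
    Can.lin (S := fun i => st (fun T => (M i).O (B + E) (X i T)) (fun S => (M i).O B (Y1 i S))
      (fun n => (M i).O (B + (E - P (L.f1 n))) (A1 i n)) fun _ => 0)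
      (fun q : Zi × Tr => .inr (.inr q.1)) (fun q => .inl (.inl q.2)) (fun q => L.ga q.1 q.2)
      (by simp) (by
        rintro i ((T | T) | (n | j)) <;> simp [st, Z1, Fintype.sum_prod_type])
  have s6 := Can.stmov (Rk := Rk) (x := fun i T => (M i).O (B + E) (X i T))
    (y := fun i S => (M i).O B (Y1 i S))
    (a := fun i n => (M i).O (B + (E - P (L.f1 n))) (A1 i n))
    (z := fun i j => (M i).O (B + E) (Z1 i j))
    (x' := fun i T => (M i).O (B + E) (X i T)) (y' := fun i S => (M i).O B (Y1 i S))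
    (a' := fun i n => (M i).O (B + (E - P (L.f1 n))) (A1 i n))
    (z' := fun i j => (M i).O B (Z1 i j))
    0 0 0 (fun _ => -E) 0 0 0 h (fun _ => h0) (fun _ => h0) (fun _ => h0) (fun _ => hE')
    (by simp [Model.O_zero]) (by simp [Model.O_zero]) (by simp [Model.O_zero])
    (fun i n => (M i).O_mov (by abel) _)
  have s7 : Can Rk 0 _ (fun i => st (fun T => (M i).O (B + E) (X i T))
      (fun S => (M i).O B (Y2 i S)) (fun n => (M i).O (B + (E - P (L.f1 n))) (A1 i n))
      fun j => (M i).O B (Z1 i j)) :=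
    Can.lin (S := fun i => st (fun T => (M i).O (B + E) (X i T)) (fun S => (M i).O B (Y1 i S))
      (fun n => (M i).O (B + (E - P (L.f1 n))) (A1 i n)) fun j => (M i).O B (Z1 i j))
      (fun q : Tr × Zi => .inl (.inr q.1)) (fun q => .inr (.inr q.2)) (fun q => L.sc q.1 q.2)
      (by simp) (by
        rintro i ((T | T) | (n | j)) <;> simp [st, Y2, Fintype.sum_prod_type])
  have s8 := Can.stmov (Rk := Rk) (x := fun i T => (M i).O (B + E) (X i T))
    (y := fun i S => (M i).O B (Y2 i S))
    (a := fun i n => (M i).O (B + (E - P (L.f1 n))) (A1 i n))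
    (z := fun i j => (M i).O B (Z1 i j))
    (x' := fun i T => (M i).O (B + E) (X i T))
    (y' := fun i S => (M i).O (B + (E - P S)) (Y2 i S))
    (a' := fun i n => (M i).O (B + (E - P (L.f1 n))) (A1 i n))
    (z' := fun i j => (M i).O B (Z1 i j))
    0 (fun S => E - P S) 0 0 0 (h - 1) 0 0 (fun _ => h0) hQ (fun _ => h0) (fun _ => h0)
    (by simp [Model.O_zero]) (fun i n => (M i).O_mov (by abel) _) (by simp [Model.O_zero])
    (by simp [Model.O_zero])
  have s9 : Can Rk 0 _ (fun i => st (fun T => (M i).O (B + E) (X i T))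
      (fun S => (M i).O (B + (E - P S)) (Y i S + X i S))
      (fun n => (M i).O (B + (E - P (L.f1 n))) (A1 i n)) fun j => (M i).O B (Z1 i j)) :=
    Can.lin (S := fun i => st (fun T => (M i).O (B + E) (X i T))
      (fun S => (M i).O (B + (E - P S)) (Y2 i S))
      (fun n => (M i).O (B + (E - P (L.f1 n))) (A1 i n)) fun j => (M i).O B (Z1 i j))
      (fun n => .inl (.inr (L.f1 n))) (fun n => .inr (.inl n)) L.ka (by simp) (by
        rintro i ((T | T) | (n | j))
        · simp [st]
        · simp only [st, Sum.elim_inl, Sum.elim_inr, hY, map_add, sum_ite_smul, Sum.inl.injEq,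
            Sum.inr.injEq]
          congr 1
          refine sum_congr rfl fun n _ => ?_
          split_ifs with hn
          · rw [hn]
          · rfl
        · simp [st]
        · simp [st])
  have s10 := Can.stmov (Rk := Rk) (x := fun i T => (M i).O (B + E) (X i T))
    (y := fun i S => (M i).O (B + (E - P S)) (Y i S + X i S))
    (a := fun i n => (M i).O (B + (E - P (L.f1 n))) (A1 i n))
    (z := fun i j => (M i).O B (Z1 i j))
    (x' := fun i T => (M i).O (B + E) (X i T))
    (y' := fun i S => (M i).O (B + (E - P S)) (Y i S + X i S))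
    (a' := fun i n => (M i).O (B + E) (A1 i n)) (z' := fun i j => (M i).O B (Z1 i j))
    0 0 (fun n => P (L.f1 n)) 0 0 0 1 0 (fun _ => h0) (fun _ => h0) (fun _ => hP _) (fun _ => h0)
    (by simp [Model.O_zero]) (by simp [Model.O_zero]) (fun i n => (M i).O_mov (by abel) _)
    (by simp [Model.O_zero])
  have s11 : Can Rk 0 _ (fun i => st (fun T => (M i).O (B + E) (X i T))
      (fun S => (M i).O (B + (E - P S)) (Y i S + X i S))
      (fun n => (M i).O (B + E) (A i n)) fun j => (M i).O B (Z1 i j)) :=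
    Can.lin (S := fun i => st (fun T => (M i).O (B + E) (X i T))
      (fun S => (M i).O (B + (E - P S)) (Y i S + X i S))
      (fun n => (M i).O (B + E) (A1 i n)) fun j => (M i).O B (Z1 i j))
      (fun n => .inr (.inl n)) (fun n => .inl (.inl (L.f2 n))) (fun _ => .n) (by simp) (by
        rintro i ((T | T) | (n | j)) <;> simp [st, A1])
  refine ((((((((((s1.trans s2).trans s3).trans s4).trans s5).trans s6).trans s7).trans s8).trans
    s9).trans s10).trans s11).mono (le_of_eq ?_)
  obtain ⟨k, rfl⟩ : ∃ k, h = k + 2 := ⟨h - 2, by omega⟩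
  simp only [locR, Nat.add_sub_cancel, show k + 2 - 1 = k + 1 from rfl]
  ring

include hL hh h0 hP hQ hQP hE in
theorem shear2 : ∃ z : ∀ i, Zi → (M i).V, Can Rk (locR Tr Nb Zi h)
    (fun i => st (fun T => (M i).O (B + P T) (X i T)) (fun S => (M i).O B (Y i S))
      (fun n => (M i).O B (A i n)) fun _ => 0)
    (fun i => st (fun T => (M i).O (B + E) (X i T - Y i T))
      (fun S => (M i).O (B + (E - P S)) (Y i S))
      (fun n => (M i).O (B + E) (A i n)) (z i)) := by
  let A1 := fun i n => A i n + Y i (L.f1 n)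
  let Z1 := fun i j => ∑ S, (L.sc S j).ev (M i).θ • Y i S
  let X1 := fun i T => X i T + ∑ n, if L.f2 n = T then (L.ka n).neg.ev (M i).θ • A1 i n else 0
  let X2 := fun i T => X1 i T + ∑ j, (L.ga j T).neg.ev (M i).θ • Z1 i j
  have hX : ∀ i T, X i T - Y i T =
      X2 i T + ∑ n, if L.f2 n = T then (L.ka n).ev (M i).θ • A i n else 0 := fun i T => by
    rw [← L.key' hL i T (Y i)]
    have : ∀ n, (if L.f2 n = T then (L.ka n).neg.ev (M i).θ • A1 i n else 0) =
        -(if L.f2 n = T then (L.ka n).ev (M i).θ • Y i (L.f1 n) else 0) -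
          if L.f2 n = T then (L.ka n).ev (M i).θ • A i n else 0 := fun n => by
      split_ifs <;> simp [A1, sub_eq_add_neg, add_comm]
    simp only [this, sum_sub_distrib, X2, X1, Z1, sum_neg_distrib]
    simp only [Cf.ev_neg, neg_smul, sum_neg_distrib]
    abel
  refine ⟨fun i j => (M i).O (B + E) (Z1 i j), ?_⟩
  have s1 : Can Rk 0 _ (fun i => st (fun T => (M i).O (B + P T) (X i T))
      (fun S => (M i).O B (Y i S)) (fun n => (M i).O B (A1 i n)) fun j => (M i).O B (Z1 i j)) :=
    Can.lin (S := fun i => st (fun T => (M i).O (B + P T) (X i T)) (fun S => (M i).O B (Y i S))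
      (fun n => (M i).O B (A i n)) fun _ => 0)
      (Sum.elim (fun n => .inr (.inl n)) fun q : Zi × Tr => .inr (.inr q.1))
      (Sum.elim (fun n => .inl (.inr (L.f1 n))) fun q => .inl (.inr q.2))
      (Sum.elim (fun _ => .p) fun q => L.sc q.2 q.1) (by simp) (by
        rintro i ((T | T) | (n | j)) <;> simp [st, A1, Z1, Fintype.sum_prod_type])
  have s2 := Can.stmov (Rk := Rk) (x := fun i T => (M i).O (B + P T) (X i T))
    (y := fun i S => (M i).O B (Y i S)) (a := fun i n => (M i).O B (A1 i n))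
    (z := fun i j => (M i).O B (Z1 i j))
    (x' := fun i T => (M i).O (B + P T) (X i T))
    (y' := fun i S => (M i).O (B + (E - P S)) (Y i S))
    (a' := fun i n => (M i).O (B + P (L.f2 n)) (A1 i n))
    (z' := fun i j => (M i).O (B + E) (Z1 i j))
    0 (fun S => E - P S) (fun n => P (L.f2 n)) (fun _ => E) 0 (h - 1) 1 h (fun _ => h0) hQ
    (fun _ => hP _) (fun _ => hE) (by simp [Model.O_zero]) (fun i n => (M i).O_mov (by abel) _)
    (fun i n => (M i).O_mov (by abel) _) (fun i n => (M i).O_mov (by abel) _)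
  have s3 : Can Rk 0 _ (fun i => st (fun T => (M i).O (B + P T) (X1 i T))
      (fun S => (M i).O (B + (E - P S)) (Y i S)) (fun n => (M i).O (B + P (L.f2 n)) (A1 i n))
      fun j => (M i).O (B + E) (Z1 i j)) :=
    Can.lin (S := fun i => st (fun T => (M i).O (B + P T) (X i T))
      (fun S => (M i).O (B + (E - P S)) (Y i S)) (fun n => (M i).O (B + P (L.f2 n)) (A1 i n))
      fun j => (M i).O (B + E) (Z1 i j))
      (fun n => .inl (.inl (L.f2 n))) (fun n => .inr (.inl n)) (fun n => (L.ka n).neg) (by simp) (by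
        rintro i ((T | T) | (n | j))
        · simp only [st, Sum.elim_inl, Sum.elim_inr, X1, map_add, sum_ite_smul, Sum.inl.injEq]
          congr 1
          refine sum_congr rfl fun n _ => ?_
          split_ifs with hn
          · rw [hn]
          · rfl
        · simp [st]
        · simp [st]
        · simp [st])
  have s4 := Can.stmov (Rk := Rk) (x := fun i T => (M i).O (B + P T) (X1 i T))
    (y := fun i S => (M i).O (B + (E - P S)) (Y i S))
    (a := fun i n => (M i).O (B + P (L.f2 n)) (A1 i n))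
    (z := fun i j => (M i).O (B + E) (Z1 i j))
    (x' := fun i T => (M i).O (B + E) (X1 i T))
    (y' := fun i S => (M i).O (B + (E - P S)) (Y i S))
    (a' := fun i n => (M i).O (B + (E - P (L.f1 n))) (A1 i n))
    (z' := fun i j => (M i).O (B + E) (Z1 i j))
    (fun T => E - P T) 0 (fun n => E - P (L.f1 n) - P (L.f2 n)) 0 (h - 1) 0 (h - 2) 0 hQ
    (fun _ => h0) hQP (fun _ => h0) (fun i n => (M i).O_mov (by abel) _)
    (by simp [Model.O_zero]) (fun i n => (M i).O_mov (by abel) _) (by simp [Model.O_zero])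
  have s5 : Can Rk 0 _ (fun i => st (fun T => (M i).O (B + E) (X2 i T))
      (fun S => (M i).O (B + (E - P S)) (Y i S))
      (fun n => (M i).O (B + (E - P (L.f1 n))) (A i n)) fun j => (M i).O (B + E) (Z1 i j)) :=
    Can.lin (S := fun i => st (fun T => (M i).O (B + E) (X1 i T))
      (fun S => (M i).O (B + (E - P S)) (Y i S))
      (fun n => (M i).O (B + (E - P (L.f1 n))) (A1 i n)) fun j => (M i).O (B + E) (Z1 i j))
      (Sum.elim (fun n => .inr (.inl n)) fun q : Tr × Zi => .inl (.inl q.1))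
      (Sum.elim (fun n => .inl (.inr (L.f1 n))) fun q => .inr (.inr q.2))
      (Sum.elim (fun _ => .n) fun q => (L.ga q.2 q.1).neg) (by simp) (by
        rintro i ((T | T) | (n | j)) <;> simp [st, A1, X2, Fintype.sum_prod_type])
  have s6 := Can.stmov (Rk := Rk) (x := fun i T => (M i).O (B + E) (X2 i T))
    (y := fun i S => (M i).O (B + (E - P S)) (Y i S))
    (a := fun i n => (M i).O (B + (E - P (L.f1 n))) (A i n))
    (z := fun i j => (M i).O (B + E) (Z1 i j))
    (x' := fun i T => (M i).O (B + E) (X2 i T))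
    (y' := fun i S => (M i).O (B + (E - P S)) (Y i S))
    (a' := fun i n => (M i).O (B + E) (A i n)) (z' := fun i j => (M i).O (B + E) (Z1 i j))
    0 0 (fun n => P (L.f1 n)) 0 0 0 1 0 (fun _ => h0) (fun _ => h0) (fun _ => hP _) (fun _ => h0)
    (by simp [Model.O_zero]) (by simp [Model.O_zero]) (fun i n => (M i).O_mov (by abel) _)
    (by simp [Model.O_zero])
  have s7 : Can Rk 0 _ (fun i => st (fun T => (M i).O (B + E) (X i T - Y i T))
      (fun S => (M i).O (B + (E - P S)) (Y i S))
      (fun n => (M i).O (B + E) (A i n)) fun j => (M i).O (B + E) (Z1 i j)) :=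
    Can.lin (S := fun i => st (fun T => (M i).O (B + E) (X2 i T))
      (fun S => (M i).O (B + (E - P S)) (Y i S))
      (fun n => (M i).O (B + E) (A i n)) fun j => (M i).O (B + E) (Z1 i j))
      (fun n => .inl (.inl (L.f2 n))) (fun n => .inr (.inl n)) L.ka (by simp) (by
        rintro i ((T | T) | (n | j))
        · simp only [st, Sum.elim_inl, Sum.elim_inr, hX, map_add, sum_ite_smul, Sum.inl.injEq]
        · simp [st]
        · simp [st]
        · simp [st])
  refine ((((((s1.trans s2).trans s3).trans s4).trans s5).trans s6).trans s7).mono (le_of_eq ?_)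
  obtain ⟨k, rfl⟩ : ∃ k, h = k + 2 := ⟨h - 2, by omega⟩
  simp only [locR, Nat.add_sub_cancel, show k + 2 - 1 = k + 1 from rfl]
  ring

end

end Vale.Agent.P338.Net
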