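import Vale.Agent.P338.NetB

/-! P338: rank calculus and the global three-stage network. -/

namespace Vale.Agent.P338.Net

open Finset Matrix Kronecker

set_option linter.unusedSectionVars false
set_option synthInstance.maxSize 1024

section rk

variable {R : Type} [CommRing R] (G : R → Prop) {ι ι' : Type}

/-- `D` is a sum of at most `r` products `u vᵀ` all of whose entries are good. -/
def Rk (D : Matrix ι ι R) (r : ℕ) : Prop :=
  ∃ l : List ((ι → R) × (ι → R)), l.length ≤ r ∧ (∀ p ∈ l, ∀ i, G (p.1 i) ∧ G (p.2 i)) ∧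
    D = (l.map fun p => vecMulVec p.1 p.2).sum

variable {G}

theorem Rk.zero : Rk G (0 : Matrix ι ι R) 0 := ⟨[], le_rfl, by simp, by simp⟩

theorem Rk.mono {D : Matrix ι ι R} {r r' : ℕ} (h : Rk G D r) (hr : r ≤ r') : Rk G D r' := by
  obtain ⟨l, h1, h2, h3⟩ := h
  exact ⟨l, h1.trans hr, h2, h3⟩

theorem Rk.add {D D' : Matrix ι ι R} {r r' : ℕ} (h : Rk G D r) (h' : Rk G D' r') :
    Rk G (D + D') (r + r') := by
  obtain ⟨l, h1, h2, rfl⟩ := h
  obtain ⟨l', h1', h2', rfl⟩ := h'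
  exact ⟨l ++ l', by simpa using add_le_add h1 h1',
    fun p hp => (List.mem_append.1 hp).elim (h2 p) (h2' p), by simp⟩

theorem Rk.vv {u v : ι → R} (h : ∀ i, G (u i) ∧ G (v i)) : Rk G (vecMulVec u v) 1 :=
  ⟨[(u, v)], le_rfl, by simpa using h, by simp⟩

theorem Rk.sum {J : Type} (s : Finset J) (D : J → Matrix ι ι R) (h : ∀ j ∈ s, Rk G (D j) 1) :
    Rk G (∑ j ∈ s, D j) s.card := by
  classical
  induction s using Finset.induction_on with
  | empty => simpa using Rk.zero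
  | insert j s hj ih =>
    rw [sum_insert hj, card_insert_of_notMem hj, add_comm s.card]
    exact (h j (mem_insert_self _ _)).add (ih fun j hj => h j (mem_insert_of_mem hj))

theorem Rk.ind {D : Matrix ι ι R} {r : ℕ} (h : Rk G D r) (f : Matrix ι ι R →+ Matrix ι' ι' R)
    {s : ℕ} (hf : ∀ u v, (∀ i, G (u i) ∧ G (v i)) → Rk G (f (vecMulVec u v)) s) :
    Rk G (f D) (r * s) := by
  obtain ⟨l, h1, h2, rfl⟩ := h
  refine Rk.mono ?_ (Nat.mul_le_mul_right s h1)
  clear h1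
  induction l with
  | nil => simpa using Rk.zero
  | cons p l ih =>
    rw [List.map_cons, List.sum_cons, map_add, List.length_cons, add_mul, one_mul, add_comm _ s]
    exact (hf _ _ (h2 p List.mem_cons_self)).add (ih fun q hq => h2 q (List.mem_cons_of_mem _ hq))

theorem Rk.neg (hn : ∀ x, G x → G (-x)) {D : Matrix ι ι R} {r : ℕ} (h : Rk G D r) :
    Rk G (-D) r := by
  simpa using h.ind (negAddMonoidHom) (s := 1) fun u v huv => by
    have : negAddMonoidHom (vecMulVec u v) = vecMulVec (-u) v := by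
      ext i j; simp [vecMulVec_apply]
    rw [this]
    exact Rk.vv fun i => ⟨hn _ (huv i).1, (huv i).2⟩

theorem Rk.kron (hm : ∀ x y, G x → G y → G (x * y)) {D : Matrix ι ι R} {D' : Matrix ι' ι' R}
    {r r' : ℕ} (h : Rk G D r) (h' : Rk G D' r') : Rk G (D ⊗ₖ D') (r * r') :=
  h.ind (AddMonoidHom.mk' (fun A => A ⊗ₖ D') fun _ _ => add_kronecker _ _ _) fun u v huv => by
    simpa using h'.ind (AddMonoidHom.mk' (fun A => vecMulVec u v ⊗ₖ A)
      fun _ _ => kronecker_add _ _ _) (s := 1) fun u' v' huv' => by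
        have : vecMulVec u v ⊗ₖ vecMulVec u' v' =
            vecMulVec (fun p : ι × ι' => u p.1 * u' p.2) fun p => v p.1 * v' p.2 := by
          ext i j; simp [vecMulVec_apply]; ring
        rw [AddMonoidHom.mk'_apply, this]
        exact Rk.vv fun i => ⟨hm _ _ (huv _).1 (huv' _).1, hm _ _ (huv _).2 (huv' _).2⟩

variable [Fintype ι] [DecidableEq ι]

theorem Rk.of_ker (h0 : G 0) (h1 : G 1) (hn : ∀ x, G x → G (-x)) {D : Matrix ι ι R}
    (hD : ∀ i j, G (D i j)) (s : Finset ι) (v : ι → ι → R) (hv : ∀ k i, G (v k i))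
    (hker : ∀ k ∈ s, D *ᵥ v k = 0) (hd : ∀ k ∈ s, ∀ k' ∈ s, v k k' = if k = k' then 1 else 0) :
    Rk G D (Fintype.card ι - s.card) := by
  have e : D = ∑ i ∈ sᶜ, vecMulVec (fun a => D a i)
      (Pi.single i 1 - ∑ k ∈ s, v k i • Pi.single k 1) := by
    ext a b
    simp only [Matrix.sum_apply, vecMulVec_apply, Pi.sub_apply, Finset.sum_apply, Pi.smul_apply,
      Pi.single_apply, smul_eq_mul, mul_ite, mul_one, mul_zero, sum_ite_eq, mul_sub,
      sum_sub_distrib, mem_compl]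
    by_cases hb : b ∈ s
    · have := congrFun (hker b hb) a
      rw [mulVec, dotProduct, ← sum_add_sum_compl s, sum_congr rfl fun k hk => by
        rw [hd b hb k hk]] at this
      simp only [mul_ite, mul_one, mul_zero, sum_ite_eq, hb, if_true, Pi.zero_apply] at this
      simp only [hb, not_true, if_false, if_true, zero_sub]
      exact eq_neg_of_add_eq_zero_left this
    · simp [hb]
  rw [← card_compl, e]
  refine Rk.sum _ _ fun i hi => Rk.vv fun a => ⟨hD _ _, ?_⟩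
  have := hn _ (hv a i)
  by_cases ha : a ∈ s
  · have hai : a ≠ i := fun h => (mem_compl.1 hi) (h ▸ ha)
    simpa [Pi.single_apply, hai, Finset.sum_apply, ha] using this
  · simp only [Pi.sub_apply, Finset.sum_apply, Pi.smul_apply, Pi.single_apply, smul_eq_mul, mul_ite,
      mul_one, mul_zero, sum_ite_eq, ha, if_false, sub_zero]
    split_ifs <;> assumption

end rk

/-- Triple Kronecker product. -/
def k3 {R ι : Type} [CommRing R] (A B C : Matrix ι ι R) :
    Matrix ((ι × ι) × ι) ((ι × ι) × ι) R := (A ⊗ₖ B) ⊗ₖ C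

/-- Real wires. -/
abbrev Wr (Tr Nb Id : Type) := ((Tr × Tr × Tr) ⊕ (Tr × Tr × Tr)) ⊕
  (((Tr × Tr) × Nb ⊕ (Tr × Tr) × Nb ⊕ (Tr × Tr) × Nb) ⊕ Id)

/-- Temporary wires. -/
abbrev Wz (Tr Zi : Type) := (Tr × Tr) × Zi ⊕ (Tr × Tr) × Zi ⊕ (Tr × Tr) × Zi

/-- Global state. -/
def gs {Tr Nb Zi Id V : Type} (x y : Tr × Tr × Tr → V) (a1 a2 a3 : (Tr × Tr) × Nb → V)
    (d : Id → V) (z1 z2 z3 : (Tr × Tr) × Zi → V) : Wr Tr Nb Id ⊕ Wz Tr Zi → V :=
  Sum.elim (Sum.elim (Sum.elim x y) (Sum.elim (Sum.elim a1 (Sum.elim a2 a3)) d))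
    (Sum.elim z1 (Sum.elim z2 z3))

variable {Tr Nb Zi Id : Type} [Fintype Tr] [Fintype Nb] [Fintype Zi] [Fintype Id]
  [DecidableEq Tr] [DecidableEq Nb] [DecidableEq Zi] [DecidableEq Id]

theorem Can.gmov {Λ : Type} [AddCommGroup Λ] {I : Type 1} {M : I → Model Λ} {Rk : Λ → ℕ → Prop}
    (h0 : Rk 0 0) {x y x' y' : ∀ i, Tr × Tr × Tr → (M i).V}
    {a1 a2 a3 a1' a2' a3' : ∀ i, (Tr × Tr) × Nb → (M i).V} {d d' : ∀ i, Id → (M i).V}
    {z1 z2 z3 : ∀ i, (Tr × Tr) × Zi → (M i).V} (Dx Dy : Tr × Tr × Tr → Λ)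
    (D1 D2 D3 : (Tr × Tr) × Nb → Λ) (Dd : Λ) (rx ry r1 r2 r3 rd : ℕ)
    (hx : ∀ t, Rk (Dx t) rx) (hy : ∀ t, Rk (Dy t) ry) (h1 : ∀ t, Rk (D1 t) r1)
    (h2 : ∀ t, Rk (D2 t) r2) (h3 : ∀ t, Rk (D3 t) r3) (hd : Rk Dd rd)
    (ex : ∀ i t, x' i t = (M i).O (Dx t) (x i t)) (ey : ∀ i t, y' i t = (M i).O (Dy t) (y i t))
    (e1 : ∀ i t, a1' i t = (M i).O (D1 t) (a1 i t)) (e2 : ∀ i t, a2' i t = (M i).O (D2 t) (a2 i t))
    (e3 : ∀ i t, a3' i t = (M i).O (D3 t) (a3 i t)) (ed : ∀ i t, d' i t = (M i).O Dd (d i t)) :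
    Can Rk (Fintype.card Tr ^ 3 * (rx + ry) + Fintype.card Tr ^ 2 * Fintype.card Nb *
      (r1 + r2 + r3) + Fintype.card Id * rd)
      (fun i => gs (x i) (y i) (a1 i) (a2 i) (a3 i) (d i) (z1 i) (z2 i) (z3 i))
      (fun i => gs (x' i) (y' i) (a1' i) (a2' i) (a3' i) (d' i) (z1 i) (z2 i) (z3 i)) := by
  have := Can.mov (Rk := Rk)
    (S := fun i => gs (x i) (y i) (a1 i) (a2 i) (a3 i) (d i) (z1 i) (z2 i) (z3 i))
    (S' := fun i => gs (x' i) (y' i) (a1' i) (a2' i) (a3' i) (d' i) (z1 i) (z2 i) (z3 i))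
    (gs Dx Dy D1 D2 D3 (fun _ => Dd) 0 0 0)
    (gs (fun _ => rx) (fun _ => ry) (fun _ => r1) (fun _ => r2) (fun _ => r3) (fun _ => rd) 0 0 0)
    (by
      rintro (((t | t) | ((t | t | t) | t)) | (t | t | t))
      exacts [hx t, hy t, h1 t, h2 t, h3 t, hd, h0, h0, h0])
    (by
      rintro i (((t | t) | ((t | t | t) | t)) | (t | t | t))
      exacts [ex i t, ey i t, e1 i t, e2 i t, e3 i t, ed i t, ((M i).O_zero _).symm,
        ((M i).O_zero _).symm, ((M i).O_zero _).symm])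
  refine this.mono (le_of_eq ?_)
  simp [gs, Fintype.sum_sum_type]
  ring

variable {R ι : Type} [CommRing R] {G : R → Prop}

theorem Rk.k3 (hm : ∀ x y, G x → G y → G (x * y)) {A B C : Matrix ι ι R} {a b c : ℕ}
    (hA : Rk G A a) (hB : Rk G B b) (hC : Rk G C c) : Rk G (k3 A B C) (a * b * c) :=
  (hA.kron hm hB).kron hm hC

/-- Embedding of a local network. -/
def emb (f : Tr × Tr → Tr → Tr × Tr × Tr)
    (a : (Tr × Tr) × Nb → (Tr × Tr) × Nb ⊕ (Tr × Tr) × Nb ⊕ (Tr × Tr) × Nb)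
    (z : (Tr × Tr) × Zi → Wz Tr Zi) (p : Tr × Tr) : W1 Tr Nb Zi → Wr Tr Nb Id ⊕ Wz Tr Zi :=
  st (fun T => .inl (.inl (.inl (f p T)))) (fun T => .inl (.inl (.inr (f p T))))
    (fun n => .inl (.inr (.inl (a (p, n))))) fun j => .inr (z (p, j))

theorem emb_inj {f : Tr × Tr → Tr → Tr × Tr × Tr}
    {a : (Tr × Tr) × Nb → (Tr × Tr) × Nb ⊕ (Tr × Tr) × Nb ⊕ (Tr × Tr) × Nb}
    {z : (Tr × Tr) × Zi → Wz Tr Zi} (hf : ∀ p T p' T', f p T = f p' T' → p = p' ∧ T = T')
    (ha : Function.Injective a) (hz : Function.Injective z) (j u j' u')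
    (h : emb (Id := Id) f a z j u = emb f a z j' u') : j = j' ∧ u = u' := by
  rcases u with ((u | u) | (u | u)) <;> rcases u' with ((u' | u') | (u' | u')) <;>
    simp [emb, st, ha.eq_iff, hz.eq_iff] at h ⊢ <;> first | exact hf _ _ _ _ h | exact h

theorem net (L : Loc Tr Nb Zi) (hm : ∀ x y, G x → G y → G (x * y)) (hn : ∀ x, G x → G (-x))
    {h : ℕ} (hh : 2 ≤ h) (E : Matrix ι ι R) (P : Tr → Matrix ι ι R) (hP : ∀ T, Rk G (P T) 1)
    (hP2 : ∀ T, Rk G (P T + P T) 1) (hQ : ∀ T, Rk G (E - P T) (h - 1))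
    (hQP : ∀ n, Rk G (E - P (L.f1 n) - P (L.f2 n)) (h - 2)) (hE : Rk G E h)
    {I : Type 1} {M : I → Model (Matrix ((ι × ι) × ι) ((ι × ι) × ι) R)} (hL : ∀ i, L.Ok (M i).θ)
    (ξ : ∀ i, Wr Tr Nb Id → (M i).V) :
    ∃ (r : ℕ) (z : ∀ i, Wz Tr Zi → (M i).V), Can (Rk G) r (fun i => Sum.elim (ξ i) 0)
      (fun i => Sum.elim (fun w => (M i).O (k3 E E E) (ξ i w)) (z i)) ∧
      r + Fintype.card Tr ^ 3 = Fintype.card (Wr Tr Nb Id) * h ^ 3 +
        3 * Fintype.card Tr ^ 2 * Fintype.card Zi * h := by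
  have h0 : Rk G (0 : Matrix ((ι × ι) × ι) ((ι × ι) × ι) R) 0 := Rk.zero
  let X := fun i (t : Tr × Tr × Tr) =>
    (M i).O (-k3 (P t.1) (P t.2.1) (P t.2.2)) (ξ i (.inl (.inl t)))
  let Y := fun i (t : Tr × Tr × Tr) => ξ i (.inl (.inr t))
  let A1 := fun i (t : (Tr × Tr) × Nb) => ξ i (.inr (.inl (.inl t)))
  let A2 := fun i (t : (Tr × Tr) × Nb) => ξ i (.inr (.inl (.inr (.inl t))))
  let A3 := fun i (t : (Tr × Tr) × Nb) => ξ i (.inr (.inl (.inr (.inr t))))
  let D := fun i (t : Id) => ξ i (.inr (.inr t))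
  let B2 := fun p : Tr × Tr => k3 (E - P p.1) E (P p.2)
  let B3 := fun p : Tr × Tr => k3 (E - P p.1) E E + k3 (P p.1) (E - P p.2) E
  have ke : ∀ {A B : Matrix ((ι × ι) × ι) ((ι × ι) × ι) R} {r : ℕ}, Rk G A r →
      (∀ i j, B i j = A i j) → Rk G B r := fun hA hB => Matrix.ext hB ▸ hA
  choose z1 s1 using fun p : Tr × Tr => shear1 (Rk := Rk G) L hL hh 0 (k3 E (P p.1) (P p.2))
    (fun T => k3 (P T) (P p.1) (P p.2)) h0 (fun T => (hP T).k3 hm (hP _) (hP _))
    (fun T => ke (by simpa using (hQ T).k3 hm (hP p.1) (hP p.2)) (by simp [k3, sub_mul]))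
    (fun n => ke (by simpa using (hQP n).k3 hm (hP p.1) (hP p.2)) (by simp [k3, sub_mul]))
    (by simpa using (hE.k3 hm (hP p.1) (hP p.2)).neg hn)
    (fun i T => X i (T, p)) (fun i T => Y i (T, p)) fun i n => A1 i (p, n)
  choose z2 s2 using fun p : Tr × Tr => shear2 (Rk := Rk G) L hL hh (B2 p) (k3 (P p.1) E (P p.2))
    (fun T => k3 (P p.1) (P T) (P p.2)) h0 (fun T => (hP _).k3 hm (hP T) (hP _))
    (fun T => ke (by simpa using (hP p.1).k3 hm (hQ T) (hP p.2)) (by simp [k3, sub_mul, mul_sub]))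
    (fun n => ke (by simpa using (hP p.1).k3 hm (hQP n) (hP p.2)) (by simp [k3, sub_mul, mul_sub]))
    (by simpa using (hP p.1).k3 hm hE (hP p.2))
    (fun i T => X i (p.1, T, p.2)) (fun i T => Y i (p.1, T, p.2) + X i (p.1, T, p.2))
    fun i n => A2 i (p, n)
  choose z3 s3 using fun p : Tr × Tr => shear1 (Rk := Rk G) L hL hh (B3 p) (k3 (P p.1) (P p.2) E)
    (fun T => k3 (P p.1) (P p.2) (P T)) h0 (fun T => (hP _).k3 hm (hP _) (hP T))
    (fun T => ke (by simpa using (hP p.1).k3 hm (hP p.2) (hQ T)) (by simp [k3, mul_sub]))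
    (fun n => ke (by simpa using (hP p.1).k3 hm (hP p.2) (hQP n)) (by simp [k3, mul_sub]))
    (by simpa using ((hP p.1).k3 hm (hP p.2) hE).neg hn)
    (fun i T => X i (p.1, p.2, T) - (Y i (p.1, p.2, T) + X i (p.1, p.2, T)))
    (fun i T => Y i (p.1, p.2, T) + X i (p.1, p.2, T)) fun i n => A3 i (p, n)
  have om : ∀ i {D A B : Matrix ((ι × ι) × ι) ((ι × ι) × ι) R} (v : (M i).V),
      (∀ a b, B a b = D a b + A a b) → (M i).O B v = (M i).O D ((M i).O A v) :=
    fun i _ _ _ v hB => (M i).O_mov (Matrix.ext hB) v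
  have oz : ∀ i (v : (M i).V), v = (M i).O 0 v := fun i v => ((M i).O_zero v).symm
  let PP := fun t : Tr × Tr × Tr => k3 (P t.1) (P t.2.1) (P t.2.2)
  let E3 := k3 E E E
  have m0 := Can.gmov (Rk := Rk G) (Zi := Zi) h0 (x := fun i t => (M i).O (0 + PP t) (X i t))
    (x' := fun i t => (M i).O (0 + PP t) (X i t)) (y := fun i t => (M i).O 0 (Y i t))
    (y' := fun i t => (M i).O 0 (Y i t)) (a1 := fun i t => (M i).O 0 (A1 i t))
    (a1' := fun i t => (M i).O 0 (A1 i t)) (a2 := A2) (a2' := fun i t => (M i).O (B2 t.1) (A2 i t))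
    (a3 := A3) (a3' := fun i t => (M i).O (B3 t.1) (A3 i t)) (d := D)
    (d' := fun i t => (M i).O E3 (D i t)) (z1 := 0) (z2 := 0) (z3 := 0)
    0 0 0 (fun t => B2 t.1) (fun t => B3 t.1) E3 0 0 0 _ _ _ (fun _ => h0) (fun _ => h0)
    (fun _ => h0) (fun t => (hQ _).k3 hm hE (hP _))
    (fun t => ((hQ _).k3 hm hE hE).add ((hP _).k3 hm (hQ _) hE)) (hE.k3 hm hE hE)
    (fun i _ => oz i _) (fun i _ => oz i _) (fun i _ => oz i _) (fun _ _ => rfl) (fun _ _ => rfl)
    fun _ _ => rfl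
  have p1 := Can.par (Rk := Rk G) (emb (Id := Id) (fun p T => (T, p)) .inl .inl)
    (emb_inj (by simp +contextual) Sum.inl_injective Sum.inl_injective)
    (S := fun i => gs (fun t => (M i).O (0 + PP t) (X i t)) (fun t => (M i).O 0 (Y i t))
      (fun t => (M i).O 0 (A1 i t)) (fun t => (M i).O (B2 t.1) (A2 i t))
      (fun t => (M i).O (B3 t.1) (A3 i t)) (fun t => (M i).O E3 (D i t)) 0 0 0)
    (S' := fun i => gs (fun t => (M i).O (0 + k3 E (P t.2.1) (P t.2.2)) (X i t))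
      (fun t => (M i).O (0 + (k3 E (P t.2.1) (P t.2.2) - PP t)) (Y i t + X i t))
      (fun t => (M i).O (0 + k3 E (P t.1.1) (P t.1.2)) (A1 i t)) (fun t => (M i).O (B2 t.1) (A2 i t))
      (fun t => (M i).O (B3 t.1) (A3 i t)) (fun t => (M i).O E3 (D i t))
      (fun t => z1 t.1 i t.2) 0 0)
    (fun p => by
      have := s1 p
      refine (congrArg₂ (Can (Rk G) _) ?_ ?_).mp this <;> funext i w <;>
        rcases w with ((u | u) | (u | u)) <;> rfl)
    (by
      rintro i (((t | t) | ((t | t | t) | t)) | (t | t | t)) hw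
      exacts [absurd rfl (hw t.2 (.inl (.inl t.1))), absurd rfl (hw t.2 (.inl (.inr t.1))),
        absurd rfl (hw t.1 (.inr (.inl t.2))), rfl, rfl, rfl,
        absurd rfl (hw t.1 (.inr (.inr t.2))), rfl, rfl])
  have m1 := Can.gmov (Rk := Rk G) (Zi := Zi) h0
    (x := fun i t => (M i).O (0 + k3 E (P t.2.1) (P t.2.2)) (X i t))
    (x' := fun i t => (M i).O (B2 (t.1, t.2.2) + PP t) (X i t))
    (y := fun i t => (M i).O (0 + (k3 E (P t.2.1) (P t.2.2) - PP t)) (Y i t + X i t))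
    (y' := fun i t => (M i).O (B2 (t.1, t.2.2)) (Y i t + X i t))
    (a1 := fun i t => (M i).O (0 + k3 E (P t.1.1) (P t.1.2)) (A1 i t))
    (a1' := fun i t => (M i).O E3 (A1 i t)) (a2 := fun i t => (M i).O (B2 t.1) (A2 i t))
    (a2' := fun i t => (M i).O (B2 t.1) (A2 i t)) (a3 := fun i t => (M i).O (B3 t.1) (A3 i t))
    (a3' := fun i t => (M i).O (B3 t.1) (A3 i t)) (d := fun i t => (M i).O E3 (D i t))
    (d' := fun i t => (M i).O E3 (D i t)) (z1 := fun i t => z1 t.1 i t.2) (z2 := 0) (z3 := 0)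
    (fun t => k3 (E - P t.1) (E - P t.2.1) (P t.2.2))
    (fun t => k3 (E - P t.1) (E - P t.2.1) (P t.2.2))
    (fun t => k3 E (E - P t.1.1) E + k3 E (P t.1.1) (E - P t.1.2)) 0 0 0 _ _ _ 0 0 0
    (fun t => (hQ _).k3 hm (hQ _) (hP _)) (fun t => (hQ _).k3 hm (hQ _) (hP _))
    (fun t => (hE.k3 hm (hQ _) hE).add (hE.k3 hm (hP _) (hQ _))) (fun _ => h0) (fun _ => h0) h0
    (fun i t => om i _ fun a b => by simp [k3, B2, PP]; ring)
    (fun i t => om i _ fun a b => by simp [k3, B2, PP]; ring)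
    (fun i t => om i _ fun a b => by simp [k3, E3]; ring) (fun i _ => oz i _) (fun i _ => oz i _)
    fun i _ => oz i _
  have p2 := Can.par (Rk := Rk G)
    (emb (Id := Id) (fun p T => (p.1, T, p.2)) (.inr ∘ .inl) (.inr ∘ .inl))
    (emb_inj (by simp +contextual [Prod.ext_iff]) (Sum.inr_injective.comp Sum.inl_injective)
      (Sum.inr_injective.comp Sum.inl_injective))
    (S := fun i => gs (fun t => (M i).O (B2 (t.1, t.2.2) + PP t) (X i t))
      (fun t => (M i).O (B2 (t.1, t.2.2)) (Y i t + X i t)) (fun t => (M i).O E3 (A1 i t))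
      (fun t => (M i).O (B2 t.1) (A2 i t)) (fun t => (M i).O (B3 t.1) (A3 i t))
      (fun t => (M i).O E3 (D i t)) (fun t => z1 t.1 i t.2) 0 0)
    (S' := fun i => gs (fun t => (M i).O (B2 (t.1, t.2.2) + k3 (P t.1) E (P t.2.2))
        (X i t - (Y i t + X i t)))
      (fun t => (M i).O (B2 (t.1, t.2.2) + (k3 (P t.1) E (P t.2.2) - PP t)) (Y i t + X i t))
      (fun t => (M i).O E3 (A1 i t))
      (fun t => (M i).O (B2 t.1 + k3 (P t.1.1) E (P t.1.2)) (A2 i t))
      (fun t => (M i).O (B3 t.1) (A3 i t)) (fun t => (M i).O E3 (D i t))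
      (fun t => z1 t.1 i t.2) (fun t => z2 t.1 i t.2) 0)
    (fun p => by
      have := s2 p
      refine (congrArg₂ (Can (Rk G) _) ?_ ?_).mp this <;> funext i w <;>
        rcases w with ((u | u) | (u | u)) <;> rfl)
    (by
      rintro i (((t | t) | ((t | t | t) | t)) | (t | t | t)) hw
      exacts [absurd rfl (hw (t.1, t.2.2) (.inl (.inl t.2.1))),
        absurd rfl (hw (t.1, t.2.2) (.inl (.inr t.2.1))), rfl,
        absurd rfl (hw t.1 (.inr (.inl t.2))), rfl, rfl, rfl,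
        absurd rfl (hw t.1 (.inr (.inr t.2))), rfl])
  have m2 := Can.gmov (Rk := Rk G) (Zi := Zi) h0
    (x := fun i t => (M i).O (B2 (t.1, t.2.2) + k3 (P t.1) E (P t.2.2)) (X i t - (Y i t + X i t)))
    (x' := fun i t => (M i).O (B3 (t.1, t.2.1) + PP t) (X i t - (Y i t + X i t)))
    (y := fun i t => (M i).O (B2 (t.1, t.2.2) + (k3 (P t.1) E (P t.2.2) - PP t)) (Y i t + X i t))
    (y' := fun i t => (M i).O (B3 (t.1, t.2.1)) (Y i t + X i t))
    (a1 := fun i t => (M i).O E3 (A1 i t)) (a1' := fun i t => (M i).O E3 (A1 i t))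
    (a2 := fun i t => (M i).O (B2 t.1 + k3 (P t.1.1) E (P t.1.2)) (A2 i t))
    (a2' := fun i t => (M i).O E3 (A2 i t)) (a3 := fun i t => (M i).O (B3 t.1) (A3 i t))
    (a3' := fun i t => (M i).O (B3 t.1) (A3 i t)) (d := fun i t => (M i).O E3 (D i t))
    (d' := fun i t => (M i).O E3 (D i t)) (z1 := fun i t => z1 t.1 i t.2)
    (z2 := fun i t => z2 t.1 i t.2) (z3 := 0)
    (fun t => k3 (E - P t.1) E (E - P t.2.2) + k3 (P t.1) (E - P t.2.1) (E - P t.2.2))
    (fun t => k3 (E - P t.1) E (E - P t.2.2) + k3 (P t.1) (E - P t.2.1) (E - P t.2.2))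
    0 (fun t => k3 E E (E - P t.1.2)) 0 0 _ _ 0 _ 0 0
    (fun t => ((hQ _).k3 hm hE (hQ _)).add ((hP _).k3 hm (hQ _) (hQ _)))
    (fun t => ((hQ _).k3 hm hE (hQ _)).add ((hP _).k3 hm (hQ _) (hQ _))) (fun _ => h0)
    (fun t => hE.k3 hm hE (hQ _)) (fun _ => h0) h0
    (fun i t => om i _ fun a b => by simp [k3, B2, B3, PP]; ring)
    (fun i t => om i _ fun a b => by simp [k3, B2, B3, PP]; ring) (fun i _ => oz i _)
    (fun i t => om i _ fun a b => by simp [k3, B2, E3]; ring) (fun i _ => oz i _)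
    fun i _ => oz i _
  have hB3 : ∀ p : Tr × Tr, B3 p + k3 (P p.1) (P p.2) E = E3 := fun p => by
    ext a b; simp [k3, B3, E3]; ring
  have p3 := Can.par (Rk := Rk G)
    (emb (Id := Id) (fun p T => (p.1, p.2, T)) (.inr ∘ .inr) (.inr ∘ .inr))
    (emb_inj (by simp +contextual [Prod.ext_iff]) (Sum.inr_injective.comp Sum.inr_injective)
      (Sum.inr_injective.comp Sum.inr_injective))
    (S := fun i => gs (fun t => (M i).O (B3 (t.1, t.2.1) + PP t) (X i t - (Y i t + X i t)))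
      (fun t => (M i).O (B3 (t.1, t.2.1)) (Y i t + X i t)) (fun t => (M i).O E3 (A1 i t))
      (fun t => (M i).O E3 (A2 i t)) (fun t => (M i).O (B3 t.1) (A3 i t))
      (fun t => (M i).O E3 (D i t)) (fun t => z1 t.1 i t.2) (fun t => z2 t.1 i t.2) 0)
    (S' := fun i => gs (fun t => (M i).O E3 (-Y i t))
      (fun t => (M i).O (E3 - PP t) (X i t)) (fun t => (M i).O E3 (A1 i t))
      (fun t => (M i).O E3 (A2 i t)) (fun t => (M i).O E3 (A3 i t))
      (fun t => (M i).O E3 (D i t)) (fun t => z1 t.1 i t.2) (fun t => z2 t.1 i t.2)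
      fun t => z3 t.1 i t.2)
    (fun p => by
      have := s3 p
      simp only [← add_sub_assoc, hB3] at this
      refine (congrArg₂ (Can (Rk G) _) ?_ ?_).mp this <;> funext i w <;>
        rcases w with ((u | u) | (u | u)) <;> first | rfl | simp [gs, emb, st, PP])
    (by
      rintro i (((t | t) | ((t | t | t) | t)) | (t | t | t)) hw
      exacts [absurd rfl (hw (t.1, t.2.1) (.inl (.inl t.2.2))),
        absurd rfl (hw (t.1, t.2.1) (.inl (.inr t.2.2))), rfl, rfl,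
        absurd rfl (hw t.1 (.inr (.inl t.2))), rfl, rfl, rfl,
        absurd rfl (hw t.1 (.inr (.inr t.2)))])
  let x0 := fun i (t : Tr × Tr × Tr) => ξ i (.inl (.inl t))
  have m3 := Can.gmov (Rk := Rk G) (Zi := Zi) h0 (x := fun i t => (M i).O E3 (-Y i t))
    (x' := fun i t => (M i).O E3 (-Y i t)) (y := fun i t => (M i).O (E3 - PP t) (X i t))
    (y' := fun i t => (M i).O E3 (x0 i t))
    (a1 := fun i t => (M i).O E3 (A1 i t)) (a1' := fun i t => (M i).O E3 (A1 i t))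
    (a2 := fun i t => (M i).O E3 (A2 i t)) (a2' := fun i t => (M i).O E3 (A2 i t))
    (a3 := fun i t => (M i).O E3 (A3 i t)) (a3' := fun i t => (M i).O E3 (A3 i t))
    (d := fun i t => (M i).O E3 (D i t)) (d' := fun i t => (M i).O E3 (D i t))
    (z1 := fun i t => z1 t.1 i t.2) (z2 := fun i t => z2 t.1 i t.2) (z3 := fun i t => z3 t.1 i t.2)
    0 (fun t => PP t + PP t) 0 0 0 0 0 1 0 0 0 0 (fun _ => h0)
    (fun t => ke ((hP2 t.1).k3 hm (hP t.2.1) (hP t.2.2)) (by simp [k3, PP, add_mul]))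
    (fun _ => h0) (fun _ => h0) (fun _ => h0) h0 (fun i _ => oz i _)
    (fun i t => by
      simp only [X, ← Model.O_add]
      exact congrArg (fun A => (M i).O A _) (by simp only [PP]; abel))
    (fun i _ => oz i _) (fun i _ => oz i _) (fun i _ => oz i _) fun i _ => oz i _
  have fin : ∀ (x y x' y' : ∀ i, Tr × Tr × Tr → (M i).V) (c : Cf) (b : Bool),
      (∀ i t, x' i t = if b then x i t + c.ev (M i).θ • y i t else x i t) →
      (∀ i t, y' i t = if b then y i t else y i t + c.ev (M i).θ • x i t) →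
      Can (Rk G) 0 (fun i => gs (x i) (y i) (fun t => (M i).O E3 (A1 i t))
        (fun t => (M i).O E3 (A2 i t)) (fun t => (M i).O E3 (A3 i t))
        (fun t => (M i).O E3 (D i t)) (fun t => z1 t.1 i t.2) (fun t => z2 t.1 i t.2)
        fun t => z3 t.1 i t.2) (fun i => gs (x' i) (y' i) (fun t => (M i).O E3 (A1 i t))
        (fun t => (M i).O E3 (A2 i t)) (fun t => (M i).O E3 (A3 i t))
        (fun t => (M i).O E3 (D i t)) (fun t => z1 t.1 i t.2) (fun t => z2 t.1 i t.2)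
        fun t => z3 t.1 i t.2) := by
    intro x y x' y' c b hx hy
    cases b
    · refine Can.lin (fun t => .inl (.inl (.inr t))) (fun t => .inl (.inl (.inl t))) (fun _ => c)
        (by simp) ?_
      rintro i (((t | t) | ((t | t | t) | t)) | (t | t | t)) <;> simp [gs, hx, hy]
    · refine Can.lin (fun t => .inl (.inl (.inl t))) (fun t => .inl (.inl (.inr t))) (fun _ => c)
        (by simp) ?_
      rintro i (((t | t) | ((t | t | t) | t)) | (t | t | t)) <;> simp [gs, hx, hy]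
  have f1 := fin (fun i t => (M i).O E3 (-Y i t)) (fun i t => (M i).O E3 (x0 i t))
    (fun i t => (M i).O E3 (x0 i t - Y i t)) (fun i t => (M i).O E3 (x0 i t)) .p true
    (by simp [sub_eq_neg_add]) (by simp)
  have f2 := fin (fun i t => (M i).O E3 (x0 i t - Y i t)) (fun i t => (M i).O E3 (x0 i t))
    (fun i t => (M i).O E3 (x0 i t - Y i t)) (fun i t => (M i).O E3 (Y i t)) .n false
    (by simp) (by simp)
  have f3 := fin (fun i t => (M i).O E3 (x0 i t - Y i t)) (fun i t => (M i).O E3 (Y i t))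
    (fun i t => (M i).O E3 (x0 i t)) (fun i t => (M i).O E3 (Y i t)) .p true (by simp) (by simp)
  have all := (((((((((m0.trans p1).trans m1).trans p2).trans m2).trans p3).trans m3).trans
    f1).trans f2).trans f3)
  refine ⟨_, fun i => Sum.elim (fun t => z1 t.1 i t.2)
    (Sum.elim (fun t => z2 t.1 i t.2) fun t => z3 t.1 i t.2),
    (congrArg₂ (Can (Rk G) _) ?_ ?_).mp all, ?_⟩
  · funext i w
    rcases w with (((t | t) | ((t | t | t) | t)) | (t | t | t)) <;>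
      simp [gs, X, Y, A1, A2, A3, D, PP, Model.O_zero, ← Model.O_add]
  · funext i w
    rcases w with (((t | t) | ((t | t | t) | t)) | (t | t | t)) <;> rfl
  · obtain ⟨k, rfl⟩ : ∃ k, h = k + 1 := ⟨h - 1, by omega⟩
    simp only [locR, Nat.add_sub_cancel, Fintype.card_sum, Fintype.card_prod]
    ring

end Vale.Agent.P338.Net
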