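import Vale.Agent.P338.NetC

/-! P338: the network as an instruction list on a list of wires. -/

namespace Vale.Agent.P338

open Finset Matrix

set_option synthInstance.maxSize 1024

/-- Network instructions on numbered wires. -/
inductive NI (P : Type) where
  | pass (w : ℕ) (p : P)
  | axpy (dst src : ℕ) (c : ℤ)
  | zero (dst src : ℕ)

variable {P : Type}

/-- One instruction. -/
def NI.step {A V : Type} [CommRing A] [AddCommGroup V] [Module A V] (op : P → V →ₗ[A] V)
    (co : ℤ → A) (ξ : List V) : NI P → List V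
  | .pass w p => ξ.set w (op p (ξ.getD w 0))
  | .axpy d s c => ξ.set d (ξ.getD d 0 + co c • ξ.getD s 0)
  | .zero d _ => ξ.set d 0

/-- Running an instruction list. -/
def NI.run {A V : Type} [CommRing A] [AddCommGroup V] [Module A V] (op : P → V →ₗ[A] V)
    (co : ℤ → A) (prog : List (NI P)) (ξ : List V) : List V :=
  prog.foldl (NI.step op co) ξ

/-- Is the instruction a pass. -/
def NI.isPass : NI P → Bool
  | .pass _ _ => true
  | _ => false

/-- Number of passes. -/
def NI.passes (prog : List (NI P)) : ℕ := prog.countP NI.isPass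

/-- Wire indices are below `n`, coefficients are at most two, pass data satisfy `Q`. -/
def NI.Ok (Q : P → Prop) (n : ℕ) : NI P → Prop
  | .pass w p => w < n ∧ Q p
  | .axpy d s c => d < n ∧ s < n ∧ d ≠ s ∧ |c| ≤ 2
  | .zero d s => d < n ∧ s < n

namespace Net

variable {R : Type} [CommRing R] {G : R → Prop} {κ W : Type} [DecidableEq W]

theorem to_list {m n : ℕ} (e : κ ≃ Fin m) (ix : W ≃ Fin n) (tz : Cf → ℤ) (htz : ∀ c, |tz c| ≤ 2)
    (cd : (Fin m → R) → (Fin m → R) → P) (Q : P → Prop)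
    (hQ : ∀ u v, u ≠ 0 → v ≠ 0 → (∀ i, G (u i) ∧ G (v i)) → Q (cd u v))
    (p : List (Ins W (Matrix κ κ R))) (hp : ∀ a ∈ p, a.WF (Rk G)) :
    ∃ q : List (NI P), (∀ a ∈ q, a.Ok Q n) ∧ NI.passes q ≤ (p.map Ins.cost).sum ∧
      ∀ (M : Model (Matrix κ κ R)) (op : P → M.V →ₗ[M.K] M.V) (co : ℤ → M.K),
        (∀ c, co (tz c) = c.ev M.θ) →
        (∀ u v, op (cd u v) = M.O (vecMulVec (u ∘ e) (v ∘ e))) →
        ∀ (ξ : W → M.V) (l : List M.V), l.length = n → (∀ w, l.getD (ix w) 0 = ξ w) →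
          (NI.run op co q l).length = n ∧ ∀ w, (NI.run op co q l).getD (ix w) 0 = run M p ξ w := by
  classical
  have upd : ∀ {V : Type} [Zero V] (ξ : W → V) (l : List V), l.length = n →
      (∀ w, l.getD (ix w) 0 = ξ w) → ∀ w x w',
      (l.set (ix w) x).getD (ix w') 0 = Function.update ξ w x w' := by
    intro V _ ξ l hl h w x w'
    by_cases hw : w' = w
    · subst hw
      simp [List.getD_eq_getElem?_getD, hl]
    · have : (ix w : ℕ) ≠ ix w' := fun h => hw (ix.injective (Fin.ext h)).symm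
      rw [Function.update_of_ne hw, ← h, List.getD_eq_getElem?_getD, List.getD_eq_getElem?_getD,
        List.getElem?_set_ne this]
  induction p with
  | nil => exact ⟨[], by simp, by simp [NI.passes], fun M op co _ _ ξ l hl h => ⟨hl, h⟩⟩
  | cons a p ih =>
    obtain ⟨q, h1, h2, h3⟩ := ih fun b hb => hp b (List.mem_cons_of_mem _ hb)
    have ha := hp a List.mem_cons_self
    cases a with
    | lin w w' c =>
      refine ⟨.axpy (ix w) (ix w') (tz c) :: q, ?_, by simpa [NI.passes, NI.isPass, Ins.cost],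
        fun M op co hco hop ξ l hl h => h3 M op co hco hop _ _ (by simpa [NI.step]) fun u => ?_⟩
      · simp only [List.mem_cons, forall_eq_or_imp]
        exact ⟨⟨(ix w).2, (ix w').2, fun h => ha (ix.injective (Fin.ext h)), htz c⟩, h1⟩
      · simp only [NI.step, Ins.step, h, hco]
        exact upd ξ l hl h _ _ _
    | mov w D r =>
      obtain ⟨t, t1, t2, rfl⟩ := ha
      have key : ∃ q' : List (NI P), (∀ a ∈ q', a.Ok Q n) ∧ NI.passes q' ≤ t.length ∧
          ∀ (M : Model (Matrix κ κ R)) (op : P → M.V →ₗ[M.K] M.V) (co : ℤ → M.K),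
            (∀ u v, op (cd u v) = M.O (vecMulVec (u ∘ e) (v ∘ e))) →
            ∀ (ξ : W → M.V) (l : List M.V), l.length = n → (∀ w, l.getD (ix w) 0 = ξ w) →
              (NI.run op co q' l).length = n ∧ ∀ u, (NI.run op co q' l).getD (ix u) 0 =
                Function.update ξ w (M.O (t.map fun p => vecMulVec p.1 p.2).sum (ξ w)) u := by
        clear t1 hp
        induction t with
        | nil =>
          exact ⟨[], by simp, by simp [NI.passes], fun M op co _ ξ l hl h =>
            ⟨hl, by simpa [Model.O_zero, NI.run] using h⟩⟩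
        | cons a t iht =>
          obtain ⟨q', g1, g2, g3⟩ := iht fun b hb => t2 b (List.mem_cons_of_mem _ hb)
          by_cases h0 : a.1 = 0 ∨ a.2 = 0
          · have : vecMulVec a.1 a.2 = 0 := by rcases h0 with h0 | h0 <;> simp [h0]
            exact ⟨q', g1, g2.trans (by simp), by simpa [this] using g3⟩
          push Not at h0
          refine ⟨.pass (ix w) (cd (a.1 ∘ e.symm) (a.2 ∘ e.symm)) :: q', ?_,
            by simpa [NI.passes, NI.isPass, List.countP_cons] using g2,
            fun M op co hop ξ l hl h => ?_⟩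
          · simp only [List.mem_cons, forall_eq_or_imp]
            refine ⟨⟨(ix w).2, hQ _ _ (fun h => h0.1 ?_) (fun h => h0.2 ?_)
              fun i => t2 a List.mem_cons_self _⟩, g1⟩ <;>
              exact funext fun i => by simpa using congrFun h (e i)
          · obtain ⟨k1, k2⟩ := g3 M op co hop _ _ (by simpa using hl)
              (upd ξ l hl h w (M.O (vecMulVec a.1 a.2) (ξ w)))
            have hs : NI.step op co l (.pass (ix w) (cd (a.1 ∘ e.symm) (a.2 ∘ e.symm))) =
                l.set (ix w) (M.O (vecMulVec a.1 a.2) (ξ w)) := by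
              simp [NI.step, -List.getD_eq_getElem?_getD, h, hop, Function.comp_def]
            simp only [NI.run, List.foldl_cons, hs]
            refine ⟨k1, fun u => (k2 u).trans ?_⟩
            simp [add_comm (vecMulVec a.1 a.2), Model.O_add]
      obtain ⟨q', g1, g2, g3⟩ := key
      refine ⟨q' ++ q, fun a ha => (List.mem_append.1 ha).elim (g1 a) (h1 a), ?_,
        fun M op co hco hop ξ l hl h => ?_⟩
      · simp only [NI.passes, List.countP_append, List.map_cons, List.sum_cons, Ins.cost] at *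
        omega
      · obtain ⟨k1, k2⟩ := g3 M op co hop ξ l hl h
        simp only [NI.run, List.foldl_append]
        exact h3 M op co hco hop _ _ k1 k2

/-- Triples. -/
abbrev Tr := {T : Finset (Fin 22) // T.card = 3}

theorem card_Tr : Fintype.card Tr = 1540 := by
  rw [Fintype.card_finset_len, Fintype.card_fin]; rfl

/-- Indicator vector. -/
def ind (R : Type) [CommRing R] (T : Tr) : Fin 22 → R := fun i => if i ∈ T.1 then 1 else 0

theorem ind_dot (S T : Tr) : ind R S ⬝ᵥ ind R T = ((S.1 ∩ T.1).card : R) := by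
  simp only [dotProduct, ind, ite_mul, one_mul, zero_mul, ← ite_and, ← mem_inter]
  rw [Finset.sum_ite_mem, univ_inter]; simp

theorem card_cases (S T : Tr) : (S = T ∧ (S.1 ∩ T.1).card = 3) ∨
    (S ≠ T ∧ (S.1 ∩ T.1).card ≤ 2) := by
  by_cases h : S = T
  · subst h; simp [S.2]
  · refine Or.inr ⟨h, ?_⟩
    have h3 : (S.1 ∩ T.1).card ≤ 3 := (card_le_card inter_subset_left).trans S.2.le
    by_contra hc
    have a1 := Finset.eq_of_subset_of_card_le (inter_subset_left (s₁ := S.1) (s₂ := T.1))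
      (by rw [S.2]; omega)
    have a2 := Finset.eq_of_subset_of_card_le (inter_subset_right (s₁ := S.1) (s₂ := T.1))
      (by rw [T.2]; omega)
    exact h (Subtype.ext (a1.symm.trans a2))

theorem exists_sdiff {S T : Tr} (h : S ≠ T) : ∃ j, j ∈ S.1 ∧ j ∉ T.1 := by
  by_contra hc
  push Not at hc
  exact h (Subtype.ext (Finset.eq_of_subset_of_card_le hc (by rw [S.2, T.2])))

theorem k3_smul {ι : Type} [DecidableEq ι] {m : ℕ} (e : (ι × ι) × ι ≃ Fin m) (ε : R) :
    (k3 (ε • (1 : Matrix ι ι R)) (ε • 1) (ε • 1)).submatrix e.symm e.symm = ε ^ 3 • 1 := by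
  ext a b
  simp only [k3, submatrix_apply, kroneckerMap_apply, Matrix.smul_apply, Matrix.one_apply,
    ← e.symm.injective.eq_iff (a := a), smul_eq_mul]
  generalize e.symm a = a, e.symm b = b
  by_cases h1 : a.1.1 = b.1.1 <;> by_cases h2 : a.1.2 = b.1.2 <;> by_cases h3 : a.2 = b.2 <;>
    simp only [Prod.ext_iff, h1, h2, h3, if_true, if_false, and_self, and_true, and_false] <;> ring

theorem main0 {X Nb Zi ι : Type} [Fintype X] [Fintype Nb] [Fintype Zi] [Fintype ι] [DecidableEq X]
    [DecidableEq Nb] [DecidableEq Zi] [DecidableEq ι] (hX : Fintype.card X = 1540)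
    (hι : Fintype.card ι = 22) (hNb : Fintype.card Nb ≤ 1540 * 1540) (hZ : Fintype.card Zi ≤ 23)
    {m W : ℕ} (hm' : m = 10648) (hW : W = 17 ^ 12) (L : Loc X Nb Zi)
    (hm : ∀ x y, G x → G y → G (x * y)) (hn : ∀ x, G x → G (-x)) (ε : R) (Pr : X → Matrix ι ι R)
    (hP : ∀ T, Rk G (Pr T) 1) (hP2 : ∀ T, Rk G (Pr T + Pr T) 1)
    (hQ1 : ∀ T, Rk G (ε • 1 - Pr T) (22 - 1))
    (hQP : ∀ n, Rk G (ε • 1 - Pr (L.f1 n) - Pr (L.f2 n)) (22 - 2))
    (hE : Rk G (ε • (1 : Matrix ι ι R)) 22)
    (tz : Cf → ℤ) (htz : ∀ c, |tz c| ≤ 2) (cd : (Fin m → R) → (Fin m → R) → P)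
    (Q : P → Prop) (hQ : ∀ u v, u ≠ 0 → v ≠ 0 → (∀ i, G (u i) ∧ G (v i)) → Q (cd u v)) :
    ∃ (Z : ℕ) (prog : List (NI P)), NI.passes prog < W * m ∧ (∀ a ∈ prog, a.Ok Q (W + Z)) ∧
      ∀ (A V : Type) [CommRing A] [AddCommGroup V] [Module A V] (θ : A) (co : ℤ → A)
        (O : Matrix (Fin m) (Fin m) R → V →ₗ[A] V) (op : P → V →ₗ[A] V), L.Ok θ →
        (∀ c, co (tz c) = c.ev θ) → (∀ M N v, O (M + N) v = O M (O N v)) → (∀ v, O 0 v = v) →
        (∀ u v, op (cd u v) = O (vecMulVec u v)) → ∀ ξ : List V, ξ.length = W →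
        (NI.run op co prog (ξ ++ List.replicate Z 0)).take W = ξ.map (O (ε ^ 3 • 1)) := by
  have hW' : 2 * 1540 ^ 3 + 3 * 1540 ^ 2 * (1540 * 1540) ≤ W := by rw [hW]; norm_num
  obtain ⟨d, hd⟩ : ∃ d, W = 2 * 1540 ^ 3 + 3 * 1540 ^ 2 * Fintype.card Nb + d :=
    Nat.exists_eq_add_of_le (by omega)
  have hWr : Fintype.card (Wr X Nb (Fin d)) = W := by
    simp only [Fintype.card_sum, Fintype.card_prod, hX, Fintype.card_fin]
    omega
  obtain ⟨r, z, ⟨p, p1, p2, p3⟩, hr⟩ := net (Id := Fin d) (G := G) L hm hn (h := 22) (by norm_num)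
    (ε • 1) Pr hP hP2 hQ1 hQP hE
    (I := Σ M : {M : Model (Matrix ((ι × ι) × ι) ((ι × ι) × ι) R) // L.Ok M.θ},
      Wr X Nb (Fin d) → M.1.V) (M := fun i => i.1.1) (fun i => i.1.2) fun i => i.2
  let e : (ι × ι) × ι ≃ Fin m := Fintype.equivFinOfCardEq (by simp [hι, hm'])
  let eR := Fintype.equivFinOfCardEq hWr
  let ix := (eR.sumCongr (Fintype.equivFin (Wz X Zi))).trans finSumFinEquiv
  obtain ⟨q, q1, q2, q3⟩ := to_list e ix tz htz cd Q hQ p p1
  refine ⟨_, q, ?_, q1, fun A V _ _ _ θ co O op hL hco hO hO0 hop ξ hξ => ?_⟩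
  · rw [hWr, hX] at hr
    subst hm'
    omega
  · let M : Model (Matrix ((ι × ι) × ι) ((ι × ι) × ι) R) :=
      { K := A, V := V, θ := θ, O := fun D => O (D.submatrix e.symm e.symm),
        O_add := fun D D' v => hO _ _ v, O_zero := hO0 }
    have h3 := p3 ⟨⟨M, hL⟩, fun w => ξ.getD (eR w) 0⟩
    obtain ⟨k1, k2⟩ := q3 M op co hco (fun u v => by
        rw [hop]
        exact congrArg O (by ext a b; simp [vecMulVec_apply]))
      (Sum.elim (fun w => ξ.getD (eR w) 0) 0) (ξ ++ List.replicate (Fintype.card (Wz X Zi)) 0)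
      (by rw [List.length_append, List.length_replicate, hξ]) (by
        rintro (u | u)
        · simp [ix, List.getD_eq_getElem?_getD, List.getElem?_append_left, hξ]
        · simp [ix, List.getD_eq_getElem?_getD, List.getElem?_append_right, hξ])
    refine List.ext_getElem (by rw [List.length_take, k1, List.length_map, hξ]; omega)
      fun i hi1 hi2 => ?_
    have hiW : i < W := by simpa [hξ] using hi2
    have := k2 (.inl (eR.symm ⟨i, hiW⟩))
    rw [show run M p _ = _ from h3] at this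
    simp only [ix, Equiv.trans_apply, Equiv.sumCongr_apply, Sum.map_inl, Equiv.apply_symm_apply,
      finSumFinEquiv_apply_left, Fin.val_castAdd, Sum.elim_inl] at this
    rw [List.getElem_take, List.getElem_map, ← List.getD_eq_getElem _ 0, this,
      List.getD_eq_getElem _ _ (hξ ▸ hiW)]
    exact congrArg (fun D => O D _) (k3_smul e ε)

theorem main {Zi : Type} [Fintype Zi] [DecidableEq Zi] (hZ : Fintype.card Zi ≤ 23)
    {m W : ℕ} (hm' : m = 10648) (hW : W = 17 ^ 12)
    (pr : Tr × Tr → Prop) [DecidablePred pr] (sc : Tr → Zi → Cf) (ga : Zi → Tr → Cf)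
    (ka : {p // pr p} → Cf) (hm : ∀ x y, G x → G y → G (x * y)) (hn : ∀ x, G x → G (-x))
    (h0 : G 0) (h1 : G 1) (h2 : G 2) (ε : R) (w : Tr → Fin 22 → R) (hw : ∀ T i, G (w T i))
    (hε : ∀ T, w T ⬝ᵥ ind R T = ε) (hne : ∀ S T, pr (S, T) → S ≠ T)
    (hpr : ∀ S T, pr (S, T) → w S ⬝ᵥ ind R T = 0 ∧ w T ⬝ᵥ ind R S = 0)
    (hG0 : ∀ i j, G ((ε • (1 : Matrix (Fin 22) (Fin 22) R)) i j))
    (hG1 : ∀ T i j, G ((ε • 1 - vecMulVec (ind R T) (w T)) i j))
    (hG2 : ∀ S T i j, G ((ε • 1 - vecMulVec (ind R S) (w S) - vecMulVec (ind R T) (w T)) i j))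
    (tz : Cf → ℤ) (htz : ∀ c, |tz c| ≤ 2) (cd : (Fin m → R) → (Fin m → R) → P)
    (Q : P → Prop) (hQ : ∀ u v, u ≠ 0 → v ≠ 0 → (∀ i, G (u i) ∧ G (v i)) → Q (cd u v)) :
    ∃ (Z : ℕ) (prog : List (NI P)), NI.passes prog < W * m ∧ (∀ a ∈ prog, a.Ok Q (W + Z)) ∧
      ∀ (A V : Type) [CommRing A] [AddCommGroup V] [Module A V] (θ : A) (co : ℤ → A)
        (O : Matrix (Fin m) (Fin m) R → V →ₗ[A] V) (op : P → V →ₗ[A] V),
        Loc.Ok ⟨fun n : {p // pr p} => n.1.1, fun n => n.1.2, sc, ga, ka⟩ θ →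
        (∀ c, co (tz c) = c.ev θ) → (∀ M N v, O (M + N) v = O M (O N v)) → (∀ v, O 0 v = v) →
        (∀ u v, op (cd u v) = O (vecMulVec u v)) → ∀ ξ : List V, ξ.length = W →
        (NI.run op co prog (ξ ++ List.replicate Z 0)).take W = ξ.map (O (ε ^ 3 • 1)) := by
  have hi : ∀ T i, G (ind R T i) := fun T i => by simp only [ind]; split_ifs <;> assumption
  have ker : ∀ S T, vecMulVec (ind R S) (w S) *ᵥ ind R T = (w S ⬝ᵥ ind R T) • ind R S :=
    fun S T => by rw [vecMulVec_mulVec, op_smul_eq_smul]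
  refine main0 card_Tr (Fintype.card_fin _)
    ((Fintype.card_subtype_le _).trans (by rw [Fintype.card_prod, card_Tr])) hZ hm' hW _ hm hn ε
    (fun T => vecMulVec (ind R T) (w T)) (fun T => Rk.vv fun i => ⟨hi T i, hw T i⟩)
    (fun T => ?_) (fun T => ?_) (fun n => ?_) ?_ tz htz cd Q hQ
  · have : vecMulVec (ind R T) (w T) + vecMulVec (ind R T) (w T) =
        vecMulVec (ind R T) (2 • w T) := by ext a b; simp [vecMulVec_apply]; ring
    rw [this]
    exact Rk.vv fun i => ⟨hi T i, by simpa using hm _ _ h2 (hw T i)⟩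
  · obtain ⟨j, hj⟩ := Finset.card_pos.1 (show 0 < T.1.card by rw [T.2]; norm_num)
    simpa using Rk.of_ker h0 h1 hn (hG1 T) {j} (fun _ => ind R T) (fun _ => hi T)
      (fun _ _ => by simp [sub_mulVec, smul_mulVec, ker, hε]) (by simp [ind, hj])
  · obtain ⟨⟨S, T⟩, hn'⟩ := n
    obtain ⟨j, hj, hj'⟩ := exists_sdiff (hne S T hn')
    obtain ⟨k, hk, hk'⟩ := exists_sdiff (hne S T hn').symm
    have hjk : j ≠ k := fun h => hj' (h ▸ hk)
    simpa [card_pair hjk] using Rk.of_ker h0 h1 hn (hG2 S T) {j, k}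
      (fun a => if a = j then ind R S else ind R T)
      (fun a => by split_ifs <;> exact hi _)
      (fun a _ => by
        split_ifs <;> simp [sub_mulVec, smul_mulVec, ker, hε, hpr S T hn'])
      (by simp [ind, hj, hj', hk, hk', hjk, hjk.symm])
  · simpa using Rk.of_ker h0 h1 hn hG0 ∅ (fun _ _ => 0) (fun _ _ => h0) (by simp) (by simp)

end Net

open Net

/-- The integer matrix `u vᵀ` of a pair of lists. -/
def matA (m : ℕ) (p : List ℤ × List ℤ) : Matrix (Fin m) (Fin m) ℤ :=
  vecMulVec (fun i => p.1.getD i 0) fun i => p.2.getD i 0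

/-- Admissible pass data of the transposition network. -/
def OkA (m : ℕ) (p : List ℤ × List ℤ) : Prop :=
  p.1.length = m ∧ p.2.length = m ∧ (∃ x ∈ p.1, x ≠ 0) ∧ (∃ x ∈ p.2, x ≠ 0) ∧
    ∀ x ∈ p.1 ++ p.2, x = 0 ∨ ¬ (17 : ℤ) ∣ x

/-- The matrix `u vᵀ` over `ZMod 2` of a pair of lists. -/
def matB (m : ℕ) (p : List Bool × List Bool) : Matrix (Fin m) (Fin m) (ZMod 2) :=
  vecMulVec (fun i => if p.1.getD i false then 1 else 0) fun i => if p.2.getD i false then 1 else 0

/-- Admissible pass data of the arithmetic network. -/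
def OkB (m : ℕ) (p : List Bool × List Bool) : Prop :=
  p.1.length = m ∧ p.2.length = m ∧ true ∈ p.1 ∧ true ∈ p.2

theorem matA_ofFn {m : ℕ} (u v : Fin m → ℤ) :
    matA m (List.ofFn u, List.ofFn v) = vecMulVec u v := by
  simp only [matA, List.getD_eq_getElem?_getD, List.getElem?_ofFn, Fin.is_lt, dite_true,
    Option.getD_some, Fin.eta]

theorem matB_ofFn {m : ℕ} (u v : Fin m → ZMod 2) : matB m (List.ofFn fun i => decide (u i = 1),
    List.ofFn fun i => decide (v i = 1)) = vecMulVec u v := by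
  have : ∀ t : ZMod 2, (if decide (t = 1) = true then 1 else 0) = t := by decide
  simp only [matB, List.getD_eq_getElem?_getD, List.getElem?_ofFn, Fin.is_lt, dite_true,
    Option.getD_some, Fin.eta, this]

theorem sum_nb {K : Type} [CommRing K] (pr : Tr × Tr → Prop) [DecidablePred pr]
    (f : Tr × Tr → K) (S T : Tr) :
    ∑ n : {p // pr p}, (if n.1.1 = S ∧ n.1.2 = T then f n.1 else 0) =
      if pr (S, T) then f (S, T) else 0 := by
  split_ifs with h
  · rw [Finset.sum_eq_single ⟨(S, T), h⟩ (fun n _ hn => if_neg fun e =>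
      hn (Subtype.ext (Prod.ext e.1 e.2))) (by simp)]
    simp
  · exact Finset.sum_eq_zero fun n _ => if_neg fun e => h (by rw [← e.1, ← e.2]; exact n.2)

/-- Instance A: integer labels, data in characteristic two. -/
theorem netA {m W : ℕ} (hm : m = 10648) (hW : W = 17 ^ 12) :
    ∃ (Z : ℕ) (prog : List (NI (List ℤ × List ℤ))),
    NI.passes prog < W * m ∧ (∀ a ∈ prog, a.Ok (OkA m) (W + Z)) ∧
    ∀ (A V : Type) [CommRing A] [AddCommGroup V] [Module A V]
      (O : Matrix (Fin m) (Fin m) ℤ → V →ₗ[A] V), (2 : A) = 0 →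
      (∀ M N v, O (M + N) v = O M (O N v)) → (∀ v, O 0 v = v) →
      ∀ ξ : List V, ξ.length = W →
      (NI.run (fun p => O (matA m p)) (fun c => (c : A)) prog (ξ ++ List.replicate Z 0)).take W =
        ξ.map (O ((216 : ℤ) • 1)) := by
  have small : ∀ x : ℤ, -17 < x → x < 17 → x = 0 ∨ ¬ (17 : ℤ) ∣ x := fun x h1 h2 => by omega
  have hd : ∀ S T : Tr, (fun i => 3 * ind ℤ S i - 1) ⬝ᵥ ind ℤ T =
      3 * ((S.1 ∩ T.1).card : ℤ) - 3 := fun S T => by
    have h1 := ind_dot (R := ℤ) S T
    have h2 : ∑ i, ind ℤ T i = 3 := by simp [ind, T.2]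
    simp only [dotProduct] at h1 ⊢
    simp only [sub_mul, mul_assoc, one_mul, sum_sub_distrib, ← Finset.mul_sum, h1, h2]
  obtain ⟨Z, prog, h1, h2, h3⟩ := Net.main (R := ℤ) (G := fun x => x = 0 ∨ ¬ (17 : ℤ) ∣ x)
    (Zi := Fin 22) (by simp) hm hW (fun p => (p.1.1 ∩ p.2.1).card = 1)
    (fun S i => if i ∈ S.1 then .p else .z) (fun i T => if i ∈ T.1 then .p else .z) (fun _ => .p)
    (fun x y hx hy => by
      rcases hx with rfl | hx
      · simp
      rcases hy with rfl | hy
      · simp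
      exact Or.inr fun h => ((Int.prime_iff_natAbs_prime.2 (by norm_num)).dvd_or_dvd h).elim hx hy)
    (fun x hx => by simpa using hx) (by simp) (by norm_num) (by norm_num) 6
    (fun T i => 3 * ind ℤ T i - 1) (fun T i => by simp only [ind]; split_ifs <;> norm_num)
    (fun T => by rw [hd, inter_self, T.2]; rfl)
    (fun S T h e => by subst e; simp [S.2] at h)
    (fun S T h => by rw [hd, hd, inter_comm T.1, h]; simp)
    (fun i j => by simp only [Matrix.smul_apply, Matrix.one_apply]; split_ifs <;> norm_num)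
    (fun T i j => by
      simp only [Matrix.sub_apply, Matrix.smul_apply, Matrix.one_apply, vecMulVec_apply, ind]
      split_ifs <;> norm_num)
    (fun S T i j => by
      simp only [Matrix.sub_apply, Matrix.smul_apply, Matrix.one_apply, vecMulVec_apply, ind]
      split_ifs <;> norm_num)
    (fun c => match c with | .z => 0 | .p => 1 | .n => -1 | .hp => 1 | .hn => -1)
    (fun c => by cases c <;> simp) (fun u v => (List.ofFn u, List.ofFn v)) (OkA m)
    (fun u v hu hv h => ⟨List.length_ofFn, List.length_ofFn,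
      (Function.ne_iff.1 hu).elim fun i hi => ⟨_, List.mem_ofFn.2 ⟨i, rfl⟩, hi⟩,
      (Function.ne_iff.1 hv).elim fun i hi => ⟨_, List.mem_ofFn.2 ⟨i, rfl⟩, hi⟩, fun x hx => by
        rcases List.mem_append.1 hx with hx | hx <;> obtain ⟨i, rfl⟩ := List.mem_ofFn.1 hx
        exacts [(h i).1, (h i).2]⟩)
  refine ⟨Z, prog, h1, h2, fun A V _ _ _ O hA hO hO0 ξ hξ => ?_⟩
  have h4 := h3 A V 1 (fun c => (c : A)) O (fun p => O (matA m p))
  have h5 := h4 (fun S T => ?_) (fun c => by cases c <;> simp [Cf.ev]) hO hO0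
    (fun u v => by rw [← matA_ofFn]) ξ hξ
  · exact h5
  · have h4 := ind_dot (R := A) S T
    have h5 : ∀ (S : Tr) i, (if i ∈ S.1 then Cf.p else Cf.z).ev (1 : A) = ind A S i :=
      fun S i => by simp only [ind]; split_ifs <;> rfl
    simp only [h5, sum_nb _ (fun _ => Cf.p.ev (1 : A))]
    rw [show ∑ i, ind A S i * ind A T i = _ from h4]
    rcases card_cases S T with ⟨rfl, h⟩ | ⟨hne, h⟩
    · rw [h]; simp only [if_true]; norm_num; linear_combination hA
    · rw [if_neg hne]
      generalize (S.1 ∩ T.1).card = c at h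
      interval_cases c <;> norm_num <;> linear_combination hA

/-- Instance B: labels over `ZMod 2`, data over a ring containing one half. -/
theorem netB {m W : ℕ} (hm : m = 10648) (hW : W = 17 ^ 12) :
    ∃ (Z : ℕ) (prog : List (NI (List Bool × List Bool))),
    NI.passes prog < W * m ∧ (∀ a ∈ prog, a.Ok (OkB m) (W + Z)) ∧
    ∀ (A V : Type) [CommRing A] [AddCommGroup V] [Module A V] (θ : A)
      (O : Matrix (Fin m) (Fin m) (ZMod 2) → V →ₗ[A] V), 2 * θ = 1 →
      (∀ M N v, O (M + N) v = O M (O N v)) → (∀ v, O 0 v = v) →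
      ∀ ξ : List V, ξ.length = W →
      (NI.run (fun p => O (matB m p)) (fun c => (c : A) * θ) prog
        (ξ ++ List.replicate Z 0)).take W = ξ.map (O 1) := by
  obtain ⟨Z, prog, h1, h2, h3⟩ := Net.main (R := ZMod 2) (G := fun _ => True)
    (Zi := Option (Fin 22)) (by simp) hm hW (fun p => Even (p.1.1 ∩ p.2.1).card)
    (fun S i => i.elim .hn fun i => if i ∈ S.1 then .hp else .z)
    (fun i T => i.elim .p fun i => if i ∈ T.1 then .p else .z)
    (fun n => if (n.1.1.1 ∩ n.1.2.1).card = 0 then .hp else .hn)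
    (by simp) (by simp) trivial trivial trivial 1 (ind _) (by simp)
    (fun T => by rw [ind_dot, inter_self, T.2]; rfl)
    (fun S T h e => by subst e; rw [inter_self, S.2] at h; exact absurd h (by decide))
    (fun S T h => by
      rw [ind_dot, ind_dot, inter_comm T.1, and_self]
      exact (ZMod.natCast_eq_zero_iff_even).2 h)
    (by simp) (by simp) (by simp)
    (fun c => match c with | .z => 0 | .p => 2 | .n => -2 | .hp => 1 | .hn => -1)
    (fun c => by cases c <;> simp)
    (fun u v => (List.ofFn fun i => decide (u i = 1), List.ofFn fun i => decide (v i = 1)))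
    (OkB m)
    (fun u v hu hv _ => by
      have key : ∀ u : Fin m → ZMod 2, u ≠ 0 → true ∈ List.ofFn fun i => decide (u i = 1) :=
        fun u hu => (Function.ne_iff.1 hu).elim fun i hi => List.mem_ofFn.2 ⟨i, by
          have : ∀ t : ZMod 2, t ≠ 0 → decide (t = 1) = true := by decide
          exact this _ hi⟩
      exact ⟨List.length_ofFn, List.length_ofFn, key u hu, key v hv⟩)
  refine ⟨Z, prog, h1, h2, fun A V _ _ _ θ O hA hO hO0 ξ hξ => ?_⟩
  have := h3 A V θ (fun c => (c : A) * θ) O (fun p => O (matB m p)) (fun S T => ?_)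
    (fun c => by cases c <;> simp [Cf.ev, hA]) hO hO0 (fun u v => by rw [← matB_ofFn]) ξ hξ
  · simpa only [one_pow, one_smul] using this
  · have h4 := ind_dot (R := A) S T
    have h5 : ∀ (S : Tr) i, (if i ∈ S.1 then Cf.p else Cf.z).ev θ = ind A S i :=
      fun S i => by simp only [ind]; split_ifs <;> rfl
    have h6 : ∀ (S : Tr) i, (if i ∈ S.1 then Cf.hp else Cf.z).ev θ = θ * ind A S i :=
      fun S i => by simp only [ind]; split_ifs <;> simp [Cf.ev]
    simp only [Fintype.sum_option, Option.elim, h5, h6, mul_assoc, ← Finset.mul_sum,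
      sum_nb (fun p => Even (p.1.1 ∩ p.2.1).card)
        (fun p => (if (p.1.1 ∩ p.2.1).card = 0 then Cf.hp else Cf.hn).ev θ)]
    rw [show ∑ i, ind A S i * ind A T i = _ from h4]
    rcases card_cases S T with ⟨rfl, h⟩ | ⟨hne, h⟩
    · rw [h, if_neg (by decide), if_pos rfl]
      simp only [Cf.ev]; push_cast; linear_combination hA
    · rw [if_neg hne]
      generalize (S.1 ∩ T.1).card = c at h
      interval_cases c <;> simp [Cf.ev] <;> ring

end Vale.Agent.P338
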