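import Vale.Agent.P338.OpD
import Vale.Agent.P338.NetD

/-! Job J6: the recursion scheme of a network on arrays. -/

namespace Vale.Agent.P338

open PT

attribute [local irreducible] PTime PB C

variable {P ε : Type}

/-- one instruction on a list of wires of length `n` -/
def NI.stepL (ps : P → List Bool → List Bool) (ax : ℤ → List Bool → List Bool) (n : ℕ)
    (ws : List (List Bool)) : NI P → List (List Bool)
  | .pass w p => ws.set w (ps p (ws.getD w (List.replicate n false)))
  | .axpy d s c =>
    ws.set d (ax c (ws.getD d (List.replicate n false) ++ ws.getD s (List.replicate n false)))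
  | .zero d _ => ws.set d (List.replicate n false)

/-- the data of a recursive network algorithm -/
structure NetData (ε P : Type) where
  W : ℕ
  Z : ℕ
  prog : List (NI P)
  N : ε → ℕ
  base : ε → List Bool → List Bool
  ini : ε → List Bool → List Bool
  fin : ε → List Bool → List Bool
  pre : ε × P → List Bool → List Bool
  post : ε × P → List Bool → List Bool
  sub : ε × P → ε
  ax : ε × ℤ → List Bool → List Bool

/-- the recursive algorithm of depth `d` -/
def NetData.F (X : NetData ε P) : ℕ → ε → List Bool → List Bool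
  | 0, e, l => X.base e l
  | d + 1, e, l => X.fin e ((X.prog.foldl
      (NI.stepL (fun p v => X.post (e, p) (X.F d (X.sub (e, p)) (X.pre (e, p) v)))
        (fun c => X.ax (e, c)) (X.N e / X.W))
      (chunks (X.N e / X.W) (X.ini e l) ++
        List.replicate X.Z (List.replicate (X.N e / X.W) false))).take X.W).flatten

namespace NetData

open Filter

abbrev Fr (ε : Type) : Type := List Unit × ε × List (List Bool)
abbrev Res (ε : Type) : Type := List Bool ⊕ Fr ε × (ε × List Bool)

def zw (X : NetData ε P) (e : ε) : List Bool := List.replicate (X.N e / X.W) false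

/-- run the program up to the next pass -/
def adv (X : NetData ε P) : ℕ → List (NI P) → ε → List (List Bool) → Res ε
  | _, [], e, ws => .inl (X.fin e (ws.take X.W).flatten)
  | n, .pass w p :: _, e, ws =>
    .inr ((List.replicate n (), e, ws), (X.sub (e, p), X.pre (e, p) (ws.getD w (X.zw e))))
  | n, .axpy d s c :: l, e, ws =>
    X.adv (n + 1) l e (ws.set d (X.ax (e, c) (ws.getD d (X.zw e) ++ ws.getD s (X.zw e))))
  | n, .zero d _ :: l, e, ws => X.adv (n + 1) l e (ws.set d (X.zw e))

def hnd (X : NetData ε P) (n : ℕ) (l : List (NI P)) (e : ε) (ws : List (List Bool))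
    (y : List Bool) : NI P → Res ε
  | .pass w p => X.adv (n + 1) l e (ws.set w (X.post (e, p) y))
  | _ => .inl []

/-- resume the program after a pass -/
def pst (X : NetData ε P) : ℕ → List (NI P) → Fr ε × List Bool → Res ε
  | _, [], _ => .inl []
  | n, a :: l, x => if x.1.1.isEmpty then X.hnd n l x.1.2.1 x.1.2.2 x.2 a
      else X.pst (n + 1) l ((x.1.1.tail, x.1.2), x.2)

lemma pst_append (X : NetData ε P) (l1 : List (NI P)) (a l e ws y) : ∀ n,
    X.pst n (l1 ++ a :: l) ((List.replicate l1.length (), e, ws), y) =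
      X.hnd (n + l1.length) l e ws y a := by
  induction l1 with
  | nil => intro n; simp [pst]
  | cons b l1 ih =>
    intro n
    simp only [List.cons_append, pst, List.length_cons, List.replicate_succ, List.isEmpty_cons,
      Bool.false_eq_true, if_false, List.tail_cons]
    rw [ih]; congr 1; omega

def prc (X : NetData ε P) (dep : ε → ℕ) (x : ε × List Bool) : Res ε :=
  if dep x.1 = 0 then .inl (X.base x.1 x.2)
  else X.adv 0 X.prog x.1 (chunks (X.N x.1 / X.W) (X.ini x.1 x.2) ++ List.replicate X.Z (X.zw x.1))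

def Val (X : NetData ε P) (e : ε) (ws : List (List Bool)) : Prop :=
  ws.length = X.W + X.Z ∧ ∀ v ∈ ws, v.length = X.N e / X.W

lemma Val.getD {X : NetData ε P} {e ws} (h : X.Val e ws) (w : ℕ) :
    (ws.getD w (X.zw e)).length = X.N e / X.W := by
  rw [List.getD_eq_getElem?_getD]
  cases hw : ws[w]? with
  | none => simp [zw]
  | some v => exact h.2 v (List.mem_of_getElem? hw)

lemma Val.set {X : NetData ε P} {e ws} (h : X.Val e ws) (w : ℕ) {v : List Bool}
    (hv : v.length = X.N e / X.W) : X.Val e (ws.set w v) :=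
  ⟨by simpa using h.1, fun u hu => (List.mem_or_eq_of_mem_set hu).elim (h.2 u) fun h => h ▸ hv⟩

lemma Val.flat {X : NetData ε P} {e ws} (h : X.Val e ws) (hd : X.W ∣ X.N e) :
    (ws.take X.W).flatten.length = X.N e := by
  rw [List.length_flatten, List.map_congr_left fun v hv => h.2 v (List.mem_of_mem_take hv)]
  simp only [List.map_const', List.length_take, List.sum_replicate, smul_eq_mul]
  rw [min_eq_left (by rw [h.1]; omega), Nat.mul_div_cancel' hd]

lemma val_ini {X : NetData ε P} {e} {l : List Bool} (hl : l.length = X.N e) (hd : X.W ∣ X.N e)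
    (h0 : 0 < X.N e / X.W) :
    X.Val e (chunks (X.N e / X.W) l ++ List.replicate X.Z (X.zw e)) := by
  have hl' : l.length = X.W * (X.N e / X.W) := by rw [hl, Nat.mul_div_cancel' hd]
  rw [chunks_eq h0 hl']
  refine ⟨by simp, fun v hv => ?_⟩
  rcases List.mem_append.1 hv with h | h
  · obtain ⟨i, hi, rfl⟩ := List.mem_map.1 h
    exact length_blk' hl' (List.mem_range.1 hi)
  · rw [List.eq_of_mem_replicate h]; simp [zw]

lemma pow_aux {a E c k0 k : ℕ} (h : a ≤ E + c) (hE : 0 < E) (hk : (c + 1) * k0 ≤ k) :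
    (a + 1) ^ k0 ≤ (E + 1) ^ k := by
  have h1 : a + 1 ≤ (E + 1) ^ (c + 1) := by
    have : c < (E + 1) ^ c := Nat.lt_pow_self (by omega)
    rw [pow_succ]; nlinarith
  calc (a + 1) ^ k0 ≤ ((E + 1) ^ (c + 1)) ^ k0 := Nat.pow_le_pow_left h1 _
    _ ≤ (E + 1) ^ k := by rw [← pow_mul]; exact Nat.pow_le_pow_right (by omega) hk

lemma useE {ε1 : Type} [TEnc ε1] {D1 : ε1 → Prop} {N1 N1' B1 T1 : ε1 → ℕ}
    {h : ε1 → List Bool → List Bool} (hh : Op D1 N1 N1' B1 T1 h) (c : ℕ) :
    ∀ᶠ k in atTop, ∀ {α : Type} [TEnc α] {D : α → Prop} {T : α → ℕ} {e : α → ε1}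
      {l : α → List Bool} (E : α → ℕ), C D T e → C D T l →
      (∀ x, D x → D1 (e x) ∧ (l x).length = N1 (e x) ∧ sz (e x) ≤ E x + c ∧ 0 < E x ∧
        (E x + 1) ^ k ≤ B1 (e x) ∧ T1 (e x) ≤ T x) → C D T fun x => h (e x) (l x) := by
  obtain ⟨k0, hk⟩ := hh.use
  filter_upwards [eventually_ge_atTop ((c + 1) * k0)] with k hk0 α _ D T e l E he hl H
  refine hk he hl (fun x hx => ?_) ⟨1, fun x hx => by have := (H x hx).2.2.2.2.2; omega⟩
  obtain ⟨h1, h2, h3, h4, h5, _⟩ := H x hx
  exact ⟨h1, h2, (pow_aux h3 h4 hk0).trans h5⟩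

lemma ptimeE {β γ : Type} [TEnc β] [TEnc γ] {φ : β → γ} (hφ : PTime φ) (c : ℕ) :
    ∀ᶠ k in atTop, ∀ {α : Type} [TEnc α] {D : α → Prop} {T : α → ℕ} {e : α → β} (E : α → ℕ),
      C D T e → (∀ x, D x → sz (e x) ≤ E x + c ∧ 0 < E x ∧ (E x + 1) ^ k ≤ T x + sz x) →
      C D T fun x => φ (e x) := by
  obtain ⟨k0, hk⟩ := C.ptime hφ
  filter_upwards [eventually_ge_atTop ((c + 1) * k0)] with k hk0 α _ D T e E he H
  refine hk he ⟨1, fun x hx => ?_⟩
  obtain ⟨h1, h2, h3⟩ := H x hx
  rw [one_mul]
  exact (pow_aux h1 h2 hk0).trans h3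

end NetData

open NetData Filter in
theorem netRec [TEnc ε] [TEnc P] (X : NetData ε P) {Q : P → Prop} (hW : 0 < X.W)
    (hprog : ∀ a ∈ X.prog, a.Ok Q (X.W + X.Z)) {D : ε → Prop} {dep B T T1 U E : ε → ℕ}
    (hdep : PTime dep) (hN : PTime X.N) (hsub : PTime X.sub)
    (hbase : Op (fun e => D e ∧ dep e = 0) X.N X.N B T X.base)
    (hini : Op (fun e => D e ∧ 0 < dep e) X.N X.N B T1 X.ini)
    (hfin : Op (fun e => D e ∧ 0 < dep e) X.N X.N B T1 X.fin)
    (hpre : Op (fun x : ε × P => D x.1 ∧ 0 < dep x.1 ∧ ∃ w, NI.pass w x.2 ∈ X.prog)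
      (fun x => X.N x.1 / X.W) (fun x => X.N x.1 / X.W) (fun x => B x.1) (fun x => T1 x.1) X.pre)
    (hpost : Op (fun x : ε × P => D x.1 ∧ 0 < dep x.1 ∧ ∃ w, NI.pass w x.2 ∈ X.prog)
      (fun x => X.N x.1 / X.W) (fun x => X.N x.1 / X.W) (fun x => B x.1) (fun x => T1 x.1) X.post)
    (hax : Op (fun x : ε × ℤ => D x.1 ∧ 0 < dep x.1 ∧ |x.2| ≤ 2)
      (fun x => 2 * (X.N x.1 / X.W)) (fun x => X.N x.1 / X.W) (fun x => B x.1) (fun x => T1 x.1)
      X.ax)
    (hrec : ∀ e, D e → 0 < dep e → X.W ∣ X.N e ∧ B e ≤ X.N e / X.W ∧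
      T1 e + X.N e + NI.passes X.prog * U e ≤ T e ∧
      ∀ w p, NI.pass w p ∈ X.prog → D (X.sub (e, p)) ∧ dep (X.sub (e, p)) + 1 = dep e ∧
        X.N (X.sub (e, p)) = X.N e / X.W ∧ B e ≤ B (X.sub (e, p)) ∧ E (X.sub (e, p)) ≤ E e ∧
        T (X.sub (e, p)) ≤ U e)
    (hE : ∀ e, D e → sz e ≤ E e ∧ X.N e ≤ T e) (hE' : ∃ j, ∀ e, D e → E e ≤ (sz e + 1) ^ j) :
    Op D X.N X.N B T fun e l => X.F (dep e) e l := by
  classical
  let Dk : ℕ → ε → Prop := fun k e => D e ∧ 0 < dep e ∧ (E e + 1) ^ k ≤ B e
  have Epos : ∀ e, D e → 0 < E e := fun e h => (sz_pos e).trans_le (hE e h).1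
  have BN : ∀ e, D e → 0 < dep e → B e ≤ X.N e := fun e h h' => hini.le e ⟨h, h'⟩
  have hNW : PTime fun e => X.N e / X.W := by fun_prop
  -- the zero wire
  have hzw : ∀ᶠ k in atTop, ∀ {α : Type} [TEnc α] {D' : α → Prop} {T' : α → ℕ} {e : α → ε},
      C D' T' e → (∀ x, D' x → Dk k (e x) ∧ X.N (e x) ≤ T' x) →
      C D' T' (fun x => X.N (e x) / X.W) ∧ C D' T' fun x => X.zw (e x) := by
    filter_upwards [ptimeE hNW 0] with k h α _ D' T' e he H
    have h1 := h (fun x => E (e x)) he fun x hx => by
      obtain ⟨⟨h1, h2, h3⟩, h4⟩ := H x hx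
      exact ⟨(hE _ h1).1, Epos _ h1, by have := BN _ h1 h2; omega⟩
    refine ⟨h1, C.replicate h1 (C.const false) ⟨1, fun x hx => ?_⟩⟩
    have := (H x hx).2
    have := Nat.div_le_self (X.N (e x)) X.W
    have : sz false = 1 := rfl
    rw [this]; omega
  have cst : ∀ {α : Type} [TEnc α] {D' : α → Prop} {T' : α → ℕ} (w : ℕ),
      ∃ K, ∀ x, D' x → w ≤ K * (T' x + sz x) := fun w =>
    ⟨w, fun x _ => Nat.le_mul_of_pos_right _ (by have := sz_pos x; omega)⟩
  have hadv : ∀ l : List (NI P), (∀ a ∈ l, a ∈ X.prog) → ∀ n, ∀ᶠ k in atTop,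
      C (fun x : ε × List (List Bool) => Dk k x.1 ∧ X.Val x.1 x.2) (fun x => T1 x.1 + X.N x.1)
        fun x => X.adv n l x.1 x.2 := by
    intro l
    induction l with
    | nil =>
      intro _ n
      filter_upwards [useE hfin 0] with k h
      refine C.inl (h (fun x => E x.1) (by fun_prop)
        (C.flatten (C.take (C.const _) (by fun_prop) (cst _))) fun x hx => ?_)
      obtain ⟨⟨h1, h2, h3⟩, h4⟩ := hx
      exact ⟨⟨h1, h2⟩, h4.flat (hrec _ h1 h2).1, (hE _ h1).1, Epos _ h1, h3, by omega⟩
    | cons a l ih =>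
      intro hl n
      have ih' := ih (fun b hb => hl b (List.mem_cons_of_mem _ hb)) (n + 1)
      have ha := hl a List.mem_cons_self
      cases a with
      | pass w p =>
        filter_upwards [useE hpre (sz p + 1), ptimeE hsub (sz p + 1), hzw] with k h h' hz
        have z := (hz (D' := fun x : ε × List (List Bool) => Dk k x.1 ∧ X.Val x.1 x.2)
          (T' := fun x => T1 x.1 + X.N x.1) (e := Prod.fst) (by fun_prop)
          fun x hx => ⟨hx.1, by omega⟩).2
        refine C.inr (C.prodMk (by fun_prop) (C.prodMk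
          (h' (e := fun x : ε × List (List Bool) => (x.1, p)) (fun x => E x.1) (by fun_prop) ?_)
          (h (e := fun x : ε × List (List Bool) => (x.1, p)) (fun x => E x.1) (by fun_prop)
            (C.getD (C.const w) (by fun_prop) z (cst _)) ?_)))
        · rintro x ⟨⟨h1, h2, h3⟩, h4⟩
          have := (hE _ h1).1
          have := BN _ h1 h2
          exact ⟨by simp; omega, Epos _ h1, by omega⟩
        · rintro x ⟨⟨h1, h2, h3⟩, h4⟩
          have := (hE _ h1).1
          exact ⟨⟨h1, h2, w, ha⟩, h4.getD w, by simp; omega, Epos _ h1, h3, by simp⟩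
      | axpy d s c =>
        filter_upwards [useE hax (sz c + 1), hzw, ih'] with k h hz ih
        have z := (hz (D' := fun x : ε × List (List Bool) => Dk k x.1 ∧ X.Val x.1 x.2)
          (T' := fun x => T1 x.1 + X.N x.1) (e := Prod.fst) (by fun_prop)
          fun x hx => ⟨hx.1, by omega⟩).2
        have hc := (hprog _ ha).2.2.2
        have hlen : ∀ x : ε × List (List Bool), X.Val x.1 x.2 →
            (x.2.getD d (X.zw x.1) ++ x.2.getD s (X.zw x.1)).length = 2 * (X.N x.1 / X.W) :=
          fun x h4 => by rw [List.length_append, h4.getD, h4.getD]; omega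
        refine ih.call (f := fun x : ε × List (List Bool) => (x.1, x.2.set d
          (X.ax (x.1, c) (x.2.getD d (X.zw x.1) ++ x.2.getD s (X.zw x.1)))))
          (C.prodMk (by fun_prop) (C.set (C.const d) (by fun_prop)
          (h (e := fun x : ε × List (List Bool) => (x.1, c)) (fun x => E x.1) (by fun_prop)
            (C.append (C.getD (C.const d) (by fun_prop) z (cst _))
              (C.getD (C.const s) (by fun_prop) z (cst _))) ?_) (cst _))) ?_
          ⟨1, fun x _ => by simp⟩
        · rintro x ⟨⟨h1, h2, h3⟩, h4⟩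
          have := (hE _ h1).1
          exact ⟨⟨h1, h2, hc⟩, hlen x h4, by simp; omega, Epos _ h1, h3, by simp⟩
        · rintro x ⟨⟨h1, h2, h3⟩, h4⟩
          exact ⟨⟨h1, h2, h3⟩, h4.set d (hax.len (x.1, c) _ ⟨h1, h2, hc⟩ (hlen x h4))⟩
      | zero d s =>
        filter_upwards [hzw, ih'] with k hz ih
        have z := (hz (D' := fun x : ε × List (List Bool) => Dk k x.1 ∧ X.Val x.1 x.2)
          (T' := fun x => T1 x.1 + X.N x.1) (e := Prod.fst) (by fun_prop)
          fun x hx => ⟨hx.1, by omega⟩).2
        exact ih.call (f := fun x : ε × List (List Bool) => (x.1, x.2.set d (X.zw x.1)))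
          (C.prodMk (by fun_prop) (C.set (C.const d) (by fun_prop) z (cst _)))
          (fun x hx => ⟨hx.1, hx.2.set d (by simp [zw])⟩) ⟨1, fun x _ => by simp⟩
  have hpst : ∀ l : List (NI P), (∀ a ∈ l, a ∈ X.prog) → ∀ n, ∀ᶠ k in atTop,
      C (fun x : Fr ε × List Bool => Dk k x.1.2.1 ∧ X.Val x.1.2.1 x.1.2.2 ∧
          x.2.length = X.N x.1.2.1 / X.W) (fun x => T1 x.1.2.1 + X.N x.1.2.1) (X.pst n l) := by
    intro l
    induction l with
    | nil => intro _ n; exact Eventually.of_forall fun k => C.const _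
    | cons a l ih =>
      intro hl n
      have hl' := fun b hb => hl b (List.mem_cons_of_mem _ hb)
      have ha := hl a List.mem_cons_self
      have hh : ∀ᶠ k in atTop, C (fun x : Fr ε × List Bool => Dk k x.1.2.1 ∧
          X.Val x.1.2.1 x.1.2.2 ∧ x.2.length = X.N x.1.2.1 / X.W)
          (fun x => T1 x.1.2.1 + X.N x.1.2.1) fun x => X.hnd n l x.1.2.1 x.1.2.2 x.2 a := by
        cases a with
        | pass w p =>
          filter_upwards [useE hpost (sz p + 1), hadv l hl' (n + 1)] with k h ih
          refine ih.call (f := fun x : Fr ε × List Bool =>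
            (x.1.2.1, x.1.2.2.set w (X.post (x.1.2.1, p) x.2)))
            (C.prodMk (by fun_prop) (C.set (C.const w) (by fun_prop)
            (h (e := fun x : Fr ε × List Bool => (x.1.2.1, p)) (fun x => E x.1.2.1) (by fun_prop)
              (by fun_prop) ?_) (cst _))) ?_ ⟨1, fun x _ => by simp⟩
          · rintro x ⟨⟨h1, h2, h3⟩, h4, h5⟩
            have := (hE _ h1).1
            exact ⟨⟨h1, h2, w, ha⟩, h5, by simp; omega, Epos _ h1, h3, by simp⟩
          · rintro x ⟨⟨h1, h2, h3⟩, h4, h5⟩
            exact ⟨⟨h1, h2, h3⟩, h4.set w (hpost.len (x.1.2.1, p) _ ⟨h1, h2, w, ha⟩ h5)⟩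
        | axpy d s c => exact Eventually.of_forall fun k => C.const _
        | zero d s => exact Eventually.of_forall fun k => C.const _
      filter_upwards [hh, ih hl' (n + 1)] with k h ih
      exact C.ite (by fun_prop) h (ih.call
        (f := fun x : Fr ε × List Bool => ((x.1.1.tail, x.1.2), x.2)) (by fun_prop)
        (fun x hx => hx) ⟨1, fun x _ => by simp⟩)
  have hd0 : PTime fun e => decide (dep e = 0) := by fun_prop
  have hprc : ∀ᶠ k in atTop, C (fun x : ε × List Bool => D x.1 ∧ x.2.length = X.N x.1 ∧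
      (E x.1 + 1) ^ k ≤ B x.1) (fun x => if dep x.1 = 0 then T x.1 else T1 x.1 + X.N x.1)
      (X.prc dep) := by
    filter_upwards [useE hbase 0, useE hini 0, ptimeE hd0 0, hzw, hadv X.prog (fun _ h => h) 0]
      with k hb hi hd hz ha
    refine C.ite' (hd (e := Prod.fst) (fun x => E x.1) (by fun_prop) ?_)
      (C.inl (hb (fun x => E x.1) (by fun_prop) (by fun_prop) ?_)) ?_
    · rintro x ⟨h1, h2, h3⟩
      refine ⟨(hE _ h1).1, Epos _ h1, ?_⟩
      have := length_lt_sz x.2
      have : sz x = sz x.1 + sz x.2 + 1 := sz_prod _ _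
      have : B x.1 ≤ X.N x.1 := by
        rcases Nat.eq_zero_or_pos (dep x.1) with h | h
        · exact hbase.le _ ⟨h1, h⟩
        · exact BN _ h1 h
      omega
    · rintro x ⟨⟨h1, h2, h3⟩, h4⟩
      exact ⟨⟨h1, h4⟩, h2, (hE _ h1).1, Epos _ h1, h3, by simp [h4]⟩
    · have z := hz (D' := fun x : ε × List Bool => (D x.1 ∧ x.2.length = X.N x.1 ∧
        (E x.1 + 1) ^ k ≤ B x.1) ∧ ¬ dep x.1 = 0)
        (T' := fun x => if dep x.1 = 0 then T x.1 else T1 x.1 + X.N x.1) (e := Prod.fst)
        (by fun_prop) fun x hx => ⟨⟨hx.1.1, Nat.pos_of_ne_zero hx.2, hx.1.2.2⟩, by simp [hx.2]⟩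
      have pos : ∀ e, D e → 0 < dep e → (E e + 1) ^ k ≤ B e → 0 < X.N e / X.W := fun e h1 h2 h3 =>
        (Nat.pow_pos (by omega)).trans_le (h3.trans (hrec e h1 h2).2.1)
      refine ha.call (f := fun x : ε × List Bool => (x.1, chunks (X.N x.1 / X.W) (X.ini x.1 x.2) ++
        List.replicate X.Z (X.zw x.1))) (C.prodMk (by fun_prop) (C.append
          (C.chunks z.1 (hi (fun x => E x.1) (by fun_prop) (by fun_prop) ?_) ?_ ⟨1, ?_⟩)
          (C.replicate (C.const _) z.2 ⟨5 * X.Z, ?_⟩))) ?_ ⟨1, fun x hx => by simp [hx.2]⟩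
      · rintro x ⟨⟨h1, h2, h3⟩, h4⟩
        exact ⟨⟨h1, Nat.pos_of_ne_zero h4⟩, h2, (hE _ h1).1, Epos _ h1, h3, by simp [h4]⟩
      · rintro x ⟨⟨h1, h2, h3⟩, h4⟩
        have h4' := Nat.pos_of_ne_zero h4
        refine ⟨pos _ h1 h4' h3, ?_⟩
        rw [hini.len _ _ ⟨h1, h4'⟩ h2]
        exact Nat.div_dvd_of_dvd (hrec _ h1 h4').1
      · rintro x ⟨⟨h1, h2, h3⟩, h4⟩
        have := Nat.div_le_self (X.N x.1) X.W
        simp only [h4, if_false]; omega
      · rintro x ⟨⟨h1, h2, h3⟩, h4⟩
        have := Nat.div_le_self (X.N x.1) X.W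
        have h5 := sz_bits_le (X.zw x.1)
        have h6 : (X.zw x.1).length = X.N x.1 / X.W := by simp [zw]
        have := sz_pos x
        simp only [h4, if_false]
        rw [mul_comm 5, mul_assoc]
        exact Nat.mul_le_mul_left _ (by omega)
      · rintro x ⟨⟨h1, h2, h3⟩, h4⟩
        have h4' := Nat.pos_of_ne_zero h4
        exact ⟨⟨h1, h4', h3⟩, val_ini (hini.len _ _ ⟨h1, h4'⟩ h2) (hrec _ h1 h4').1 (pos _ h1 h4' h3)⟩
  -- lengths
  have hval : ∀ d e, D e → 0 < dep e → (∀ w p, NI.pass w p ∈ X.prog → ∀ v : List Bool,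
        v.length = X.N e / X.W → (X.F d (X.sub (e, p)) v).length = X.N e / X.W) →
      ∀ a ∈ X.prog, ∀ ws, X.Val e ws → X.Val e (NI.stepL
        (fun p v => X.post (e, p) (X.F d (X.sub (e, p)) (X.pre (e, p) v)))
        (fun c => X.ax (e, c)) (X.N e / X.W) ws a) := by
    intro d e h1 h2 ih a ha ws hv
    cases a with
    | pass w p =>
      exact hv.set w (hpost.len (e, p) _ ⟨h1, h2, w, ha⟩
        (ih w p ha _ (hpre.len (e, p) _ ⟨h1, h2, w, ha⟩ (hv.getD w))))
    | axpy d s c =>
      refine hv.set d (hax.len (e, c) _ ⟨h1, h2, (hprog _ ha).2.2.2⟩ ?_)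
      have a1 := hv.getD d
      have a2 := hv.getD s
      simp only [zw] at a1 a2
      rw [List.length_append, a1, a2, two_mul]
    | zero d s => exact hv.set d (by simp)
  have hlen : ∀ d e (l : List Bool), D e → dep e = d → l.length = X.N e →
      (X.F d e l).length = X.N e := by
    intro d
    induction d with
    | zero => intro e l h1 h2 h3; exact hbase.len e l ⟨h1, h2⟩ h3
    | succ d ih =>
      intro e l h1 h2 h3
      have h2' : 0 < dep e := by omega
      obtain ⟨r1, r2, r3, r4⟩ := hrec e h1 h2'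
      refine hfin.len e _ ⟨h1, h2'⟩ ?_
      have ih' : ∀ w p, NI.pass w p ∈ X.prog → ∀ v : List Bool,
          v.length = X.N e / X.W → (X.F d (X.sub (e, p)) v).length = X.N e / X.W :=
        fun w p hp v hv => by
          obtain ⟨q1, q2, q3, _⟩ := r4 w p hp
          rw [← q3] at hv ⊢
          exact ih _ _ q1 (by omega) hv
      rcases Nat.eq_zero_or_pos (X.N e / X.W) with h0 | h0
      · have hN0 : X.N e = 0 := by rw [← Nat.mul_div_cancel' r1, h0, mul_zero]
        have key : ∀ l' : List (NI P), (∀ a ∈ l', a ∈ X.prog) → ∀ ws : List (List Bool),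
            (∀ v ∈ ws, v.length = X.N e / X.W) → ∀ v ∈ l'.foldl (NI.stepL
              (fun p v => X.post (e, p) (X.F d (X.sub (e, p)) (X.pre (e, p) v)))
              (fun c => X.ax (e, c)) (X.N e / X.W)) ws, v.length = X.N e / X.W := by
          intro l'
          induction l' with
          | nil => exact fun _ ws h => h
          | cons a l' ih2 =>
            intro hl ws h
            refine ih2 (fun b hb => hl b (List.mem_cons_of_mem _ hb)) _ ?_
            have ha := hl a List.mem_cons_self
            have g : ∀ w, (ws.getD w (List.replicate (X.N e / X.W) false)).length =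
                X.N e / X.W := fun w => by
              rw [List.getD_eq_getElem?_getD]
              cases hw : ws[w]? with
              | none => simp
              | some v => exact h v (List.mem_of_getElem? hw)
            cases a with
            | pass w p =>
              exact fun u hu => (List.mem_or_eq_of_mem_set hu).elim (h u) fun h => h ▸
                hpost.len (e, p) _ ⟨h1, h2', w, ha⟩
                  (ih' w p ha _ (hpre.len (e, p) _ ⟨h1, h2', w, ha⟩ (g w)))
            | axpy d s c =>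
              exact fun u hu => (List.mem_or_eq_of_mem_set hu).elim (h u) fun h => h ▸
                hax.len (e, c) _ ⟨h1, h2', (hprog _ ha).2.2.2⟩
                  (by rw [List.length_append, g, g, two_mul])
            | zero d s =>
              exact fun u hu => (List.mem_or_eq_of_mem_set hu).elim (h u) fun h => h ▸ by simp
        rw [hN0, List.length_eq_zero_iff, List.flatten_eq_nil_iff]
        intro v hv
        rw [← hN0] at hv
        rw [← List.length_eq_zero_iff, ← h0]
        refine key X.prog (fun _ h => h) _ (fun u hu => ?_) v (List.mem_of_mem_take hv)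
        rcases List.mem_append.1 hu with h | h
        · simp [chunks, h0] at h
        · rw [List.eq_of_mem_replicate h]; simp
      · refine Val.flat ?_ r1
        have key : ∀ l' : List (NI P), (∀ a ∈ l', a ∈ X.prog) → ∀ ws, X.Val e ws →
            X.Val e (l'.foldl (NI.stepL
              (fun p v => X.post (e, p) (X.F d (X.sub (e, p)) (X.pre (e, p) v)))
              (fun c => X.ax (e, c)) (X.N e / X.W)) ws) := by
          intro l'
          induction l' with
          | nil => exact fun _ ws h => h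
          | cons a l' ih2 =>
            exact fun hl ws h => ih2 (fun b hb => hl b (List.mem_cons_of_mem _ hb)) _
              (hval d e h1 h2' ih' a (hl a List.mem_cons_self) ws h)
        exact key _ (fun _ h => h) _ (val_ini (hini.len e l ⟨h1, h2'⟩ h3) r1 h0)
  obtain ⟨k, ⟨c1, c2⟩, k1⟩ := ((hprc.and (hpst X.prog (fun _ h => h) 0)).and
    (eventually_ge_atTop 1)).exists
  set K2 := 2 * X.prog.length + 6 * (X.W + X.Z) + 20 with hK2
  set K := X.prog.length * K2 + 1 with hK
  have hev : ∀ d e (l : List Bool), D e → dep e = d → l.length = X.N e → (E e + 1) ^ k ≤ B e →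
      ∃ n, Ev (X.prc dep) (X.pst 0 X.prog)
        (fun x : ε × List Bool => D x.1 ∧ x.2.length = X.N x.1 ∧ (E x.1 + 1) ^ k ≤ B x.1)
        (fun x => if dep x.1 = 0 then T x.1 else T1 x.1 + X.N x.1)
        (fun x : Fr ε × List Bool => Dk k x.1.2.1 ∧ X.Val x.1.2.1 x.1.2.2 ∧
          x.2.length = X.N x.1.2.1 / X.W) (fun x => T1 x.1.2.1 + X.N x.1.2.1)
        (X.prc dep (e, l)) (X.F d e l) n ∧
        (if dep e = 0 then T e else T1 e + X.N e) + n ≤ K * T e := by
    intro d
    induction d with
    | zero =>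
      intro e l h1 h2 h3 h4
      refine ⟨0, by simpa [prc, h2] using! Ev.ret _, ?_⟩
      simp only [h2, if_true, hK]; nlinarith [Nat.zero_le (X.prog.length * K2 * T e)]
    | succ d ih =>
      intro e l h1 h2 h3 h4
      have h2' : 0 < dep e := by omega
      obtain ⟨r1, r2, r3, r4⟩ := hrec e h1 h2'
      have hEB : E e + 1 ≤ B e := (Nat.le_self_pow (by omega) _).trans h4
      have hdiv := Nat.div_le_self (X.N e) X.W
      have ih' : ∀ w p, NI.pass w p ∈ X.prog → ∀ v : List Bool,
          v.length = X.N e / X.W → (X.F d (X.sub (e, p)) v).length = X.N e / X.W :=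
        fun w p hp v hv => by
          obtain ⟨q1, q2, q3, _⟩ := r4 w p hp
          rw [← q3] at hv ⊢
          exact hlen _ _ _ q1 (by omega) hv
      have key : ∀ (l2 l1 : List (NI P)), X.prog = l1 ++ l2 → ∀ ws, X.Val e ws →
          ∃ n, Ev (X.prc dep) (X.pst 0 X.prog)
            (fun x : ε × List Bool => D x.1 ∧ x.2.length = X.N x.1 ∧ (E x.1 + 1) ^ k ≤ B x.1)
            (fun x => if dep x.1 = 0 then T x.1 else T1 x.1 + X.N x.1)
            (fun x : Fr ε × List Bool => Dk k x.1.2.1 ∧ X.Val x.1.2.1 x.1.2.2 ∧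
              x.2.length = X.N x.1.2.1 / X.W) (fun x => T1 x.1.2.1 + X.N x.1.2.1)
            (X.adv l1.length l2 e ws) (X.fin e ((l2.foldl (NI.stepL
              (fun p v => X.post (e, p) (X.F d (X.sub (e, p)) (X.pre (e, p) v)))
              (fun c => X.ax (e, c)) (X.N e / X.W)) ws).take X.W).flatten) n ∧
            n ≤ NI.passes l2 * (K * U e) + l2.length * (K2 * (T1 e + X.N e)) := by
        intro l2
        induction l2 with
        | nil => intro l1 _ ws _; exact ⟨0, Ev.ret _, by simp⟩
        | cons a l2 ih2 =>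
          intro l1 hp ws hv
          have ha : a ∈ X.prog := by rw [hp]; simp
          obtain ⟨m, hm1, hm2⟩ := ih2 (l1 ++ [a]) (by simp [hp]) _ (hval d e h1 h2' ih' a ha ws hv)
          rw [List.length_append, List.length_singleton] at hm1
          cases a with
          | pass w p =>
            obtain ⟨q1, q2, q3, q4, q5, q6⟩ := r4 w p ha
            have l1' := hpre.len (e, p) _ ⟨h1, h2', w, ha⟩ (hv.getD w)
            have q7 : (E (X.sub (e, p)) + 1) ^ k ≤ B (X.sub (e, p)) :=
              (Nat.pow_le_pow_left (by omega) _).trans (h4.trans q4)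
            obtain ⟨n, hn1, hn2⟩ := ih _ _ q1 (by omega) (l1'.trans q3.symm) q7
            have l2' := ih' w p ha _ l1'
            refine ⟨_, Ev.call ⟨q1, l1'.trans q3.symm, q7⟩ hn1 ⟨⟨h1, h2', h4⟩, hv, l2'⟩
              (m := m) ?_, ?_⟩
            · rw [hp, pst_append, zero_add, ← hp]
              exact hm1
            · have s1 := sz_bits_le (X.pre (e, p) (ws.getD w (X.zw e)))
              have s2 := sz_bits_le (X.F d (X.sub (e, p)) (X.pre (e, p) (ws.getD w (X.zw e))))
              have s3 := (hE _ q1).1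
              have s4 := (hE _ h1).1
              have s5 : sz ws ≤ ws.length * (4 * (X.N e / X.W) + 1 + 1) + 1 :=
                sz_list_le ws fun v hv' => hv.2 v hv' ▸ sz_bits_le v
              have s6 : sz (List.replicate l1.length ()) ≤
                  (List.replicate l1.length ()).length * (1 + 1) + 1 :=
                sz_list_le _ fun v _ => by simp
              have s7 : l1.length ≤ X.prog.length := by rw [hp]; simp
              have s8 : K * T (X.sub (e, p)) ≤ K * U e := Nat.mul_le_mul_left _ q6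
              have s9 : ws.length * (4 * (X.N e / X.W) + 1 + 1) ≤
                  6 * (X.W + X.Z) * (T1 e + X.N e) := by
                rw [hv.1, mul_comm 6, mul_assoc]; exact Nat.mul_le_mul_left _ (by omega)
              have s10 : 2 * X.prog.length ≤ 2 * X.prog.length * (T1 e + X.N e) :=
                Nat.le_mul_of_pos_right _ (by omega)
              have s11 : K2 * (T1 e + X.N e) = 2 * X.prog.length * (T1 e + X.N e) +
                  6 * (X.W + X.Z) * (T1 e + X.N e) + 20 * (T1 e + X.N e) := by rw [hK2]; ring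
              have s12 : NI.passes (NI.pass w p :: l2) = NI.passes l2 + 1 := by
                simp [NI.passes, List.countP_cons, NI.isPass]
              simp only [List.length_replicate] at s6
              simp only [l1', l2'] at s1 s2
              rw [s12, List.length_cons, add_mul (NI.passes l2) 1, add_mul l2.length 1, one_mul,
                one_mul]
              simp only [sz_prod]
              omega
          | axpy d s c =>
            refine ⟨m, hm1, hm2.trans ?_⟩
            simp only [NI.passes, List.countP_cons, NI.isPass, List.length_cons]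
            simp [add_mul]
          | zero d s =>
            refine ⟨m, hm1, hm2.trans ?_⟩
            simp only [NI.passes, List.countP_cons, NI.isPass, List.length_cons]
            simp [add_mul]
      obtain ⟨n, hn1, hn2⟩ := key X.prog [] rfl _
        (val_ini (hini.len e l ⟨h1, h2'⟩ h3) r1 (by omega))
      refine ⟨n, by simpa [prc, h2'.ne'] using! hn1, ?_⟩
      rw [if_neg h2'.ne']
      have := Nat.mul_le_mul_left K r3
      have e1 : K * (T1 e + X.N e + NI.passes X.prog * U e) = NI.passes X.prog * (K * U e) +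
          X.prog.length * (K2 * (T1 e + X.N e)) + (T1 e + X.N e) := by rw [hK]; ring
      omega
  obtain ⟨j, hj⟩ := hE'
  refine ⟨fun e h => ?_, fun e l h1 h2 => hlen _ e l h1 rfl h2, (j + 1) * k, ?_⟩
  · rcases Nat.eq_zero_or_pos (dep e) with h0 | h0
    · exact hbase.le _ ⟨h, h0⟩
    · exact BN _ h h0
  · refine (C.recur (T := fun x : ε × List Bool => K * T x.1) c1 c2 fun x hx => ?_).weaken
      (fun _ h => h) ⟨K, fun x _ => Nat.mul_le_mul_left _ (by omega)⟩
    obtain ⟨h1, h2, h3⟩ := hx
    have h4 : (E x.1 + 1) ^ k ≤ B x.1 := by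
      refine le_trans ?_ h3
      rw [pow_mul]
      refine Nat.pow_le_pow_left ?_ _
      have := hj _ h1
      have := sz_pos x.1
      have : 0 < (sz x.1 + 1) ^ j := Nat.pow_pos (by omega)
      rw [pow_succ]; nlinarith
    exact ⟨⟨h1, h2, h4⟩, hev _ _ _ h1 rfl h2 h4⟩

/-- simulation of the algebraic network by the network on arrays -/
theorem run_sim {A V : Type} [CommRing A] [AddCommGroup V] [Module A V] (op : P → V →ₗ[A] V)
    (co : ℤ → A) (prog : List (NI P)) (ps : P → List Bool → List Bool)
    (ax : ℤ → List Bool → List Bool) (n : ℕ) (Rel : List Bool → V → Prop)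
    (h0 : Rel (List.replicate n false) 0)
    (hp : ∀ w p, NI.pass w p ∈ prog → ∀ l v, Rel l v → Rel (ps p l) (op p v))
    (ha : ∀ d s c, NI.axpy d s c ∈ prog → ∀ l v l' v', Rel l v → Rel l' v' →
      Rel (ax c (l ++ l')) (v + co c • v'))
    {ws : List (List Bool)} {ξ : List V} (h : List.Forall₂ Rel ws ξ) :
    List.Forall₂ Rel (prog.foldl (NI.stepL ps ax n) ws) (NI.run op co prog ξ) := by
  have hget : ∀ {ws : List (List Bool)} {ξ : List V}, List.Forall₂ Rel ws ξ → ∀ w,
      Rel (ws.getD w (List.replicate n false)) (ξ.getD w 0) := by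
    intro ws ξ h
    induction h with
    | nil => intro w; simpa using h0
    | cons h1 _ ih => intro w; cases w with
      | zero => simpa using h1
      | succ w => simpa using ih w
  have hset : ∀ {ws : List (List Bool)} {ξ : List V}, List.Forall₂ Rel ws ξ → ∀ w l v, Rel l v →
      List.Forall₂ Rel (ws.set w l) (ξ.set w v) := by
    intro ws ξ h
    induction h with
    | nil => intro w l v _; simp
    | cons h1 h2 ih => intro w l v hr; cases w with
      | zero => exact .cons hr h2
      | succ w => exact .cons h1 (ih w l v hr)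
  unfold NI.run
  induction prog generalizing ws ξ with
  | nil => exact h
  | cons a prog ih =>
    refine ih (fun w p hm => hp w p (List.mem_cons_of_mem _ hm))
      (fun d s c hm => ha d s c (List.mem_cons_of_mem _ hm)) ?_
    cases a with
    | pass w p => exact hset h _ _ _ (hp w p List.mem_cons_self _ _ (hget h w))
    | axpy d s c => exact hset h _ _ _ (ha d s c List.mem_cons_self _ _ _ _ (hget h d) (hget h s))
    | zero d s => exact hset h _ _ _ h0

end Vale.Agent.P338
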