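import Vale.Agent.P338.Lst

/-! Job J4: the combinators for operations on arrays. -/

namespace Vale.Agent.P338

open PT Finset

variable {ε ε1 : Type} [TEnc ε] [TEnc ε1] {D : ε → Prop} {N N' B T : ε → ℕ}
  {f g : ε → List Bool → List Bool}
  {D1 : ε1 → Prop} {N1 N1' B1 T1 : ε1 → ℕ} {h : ε1 → List Bool → List Bool}

theorem Op.le (hf : Op D N N' B T f) : ∀ e, D e → B e ≤ N e := hf.1

theorem Op.len (hf : Op D N N' B T f) : ∀ e l, D e → l.length = N e → (f e l).length = N' e :=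
  hf.2.1

theorem Op.id (hB : ∀ e, D e → B e ≤ N e) : Op D N N B T fun _ l => l :=
  ⟨hB, fun _ _ _ h => h, 0, by fun_prop⟩

/-- the domain of an operation -/
abbrev opDm (D : ε → Prop) (N B : ε → ℕ) (k : ℕ) (x : ε × List Bool) : Prop :=
  D x.1 ∧ x.2.length = N x.1 ∧ (sz x.1 + 1) ^ k ≤ B x.1

/-- big-O with respect to the cost -/
abbrev opBo {α : Type} [TEnc α] (D : α → Prop) (T g : α → ℕ) : Prop :=
  ∃ K, ∀ x, D x → g x ≤ K * (T x + sz x)

lemma opBo.add {α : Type} [TEnc α] {D : α → Prop} {T g g' : α → ℕ} (h : opBo D T g)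
    (h' : opBo D T g') : opBo D T fun x => g x + g' x :=
  let ⟨K, h⟩ := h; let ⟨K', h'⟩ := h'
  ⟨K + K', fun x hx => add_mul K K' _ ▸ add_le_add (h x hx) (h' x hx)⟩

lemma opBo.mono {α : Type} [TEnc α] {D : α → Prop} {T g g' : α → ℕ} (h : opBo D T g) (c : ℕ)
    (H : ∀ x, D x → g' x ≤ c * g x) : opBo D T g' :=
  let ⟨K, h⟩ := h
  ⟨c * K, fun x hx => (H x hx).trans (mul_assoc c K _ ▸ Nat.mul_le_mul_left c (h x hx))⟩

lemma opDm.le {k x} (h : opDm D N B k x) : N x.1 < sz x := by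
  have := length_lt_sz x.2
  rw [← h.2.1, show sz x = _ from sz_prod x.1 x.2]; omega

lemma opDm.mono {k j x} (h : opDm D N B k x) (hj : j ≤ k) : opDm D N B j x :=
  ⟨h.1, h.2.1, (Nat.pow_le_pow_right (Nat.succ_pos _) hj).trans h.2.2⟩

lemma opBo.of {g : ε → ℕ} {k} (h : ∃ K, ∀ e, D e → g e ≤ K * (T e + N e)) :
    opBo (opDm D N B k) (fun x => T x.1) fun x => g x.1 :=
  let ⟨K, h⟩ := h
  ⟨K, fun x hx => (h _ hx.1).trans (Nat.mul_le_mul_left K (Nat.add_le_add_left hx.le.le _))⟩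

lemma Op.ev (hf : Op D N N' B T f) :
    ∀ᶠ k in .atTop, C (opDm D N B k) (fun x => T x.1) fun x => f x.1 x.2 :=
  let ⟨k, h⟩ := hf.2.2
  Filter.eventually_atTop.2 ⟨k, fun _ hj => h.weaken (fun _ hx => hx.mono hj) ⟨1, fun _ _ => by omega⟩⟩

lemma Op.bo (hf : Op D N N' B T f) :
    ∀ᶠ k in .atTop, opBo (opDm D N B k) (fun x => T x.1) fun x => N' x.1 + 1 :=
  hf.ev.mono fun _ h => opBo.mono h.sz_le 1 fun x hx => by
    have := length_lt_sz (f x.1 x.2)
    rw [hf.len _ _ hx.1 hx.2.1] at this; omega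

lemma opPt {γ : Type} [TEnc γ] {φ : ε → γ} (hφ : PTime φ) (hB : ∀ e, D e → B e ≤ N e) :
    ∀ᶠ k in .atTop, C (opDm D N B k) (fun x => T x.1) fun x => φ x.1 :=
  let ⟨k, h⟩ := C.ptime hφ
  Filter.eventually_atTop.2 ⟨k, fun _ hj => h (by fun_prop) ⟨1, fun x hx => by
    have := (hx.mono hj).2.2.trans (hB _ hx.1); have := hx.le; omega⟩⟩

lemma opSm {ψ : ε → ε1} (hψ : PTime ψ) (j : ℕ) :
    ∀ᶠ k in .atTop, ∀ x, opDm D N B k x → (sz (ψ x.1) + 1) ^ j ≤ B x.1 :=
  let ⟨i, h⟩ := PTime.sz_pow hψ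
  Filter.eventually_atTop.2 ⟨i * j, fun _ hj x hx =>
    (Nat.pow_le_pow_left (h _) j).trans ((pow_mul _ i j).symm.trans_le (hx.mono hj).2.2)⟩

lemma opSm2 {O : ε → ℕ} (hO : PTime O) (j : ℕ) : ∀ᶠ k in .atTop, ∀ x, opDm D N B k x →
    ∀ i ≤ O x.1, (sz (x.1, i) + 1) ^ (j + 1) ≤ B x.1 ∧ sz x.1 + sz i < B x.1 :=
  (opSm (ψ := fun e => (e, O e, O e, O e, O e)) (by fun_prop) (j + 1)).mono fun _ h x hx i hi => by
    have h1 := (Nat.pow_le_pow_left (show sz (x.1, i) + 1 ≤ _ by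
      have := sz_nat_le_of_le hi; simp only [sz_prod]; omega) _).trans (h x hx)
    exact ⟨h1, lt_of_lt_of_le (by simp) ((Nat.le_self_pow j.succ_ne_zero _).trans h1)⟩

lemma C.chunks' {α β : Type} [TEnc α] [TEnc β] {D : α → Prop} {T L : α → ℕ} {l : α → List β}
    (hL : C D T L) (hl : C D T l) (h0 : ∀ x, D x → 0 < L x ∧ L x ∣ (l x).length) :
    C D T fun x => P338.chunks (L x) (l x) := by
  have w : ∀ {γ : Type} [TEnc γ] {g : α → γ} {p : α → Prop}, C D T g → C (fun x => D x ∧ p x) T g :=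
    fun h => h.weaken (fun _ h => h.1) ⟨1, fun _ _ => by omega⟩
  refine (C.ite' hl.isEmpty.decide_eq_true (.const []) (.chunks (w hL) (w hl) (fun x h => h0 x h.1)
    (opBo.mono (w hl).sz_le 1 fun x h => ?_))).of_eq fun x => ?_
  · have := Nat.le_of_dvd (List.length_pos_iff.2 (by simpa using h.2)) (h0 x h.1).2
    have := length_lt_sz (l x); omega
  · split_ifs with h
    · simp [P338.chunks, List.isEmpty_iff.1 h]
    · rfl

theorem Op.congr (hf : Op D N N' B T f) (H : ∀ e l, D e → l.length = N e → f e l = g e l) :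
    Op D N N' B T g := by
  exact ⟨hf.1, fun e l h1 h2 => H e l h1 h2 ▸ hf.len e l h1 h2,
    hf.2.2.imp fun _ h => h.congr fun x hx => H _ _ hx.1 hx.2.1⟩

theorem Op.mono (hf : Op D N N' B T f) {D2 : ε → Prop} {N2 N2' B2 T2 : ε → ℕ}
    (H : ∀ e, D2 e → D e ∧ N2 e = N e ∧ N2' e = N' e ∧ B2 e ≤ B e)
    (hT : ∃ K, ∀ e, D2 e → T e ≤ K * (T2 e + N2 e)) : Op D2 N2 N2' B2 T2 f := by
  refine ⟨fun e h => ?_, fun e l h h' => ?_, hf.2.2.imp fun k h => h.weaken (fun x hx => ?_) (opBo.of hT)⟩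
  · obtain ⟨a, b, -, c⟩ := H e h; exact b ▸ c.trans (hf.le e a)
  · obtain ⟨a, b, c, -⟩ := H e h; exact c ▸ hf.len e l a (b ▸ h')
  · obtain ⟨a, b, -, c⟩ := H _ hx.1; exact ⟨a, b ▸ hx.2.1, hx.2.2.trans c⟩

/-- using an operation inside a program on arbitrary data -/
theorem Op.use (hh : Op D1 N1 N1' B1 T1 h) :
    ∃ k, ∀ {α : Type} [TEnc α] {D : α → Prop} {T : α → ℕ} {e : α → ε1} {l : α → List Bool},
      C D T e → C D T l →
      (∀ x, D x → D1 (e x) ∧ (l x).length = N1 (e x) ∧ (sz (e x) + 1) ^ k ≤ B1 (e x)) →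
      (∃ K, ∀ x, D x → T1 (e x) ≤ K * (T x + sz x)) → C D T fun x => h (e x) (l x) := by
  obtain ⟨k, hk⟩ := hh.2.2
  exact ⟨k, fun he hl hD hT => hk.call (he.prodMk hl) hD hT⟩

/-- the smallness of the parameters may be assumed -/
theorem Op.assume (j : ℕ) (hf : Op (fun e => D e ∧ (sz e + 1) ^ j ≤ B e) N N' B T f)
    (hB : ∀ e, D e → B e ≤ N e) (hl : ∀ e l, D e → l.length = N e → (f e l).length = N' e) :
    Op D N N' B T f := by
  obtain ⟨k, h⟩ := hf.2.2
  exact ⟨hB, hl, k + j, h.weaken (fun x hx => ⟨⟨hx.1, (opDm.mono hx (by omega)).2.2⟩, hx.2.1,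
    (opDm.mono hx (by omega)).2.2⟩) ⟨1, fun _ _ => by omega⟩⟩

/-- the bound `B` may lose a polynomial factor -/
theorem Op.scaleB {B2 V : ε → ℕ} (hf : Op D N N' B2 T f)
    (hV : ∃ j, ∀ e, D e → V e ≤ (sz e + 1) ^ j)
    (H : ∀ e, D e → 0 < V e ∧ B e ≤ N e ∧ B e / V e ≤ B2 e) : Op D N N' B T f := by
  obtain ⟨k, h⟩ := hf.2.2
  obtain ⟨j, hj⟩ := hV
  refine ⟨fun e h => (H e h).2.1, hf.2.1, k + j, h.weaken (fun x hx => ⟨hx.1, hx.2.1, le_trans ?_
    (H _ hx.1).2.2⟩) ⟨1, fun _ _ => by omega⟩⟩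
  exact (Nat.le_div_iff_mul_le (H _ hx.1).1).2 ((Nat.mul_le_mul_left _ (hj _ hx.1)).trans
    ((pow_add _ k j).symm.trans_le hx.2.2))

theorem Op.andThen (hf : Op D N N' B T f) (hh : Op D1 N1 N1' B1 T1 h) {ψ : ε → ε1} (hψ : PTime ψ)
    {N'' : ε → ℕ}
    (H : ∀ e, D e → D1 (ψ e) ∧ N1 (ψ e) = N' e ∧ N1' (ψ e) = N'' e ∧ B e ≤ B1 (ψ e))
    (hT : ∃ K, ∀ e, D e → T1 (ψ e) ≤ K * (T e + N e)) :
    Op D N N'' B T fun e l => h (ψ e) (f e l) := by
  obtain ⟨j, hj⟩ := hh.use
  refine ⟨hf.1, fun e l a b => (H e a).2.2.1 ▸ hh.len _ _ (H e a).1 ((H e a).2.1 ▸ hf.len e l a b),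
    Filter.Eventually.exists (f := .atTop) ?_⟩
  filter_upwards [hf.ev, opPt hψ hf.1, opSm hψ j] with k a b c
  exact hj b a (fun x hx => ⟨(H _ hx.1).1, (H _ hx.1).2.1 ▸ hf.len _ _ hx.1 hx.2.1,
    (c x hx).trans (H _ hx.1).2.2.2⟩) (opBo.of hT)

theorem Op.append {N'' : ε → ℕ} (hf : Op D N N' B T f) (hg : Op D N N'' B T g) :
    Op D N (fun e => N' e + N'' e) B T fun e l => f e l ++ g e l := by
  refine ⟨hf.1, fun e l a b => by simp [hf.len e l a b, hg.len e l a b],
    Filter.Eventually.exists (f := .atTop) ?_⟩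
  filter_upwards [hf.ev, hg.ev] with k a b using a.append b

theorem Op.ite {p : ε → Prop} [DecidablePred p] (hp : PTime fun e => decide (p e))
    (hf : Op (fun e => D e ∧ p e) N N' B T f) (hg : Op (fun e => D e ∧ ¬ p e) N N' B T g) :
    Op D N N' B T fun e l => if p e then f e l else g e l := by
  have hB : ∀ e, D e → B e ≤ N e := fun e h =>
    (em (p e)).elim (fun a => hf.le e ⟨h, a⟩) fun a => hg.le e ⟨h, a⟩
  refine ⟨hB, fun e l a b => ?_, Filter.Eventually.exists (f := .atTop) ?_⟩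
  · dsimp only
    split_ifs with h
    exacts [hf.len e l ⟨a, h⟩ b, hg.len e l ⟨a, h⟩ b]
  filter_upwards [hf.ev, hg.ev, opPt (T := T) hp hB] with k a b c
  exact C.ite' c (a.weaken (fun x h => ⟨⟨h.1.1, h.2⟩, h.1.2⟩) ⟨1, fun _ _ => by omega⟩)
    (b.weaken (fun x h => ⟨⟨h.1.1, h.2⟩, h.1.2⟩) ⟨1, fun _ _ => by omega⟩)

/-- a table computed from the parameters -/
theorem Op.ptime {t : ε → List Bool} (ht : PTime t) (hB : ∀ e, D e → B e ≤ N e)
    (H : ∀ e, D e → (t e).length = N' e) : Op D N N' B T fun e _ => t e := by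
  exact ⟨hB, fun e _ a _ => H e a, (opPt ht hB).exists⟩

theorem Op.zeros {L : ε → ℕ} (hL : PTime L) (hB : ∀ e, D e → B e ≤ N e)
    (hT : ∃ K, ∀ e, D e → L e ≤ K * (T e + N e)) :
    Op D N L B T fun e _ => List.replicate (L e) false := by
  refine ⟨hB, by simp, Filter.Eventually.exists (f := .atTop) ?_⟩
  filter_upwards [opPt (T := T) hL hB] with k a
  exact a.replicate (.const _) ((opBo.of hT).mono 1 fun _ _ => le_of_eq (mul_comm _ _))

/-- apply an operation to every block, with parameters depending on the block index -/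
theorem Op.blocksI (hf : Op D N N' B T f) (hh : Op D1 N1 N1' B1 T1 h) {ψ : ε × ℕ → ε1}
    (hψ : PTime ψ) {O L N'' : ε → ℕ} (hO : PTime O) (hL : PTime L)
    (H0 : ∀ e, D e → N' e = O e * L e ∧ ∑ i ∈ range (O e), N1' (ψ (e, i)) = N'' e)
    (H : ∀ e, D e → ∀ i < O e, D1 (ψ (e, i)) ∧ N1 (ψ (e, i)) = L e ∧ B e ≤ B1 (ψ (e, i)))
    (hT : ∃ K, ∀ e, D e → ∑ i ∈ range (O e), T1 (ψ (e, i)) ≤ K * (T e + N e)) :
    Op D N N'' B T fun e l => fl (O e) fun i => h (ψ (e, i)) (blk (L e) i (f e l)) := by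
  obtain ⟨j, hj⟩ := ((Op.id (D := fun e => D1 (ψ e)) (T := fun e => T1 (ψ e))
    fun e => hh.le (ψ e)).andThen hh hψ (fun e a => ⟨a, rfl, rfl, le_rfl⟩) ⟨1, fun _ _ => by omega⟩).ev.and
    (Filter.eventually_ge_atTop 1) |>.exists
  obtain ⟨j, rfl⟩ : ∃ i, j = i + 1 := ⟨j - 1, by omega⟩
  refine ⟨hf.1, fun e l a b => ?_, Filter.Eventually.exists (f := .atTop) ?_⟩
  · rw [length_fl_sum, ← (H0 e a).2]
    exact sum_congr rfl fun i hi => hh.len _ _ (H e a i (mem_range.1 hi)).1 ((length_blk'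
      ((hf.len e l a b).trans (H0 e a).1) (mem_range.1 hi)).trans (H e a i (mem_range.1 hi)).2.1.symm)
  filter_upwards [hf.ev, hf.bo, opPt (T := T) hO hf.1, opPt (T := T) (hL.max (.const 1)) hf.1,
    opSm2 hO j] with k a1 a2 a3 a4 a5
  have b0 : ∀ x, opDm D N B k x → (f x.1 x.2).length = O x.1 * L x.1 := fun x hx =>
    (hf.len _ _ hx.1 hx.2.1).trans (H0 _ hx.1).1
  have b1 : ∀ x, opDm D N B k x → O x.1 = 0 ∨ sz x.1 + sz (O x.1) < L x.1 := fun x hx =>
    (Nat.eq_zero_or_pos _).imp_right fun h => (a5 x hx _ le_rfl).2.trans_le ((H _ hx.1 0 h).2.2.trans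
      ((H _ hx.1 0 h).2.1 ▸ hh.le _ (H _ hx.1 0 h).1))
  have b2 : ∀ x, opDm D N B k x → (chunks (max (L x.1) 1) (f x.1 x.2)).zip (List.range (O x.1)) =
      (List.range (O x.1)).map fun i => (blk (L x.1) i (f x.1 x.2), i) := fun x hx => by
    rcases b1 x hx with h | h
    · simp [h]
    · rw [max_eq_left (by omega), chunks_eq (by omega) (b0 x hx), List.map_prod_right_eq_zip]
  refine (C.flatMapE (f := fun e y => h (ψ (e, y.2)) y.1) (hj.1.call (f := fun p : ε × List Bool × ℕ =>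
    ((p.1, p.2.2), p.2.1)) (T := fun p => T1 (ψ (p.1, p.2.2))) (by fun_prop) (fun _ h => h)
    ⟨1, fun _ _ => by simp⟩) (.fst .id) ((a4.chunks' a1 fun x hx => ⟨by omega, ?_⟩).zip (a3.range
      (a2.mono 1 fun x hx => ?_))) (fun x hx y hy => ?_) (((opBo.of hT).add a2).mono 1 fun x hx => ?_)).congr
    fun x hx => by rw [b2 x hx, List.flatMap_map]; rfl
  · rw [b0 x hx]
    rcases b1 x hx with h | h
    · simp [h]
    · rw [max_eq_left (by omega)]; exact dvd_mul_left _ _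
  · rw [(H0 _ hx.1).1]
    have := size_lt_sz (O x.1)
    rcases b1 x hx with h | h
    · simp [h]
    · nlinarith
  · rw [b2 x hx] at hy
    obtain ⟨i, hi, rfl⟩ := List.mem_map.1 hy
    obtain ⟨c1, c2, c3⟩ := H _ hx.1 i (List.mem_range.1 hi)
    exact ⟨c1, (length_blk' (b0 x hx) (List.mem_range.1 hi)).trans c2.symm,
      (a5 x hx i (List.mem_range.1 hi).le).1.trans c3⟩
  · rw [b2 x hx, List.map_map, (H0 _ hx.1).1]
    simp only [Function.comp_def, sum_range_eq, List.sum_map_add, List.map_const', List.sum_replicate,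
      List.length_range, smul_eq_mul]
    rcases b1 x hx with h | h
    · simp [h]
    · nlinarith

theorem Op.blocks (hf : Op D N N' B T f) (hh : Op D1 N1 N1' B1 T1 h) {ψ : ε × ℕ → ε1}
    (hψ : PTime ψ) {O L L' N'' : ε → ℕ} (hO : PTime O) (hL : PTime L)
    (H0 : ∀ e, D e → N' e = O e * L e ∧ N'' e = O e * L' e)
    (H : ∀ e, D e → ∀ i < O e,
      D1 (ψ (e, i)) ∧ N1 (ψ (e, i)) = L e ∧ N1' (ψ (e, i)) = L' e ∧ B e ≤ B1 (ψ (e, i)))
    (hT : ∃ K, ∀ e, D e → ∀ i < O e, O e * T1 (ψ (e, i)) ≤ K * (T e + N e)) :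
    Op D N N'' B T fun e l => fl (O e) fun i => h (ψ (e, i)) (blk (L e) i (f e l)) := by
  refine hf.blocksI hh hψ hO hL (fun e a => ⟨(H0 e a).1, ?_⟩) (fun e a i hi => ?_) (hT.imp fun K hK e a => ?_)
  · rw [sum_congr rfl fun i hi => (H e a i (mem_range.1 hi)).2.2.1, (H0 e a).2]; simp
  · exact ⟨(H e a i hi).1, (H e a i hi).2.1, (H e a i hi).2.2.2⟩
  · rcases Nat.eq_zero_or_pos (O e) with h | h
    · simp [h]
    · refine Nat.le_of_mul_le_mul_left ?_ h
      rw [mul_sum]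
      simpa using sum_le_card_nsmul (range (O e)) _ _ fun i hi => hK e a i (mem_range.1 hi)

/-- a loop of operations -/
theorem Op.foldl (hf : Op D N N' B T f) (hh : Op D1 N1 N1' B1 T1 h) {ψ : ε × ℕ → ε1}
    (hψ : PTime ψ) {n : ε → ℕ} (hn : PTime n)
    (H : ∀ e, D e → ∀ i < n e,
      D1 (ψ (e, i)) ∧ N1 (ψ (e, i)) = N' e ∧ N1' (ψ (e, i)) = N' e ∧ B e ≤ B1 (ψ (e, i)))
    (hT : ∃ K, ∀ e, D e → ∀ i < n e, n e * (T1 (ψ (e, i)) + N' e) ≤ K * (T e + N e)) :
    Op D N N' B T fun e l => (List.range (n e)).foldl (fun l i => h (ψ (e, i)) l) (f e l) := by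
  obtain ⟨j, hj⟩ := ((Op.id (D := fun e => D1 (ψ e)) (T := fun e => T1 (ψ e))
    fun e => hh.le (ψ e)).andThen hh hψ (fun e a => ⟨a, rfl, rfl, le_rfl⟩) ⟨1, fun _ _ => by omega⟩).ev.and
    (Filter.eventually_ge_atTop 1) |>.exists
  obtain ⟨j, rfl⟩ : ∃ i, j = i + 1 := ⟨j - 1, by omega⟩
  have h0 : ∀ e, D e → ∀ i < n e, ∀ l : List Bool, l.length = N' e → (h (ψ (e, i)) l).length = N' e :=
    fun e a i hi l b => (H e a i hi).2.2.1 ▸ hh.len _ _ (H e a i hi).1 ((H e a i hi).2.1 ▸ b)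
  refine ⟨hf.1, fun e l a b => List.foldlRecOn (motive := fun l : List Bool => l.length = N' e) _ _
    (hf.len e l a b) fun l hl i hi => h0 e a i (List.mem_range.1 hi) l hl,
    Filter.Eventually.exists (f := .atTop) ?_⟩
  obtain ⟨K, hK⟩ := hT
  filter_upwards [hf.ev, opPt (T := T) hn hf.1, opSm2 (D := D) (N := N) (B := B) hn j] with k a1 a3 a5
  have b0 := opBo.of (D := D) (B := B) (k := k) (g := fun e => K * (T e + N e)) ⟨K, fun _ _ => le_rfl⟩
  have b1 : ∀ x, opDm D N B k x → ∀ i < n x.1, B x.1 ≤ N' x.1 := fun x hx i hi =>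
    (H _ hx.1 i hi).2.2.2.trans ((H _ hx.1 i hi).2.1 ▸ hh.le _ (H _ hx.1 i hi).1)
  refine (C.foldl (f := fun (t : ε × List Bool) i => (t.1, h (ψ (t.1, i)) t.2)) (.prodMk (by fun_prop)
    (hj.1.call (f := fun p : ℕ × ε × List Bool => ((p.2.1, p.1), p.2.2)) (T := fun p => T1 (ψ (p.2.1, p.1)))
      (by fun_prop) (fun _ h => h) ⟨1, fun _ _ => by simp⟩)) (a3.range (b0.mono 1 fun x hx => ?_))
    ((C.fst .id).prodMk a1) (fun x t => t.1 = x.1 ∧ t.2.length = N' x.1)
    (fun x => 7 * (K * (T x.1 + N x.1) / n x.1)) (fun x hx => ⟨rfl, hf.len _ _ hx.1 hx.2.1⟩) ?_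
    (b0.mono 7 fun x hx => ?_)).snd.of_eq fun x => ?_
  · rcases Nat.eq_zero_or_pos (n x.1) with h | h
    · simp [h]
    · have := (a5 x hx _ le_rfl).2.trans_le (b1 x hx 0 h)
      have := size_lt_sz (n x.1)
      nlinarith [hK _ hx.1 0 h]
  · rintro x hx i hi ⟨e, l⟩ ⟨rfl, hl⟩
    rw [List.mem_range] at hi
    obtain ⟨c1, c2, -, c3⟩ := H _ hx.1 i hi
    refine ⟨⟨c1, hl.trans c2.symm, (a5 x hx i hi.le).1.trans c3⟩, ⟨rfl, h0 _ hx.1 i hi l hl⟩, ?_⟩
    have := (Nat.le_div_iff_mul_le (by omega)).2 (mul_comm (n x.1) _ ▸ hK _ hx.1 i hi)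
    have := (a5 x hx i hi.le).2.trans_le (b1 x hx i hi)
    have := sz_bits_le l
    simp only [sz_prod] at *
    omega
  · rw [List.length_range, mul_left_comm]
    exact Nat.mul_le_mul_left _ (Nat.mul_div_le _ _)
  · generalize f x.1 x.2 = l
    induction List.range (n x.1) generalizing l with
    | nil => rfl
    | cons i L ih => exact ih _

theorem Op.rot (hf : Op D N N' B T f) {r : ε → ℕ} (hr : PTime r) (H : ∀ e, D e → r e ≤ N' e) :
    Op D N N' B T fun e l => (f e l).rotate (r e) := by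
  refine ⟨hf.1, fun e l a b => by simp [hf.len e l a b], Filter.Eventually.exists (f := .atTop) ?_⟩
  filter_upwards [hf.ev, hf.bo, opPt (T := T) hr hf.1] with k a b c
  have := b.mono 1 fun x hx => show r x.1 ≤ _ by have := H _ hx.1; omega
  exact ((c.drop a this).append (c.take a this)).congr fun x hx =>
    (List.rotate_eq_drop_append_take (hf.len _ _ hx.1 hx.2.1 ▸ H _ hx.1)).symm

theorem Op.resize (hf : Op D N N' B T f) {L : ε → ℕ} (hL : PTime L)
    (hT : ∃ K, ∀ e, D e → L e ≤ K * (T e + N e)) :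
    Op D N L B T fun e l => (f e l).takeD (L e) false := by
  refine ⟨hf.1, by simp, Filter.Eventually.exists (f := .atTop) ?_⟩
  filter_upwards [hf.ev, opPt (T := T) hL hf.1] with k a c
  refine (c.take (a.append (c.replicate (.const false) ((opBo.of hT).mono 1 fun _ _ =>
    le_of_eq (mul_comm _ _)))) (opBo.of hT)).of_eq fun x => ?_
  generalize L x.1 = n
  induction f x.1 x.2 generalizing n with
  | nil => simp
  | cons b l ih =>
    cases n
    · rfl
    · simp [← ih, List.take_append]; omega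

theorem Op.drop (hf : Op D N N' B T f) {r N'' : ε → ℕ} (hr : PTime r)
    (H : ∀ e, D e → N' e = r e + N'' e) : Op D N N'' B T fun e l => (f e l).drop (r e) := by
  refine ⟨hf.1, fun e l a b => by simp [hf.len e l a b, H e a], Filter.Eventually.exists (f := .atTop) ?_⟩
  filter_upwards [hf.ev, hf.bo, opPt (T := T) hr hf.1] with k a b c
  exact c.drop a (b.mono 1 fun x hx => by have := H _ hx.1; omega)

theorem Op.take (hf : Op D N N' B T f) {r : ε → ℕ} (hr : PTime r)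
    (H : ∀ e, D e → r e ≤ N' e) : Op D N r B T fun e l => (f e l).take (r e) := by
  refine ⟨hf.1, fun e l a b => by simp [hf.len e l a b, H e a], Filter.Eventually.exists (f := .atTop) ?_⟩
  filter_upwards [hf.ev, hf.bo, opPt (T := T) hr hf.1] with k a b c
  exact c.take a (b.mono 1 fun x hx => by have := H _ hx.1; omega)

theorem Op.rep (hf : Op D N N' B T f) {r N'' : ε → ℕ} (hr : PTime r)
    (H : ∀ e, D e → N'' e = r e * N' e) (hT : ∃ K, ∀ e, D e → r e * (N' e + 1) ≤ K * (T e + N e)) :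
    Op D N N'' B T fun e l => fl (r e) fun _ => f e l := by
  refine ⟨hf.1, fun e l a b => H e a ▸ length_fl fun _ _ => hf.len e l a b,
    Filter.Eventually.exists (f := .atTop) ?_⟩
  filter_upwards [hf.ev, opPt (T := T) hr hf.1] with k a c
  refine (c.replicate a ((opBo.of hT).mono 4 fun x hx => ?_)).flatten.of_eq fun x => by
    simp [← flatten_map_range]
  have := sz_bits_le (f x.1 x.2)
  rw [hf.len _ _ hx.1 hx.2.1] at this
  nlinarith

theorem Op.rev (hf : Op D N N' B T f) {S β : ε → ℕ} (hβ : PTime β)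
    (H : ∀ e, D e → N' e = S e * β e ∧ 0 < β e) :
    Op D N N' B T fun e l => perm (S e) (β e) (fun s => S e - 1 - s) (f e l) := by
  refine ⟨hf.1, fun e l a b => (H e a).1 ▸ length_perm ((hf.len e l a b).trans (H e a).1)
    fun i hi => by omega, Filter.Eventually.exists (f := .atTop) ?_⟩
  filter_upwards [hf.ev, opPt (T := T) hβ hf.1] with k a c
  have b0 := fun x (hx : opDm D N B k x) => (hf.len _ _ hx.1 hx.2.1).trans (H _ hx.1).1
  refine (c.chunks' a fun x hx => ⟨(H _ hx.1).2, b0 x hx ▸ dvd_mul_left _ _⟩).reverse.flatten.congr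
    fun x hx => ?_
  rw [chunks_eq (H _ hx.1).2 (b0 x hx), perm, ← flatten_map_range]
  exact congrArg _ (List.ext_getElem (by simp) (by simp))

/-- naive transposition, fast when one of the two axes is short -/
theorem Op.tr (hf : Op D N N' B T f) {A A' β : ε → ℕ} (hA : PTime A) (hA' : PTime A')
    (hβ : PTime β) (H : ∀ e, D e → N' e = A e * A' e * β e ∧ 0 < A e ∧ 0 < A' e ∧ 0 < β e)
    (hT : ∃ K, ∀ e, D e → min (A e) (A' e) * N' e ≤ K * (T e + N e)) :
    Op D N N' B T fun e l => trF (A e) (A' e) (β e) (f e l) := by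
  have h0 : ∀ e l, D e → l.length = N e → ∀ a < A e, ∀ b < A' e,
      (blk (β e) (a * A' e + b) (f e l)).length = β e := fun e l a b i hi j hj =>
    length_blk' ((hf.len e l a b).trans (H e a).1) (lt_mul_of_lt hi hj)
  refine ⟨hf.1, fun e l a b => ?_, Filter.Eventually.exists (f := .atTop) ?_⟩
  · dsimp only
    rw [trF, length_fl fun j hj => length_fl fun i hi => h0 e l a b i hi j hj, (H e a).1]; ring
  filter_upwards [hf.ev, hf.bo, opPt (T := T) (hA'.mul hβ) hf.1, opPt (T := T) hβ hf.1, opPt (T := T) hA' hf.1,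
    opPt (T := T) (hA.decide_le hA') hf.1] with k a1 a2 a3 a4 a5 a6
  have b0 := fun x (hx : opDm D N B k x) => (hf.len _ _ hx.1 hx.2.1).trans ((H _ hx.1).1.trans (mul_assoc _ _ _))
  have b1 := fun x (hx : opDm D N B k x) => chunks_eq (Nat.mul_pos (H _ hx.1).2.2.1 (H _ hx.1).2.2.2) (b0 x hx)
  obtain ⟨G, hG⟩ : ∃ G : ε × List Bool → List (List (List Bool)), ∀ x, G x = (List.range (A x.1)).map
    fun a => (List.range (A' x.1)).map fun b => blk (β x.1) (a * A' x.1 + b) (f x.1 x.2) := ⟨_, fun _ => rfl⟩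
  have b2 : C (opDm D N B k) (fun x => T x.1) G := by
    refine (C.mapE (f := chunks) (T' := fun _ => 0) (C.chunks' (.fst .id) (.snd .id) fun _ h => h) a4
      (a3.chunks' a1 fun x hx => ⟨Nat.mul_pos (H _ hx.1).2.2.1 (H _ hx.1).2.2.2, b0 x hx ▸ dvd_mul_left _ _⟩)
      (fun x hx y hy => ⟨(H _ hx.1).2.2.2, ?_⟩) (a2.mono 5 fun x hx => ?_)).congr fun x hx => ?_
    · rw [b1 x hx] at hy
      obtain ⟨i, hi, rfl⟩ := List.mem_map.1 hy
      exact (dvd_mul_left _ _).trans (length_blk' (b0 x hx) (List.mem_range.1 hi)).symm.dvd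
    · obtain ⟨c0, c1, c2, c3⟩ := H _ hx.1
      have := sz_nat_le_self (β x.1)
      simp [b1 x hx, c0, Function.comp_def]
      nlinarith [Nat.mul_le_mul_left (A x.1 * β x.1) c2, Nat.mul_le_mul_left (A x.1) c3]
    · rw [b1 x hx, hG, List.map_map]
      exact List.map_congr_left fun i hi => (chunks_eq (H _ hx.1).2.2.2 (length_blk' (b0 x hx)
        (List.mem_range.1 hi))).trans (List.map_congr_left fun j hj => blk_blk _ (List.mem_range.1 hj))
  have b3 : ∀ x, opDm D N B k x → sz (G x) ≤ 9 * N' x.1 ∧ A' x.1 ≤ N' x.1 ∧ A x.1 * A' x.1 ≤ N' x.1 := fun x hx => by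
    obtain ⟨c0, c1, c2, c3⟩ := H _ hx.1
    have := sz_list_le (G x) (B := A' x.1 * (4 * β x.1 + 1 + 1) + 1) fun r hr => by
      obtain ⟨i, hi, rfl⟩ := List.mem_map.1 (hG x ▸ hr)
      simpa using sz_list_le (List.map _ (List.range (A' x.1))) (B := 4 * β x.1 + 1) fun u hu => by
        obtain ⟨j, -, rfl⟩ := List.mem_map.1 hu
        exact (sz_bits_le _).trans (by have := length_blk_le (β x.1) (i * A' x.1 + j) (f x.1 x.2); omega)
    rw [show (G x).length = A x.1 by simp [hG]] at this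
    have d1 := Nat.mul_le_mul_left (A x.1 * A' x.1) c3
    have d2 := Nat.mul_le_mul_left (A x.1) c2
    have d3 := Nat.mul_le_mul_right (A' x.1) c1
    rw [c0]
    refine ⟨by nlinarith, by nlinarith, by nlinarith⟩
  have w : ∀ {γ : Type} [TEnc γ] {g : ε × List Bool → γ} {p : ε × List Bool → Prop},
      C (opDm D N B k) (fun x => T x.1) g → C (fun x => opDm D N B k x ∧ p x) (fun x => T x.1) g :=
    fun h => h.weaken (fun _ h => h.1) ⟨1, fun _ _ => by omega⟩
  have b4 : ∀ {p : ε × List Bool → Prop}, opBo (fun x => opDm D N B k x ∧ p x) (fun x => T x.1)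
    fun x => min (A x.1) (A' x.1) * N' x.1 := (opBo.of hT).imp fun _ h x hx => h x hx.1
  refine (C.ite' a6 ((C.scan (f := fun p : List (List Bool) × List (List Bool) => (([] : List Unit),
    List.zipWith (· ++ ·) p.2 p.1)) (D' := fun _ => True) (T' := fun _ => 0) (by fun_prop) (w b2)
    (w (a5.replicate (.const []) (a2.mono 1 fun x hx => by simpa using (b3 x hx).2.1.trans (by omega))))
    (fun x _ => ?_) (b4.mono 12 fun x hx => ?_)).snd.flatten.congr fun x _ => ?_) ((C.flatMapE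
      (f := fun G b => (List.map (fun r => r.getD b []) G).flatten) (T' := fun p => p.1.length * sz p.2)
      (D' := fun p => ∀ r ∈ p.1, p.2 ≤ r.length) (.flatten (C.mapE (f := fun b (r : List (List Bool)) =>
        r.getD b []) (T' := fun _ => 0) (D' := fun p => p.1 ≤ p.2.length) (C.getD (.fst .id) (.snd .id)
        (.const _) ⟨1, fun p h => ?_⟩) (.snd .id) (.fst .id) (fun p h => h) ⟨1, fun p _ => by simp⟩))
      (w b2) ((w a5).range (b4.mono 1 fun x hx => ?_)) (fun x hx b hb r hr => ?_) (b4.mono 14 fun x hx => ?_)).congr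
      fun x _ => ?_)).of_eq fun x => ite_self _
  · generalize List.replicate _ _ = s
    induction G x generalizing s <;> simp [scanDom, *]
  · have : ∀ (L : List (List (List Bool))) s, scanCost (fun p : List (List Bool) × List (List Bool) =>
        (([] : List Unit), List.zipWith (· ++ ·) p.2 p.1)) (fun _ => 0) L s ≤ L.length * (sz s + sz L) := by
      intro L
      induction L with
      | nil => simp [scanCost]
      | cons r L ih =>
        intro s
        have : sz (List.zipWith (· ++ ·) s r) ≤ sz s + sz r := by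
          induction s generalizing r with
          | nil => simp
          | cons u s ih => rcases r with _ | ⟨v, r⟩ <;> simp; linarith [ih r, sz_append u v]
        simp only [scanCost, List.length_cons, sz_cons]
        nlinarith [ih (List.zipWith (· ++ ·) s r), Nat.mul_le_mul_left L.length this]
    refine (this _ _).trans ?_
    have := sz_list_le (List.replicate (A' x.1) ([] : List Bool)) (B := 1) (by simp)
    obtain ⟨c1, c2, -⟩ := b3 x hx.1
    have := (H _ hx.1.1).2.2.1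
    rw [show (G x).length = A x.1 by simp [hG], min_eq_left hx.2, mul_left_comm]
    exact Nat.mul_le_mul_left _ (by simp at *; omega)
  · rw [trF, ← flatten_map_range, hG]
    congr 1
    have : ∀ (L : List (List (List Bool))) s, (scan (fun p : List (List Bool) × List (List Bool) =>
        (([] : List Unit), List.zipWith (· ++ ·) p.2 p.1)) L s).2 = L.foldl (List.zipWith (· ++ ·)) s :=
      fun L => by induction L <;> simp [scan, *]
    rw [this]
    induction A x.1 with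
    | zero => simp
    | succ a ih => simp [List.range_succ, ih, fl_succ]
  · have := length_lt_sz p.2
    rw [show sz p = _ from sz_prod p.1 p.2]; omega
  · rw [min_eq_right (not_le.1 hx.2).le, one_mul]
    exact Nat.mul_le_mul_left _ ((Nat.size_le.2 Nat.lt_two_pow_self).trans (b3 x hx.1).2.1)
  · obtain ⟨i, -, rfl⟩ := List.mem_map.1 (hG x ▸ hr)
    simpa using (List.mem_range.1 hb).le
  · obtain ⟨c1, c2, c3⟩ := b3 x hx.1
    refine (List.sum_le_card_nsmul _ (14 * N' x.1) fun y hy => ?_).trans (by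
      simp [min_eq_right (not_le.1 hx.2).le, mul_left_comm])
    obtain ⟨b, hb, rfl⟩ := List.mem_map.1 hy
    have := sz_nat_le_self b
    rw [List.mem_range] at hb
    rw [show (G x).length = A x.1 by simp [hG]]
    nlinarith [Nat.mul_le_mul_left (A x.1) (show sz b ≤ 5 * A' x.1 by omega)]
  · refine List.flatMap_congr fun b hb => ?_
    simp [hG, ← flatten_map_range, Function.comp_def, List.mem_range.1 hb]

theorem Op.xor (hf : Op D N N' B T f) (hg : Op D N N' B T g) :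
    Op D N N' B T fun e l => List.zipWith xor (f e l) (g e l) := by
  refine ⟨hf.1, fun e l a b => by simp [hf.len e l a b, hg.len e l a b],
    Filter.Eventually.exists (f := .atTop) ?_⟩
  filter_upwards [hf.ev, hg.ev] with k a b using C.zipWith (by fun_prop) a b

end Vale.Agent.P338
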