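import Vale.Agent.P338.Spec
import Vale.Agent.Lib.Sieve.Mertens

/-! Job J17b, first part: lists of primes and the definition of the parameters. -/

namespace Vale.Agent.P338.Par

open PT

/-- the primes in `[a, b)` -/
def prs (a b : ℕ) : List ℕ :=
  (List.range b).filter fun x => decide (a ≤ x ∧ 2 ≤ x ∧ ∀ d < b, 2 ≤ d → d < x → ¬ d ∣ x)

lemma mem_prs {a b x : ℕ} : x ∈ prs a b ↔ a ≤ x ∧ x < b ∧ x.Prime := by
  simp only [prs, List.mem_filter, List.mem_range, decide_eq_true_eq, Nat.prime_def_lt']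
  constructor
  · rintro ⟨h1, h2, h3, h4⟩
    exact ⟨h2, h1, h3, fun m hm hx => h4 m (hx.trans h1) hm hx⟩
  · rintro ⟨h1, h2, h3, h4⟩
    exact ⟨h2, h1, h3, fun m _ hm hx => h4 m hm hx⟩

lemma prs_sorted (a b : ℕ) : (prs a b).Pairwise (· < ·) :=
  List.Pairwise.filter _ List.pairwise_lt_range

lemma length_prs {u b : ℕ} (hu : 3 ≤ u) (hb : 2 ^ (3 * u) ≤ b) :
    2 ^ u ≤ (prs (2 ^ u) b).length := by
  have h1 := Sieve.two_pow_le_primeCounting (n := 2 * u + 2) (by omega)
  have hnd : (prs (2 ^ u) b).Nodup := (prs_sorted _ _).imp fun h => h.ne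
  have h2 : Nat.primesLE (2 ^ (2 * u + 2)) ⊆ Finset.range (2 ^ u) ∪ (prs (2 ^ u) b).toFinset := by
    intro p hp
    rw [Nat.mem_primesLE] at hp
    rw [Finset.mem_union, Finset.mem_range, List.mem_toFinset, mem_prs]
    rcases Nat.lt_or_ge p (2 ^ u) with h | h
    · exact Or.inl h
    · refine Or.inr ⟨h, ?_, hp.2⟩
      have : 2 ^ (2 * u + 2) < 2 ^ (3 * u) := Nat.pow_lt_pow_right (by norm_num) (by omega)
      omega
  have h3 := (Finset.card_le_card h2).trans (Finset.card_union_le _ _)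
  rw [Nat.primesLE_card_eq_primeCounting, Finset.card_range, List.toFinset_card_of_nodup hnd] at h3
  have h4 : 2 * (u + 1) ≤ 2 ^ u := by
    obtain ⟨v, rfl⟩ := Nat.exists_eq_add_of_le hu
    have := Nat.lt_two_pow_self (n := v)
    rw [pow_add]; omega
  by_contra hc
  have h5 : Nat.primeCounting (2 ^ (2 * u + 2)) < 2 * 2 ^ u := by omega
  have h6 : 2 ^ (2 * u + 2) = 4 * (2 ^ u * 2 ^ u) := by ring
  rw [h6] at h1 h5
  nlinarith [Nat.zero_le (Nat.primeCounting (4 * (2 ^ u * 2 ^ u)))]

/-- the first index at which `F` crosses the level `M` -/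
def step (F : ℕ → ℕ) (M m : ℕ) : ℕ := (List.range m).findIdx fun i => decide (M < F (i + 1))

lemma step_le (F : ℕ → ℕ) (M m : ℕ) : step F M m ≤ m := by
  have := List.findIdx_le_length (p := fun i => decide (M < F (i + 1))) (xs := List.range m)
  simpa [step] using this

lemma step_spec {F : ℕ → ℕ} {M m : ℕ} (h0 : F 0 ≤ M) (hm : M < F m) :
    step F M m < m ∧ F (step F M m) ≤ M ∧ M < F (step F M m + 1) := by
  have hm0 : m ≠ 0 := by rintro rfl; omega
  have h1 : step F M m < (List.range m).length := by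
    refine List.findIdx_lt_length_of_exists ⟨m - 1, by simp; omega, ?_⟩
    rw [show m - 1 + 1 = m by omega]; simpa using hm
  unfold step at h1
  have h2 := List.findIdx_getElem (w := h1)
  rw [List.getElem_range] at h2
  refine ⟨by simpa [step] using h1, ?_, of_decide_eq_true h2⟩
  rcases Nat.eq_zero_or_pos (step F M m) with h | h
  · rw [h]; exact h0
  · have h3 := List.not_of_lt_findIdx (p := fun i => decide (M < F (i + 1))) (xs := List.range m)
      (i := step F M m - 1) (by unfold step at h ⊢; omega)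
    simp only [List.getElem_range, decide_eq_false_iff_not, not_lt] at h3
    rwa [show step F M m - 1 + 1 = step F M m by omega] at h3

lemma prod_take_succ {l : List ℕ} {B : ℕ} (hB : 0 < B) (h : ∀ x ∈ l, x ≤ B) (i : ℕ) :
    (l.take (i + 1)).prod ≤ (l.take i).prod * B := by
  rw [List.take_add_one, List.prod_append]
  refine Nat.mul_le_mul_left _ ?_
  cases hi : l[i]? with
  | none => exact hB
  | some x => simpa using h x (List.mem_of_getElem? hi)

lemma prod_take_mono {l : List ℕ} (h : ∀ x ∈ l, 0 < x) {i j : ℕ} (hij : i ≤ j) :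
    (l.take i).prod ≤ (l.take j).prod := by
  have e : l.take j = l.take i ++ (l.take j).drop i := by
    conv_lhs => rw [← List.take_append_drop i (l.take j)]
    rw [List.take_take, min_eq_left hij]
  rw [e, List.prod_append]
  refine Nat.le_mul_of_pos_right _ (List.prod_pos fun x hx => h x ?_)
  exact List.mem_of_mem_take (List.mem_of_mem_drop hx)

lemma prod_le_prod : ∀ {l m : List ℕ}, l.length = m.length → (∀ x ∈ l, ∀ y ∈ m, x ≤ y) →
    l.prod ≤ m.prod
  | [], [], _, _ => le_rfl
  | x :: l, y :: m, hl, h => by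
    simp only [List.prod_cons]
    exact Nat.mul_le_mul (h x (by simp) y (by simp)) (prod_le_prod (by simpa using hl)
      fun a ha b hb => h a (by simp [ha]) b (by simp [hb]))

lemma coprime_of_primes {l : List ℕ} (h : l.Pairwise (· < ·)) (hp : ∀ x ∈ l, x.Prime) :
    l.Pairwise Nat.Coprime :=
  List.Pairwise.imp_of_mem
    (fun ha hb hab => (Nat.coprime_primes (hp _ ha) (hp _ hb)).2 hab.ne) h

/-! ### the parameters -/

def tt (n : ℕ) : ℕ := n.size.size + 2
def TT (n : ℕ) : ℕ := 2 ^ tt n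

variable (H c k0 : ℕ)

def dd (n : ℕ) : ℕ := step (fun d => 72 * tt n * H ^ min d n.size) n.size n.size
def kk (n : ℕ) : ℕ := H ^ dd H n
def win (n i : ℕ) : List ℕ :=
  (prs (TT n ^ 6) (TT n ^ 18)).take (2 * kk H n - i) ++
    (prs (TT n ^ (36 * H)) (TT n ^ (108 * H))).take i
def ii (n : ℕ) : ℕ :=
  step (fun i => (win H n i).prod) (n / TT n ^ (2 * k0 + 3)) (min (2 * kk H n) (TT n))
def WW (n : ℕ) : List ℕ := win H n (ii H k0 n)
def rr (n : ℕ) : List ℕ := (prs (TT n) (TT n ^ 3)).take (kk H n)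
def LL (n : ℕ) : ℕ := 108 * H * (c + 1) * tt n
def bb (n : ℕ) : ℕ := n / ((WW H k0 n).prod / 2) + 1
def pp (n : ℕ) : ℕ := 8 * kk H n * LL H c n ^ 2 + 4 * bb H k0 n + 7
def PP (n : ℕ) : ℕ := 6 * (LL H c n * (kk H n + 2 * pp H c k0 n)) + 3 * bb H k0 n + 1
def UU (n : ℕ) : ℕ := TT n ^ (108 * H + 2 * k0 + 14)
def un (n x : ℕ) : List Unit := List.replicate (min x (UU H k0 n)) ()

def par (n : ℕ) : OP where
  q1 := (((WW H k0 n).take (kk H n)).take (kk H n / 2)).map (un H k0 n)
  q2 := (((WW H k0 n).take (kk H n)).drop (kk H n / 2)).map (un H k0 n)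
  q3 := (((WW H k0 n).drop (kk H n)).take (kk H n / 2)).map (un H k0 n)
  q4 := (((WW H k0 n).drop (kk H n)).drop (kk H n / 2)).map (un H k0 n)
  qr := (rr H n).map (un H k0 n)
  uP := un H k0 n (PP H c k0 n)
  upi := un H k0 n (pp H c k0 n)
  uL := un H k0 n (LL H c n)
  ub := un H k0 n (bb H k0 n)

/-! ### polynomial time -/

variable {α : Type} [TEnc α]

lemma TT_le (n : ℕ) : TT n ≤ 8 * n.size + 4 := by
  unfold TT tt
  rcases Nat.eq_zero_or_pos n.size with h | h
  · rw [h]; simp
  · have h1 : 0 < n.size.size := Nat.size_pos.2 h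
    have h2 : 2 ^ (n.size.size - 1) ≤ n.size := Nat.lt_size.1 (by omega)
    have h3 : 2 ^ (n.size.size + 2) = 8 * 2 ^ (n.size.size - 1) := by
      rw [show n.size.size + 2 = n.size.size - 1 + 3 by omega, pow_add]; ring
    omega

attribute [local irreducible] PTime PB tt TT prs step dd kk win ii WW rr LL bb pp PP UU un

@[fun_prop] lemma pb_min {f g : α → ℕ} (hg : PB g) : PB fun a => min (f a) (g a) :=
  hg.of_le fun _ => min_le_right _ _

@[fun_prop] lemma ptime_tt {f : α → ℕ} (hf : PTime f) : PTime fun a => tt (f a) := by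
  unfold tt; fun_prop

@[fun_prop] lemma pb_tt {f : α → ℕ} (hf : PTime f) : PB fun a => tt (f a) := by
  unfold tt; fun_prop

@[fun_prop] lemma ptime_TT {f : α → ℕ} (hf : PTime f) : PTime fun a => TT (f a) := by
  unfold TT; fun_prop

@[fun_prop] lemma pb_TT {f : α → ℕ} (hf : PTime f) : PB fun a => TT (f a) :=
  PB.of_le (g := fun a => 8 * (f a).size + 4) (by fun_prop) fun _ => TT_le _

lemma ptime_prs {f g : α → ℕ} (hf : PTime f) (hg : PTime g) (hB : PB g) :
    PTime fun a => prs (f a) (g a) := by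
  unfold prs
  refine PTime.filter (hg.range hB) ?_
  refine PTime.decide_and (by fun_prop) (PTime.decide_and (by fun_prop) ?_)
  exact PTime.decide_forall_lt (n := fun p : α × ℕ => g p.1)
    (p := fun p d => 2 ≤ d → d < p.2 → ¬ d ∣ p.2) (by fun_prop)
    (hB.comp (f := fun p : α × ℕ => p.1) (by fun_prop)) (by fun_prop)

lemma ptime_step {F : α → ℕ → ℕ} {M m : α → ℕ} (hF : PTime fun p : α × ℕ => F p.1 p.2)
    (hM : PTime M) (hm : PTime m) (hB : PB m) : PTime fun a => step (F a) (M a) (m a) := by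
  unfold step
  refine PTime.findIdx (hm.range hB) ?_
  have h1 : PTime fun p : α × ℕ => F p.1 (p.2 + 1) :=
    hF.comp (f := fun p : α × ℕ => (p.1, p.2 + 1)) (by fun_prop)
  fun_prop

lemma ptime_dd : PTime (dd H) := by
  unfold dd
  exact ptime_step (F := fun n d => 72 * tt n * H ^ min d n.size) (by fun_prop) (by fun_prop)
    (by fun_prop) (by fun_prop)

lemma ptime_kk : PTime (kk H) := by
  unfold kk
  exact PTime.pow (by fun_prop) (ptime_dd H)
    (PB.of_le (g := fun n : ℕ => n.size) (by fun_prop) fun n => by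
      unfold dd; exact step_le _ _ _)

lemma ptime_win : PTime fun p : ℕ × ℕ => win H p.1 p.2 := by
  unfold win
  have h1 := ptime_kk H
  have h2 : PTime fun p : ℕ × ℕ => prs (TT p.1 ^ 6) (TT p.1 ^ 18) :=
    ptime_prs (by fun_prop) (by fun_prop) (by fun_prop)
  have h3 : PTime fun p : ℕ × ℕ => prs (TT p.1 ^ (36 * H)) (TT p.1 ^ (108 * H)) :=
    ptime_prs (by fun_prop) (by fun_prop) (by fun_prop)
  fun_prop

lemma ptime_WW : PTime (WW H k0) := by
  have h1 := ptime_kk H
  have h2 := ptime_win H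
  have h3 : PTime (ii H k0) := by
    unfold ii
    exact ptime_step (F := fun n i => (win H n i).prod) h2.nat_prod (by fun_prop)
      (by fun_prop) (by fun_prop)
  unfold WW
  exact h2.comp (f := fun n => (n, ii H k0 n)) (by fun_prop)

lemma ptime_rr : PTime (rr H) := by
  unfold rr
  have h1 := ptime_kk H
  have h2 : PTime fun n : ℕ => prs (TT n) (TT n ^ 3) :=
    ptime_prs (by fun_prop) (by fun_prop) (by fun_prop)
  fun_prop

lemma ptime_un : PTime fun p : ℕ × ℕ => un H k0 p.1 p.2 := by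
  unfold un UU
  fun_prop

lemma ptime_par : PTime (par H c k0) := by
  have h1 := ptime_kk H
  have h2 := ptime_WW H k0
  have h3 := ptime_rr H
  have h4 := ptime_un H k0
  have hL : PTime (LL H c) := by unfold LL; fun_prop
  have hb : PTime (bb H k0) := by unfold bb; fun_prop
  have hp : PTime (pp H c k0) := by unfold pp; fun_prop
  have hP : PTime (PP H c k0) := by unfold PP; fun_prop
  have h5 : ∀ f : ℕ → ℕ, PTime f → PTime fun n => un H k0 n (f n) := fun f hf =>
    h4.comp (f := fun n => (n, f n)) (by fun_prop)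
  have h6 : ∀ f : ℕ → List ℕ, PTime f → PTime fun n => (f n).map (un H k0 n) := fun f hf =>
    PTime.map hf h4
  unfold par
  exact OP.ptime_mk (h6 _ (by fun_prop)) (h6 _ (by fun_prop)) (h6 _ (by fun_prop))
    (h6 _ (by fun_prop)) (h6 _ h3) (h5 _ hP) (h5 _ hp) (h5 _ hL) (h5 _ hb)

end Vale.Agent.P338.Par
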