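import Vale.Agent.P338.Core

/-! The loop primitives: streaming, zipping, recursion, serialisation. -/

namespace Vale.Agent.P338

open Function PT

variable {α β γ δ σ κ : Type} [TEnc α] [TEnc β] [TEnc γ] [TEnc δ] [TEnc σ] [TEnc κ]
variable {D : α → Prop} {T : α → ℕ}

/-! ### streaming -/

/-- run a transducer with state along a list, concatenating the outputs -/
def scan {β γ σ : Type} (f : β × σ → List γ × σ) : List β → σ → List γ × σ
  | [], s => ([], s)
  | y :: l, s => ((f (y, s)).1 ++ (scan f l (f (y, s)).2).1, (scan f l (f (y, s)).2).2)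

/-- all calls of the step function are in the domain -/
def scanDom {β γ σ : Type} (f : β × σ → List γ × σ) (D : β × σ → Prop) : List β → σ → Prop
  | [], _ => True
  | y :: l, s => D (y, s) ∧ scanDom f D l (f (y, s)).2

/-- the total cost of the calls of the step function -/
def scanCost {γ : Type} (f : β × σ → List γ × σ) (T : β × σ → ℕ) : List β → σ → ℕ
  | [], _ => 0
  | y :: l, s => T (y, s) + sz y + sz s + scanCost f T l (f (y, s)).2

/-- move the elements of a list from `a` to `o` -/
def outB : Cm :=
  .cases .a .skip .skip (.seq (mov .a .o) (.seq (.push .o true) (.push .d true)))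

lemma rn_outB (out : List γ) : ∀ (acc : List γ) (a i o : List Bool),
    Rn (wh outB) (mk (encode out ++ a) [] [] [true] i (encode acc ++ o))
      (st a i (encode (out.reverse ++ acc) ++ o)) (20 * sz out) := by
  induction out with
  | nil =>
    intro acc a i o
    exact (wh_stop (S := st a i (encode acc ++ o))
      (Rn.casesF (l := a) rfl (by simpa using! Rn.skip _)) rfl).mono (by simp)
  | cons y out ih =>
    intro acc a i o
    have h1 := (mov_ao y (encode out ++ a) i (encode acc ++ o)).seq
      ((rn_pushO true _ _ _).seq (rn_pushD _ _ _))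
    have h2 := ih (y :: acc) a i o
    have h3 : Rn outB (st (encode (y :: out) ++ a) i (encode acc ++ o))
        (mk (encode out ++ a) [] [] [true] i (encode (y :: acc) ++ o)) (9 * sz y + 3 + (1 + 1) + 1) :=
      Rn.casesT (l := encode y ++ (encode out ++ a)) (by simp [encode_cons])
        (by simpa [encode_cons] using! h1)
    refine Rn.mono (by simpa using! wh_go h3 h2) ?_
    have := sz_pos y
    simp; omega

def scanB (c : Cm) : Cm :=
  .cases .i .skip .skip (.seq (mov .i .a) (.seq (.push .a true) (.seq c (.seq popA
    (.seq (.push .d true) (.seq (wh outB) (.push .d true)))))))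

theorem C.scanR {f : β × σ → List γ × σ} {D' : β × σ → Prop} {T' : β × σ → ℕ} (hf : C D' T' f) :
    C (fun p : List β × σ => scanDom f D' p.1 p.2) (fun p => scanCost f T' p.1 p.2)
      fun p => ((scan f p.1 p.2).1.reverse, (scan f p.1 p.2).2) := by
  obtain ⟨K1, h1⟩ := hf.sz_le
  obtain ⟨c, K, hc⟩ := hf
  have step : ∀ y s, D' (y, s) → sz (f (y, s)).1 ≤ 2 * K1 * (T' (y, s) + sz y + sz s) := by
    intro y s h
    have e1 := h1 _ h
    have e2 : sz (f (y, s)) = sz (f (y, s)).1 + sz (f (y, s)).2 + 1 := sz_prod _ _
    have := sz_pos y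
    have e3 : sz (y, s) = sz y + sz s + 1 := sz_prod _ _
    rw [e2, e3] at e1
    nlinarith
  have hsz : ∀ l s, scanDom f D' l s → sz (scan f l s).1 ≤ 2 * K1 * scanCost f T' l s + 1 := by
    intro l
    induction l with
    | nil => intro s _; simp [scan]
    | cons y l ih =>
      intro s h
      have e1 := ih _ h.2
      have e2 := step y s h.1
      have e3 := sz_append (f (y, s)).1 (scan f l (f (y, s)).2).1
      simp only [scan, scanCost]
      nlinarith
  have key : ∀ (l : List β) (s : σ) (acc : List γ) r i o, scanDom f D' l s →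
      Rn (wh (scanB c)) (mk (encode s ++ r) [] [] [true] (encode l ++ i) (encode acc ++ o))
        (st (encode (scan f l s).2 ++ r) i (encode ((scan f l s).1.reverse ++ acc) ++ o))
        ((2 * K + 40 * K1 + 20) * scanCost f T' l s + 4) := by
    intro l
    induction l with
    | nil =>
      intro s acc r i o _
      exact (wh_stop (S := st (encode s ++ r) i (encode acc ++ o))
        (Rn.casesF (l := i) rfl (by simpa using! Rn.skip _)) rfl).mono (by simp)
    | cons y l ih =>
      intro s acc r i o h
      have a1 := mov_ia y (encode s ++ r) (encode l ++ i) (encode acc ++ o)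
      have a2 := hc (y, s) h.1 r (encode l ++ i) (encode acc ++ o)
      have a3 := rn_outB (f (y, s)).1 acc (encode (f (y, s)).2 ++ r) (encode l ++ i) o
      have e : encode (f (y, s)) = true :: (encode (f (y, s)).1 ++ encode (f (y, s)).2) := rfl
      rw [e, encode_prod] at a2
      simp only [List.cons_append, List.append_assoc] at a2
      have a4 := a1.seq ((rn_pushA true _ _ _).seq (a2.seq ((rn_popA true _ _ _).seq
        ((rn_pushD _ _ _).seq (a3.seq (rn_pushD _ _ _))))))
      have a5 : Rn (scanB c) (st (encode s ++ r) (encode (y :: l) ++ i) (encode acc ++ o)) _ _ :=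
        Rn.casesT (l := encode y ++ (encode l ++ i)) (by simp [encode_cons])
          (by simpa using! a4)
      have a6 := wh_go a5 (ih _ _ r i o h.2)
      refine Rn.mono (by simpa [scan] using! a6) ?_
      have e2 := step y s h.1
      have := sz_pos y
      have := sz_pos s
      have e3 : K * (T' (y, s) + (sz y + sz s + 1)) ≤ 2 * K * (T' (y, s) + sz y + sz s) := by
        nlinarith
      simp only [scanCost]
      nlinarith
  refine ⟨.seq popA (.seq (mov .a .i) (.seq (.push .o false) (.seq (.push .d true)
    (.seq (wh (scanB c)) (.seq (mov .o .a) (.push .a true)))))), 2 * K + 58 * K1 + 40,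
    fun p hp r i o => ?_⟩
  obtain ⟨l, s⟩ := p
  have a1 := key l s [] r i o hp
  rw [List.append_nil] at a1
  have a2 := (rn_popA true _ _ _).seq ((mov_ai l (encode s ++ r) i o).seq
    ((rn_pushO false _ _ _).seq ((rn_pushD _ _ _).seq (a1.seq
      ((mov_oa (scan f l s).1.reverse _ _ _).seq (rn_pushA true _ _ _))))))
  refine Rn.mono (by simpa [encode_prod] using! a2) ?_
  have := hsz l s hp
  have := sz_pos l
  have := sz_pos s
  simp only [sz_prod]
  nlinarith [Nat.zero_le (K * (sz l + sz s + 1)), Nat.zero_le (K1 * (sz l + sz s + 1))]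

/-! ### zipping -/

def zipB : Cm :=
  .cases .i .skip .skip (.cases .a .skip
    (.seq (.push .i true) (.seq (emb (ren .i) PT.drop) (.push .a false)))
    (.seq (mov .a .o) (.seq (mov .i .o) (.seq (.push .o true) (.seq (.push .o true)
      (.push .d true))))))

lemma rn_zipB (l : List β) : ∀ (m : List γ) (acc : List (β × γ)) (r i o : List Bool),
    Rn (wh zipB) (mk (encode m ++ r) [] [] [true] (encode l ++ i) (encode acc ++ o))
      (st (encode (m.drop l.length) ++ r) i (encode ((l.zip m).reverse ++ acc) ++ o))
      (20 * (sz l + sz m)) := by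
  induction l with
  | nil =>
    intro m acc r i o
    exact (wh_stop (S := st (encode m ++ r) i (encode acc ++ o))
      (Rn.casesF (l := i) rfl (by simpa using! Rn.skip _)) rfl).mono (by simp; omega)
  | cons y l ih =>
    intro m acc r i o
    cases m with
    | nil =>
      have h1 := (rn_pushI true r (encode y ++ (encode l ++ i)) (encode acc ++ o)).seq
        (Rn.seq (by simpa [encode_cons] using! rn_dropI (y :: l) r i (encode acc ++ o))
          (rn_pushA false r i (encode acc ++ o)))
      have h2 : Rn zipB (st (encode ([] : List γ) ++ r) (encode (y :: l) ++ i) (encode acc ++ o))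
          _ _ := Rn.casesT (l := encode y ++ (encode l ++ i)) (by simp [encode_cons])
        (Rn.casesF (l := r) (by simp [encode_nil]) (by simpa using! h1))
      refine Rn.mono (by simpa [encode_nil] using! wh_stop h2 rfl) ?_
      simp; omega
    | cons z m =>
      have h1 := (mov_ao z (encode m ++ r) (encode y ++ (encode l ++ i)) (encode acc ++ o)).seq
        ((mov_io y _ _ _).seq ((rn_pushO true _ _ _).seq ((rn_pushO true _ _ _).seq
          (rn_pushD _ _ _))))
      have h2 : Rn zipB (st (encode (z :: m) ++ r) (encode (y :: l) ++ i) (encode acc ++ o))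
          (mk (encode m ++ r) [] [] [true] (encode l ++ i) (encode ((y, z) :: acc) ++ o)) _ :=
        Rn.casesT (l := encode y ++ (encode l ++ i)) (by simp [encode_cons])
          (Rn.casesT (l := encode z ++ (encode m ++ r)) (by simp [encode_cons])
            (by simpa [encode_cons, encode_prod] using! h1))
      refine Rn.mono (by simpa using! wh_go h2 (ih m _ r i o)) ?_
      have := sz_pos y
      simp; omega

theorem Lin.zipR :
    Lin fun p : List β × List γ => ((p.1.zip p.2).reverse, p.2.drop p.1.length) := by
  refine ⟨.seq popA (.seq (mov .a .i) (.seq (.push .o false) (.seq (.push .d true)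
    (.seq (wh zipB) (.seq (mov .o .a) (.push .a true)))))), 60, fun p _ r i o => ?_⟩
  obtain ⟨l, m⟩ := p
  have a1 := rn_zipB l m [] r i o
  rw [List.append_nil] at a1
  have a2 := (rn_popA true _ _ _).seq ((mov_ai l (encode m ++ r) i o).seq
    ((rn_pushO false _ _ _).seq ((rn_pushD _ _ _).seq (a1.seq
      ((mov_oa (l.zip m).reverse _ _ _).seq (rn_pushA true _ _ _))))))
  refine Rn.mono (by simpa [encode_prod] using! a2) ?_
  have hz : ∀ (l : List β) (m : List γ), sz (l.zip m) ≤ sz l + sz m := by
    intro l
    induction l with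
    | nil => intro m; simp
    | cons y l ih =>
      intro m
      cases m with
      | nil => simp
      | cons z m => have := ih m; simp; omega
  have := hz l m
  simp; omega

/-! ### recursion -/

/-- Evaluation of a trampolined recursion: `pre` handles a call, `post` a return; both either
return a value or make a call, keeping a frame of type `κ`. -/
inductive Ev (pre : α → β ⊕ κ × α) (post : κ × β → β ⊕ κ × α) (D1 : α → Prop) (T1 : α → ℕ)
    (D2 : κ × β → Prop) (T2 : κ × β → ℕ) : β ⊕ κ × α → β → ℕ → Prop
  | ret (y) : Ev pre post D1 T1 D2 T2 (.inl y) y 0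
  | call {k x y z n m} : D1 x → Ev pre post D1 T1 D2 T2 (pre x) y n → D2 (k, y) →
      Ev pre post D1 T1 D2 T2 (post (k, y)) z m →
      Ev pre post D1 T1 D2 T2 (.inr (k, x)) z (T1 x + sz x + n + (T2 (k, y) + sz k + sz y + m))

def recB (c1 c2 : Cm) : Cm :=
  .seq popA (.cases .a .skip
    (.cases .o .skip .skip (.seq (mov .o .a) (.seq (.push .a true) (.seq c2 (.push .d true)))))
    (.seq popA (.seq popA (.seq popA (.seq (mov .a .o) (.seq (.push .o true)
      (.seq c1 (.push .d true))))))))

lemma encode_inl (y : α) : encode (Sum.inl y : α ⊕ β) = true :: false :: encode y := rfl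
lemma encode_inr (y : β) :
    encode (Sum.inr y : α ⊕ β) = true :: true :: false :: false :: encode y := rfl

theorem C.recur {pre : α → β ⊕ κ × α} {post : κ × β → β ⊕ κ × α} {D1 : α → Prop} {T1 : α → ℕ}
    {D2 : κ × β → Prop} {T2 : κ × β → ℕ} (h1 : C D1 T1 pre) (h2 : C D2 T2 post) {f : α → β}
    (h : ∀ x, D x → D1 x ∧ ∃ n, Ev pre post D1 T1 D2 T2 (pre x) (f x) n ∧ T1 x + n ≤ T x) :
    C D T f := by
  obtain ⟨c1, K1, hc1⟩ := h1
  obtain ⟨c2, K2, hc2⟩ := h2
  have key : ∀ {u y n}, Ev pre post D1 T1 D2 T2 u y n → ∀ r i o S m,
      Rn (wh (recB c1 c2)) (mk (encode (Sum.inl y : β ⊕ κ × α) ++ r) [] [] [true] i o) S m →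
      Rn (wh (recB c1 c2)) (mk (encode u ++ r) [] [] [true] i o) S
        ((K1 + 2 * K2 + 30) * n + m) := by
    intro u y n hE
    induction hE with
    | ret y => intro r i o S m hm; simpa using! hm
    | @call k x y z n n' d1 _ d2 _ ih1 ih2 =>
      intro r i o S m hm
      have b2 := ih2 r i o S m hm
      have a2 := hc2 (k, y) d2 r i o
      rw [encode_prod] at a2
      simp only [List.cons_append, List.append_assoc] at a2
      have a3 := (mov_oa k (encode y ++ r) i o).seq ((rn_pushA true _ _ _).seq
        (a2.seq (rn_pushD _ _ _)))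
      have a4 : Rn (recB c1 c2) (st (encode (Sum.inl y : β ⊕ κ × α) ++ r) i
          (true :: (encode k ++ o))) _ _ :=
        (rn_popA true (false :: (encode y ++ r)) i _).seq
          (Rn.casesF (l := encode y ++ r) rfl
            (Rn.casesT (l := encode k ++ o) (by simp) (by simpa using! a3)))
      have b1 := ih1 r i _ S _ (wh_go a4 b2)
      have a5 := (rn_popA false _ _ _).seq ((rn_popA false _ _ _).seq ((rn_popA true _ _ _).seq
        ((mov_ao k (encode x ++ r) i o).seq ((rn_pushO true _ _ _).seq
          ((hc1 x d1 r i _).seq (rn_pushD _ _ _))))))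
      have a6 : Rn (recB c1 c2) (st (encode (Sum.inr (k, x) : β ⊕ κ × α) ++ r) i o) _ _ :=
        (rn_popA true (true :: false :: false :: true :: (encode k ++ encode x ++ r)) i o).seq
          (Rn.casesT (l := false :: false :: true :: (encode k ++ encode x ++ r)) rfl
            (by simpa using! a5))
      refine (wh_go a6 b1).mono ?_
      have := sz_pos k
      have := sz_pos x
      have := sz_pos y
      have e1 : K2 * (T2 (k, y) + (sz k + sz y + 1)) ≤ 2 * K2 * (T2 (k, y) + sz k + sz y) := by
        nlinarith
      nlinarith [Nat.zero_le (K1 * (T2 (k, y) + sz k + sz y)), Nat.zero_le (K2 * (T1 x + sz x)),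
        Nat.zero_le (K1 * n'), Nat.zero_le (T1 x), Nat.zero_le (T2 (k, y))]
  refine ⟨.seq (.push .o false) (.seq c1 (.seq (.push .d true) (wh (recB c1 c2)))),
    2 * K1 + 2 * K2 + 40, fun x hx r i o => ?_⟩
  obtain ⟨d1, n, hE, hn⟩ := h x hx
  have a1 : Rn (recB c1 c2) (st (encode (Sum.inl (f x) : β ⊕ κ × α) ++ r) i (false :: o))
      (st (encode (f x) ++ r) i o) _ :=
    (rn_popA true (false :: (encode (f x) ++ r)) i _).seq
      (Rn.casesF (l := encode (f x) ++ r) rfl
        (Rn.casesF (l := o) (by simp) (by simpa using! Rn.skip _)))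
  refine ((rn_pushO false _ _ _).seq ((hc1 x d1 r i _).seq ((rn_pushD _ _ _).seq
    (key hE r i _ _ _ (wh_stop a1 rfl))))).mono ?_
  have := sz_pos x
  have e1 : K1 * T1 x ≤ K1 * T x := Nat.mul_le_mul_left _ (by omega)
  have e2 : (K1 + 2 * K2 + 30) * n ≤ (K1 + 2 * K2 + 30) * T x := Nat.mul_le_mul_left _ (by omega)
  nlinarith [Nat.zero_le (K1 * sz x), Nat.zero_le (K2 * sz x)]

/-! ### serialisation -/

def serL : Cm :=
  .loop .b (.seq (.push .a false) (.push .a true))
    (.seq (.push .a false) (.seq (.push .a false) (.seq (.push .a true) (.push .a true))))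

lemma rn_serL (x : List Bool) : ∀ (acc : List Bool) (r i o : List Bool),
    Rn serL (mk (encode acc ++ r) x [] [] i o) (st (encode (x.reverse ++ acc) ++ r) i o)
      (5 * x.length + 1) := by
  induction x with
  | nil => intro acc r i o; exact Rn.loopE rfl
  | cons y x ih =>
    intro acc r i o
    cases y
    · have h := ih (false :: acc) r i o
      have h' : Rn serL (mk (encode acc ++ r) (false :: x) [] [] i o) _ _ :=
        Rn.loopF (l := x) rfl ((Rn.push _ _ _).seq (Rn.push _ _ _)) (by simpa using! h)
      refine Rn.mono (by simpa using! h') ?_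
      simp; omega
    · have h := ih (true :: acc) r i o
      have h' : Rn serL (mk (encode acc ++ r) (true :: x) [] [] i o) _ _ :=
        Rn.loopT (l := x) rfl
          ((Rn.push _ _ _).seq ((Rn.push _ _ _).seq ((Rn.push _ _ _).seq (Rn.push _ _ _))))
          (by simpa using! h)
      refine Rn.mono (by simpa using! h') ?_
      simp; omega

lemma Lin.encode : Lin fun x : α => encode x := by
  refine ⟨.seq (toB .a) (.seq (.push .a false) serL), 20, fun x _ r i o => ?_⟩
  have h := rn_serL (PT.encode x).reverse [] r i o
  rw [List.reverse_reverse, List.append_nil, List.length_reverse] at h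
  refine ((toB_a (TEnc.enc x) r i o).seq ((Rn.push _ _ _).seq (by simpa using! h))).mono ?_
  have := sz_pos x
  unfold sz PT.encode at *; omega

@[fun_prop] theorem C.encode {f : α → β} (hf : C D T f) : C D T fun x => encode (f x) :=
  C.comp Lin.encode hf

def unsB : Cm :=
  .cases .a .skip .skip (.seq (.cases .a .skip (.push .b false)
    (.seq popA (.seq popA (.push .b true)))) (.push .d true))

lemma rn_unsB (x : List Bool) : ∀ (acc r i o : List Bool),
    Rn (wh unsB) (mk (PT.encode x ++ r) acc [] [true] i o) (mk r (x.reverse ++ acc) [] [] i o)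
      (9 * x.length + 4) := by
  have pop : ∀ (y : Bool) a b i o, Rn popA (mk (y :: a) b [] [] i o) (mk a b [] [] i o) 2 := by
    intro y a b i o
    cases y
    · exact Rn.casesF (l := a) rfl (by simpa using! Rn.skip _)
    · exact Rn.casesT (l := a) rfl (by simpa using! Rn.skip _)
  induction x with
  | nil =>
    intro acc r i o
    exact (Rn.loopT (l := []) rfl (Rn.casesF (l := r) (by simp [encode_nil])
      (by simpa using! Rn.skip _)) (Rn.loopE rfl)).mono (by simp)
  | cons y x ih =>
    intro acc r i o
    have h := ih (y :: acc) r i o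
    have h1 : Rn (.cases .a .skip (.push .b false) (.seq popA (.seq popA (.push .b true))))
        (mk (PT.encode y ++ (PT.encode x ++ r)) acc [] [] i o)
        (mk (PT.encode x ++ r) (y :: acc) [] [] i o) 6 := by
      cases y
      · exact (Rn.casesF (l := PT.encode x ++ r) rfl
          (by simpa using! Rn.push .b false (mk (PT.encode x ++ r) acc [] [] i o))).mono (by omega)
      · exact Rn.casesT (l := false :: false :: (PT.encode x ++ r)) rfl
          (by simpa using! (pop false _ acc i o).seq ((pop false _ acc i o).seq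
            (Rn.push .b true (mk (PT.encode x ++ r) acc [] [] i o))))
    have h' : Rn (wh unsB) (mk (PT.encode (y :: x) ++ r) acc [] [true] i o) _ _ :=
      Rn.loopT (l := []) rfl
        (Rn.casesT (l := PT.encode y ++ (PT.encode x ++ r)) (by simp [encode_cons])
          (by simpa using! h1.seq (Rn.push .d true _))) h
    refine Rn.mono (by simpa using! h') ?_
    simp; omega

theorem C.unser {f : α → β} (hf : C D T fun x => PT.encode (f x)) : C D T f := by
  obtain ⟨K1, h1⟩ := hf.sz_le
  obtain ⟨c, K, hc⟩ := hf
  refine ⟨.seq c (.seq (.push .d true) (.seq (wh unsB) (frB .a))), K + 11 * K1 + 6,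
    fun x hx r i o => ?_⟩
  have a1 := rn_unsB (PT.encode (f x)) [] r i o
  rw [List.append_nil] at a1
  have a2 := frB_a (PT.encode (f x)).reverse r i o
  rw [List.reverse_reverse, List.length_reverse] at a2
  refine ((hc x hx r i o).seq ((rn_pushD _ _ _).seq (a1.seq a2))).mono ?_
  have := h1 x hx
  have := length_lt_sz (PT.encode (f x))
  have := sz_pos x
  nlinarith

end Vale.Agent.P338
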