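import Vale.Agent.P338.RowsA
import Vale.Agent.P338.Gnet

/-! Job J14, second part: arrays of rows. -/

namespace Vale.Agent.P338

open PT Finset

attribute [local irreducible] PTime PB C

lemma rows_rv_row {P A ρ ι : ℕ} (l : List Bool) (h : ι < 2 * A) :
    rv P (blk (A * (2 * P)) ρ l) ι = rv P l (ρ * (2 * A) + ι) := by
  rw [← rv_blk l h]; congr 2; ring

lemma Rep.congr {P n : ℕ} {l : List Bool} {z z' : ℕ → GaussianInt} (h : Rep P n l z)
    (H : ∀ i < n, z i = z' i) : Rep P n l z' :=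
  ⟨h.1, fun i hi => H i hi ▸ h.2 i hi⟩

lemma rows_rep_row {P A n ρ : ℕ} {l : List Bool} {z : ℕ → GaussianInt} (h : Rep P (n * A) l z)
    (hρ : ρ < n) : Rep P A (blk (A * (2 * P)) ρ l) fun x => z (ρ * A + x) := by
  refine ⟨length_blk' (by rw [h.1, mul_assoc]) hρ, fun x hx => ?_⟩
  rw [rows_rv_row _ (by omega), rows_rv_row _ (by omega)]
  have := h.2 _ (lt_mul_of_lt hρ hx)
  rwa [show 2 * (ρ * A + x) = ρ * (2 * A) + 2 * x by ring, add_assoc] at this

lemma rows_rep_of_rows {P A n : ℕ} {l : List Bool} {z : ℕ → ℕ → GaussianInt}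
    (hl : l.length = n * A * (2 * P)) (h : ∀ ρ < n, Rep P A (blk (A * (2 * P)) ρ l) (z ρ)) :
    Rep P (n * A) l fun i => z (i / A) (i % A) := by
  refine ⟨hl, fun i hi => ?_⟩
  have hA : 0 < A := Nat.pos_of_mul_pos_left (Nat.zero_lt_of_lt hi) |>.trans_le le_rfl
  have h1 := Nat.mod_lt i hA
  have := (h (i / A) (Nat.div_lt_of_lt_mul (by rwa [mul_comm]))).2 _ h1
  rw [rows_rv_row _ (by omega), rows_rv_row _ (by omega), ← add_assoc,
    show i / A * (2 * A) + 2 * (i % A) = 2 * i by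
      have := Nat.div_add_mod i A; nlinarith] at this
  exact this

lemma rows_rep_zero (P A : ℕ) : Rep P A (List.replicate (A * (2 * P)) false) fun _ => 0 :=
  ⟨by simp, fun i _ => by simp [rv_zero]⟩

lemma rows_rep_perm {P A : ℕ} {π : ℕ → ℕ} (hπ : ∀ s < A, π s < A) {l : List Bool}
    {z : ℕ → GaussianInt} (h : Rep P A l z) : Rep P A (perm A (2 * P) π l) fun x => z (π x) := by
  refine ⟨length_perm h.1 hπ, fun x hx => ?_⟩
  have e : ∀ (l : List Bool) x b, b < 2 → rv P l (2 * x + b) = rv P (blk (2 * P) x l) b :=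
    fun l x b hb => by rw [rv_blk l hb, mul_comm]
  have e0 : ∀ (l : List Bool) x, rv P l (2 * x) = rv P (blk (2 * P) x l) 0 :=
    fun l x => e l x 0 (by omega)
  have := h.2 _ (hπ x hx)
  rw [e0, e _ _ _ (by omega)] at this ⊢
  rwa [blk_perm h.1 hπ hx]

lemma rows_blk_ax3 {n A β o : ℕ} {π : ℕ → ℕ → ℕ} {l : List Bool} (hl : l.length = n * A * β)
    (hπ : ∀ o < n, ∀ s < A, π o s < A) (ho : o < n) :
    blk (A * β) o (ax3 n A β π l) = perm A β (π o) (blk (A * β) o l) := by
  unfold ax3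
  rw [blk_fl (fun o ho => length_fl fun s hs => length_blk' hl (lt_mul_of_lt ho (hπ o ho s hs))) ho]
  exact fl_congr fun s hs => (blk_blk l (hπ o ho s hs)).symm

lemma rows_length_ax3 {n A β : ℕ} {π : ℕ → ℕ → ℕ} {l : List Bool} (hl : l.length = n * A * β)
    (hπ : ∀ o < n, ∀ s < A, π o s < A) : (ax3 n A β π l).length = n * A * β := by
  unfold ax3
  rw [length_fl fun o ho => length_fl fun s hs => length_blk' hl (lt_mul_of_lt ho (hπ o ho s hs)),
    mul_assoc]

lemma rows_takeD {n : ℕ} {l : List Bool} (h : l.length ≤ n) :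
    l.takeD n false = l ++ List.replicate (n - l.length) false := by
  induction n generalizing l with
  | zero => simp [List.length_eq_zero_iff.1 (Nat.le_zero.1 h)]
  | succ n ih =>
    cases l with
    | nil => simp [List.replicate_succ]
    | cons a l => simp [ih (l := l) (by simpa using h)]

/-- the padded array -/
lemma rows_rep_pad {P A Rw n ρ : ℕ} {l : List Bool} {z : ℕ → GaussianInt}
    (h : Rep P (Rw * A) l z) (hn : Rw ≤ n) (hρ : ρ < n) :
    Rep P A (blk (A * (2 * P)) ρ (l.takeD (n * (A * (2 * P))) false))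
      fun x => if ρ < Rw then z (ρ * A + x) else 0 := by
  have hl : l.length = Rw * (A * (2 * P)) := by rw [h.1, mul_assoc]
  rw [rows_takeD (hl ▸ Nat.mul_le_mul_right _ hn)]
  split_ifs with h1
  · rw [blk_append_left _ (hl ▸ Nat.mul_le_mul_right _ h1)]
    exact rows_rep_row h h1
  · obtain ⟨i, rfl⟩ := Nat.exists_eq_add_of_le (not_lt.1 h1)
    rw [blk_append_right _ _ hl, blk_replicate]
    · exact rows_rep_zero P A
    · rw [hl, ← Nat.sub_mul]; exact Nat.mul_le_mul_right _ (by omega)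

/-! ### embedding and extraction in every block -/

def embs (gd : ℕ → Bool) (n G M L : ℕ) (l : List Bool) : List Bool :=
  fl n fun i => embedF gd M L (blk (G * L) i l)

def exts (gd : ℕ → Bool) (n M L : ℕ) (l : List Bool) : List Bool :=
  fl n fun i => extractF gd M L (blk (M * L) i l)

section
variable {gd : ℕ → Bool} {n G M L : ℕ} {l : List Bool}

lemma rows_length_embed (hG : G = Nat.count (fun z => gd z = true) M) (hl : l.length = G * L) :
    ∀ y < M, (if gd y then blk L (Nat.count (fun z => gd z = true) y) l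
      else List.replicate L false).length = L := fun y hy => by
  split_ifs with h
  · exact length_blk' hl (hG ▸ Nat.count_strict_mono h hy)
  · simp

lemma length_embs (hG : G = Nat.count (fun z => gd z = true) M) (hl : l.length = n * (G * L)) :
    (embs gd n G M L l).length = n * (M * L) :=
  length_fl fun _ hi => length_fl (rows_length_embed hG (length_blk' hl hi))

lemma blk_embs (hG : G = Nat.count (fun z => gd z = true) M) (hl : l.length = n * (G * L))
    {i y : ℕ} (hi : i < n) (hy : y < M) (h : gd y = true) :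
    blk L (i * M + y) (embs gd n G M L l) =
      blk L (i * G + Nat.count (fun z => gd z = true) y) l := by
  unfold embs embedF
  rw [blk_fl_fl (fun i hi => rows_length_embed hG (length_blk' hl hi)) hi hy, if_pos h,
    blk_blk _ (hG ▸ Nat.count_strict_mono h hy)]

lemma length_exts (hG : G = Nat.count (fun z => gd z = true) M) (hl : l.length = n * (M * L)) :
    (exts gd n M L l).length = n * (G * L) := by
  unfold exts
  simp only [extractF_eq, ← hG]
  exact length_fl fun _ hi => length_fl fun a ha =>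
    length_blk' (length_blk' hl hi) (Nat.nth_lt_of_lt_count (hG ▸ ha))

lemma blk_exts (hG : G = Nat.count (fun z => gd z = true) M) (hl : l.length = n * (M * L))
    {i a : ℕ} (hi : i < n) (ha : a < G) :
    blk L (i * G + a) (exts gd n M L l) = blk L (i * M + Nat.nth (fun z => gd z = true) a) l := by
  unfold exts
  simp only [extractF_eq, ← hG]
  rw [blk_fl_fl (fun i hi a ha => length_blk' (length_blk' hl hi)
    (Nat.nth_lt_of_lt_count (hG ▸ ha))) hi ha, blk_blk _ (Nat.nth_lt_of_lt_count (hG ▸ ha))]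

end

section
variable {ε : Type} [TEnc ε] {D : ε → Prop} {N N' B T : ε → ℕ} {f : ε → List Bool → List Bool}
  {gd : ε × ℕ → Bool} {n G M L N'' : ε → ℕ}

lemma Op.embs (hf : Op D N N' B T f) (hgd : PTime gd) (hn : PTime n) (hG : PTime G) (hM : PTime M)
    (hL : PTime L) (H : ∀ e, D e → G e = Nat.count (fun z => gd (e, z) = true) (M e) ∧ 0 < G e ∧
      N' e = n e * (G e * L e) ∧ N'' e = n e * (M e * L e) ∧ B e ≤ L e)
    (hT : ∃ K, ∀ e, D e → N'' e ≤ K * (T e + N e)) :
    Op D N N'' B T fun e l => embs (fun z => gd (e, z)) (n e) (G e) (M e) (L e) (f e l) := by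
  have h1 := (Op.id (D := D) (N := fun e => G e * L e) (B := B) (T := fun e => M e * L e)
    fun e he => by obtain ⟨-, a, -, -, b⟩ := H e he; exact b.trans (Nat.le_mul_of_pos_left _ a)).embed
    hgd (N'' := fun e => M e * L e) hM hL
    (fun e he => by obtain ⟨a, -, -, -, b⟩ := H e he; exact ⟨by rw [a], rfl, b⟩)
    ⟨1, fun e _ => by omega⟩
  obtain ⟨K, hK⟩ := hT
  exact hf.blocks h1 (ψ := fun x => x.1) (by fun_prop) (L := fun e => G e * L e)
    (L' := fun e => M e * L e) hn (by fun_prop) (fun e he => ⟨(H e he).2.2.1, (H e he).2.2.2.1⟩)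
    (fun e he i _ => ⟨he, rfl, rfl, le_rfl⟩) ⟨K, fun e he i _ => (H e he).2.2.2.1 ▸ hK e he⟩

lemma Op.exts (hf : Op D N N' B T f) (hgd : PTime gd) (hn : PTime n) (hM : PTime M)
    (hL : PTime L) (H : ∀ e, D e → G e = Nat.count (fun z => gd (e, z) = true) (M e) ∧ 0 < M e ∧
      N' e = n e * (M e * L e) ∧ N'' e = n e * (G e * L e) ∧ B e ≤ L e) :
    Op D N N'' B T fun e l => exts (fun z => gd (e, z)) (n e) (M e) (L e) (f e l) := by
  have h1 := (Op.id (D := D) (N := fun e => M e * L e) (B := B) (T := fun _ => 0)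
    fun e he => by obtain ⟨-, a, -, -, b⟩ := H e he; exact b.trans (Nat.le_mul_of_pos_left _ a)).extract
    hgd (N'' := fun e => G e * L e) hM hL
    (fun e he => by obtain ⟨a, -, -, -, b⟩ := H e he; exact ⟨by rw [a], rfl, b⟩)
  exact hf.blocks h1 (ψ := fun x => x.1) (by fun_prop) (L := fun e => M e * L e)
    (L' := fun e => G e * L e) hn (by fun_prop) (fun e he => ⟨(H e he).2.2.1, (H e he).2.2.2.1⟩)
    (fun e he i _ => ⟨he, rfl, rfl, le_rfl⟩) ⟨0, fun e he i _ => by simp⟩

end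

/-! ### one layer -/

def layF (O M A P : ℕ) (φ : ℕ → ℕ) (d : ℕ → List Bool → List Bool) (G : List Bool → List Bool)
    (l : List Bool) : List Bool :=
  fl O fun ob => G (blk (M * M * (2 * A) * P) ob (fl (O * M * M) fun o =>
    d o (blk (A * (2 * P)) o (ax3 (O * M * M) A (2 * P) (fun o s => (s + φ o) % A) l))))

/-- the good rows represent `z` -/
def RepG (P A O : ℕ) (rs : List ℕ) (l : List Bool) (z : ℕ → ℕ → ℕ → ℕ → GaussianInt) : Prop :=
  l.length = O * rs.prod * rs.prod * A * (2 * P) ∧ ∀ ob < O, ∀ y < rs.prod, ∀ y' < rs.prod,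
    good rs y = true → good rs y' = true →
      Rep P A (blk (A * (2 * P)) ((ob * rs.prod + y) * rs.prod + y') l) (z ob y y')

lemma rows_mix {P A O : ℕ} {rs : List ℕ} (hP : 0 < P) (hc : rs.Pairwise Nat.Coprime)
    (h0 : ∀ r ∈ rs, 0 < r) {G : List Bool → List Bool}
    (hG : ∀ l, l.length = rs.prod * rs.prod * (2 * A) * P →
      (G l).length = rs.prod * rs.prod * (2 * A) * P ∧
      ∀ y < rs.prod, ∀ y' < rs.prod, ∀ ι < 2 * A, good rs y = true → good rs y' = true →
        2 ^ rs.length * rv P (G l) ((y * rs.prod + y') * (2 * A) + ι) =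
          ∑ t : Fin rs.length → Bool, ∑ t' : Fin rs.length → Bool, (sgn t t' : ZMod _) *
            rv P l ((reflN rs (List.ofFn t) y * rs.prod + reflN rs (List.ofFn t') y') * (2 * A) + ι))
    {l : List Bool} {z : ℕ → ℕ → ℕ → ℕ → GaussianInt}
    (h : RepG P A O rs l fun ob y y' x => z ob y y' x * 2 ^ rs.length) :
    RepG P A O rs (fl O fun ob => G (blk (rs.prod * rs.prod * (2 * A) * P) ob l))
      fun ob y y' x => ∑ t : Fin rs.length → Bool, ∑ t' : Fin rs.length → Bool,
        (sgn t t' : GaussianInt) * z ob (reflN rs (List.ofFn t) y) (reflN rs (List.ofFn t') y') x := by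
  have hl : l.length = O * (rs.prod * rs.prod * (2 * A) * P) := by rw [h.1]; ring
  have hlen : ∀ ob < O, (G (blk (rs.prod * rs.prod * (2 * A) * P) ob l)).length =
      rs.prod * rs.prod * (2 * A) * P := fun ob hob => (hG _ (length_blk' hl hob)).1
  have hl' : (fl O fun ob => G (blk (rs.prod * rs.prod * (2 * A) * P) ob l)).length =
      O * rs.prod * rs.prod * A * (2 * P) := by rw [length_fl hlen]; ring
  refine ⟨hl', fun ob hob y hy y' hy' gy gy' => ⟨length_blk' (n := O * rs.prod * rs.prod)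
    (by rw [hl', mul_assoc]) (lt_mul_of_lt (lt_mul_of_lt hob hy) hy'), fun x hx => ?_⟩⟩
  have hg : ∀ (t : Fin rs.length → Bool) y, good rs y = true →
      good rs (reflN rs (List.ofFn t) y) = true := fun t y h => by
    rw [good_reflN hc h0 (by simp), h]
  have idx : ∀ (m : List Bool) y y' ι, y < rs.prod → y' < rs.prod → ι < 2 * A →
      rv P (blk (A * (2 * P)) ((ob * rs.prod + y) * rs.prod + y') m) ι =
      rv P (blk (rs.prod * rs.prod * (2 * A) * P) ob m) ((y * rs.prod + y') * (2 * A) + ι) :=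
    fun m y y' ι hy hy' hι => by
      rw [rows_rv_row _ hι, rv_blk _ (lt_mul_of_lt (lt_mul_of_lt hy hy') hι)]; congr 1; ring
  have hu : IsUnit ((2 : ZMod (2 ^ P - 1)) ^ rs.length) :=
    (IsUnit.of_mul_eq_one _ (two_mul_half hP)).pow _
  have key : ∀ ι < 2 * A, ∀ ψ : GaussianInt →+ ℤ,
      (∀ y < rs.prod, ∀ y' < rs.prod, good rs y = true → good rs y' = true →
        rv P (blk (A * (2 * P)) ((ob * rs.prod + y) * rs.prod + y') l) ι =
          (ψ (z ob y y' x * 2 ^ rs.length) : ℤ)) →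
      rv P (blk (A * (2 * P)) ((ob * rs.prod + y) * rs.prod + y')
        (fl O fun ob => G (blk (rs.prod * rs.prod * (2 * A) * P) ob l))) ι =
      (ψ (∑ t : Fin rs.length → Bool, ∑ t' : Fin rs.length → Bool, (sgn t t' : GaussianInt) *
        z ob (reflN rs (List.ofFn t) y) (reflN rs (List.ofFn t') y') x) : ℤ) := by
    intro ι hι ψ H
    rw [idx _ _ _ _ hy hy' hι, blk_fl hlen hob]
    refine hu.mul_left_cancel ?_
    rw [(hG _ (length_blk' hl hob)).2 y hy y' hy' ι hι gy gy']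
    simp only [map_sum, Int.cast_sum, mul_sum]
    refine sum_congr rfl fun t _ => sum_congr rfl fun t' _ => ?_
    rw [← idx _ _ _ _ (reflN_lt h0 _ _) (reflN_lt h0 _ _) hι,
      H _ (reflN_lt h0 _ _) _ (reflN_lt h0 _ _) (hg t y gy) (hg t' y' gy'), ← zsmul_eq_mul,
      ← zsmul_eq_mul, map_zsmul, show ∀ w : GaussianInt, w * 2 ^ rs.length = (2 ^ rs.length : ℕ) • w
        from fun w => by rw [nsmul_eq_mul, mul_comm]; push_cast; rfl, map_nsmul]
    simp only [zsmul_eq_mul, nsmul_eq_mul, smul_eq_mul]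
    push_cast; ring
  exact ⟨key _ (by omega) (AddMonoidHom.mk' Zsqrtd.re Zsqrtd.re_add) fun y hy y' hy' gy gy' =>
      ((h.2 ob hob y hy y' hy' gy gy').2 x hx).1,
    key _ (by omega) (AddMonoidHom.mk' Zsqrtd.im Zsqrtd.im_add) fun y hy y' hy' gy gy' =>
      ((h.2 ob hob y hy y' hy' gy gy').2 x hx).2⟩

lemma rows_layer {P A O : ℕ} {rs : List ℕ} (hP : 0 < P) (hA : 0 < A) (hc : rs.Pairwise Nat.Coprime)
    (h0 : ∀ r ∈ rs, 0 < r) {G : List Bool → List Bool}
    (hG : ∀ l, l.length = rs.prod * rs.prod * (2 * A) * P →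
      (G l).length = rs.prod * rs.prod * (2 * A) * P ∧
      ∀ y < rs.prod, ∀ y' < rs.prod, ∀ ι < 2 * A, good rs y = true → good rs y' = true →
        2 ^ rs.length * rv P (G l) ((y * rs.prod + y') * (2 * A) + ι) =
          ∑ t : Fin rs.length → Bool, ∑ t' : Fin rs.length → Bool, (sgn t t' : ZMod _) *
            rv P l ((reflN rs (List.ofFn t) y * rs.prod + reflN rs (List.ofFn t') y') * (2 * A) + ι))
    {sh : ℕ → ℕ} {d : ℕ → List Bool → List Bool} {a : ℕ → ℕ → ℕ → GaussianInt}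
    (hd : ∀ o r, r.length = A * (2 * P) → (d o r).length = A * (2 * P))
    (hd' : ∀ o r z, Rep P A r z → Rep P A (d o r) fun x =>
      z x * a (o / rs.prod % rs.prod) (o % rs.prod) x * 2 ^ rs.length)
    {l : List Bool} {z : ℕ → ℕ → ℕ → ℕ → GaussianInt} (h : RepG P A O rs l z) :
    RepG P A O rs (layF O rs.prod A P (fun o => sh (o / rs.prod % rs.prod)) d G l)
      fun ob => zLayer A rs sh a (z ob) := by
  have hπ : ∀ o < O * rs.prod * rs.prod, ∀ s < A, (s + sh (o / rs.prod % rs.prod)) % A < A :=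
    fun _ _ _ _ => Nat.mod_lt _ hA
  have hl := rows_length_ax3 h.1 hπ
  have hlen := fun o (ho : o < O * rs.prod * rs.prod) =>
    hd o _ (length_blk' (hl.trans (mul_assoc _ _ _)) ho)
  refine rows_mix hP hc h0 hG (z := fun ob y y' x => z ob y y' ((x + sh y) % A) * a y y' x)
    ⟨by rw [length_fl hlen]; ring, fun ob hob y hy y' hy' gy gy' => ?_⟩
  have ho := lt_mul_of_lt (lt_mul_of_lt hob hy) hy'
  have e1 : ((ob * rs.prod + y) * rs.prod + y') % rs.prod = y' := by
    rw [Nat.mul_add_mod', Nat.mod_eq_of_lt hy']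
  have e2 : ((ob * rs.prod + y) * rs.prod + y') / rs.prod % rs.prod = y := by
    rw [add_comm, Nat.add_mul_div_right _ _ (by omega), Nat.div_eq_of_lt hy', zero_add,
      Nat.mul_add_mod', Nat.mod_eq_of_lt hy]
  rw [blk_fl hlen ho, rows_blk_ax3 h.1 hπ ho]
  have := hd' ((ob * rs.prod + y) * rs.prod + y') _ _
    (rows_rep_perm (hπ _ ho) (h.2 ob hob y hy y' hy' gy gy'))
  rw [e1, e2] at this
  rwa [e2]

lemma Op.layF {ε : Type} [TEnc ε] {D : ε → Prop} {O A1 A2 P ρ : ε → ℕ} {rs : ε → List ℕ}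
    {φ : ε × ℕ → ℕ} {d1 d2 : ε × ℕ → List Bool → List Bool} {H : ℕ} {τ g : ℕ → ℕ}
    {G : List ℕ × ℕ × ℕ × ℕ → List Bool → List Bool}
    (hG : Op (fun e => GOK H e.1 e.2.1 e.2.2.1 e.2.2.2)
      (fun e => e.1.prod * e.1.prod * e.2.1 * e.2.2.1)
      (fun e => e.1.prod * e.1.prod * e.2.1 * e.2.2.1) (fun e => e.2.1)
      (fun e => e.1.prod * e.1.prod * e.2.1 * e.2.2.1 * e.2.2.2 * τ e.1.length) G)
    (h1 : Op (fun x : ε × ℕ => 0 < P x.1 ∧ 0 < A1 x.1) (fun x => A2 x.1 * A1 x.1 * (2 * P x.1))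
      (fun x => A2 x.1 * A1 x.1 * (2 * P x.1)) (fun x => A2 x.1)
      (fun x => A2 x.1 * A1 x.1 * P x.1 * g (P x.1)) d1)
    (h2 : Op (fun x : ε × ℕ => 0 < P x.1 ∧ 0 < A2 x.1) (fun x => A1 x.1 * A2 x.1 * (2 * P x.1))
      (fun x => A1 x.1 * A2 x.1 * (2 * P x.1)) (fun x => A1 x.1)
      (fun x => A1 x.1 * A2 x.1 * P x.1 * g (P x.1)) d2)
    (hO : PTime O) (hA1 : PTime A1) (hA2 : PTime A2) (hP : PTime P) (hρ : PTime ρ) (hrs : PTime rs)
    (hφ : PTime φ) (hD : ∀ e, D e → 0 < O e ∧ 0 < A1 e ∧ 0 < A2 e ∧ 0 < (rs e).prod ∧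
      GOK H (rs e) (2 * (A1 e * A2 e)) (P e) (ρ e)) :
    Op D (fun e => O e * (rs e).prod * (rs e).prod * (A1 e * A2 e) * (2 * P e))
      (fun e => O e * (rs e).prod * (rs e).prod * (A1 e * A2 e) * (2 * P e))
      (fun e => min (A1 e) (A2 e))
      (fun e => O e * (rs e).prod * (rs e).prod * (A1 e * A2 e) * P e *
        (ρ e * τ (rs e).length + g (P e)))
      fun e => layF (O e) (rs e).prod (A1 e * A2 e) (P e) (fun o => φ (e, o))
        (fun o r => d2 (e, o) (d1 (e, o) r)) (G (rs e, 2 * (A1 e * A2 e), P e, ρ e)) := by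
  have hB : ∀ e, D e → min (A1 e) (A2 e) ≤ A1 e * A2 e ∧ 0 < P e := fun e he => by
    obtain ⟨-, a, b, -, c⟩ := hD e he
    exact ⟨(min_le_left _ _).trans (Nat.le_mul_of_pos_right _ b), c.pos⟩
  have hB' : ∀ e, D e → min (A1 e) (A2 e) ≤ A1 e * A2 e * (2 * P e) := fun e he =>
    (hB e he).1.trans (Nat.le_mul_of_pos_right _ (by have := (hB e he).2; omega))
  have hd := (h1.mono (D2 := fun x => D x.1) (N2 := fun x => A1 x.1 * A2 x.1 * (2 * P x.1))
    (N2' := fun x => A1 x.1 * A2 x.1 * (2 * P x.1)) (B2 := fun x => min (A1 x.1) (A2 x.1))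
    (T2 := fun x => A1 x.1 * A2 x.1 * P x.1 * g (P x.1))
    (fun x hx => ⟨⟨(hB _ hx).2, (hD _ hx).2.1⟩, by ring, by ring, min_le_right _ _⟩)
    ⟨1, fun x _ => by rw [mul_comm (A2 _)]; omega⟩).andThen h2 (ψ := fun x => x) (by fun_prop)
    (N'' := fun x => A1 x.1 * A2 x.1 * (2 * P x.1))
    (fun x hx => ⟨⟨(hB _ hx).2, (hD _ hx).2.2.1⟩, rfl, rfl, min_le_left _ _⟩)
    ⟨1, fun x _ => by omega⟩
  have s1 := (Op.id (D := D) (B := fun e => min (A1 e) (A2 e))
    (N := fun e => O e * (rs e).prod * (rs e).prod * (A1 e * A2 e) * (2 * P e))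
    (T := fun e => O e * (rs e).prod * (rs e).prod * (A1 e * A2 e) * P e *
        (ρ e * τ (rs e).length + g (P e))) fun e he => (hB' e he).trans (by
      obtain ⟨a, -, -, b, -⟩ := hD e he
      rw [mul_assoc _ (A1 e * A2 e)]; exact Nat.le_mul_of_pos_left _ (by positivity))).shr
    (O := fun e => O e * (rs e).prod * (rs e).prod) (S := fun e => A1 e * A2 e)
    (β := fun e => 2 * P e) (by fun_prop) (by fun_prop) (by fun_prop) hφ
    fun e he => ⟨rfl, Nat.mul_pos (hD e he).2.1 (hD e he).2.2.1, hB' e he⟩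
  have s2 := s1.blocks hd (ψ := fun x => x) (by fun_prop)
    (O := fun e => O e * (rs e).prod * (rs e).prod) (L := fun e => A1 e * A2 e * (2 * P e))
    (L' := fun e => A1 e * A2 e * (2 * P e))
    (N'' := fun e => O e * (rs e).prod * (rs e).prod * (A1 e * A2 e) * (2 * P e))
    (by fun_prop) (by fun_prop) (fun e _ => ⟨by ring, by ring⟩)
    (fun e he i _ => ⟨he, rfl, rfl, le_rfl⟩) ⟨1, fun e _ i _ => by
      rw [one_mul, mul_add]
      exact le_add_right (le_add_left (le_of_eq (by ring)))⟩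
  exact s2.blocks hG (ψ := fun x => (rs x.1, 2 * (A1 x.1 * A2 x.1), P x.1, ρ x.1)) (by fun_prop)
    (O := O) (L := fun e => (rs e).prod * (rs e).prod * (2 * (A1 e * A2 e)) * P e)
    (L' := fun e => (rs e).prod * (rs e).prod * (2 * (A1 e * A2 e)) * P e) hO (by fun_prop)
    (fun e _ => ⟨by ring, by ring⟩)
    (fun e he i _ => ⟨(hD e he).2.2.2.2, rfl, rfl, (hB e he).1.trans (by simp only; omega)⟩)
    ⟨2, fun e _ i _ => by
      rw [mul_add, mul_add, mul_add]
      exact le_add_right (le_add_right (le_of_eq (by ring)))⟩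

end Vale.Agent.P338
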