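import Vale.Agent.P338.Tensor
import Vale.Agent.P338.RowsB
import Vale.Agent.P338.Diag
import Vale.Agent.P338.Apx

/-! Job J14: the approximate transform of all rows of an array. -/

namespace Vale.Agent.P338

open PT Finset

attribute [local irreducible] PTime PB C

/-- the number of good addresses -/
def nG (rs : List ℕ) : ℕ := (rs.map (· - 1)).prod

/-- the number of blocks of rows -/
def nO (Rw : ℕ) (rs : List ℕ) : ℕ := Rw / (nG rs * nG rs) + 1

lemma RowsOK.facts {H c Rw : ℕ} {p1 p2 rs : List ℕ} {P L : ℕ} (h : RowsOK H c Rw p1 p2 rs P L)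
    (hH : 2 ≤ H) : 0 < rs.length ∧ (∀ r ∈ rs, 0 < r) ∧ 0 < p1.prod ∧ 0 < p2.prod ∧ 0 < rs.prod ∧
      nG rs = Nat.count (fun y => good rs y = true) rs.prod ∧ 0 < nG rs ∧
      Rw ≤ nO Rw rs * nG rs * nG rs ∧ nO Rw rs * rs.prod * rs.prod ≤ 5 * Rw ∧
      GOK H rs (2 * (p1.prod * p2.prod)) P L := by
  have hk : 0 < rs.length := by obtain ⟨d, hd⟩ := h.pow; rw [hd]; positivity
  have h0 : ∀ r ∈ rs, 0 < r := fun r hr => by have := (h.rodd r hr).2.1; omega
  have hM : 0 < rs.prod := List.prod_pos h0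
  have hG : nG rs = Nat.count (fun y => good rs y = true) rs.prod := (rows_count_good h.rcop h0).symm
  have h2 : rs.prod ≤ 2 * nG rs := hG ▸ count_good fun r hr => ⟨h0 r hr, (h.rodd r hr).2.1⟩
  have hG0 : 0 < nG rs := by omega
  refine ⟨hk, h0, List.prod_pos fun p hp => ?_, List.prod_pos fun p hp => ?_, hM, hG, hG0, ?_, ?_,
    h.pow, h.rlt, h.rcop, fun r hr => ?_, ?_, h.pos⟩
  · have := (h.odd p (by simp [hp])).2.1; omega
  · have := (h.odd p (by simp [hp])).2.1; omega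
  · rw [mul_assoc, mul_comm]; exact (Nat.lt_mul_div_succ _ (by positivity)).le
  · have h3 := h.rows
    have h4 : Rw / (nG rs * nG rs) * (nG rs * nG rs) ≤ Rw := Nat.div_mul_le_self _ _
    have h5 : rs.prod * rs.prod ≤ 4 * (nG rs * nG rs) := by nlinarith
    have h6 := Nat.mul_le_mul_left (Rw / (nG rs * nG rs)) h5
    unfold nO; nlinarith
  · have := h.rodd r hr; exact ⟨this.1, by omega, this.2.2⟩
  · have := List.pow_card_le_prod (p1 ++ p2) 2 fun p hp => by have := (h.odd p hp).2.1; omega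
    rw [h.len, List.prod_append] at this; omega

lemma ptime_gEnt {α : Type} [TEnc α] {ps rs : α → List ℕ} {lys : α → List Layer} {y y' x : α → ℕ}
    (h1 : PTime ps) (h2 : PTime rs) (h3 : PTime lys) (h4 : PTime y) (h5 : PTime y') (h6 : PTime x) :
    PTime fun a => gEnt (ps a) (rs a) (lys a) (y a) (y' a) (x a) := by
  unfold gEnt; fun_prop

lemma ptime_gShift {α : Type} [TEnc α] {ps rs : α → List ℕ} {lys : α → List Layer} {y : α → ℕ}
    (h1 : PTime ps) (h2 : PTime rs) (h3 : PTime lys) (h4 : PTime y) :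
    PTime fun a => gShift (ps a) (rs a) (lys a) (y a) := by
  unfold gShift; fun_prop

/-- the whole row transform -/
def rowsF (Rw A P L : ℕ) (rs : List ℕ) (lay : ℕ → List Bool → List Bool) (l : List Bool) :
    List Bool :=
  (exts (good rs) (nO Rw rs * nG rs) rs.prod (A * (2 * P))
    (exts (good rs) (nO Rw rs) rs.prod (rs.prod * (A * (2 * P)))
      ((List.range L).foldl (fun l j => lay j l)
        (embs (good rs) (nO Rw rs) (nG rs) rs.prod (rs.prod * (A * (2 * P)))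
          (embs (good rs) (nO Rw rs * nG rs) (nG rs) rs.prod (A * (2 * P))
            (l.takeD (nO Rw rs * nG rs * nG rs * (A * (2 * P))) false)))))).take (Rw * A * (2 * P))

lemma rowsF_spec {Rw A P L : ℕ} {rs : List ℕ} {lay : ℕ → List Bool → List Bool}
    (hG : nG rs = Nat.count (fun y => good rs y = true) rs.prod) (hG0 : 0 < nG rs)
    (hR : Rw ≤ nO Rw rs * nG rs * nG rs)
    {zl : ℕ → (ℕ → ℕ → ℕ → GaussianInt) → ℕ → ℕ → ℕ → GaussianInt}
    (hlay : ∀ j l z, RepG P A (nO Rw rs) rs l z →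
      RepG P A (nO Rw rs) rs (lay j l) fun ob => zl j (z ob))
    {l : List Bool} {z : ℕ → GaussianInt} (h : Rep P (Rw * A) l z) :
    ∃ z0 : ℕ → ℕ → ℕ → ℕ → GaussianInt, ∃ ob y y' : ℕ → ℕ,
      (∀ ob y y' x, z0 ob y y' x = 0 ∨ ∃ ρ < Rw, z0 ob y y' x = z (ρ * A + x)) ∧
      (∀ ρ < Rw, y ρ < rs.prod ∧ y' ρ < rs.prod ∧ good rs (y ρ) = true ∧ good rs (y' ρ) = true ∧
        ∀ x, z0 (ob ρ) (y ρ) (y' ρ) x = z (ρ * A + x)) ∧
      Rep P (Rw * A) (rowsF Rw A P L rs lay l) fun i => (List.range L).foldl (fun z j => zl j z)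
        (z0 (ob (i / A))) (y (i / A)) (y' (i / A)) (i % A) := by
  set O := nO Rw rs
  set G := nG rs
  set M := rs.prod with hM
  set cn := Nat.count fun y => good rs y = true
  set nt := Nat.nth fun y => good rs y = true
  have hnt : ∀ a < G, nt a < M ∧ good rs (nt a) = true ∧ cn (nt a) = a := fun a ha => by
    have h1 : nt a < M := Nat.nth_lt_of_lt_count (ha.trans_eq hG)
    have h2 : ∀ hf : {y | good rs y = true}.Finite, a < hf.toFinset.card := fun hf =>
      (hG ▸ ha : a < cn M).trans_le (Nat.count_le_card hf _)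
    exact ⟨h1, Nat.nth_mem a h2, Nat.count_nth h2⟩
  set z0 : ℕ → ℕ → ℕ → ℕ → GaussianInt := fun ob y y' x =>
    if (ob * G + cn y) * G + cn y' < Rw then z (((ob * G + cn y) * G + cn y') * A + x) else 0
  have hρ : ∀ ρ, (ρ / G / G * G + ρ / G % G) * G + ρ % G = ρ := fun ρ => by
    rw [Nat.div_add_mod', Nat.div_add_mod']
  refine ⟨z0, fun ρ => ρ / G / G, fun ρ => nt (ρ / G % G), fun ρ => nt (ρ % G),
    fun ob y y' x => ?_, fun ρ hr => ?_, ?_⟩
  · simp only [z0]
    split_ifs with h1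
    · exact .inr ⟨_, h1, rfl⟩
    · exact .inl rfl
  · obtain ⟨a1, a2, a3⟩ := hnt _ (Nat.mod_lt (ρ / G) hG0)
    obtain ⟨b1, b2, b3⟩ := hnt _ (Nat.mod_lt ρ hG0)
    refine ⟨a1, b1, a2, b2, fun x => ?_⟩
    simp only [z0, a3, b3, hρ, if_pos hr]
  set l0 := l.takeD (O * G * G * (A * (2 * P))) false
  have e0 : l0.length = O * G * (G * (A * (2 * P))) := by simp only [l0, List.takeD_length]; ring
  have e1 := length_embs hG e0
  have e1' := e1.trans (mul_assoc O G _)
  have e2 := length_embs hG e1'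
  have r2 : RepG P A O rs (embs (good rs) O G M (M * (A * (2 * P)))
      (embs (good rs) (O * G) G M (A * (2 * P)) l0)) z0 := by
    refine ⟨by rw [e2]; ring, fun ob hob y hy y' hy' gy gy' => ?_⟩
    have c1 : cn y < G := hG ▸ Nat.count_strict_mono gy hy
    have c2 : cn y' < G := hG ▸ Nat.count_strict_mono gy' hy'
    rw [← blk_blk _ hy', blk_embs hG e1' hob hy gy, blk_blk _ hy',
      blk_embs hG e0 (lt_mul_of_lt hob c1) hy' gy']
    exact rows_rep_pad h hR (lt_mul_of_lt (lt_mul_of_lt hob c1) c2)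
  have r3 : ∀ (js : List ℕ) l z, RepG P A O rs l z → RepG P A O rs (js.foldl (fun l j => lay j l) l)
      fun ob => js.foldl (fun z j => zl j z) (z ob) := fun js => by
    induction js with
    | nil => exact fun _ _ h => h
    | cons j js ih => exact fun l z h => ih _ _ (hlay j l z h)
  have r4 := r3 (List.range L) _ _ r2
  unfold rowsF
  generalize (List.range L).foldl (fun l j => lay j l) _ = l3 at r4 ⊢
  have e3 : l3.length = O * (M * (M * (A * (2 * P)))) := by rw [r4.1]; ring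
  have e4 := (length_exts hG e3).trans (mul_assoc O G _).symm
  have e5 := length_exts hG e4
  have hle : Rw * A * (2 * P) ≤ O * G * (G * (A * (2 * P))) := by
    rw [mul_assoc, ← mul_assoc (O * G)]; exact Nat.mul_le_mul_right _ hR
  refine rows_rep_of_rows (z := fun ρ => (List.range L).foldl (fun z j => zl j z)
    (z0 (ρ / G / G)) (nt (ρ / G % G)) (nt (ρ % G))) (by rw [List.length_take, e5]; omega)
    fun ρ hr => ?_
  have c0 : ρ / G < O * G := Nat.div_lt_of_lt_mul (by rw [mul_comm]; omega)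
  have c1 : ρ / G / G < O := Nat.div_lt_of_lt_mul (by rw [mul_comm]; omega)
  obtain ⟨a1, a2, -⟩ := hnt _ (Nat.mod_lt (ρ / G) hG0)
  obtain ⟨b1, b2, -⟩ := hnt _ (Nat.mod_lt ρ hG0)
  have e6 : ∀ m : List Bool, Rw * A * (2 * P) ≤ m.length →
      blk (A * (2 * P)) ρ (m.take (Rw * A * (2 * P))) = blk (A * (2 * P)) ρ m := fun m hm => by
    conv_rhs => rw [← List.take_append_drop (Rw * A * (2 * P)) m]
    rw [blk_append_left]
    rw [List.length_take, min_eq_left hm, mul_assoc]; exact Nat.mul_le_mul_right _ hr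
  have e7 := blk_exts hG e4 c0 (Nat.mod_lt ρ hG0)
  have e8 := blk_exts hG e3 c1 (Nat.mod_lt (ρ / G) hG0)
  rw [Nat.div_add_mod'] at e7 e8
  rw [e6 _ (e5 ▸ hle), e7, ← blk_blk _ b1, e8, blk_blk _ b1]
  exact r4.2 _ c1 _ a1 _ b1 a2 b2

section
variable {ε : Type} [TEnc ε] {D : ε → Prop} {N N' B T O G M Lr : ε → ℕ} {gd : ε × ℕ → Bool}
  {f : ε → List Bool → List Bool}

lemma rows_in (hgd : PTime gd) (hO : PTime O) (hG : PTime G) (hM : PTime M) (hL : PTime Lr)
    (H : ∀ e, D e → G e = Nat.count (fun y => gd (e, y) = true) (M e) ∧ 0 < G e ∧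
      B e ≤ Lr e ∧ B e ≤ N e ∧ N' e = O e * M e * M e * Lr e ∧ N' e ≤ 5 * N e) :
    Op D N N' B T fun e l => embs (fun z => gd (e, z)) (O e) (G e) (M e) (M e * Lr e)
      (embs (fun z => gd (e, z)) (O e * G e) (G e) (M e) (Lr e)
        (l.takeD (O e * G e * G e * Lr e) false)) := by
  have hGM : ∀ e, D e → G e ≤ M e := fun e he => (H e he).1 ▸ Nat.count_le _
  have big : ∀ e, D e → ∀ a b, a ≤ M e → b ≤ M e → O e * a * b * Lr e ≤ 5 * (T e + N e) :=
    fun e he a b ha hb => by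
      have h1 := Nat.mul_le_mul_right (Lr e) (Nat.mul_le_mul (Nat.mul_le_mul_left (O e) ha) hb)
      obtain ⟨-, -, -, -, h2, h3⟩ := H e he
      omega
  have s0 := (Op.id (D := D) (N := N) (B := B) (T := T) fun e he => (H e he).2.2.2.1).resize
    (L := fun e => O e * G e * G e * Lr e) (by fun_prop)
    ⟨5, fun e he => big e he _ _ (hGM e he) (hGM e he)⟩
  have s1 := s0.embs hgd (n := fun e => O e * G e) (N'' := fun e => O e * G e * M e * Lr e)
    (by fun_prop) hG hM hL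
    (fun e he => ⟨(H e he).1, (H e he).2.1, mul_assoc _ _ _, mul_assoc _ _ _, (H e he).2.2.1⟩)
    ⟨5, fun e he => big e he _ _ (hGM e he) le_rfl⟩
  exact s1.embs hgd (L := fun e => M e * Lr e) hO hG hM (by fun_prop)
    (fun e he => ⟨(H e he).1, (H e he).2.1, by ring, by rw [(H e he).2.2.2.2.1]; ring,
      (H e he).2.2.1.trans (Nat.le_mul_of_pos_left _ ((H e he).2.1.trans_le (hGM e he)))⟩)
    ⟨5, fun e he => (H e he).2.2.2.2.1 ▸ big e he _ _ le_rfl le_rfl⟩

lemma rows_out (hf : Op D N N' B T f) (hgd : PTime gd) (hO : PTime O) (hG : PTime G)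
    (hM : PTime M) (hL : PTime Lr) (hN : PTime N)
    (H : ∀ e, D e → G e = Nat.count (fun y => gd (e, y) = true) (M e) ∧ 0 < M e ∧
      B e ≤ Lr e ∧ N' e = O e * M e * M e * Lr e ∧ N e ≤ O e * G e * G e * Lr e) :
    Op D N N B T fun e l => (exts (fun z => gd (e, z)) (O e * G e) (M e) (Lr e)
      (exts (fun z => gd (e, z)) (O e) (M e) (M e * Lr e) (f e l))).take (N e) := by
  have s4 := hf.exts hgd (G := G) (L := fun e => M e * Lr e)
    (N'' := fun e => O e * G e * M e * Lr e) hO hM (by fun_prop)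
    (fun e he => ⟨(H e he).1, (H e he).2.1, by rw [(H e he).2.2.2.1]; ring, by ring,
      (H e he).2.2.1.trans (Nat.le_mul_of_pos_left _ (H e he).2.1)⟩)
  have s5 := s4.exts hgd (n := fun e => O e * G e) (G := G)
    (N'' := fun e => O e * G e * G e * Lr e) (by fun_prop) hM hL
    (fun e he => ⟨(H e he).1, (H e he).2.1, mul_assoc _ _ _, mul_assoc _ _ _, (H e he).2.2.1⟩)
  exact s5.take hN fun e he => (H e he).2.2.2.2

end

lemma Op.rowsF {ε : Type} [TEnc ε] {D : ε → Prop} {Rw A P L B T T1 : ε → ℕ} {rs : ε → List ℕ}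
    {lay : ε × ℕ → List Bool → List Bool}
    (hl : Op (fun x => D x.1)
      (fun x => nO (Rw x.1) (rs x.1) * (rs x.1).prod * (rs x.1).prod * A x.1 * (2 * P x.1))
      (fun x => nO (Rw x.1) (rs x.1) * (rs x.1).prod * (rs x.1).prod * A x.1 * (2 * P x.1))
      (fun x => B x.1) (fun x => T1 x.1) lay)
    (hRw : PTime Rw) (hA : PTime A) (hP : PTime P) (hL : PTime L) (hrs : PTime rs)
    (H : ∀ e, D e → 0 < (rs e).prod ∧
      nG (rs e) = Nat.count (fun y => good (rs e) y = true) (rs e).prod ∧ 0 < nG (rs e) ∧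
      Rw e ≤ nO (Rw e) (rs e) * nG (rs e) * nG (rs e) ∧
      nO (Rw e) (rs e) * (rs e).prod * (rs e).prod ≤ 5 * Rw e ∧ B e ≤ A e * (2 * P e))
    (hT : ∃ K, ∀ e, D e → L e * (T1 e + 5 * Rw e * A e * (2 * P e)) ≤ K * T e) :
    Op D (fun e => Rw e * A e * (2 * P e)) (fun e => Rw e * A e * (2 * P e)) B T
      fun e => rowsF (Rw e) (A e) (P e) (L e) (rs e) fun j => lay (e, j) := by
  have hG : PTime fun e => nG (rs e) := by unfold nG; fun_prop
  have hO : PTime fun e => nO (Rw e) (rs e) := by unfold nO; fun_prop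
  have hgd : PTime fun x : ε × ℕ => good (rs x.1) x.2 := by fun_prop
  have hM : PTime fun e => (rs e).prod := by fun_prop
  have hLr : PTime fun e => A e * (2 * P e) := by fun_prop
  have big : ∀ e, D e → nO (Rw e) (rs e) * (rs e).prod * (rs e).prod * A e * (2 * P e) ≤
      5 * Rw e * A e * (2 * P e) := fun e he =>
    Nat.mul_le_mul_right _ (Nat.mul_le_mul_right _ (H e he).2.2.2.2.1)
  have s2 := rows_in (D := D) (N := fun e => Rw e * A e * (2 * P e)) (B := B) (T := T)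
    (N' := fun e => nO (Rw e) (rs e) * (rs e).prod * (rs e).prod * A e * (2 * P e))
    hgd hO hG hM hLr fun e he => by
      obtain ⟨a, b, c, -, d, f⟩ := H e he
      have : 0 < nO (Rw e) (rs e) * (rs e).prod * (rs e).prod := by unfold nO; positivity
      refine ⟨b, c, f, f.trans ?_, mul_assoc _ _ _, (big e he).trans_eq (by ring)⟩
      rw [mul_assoc]; exact Nat.le_mul_of_pos_left _ (by omega)
  obtain ⟨K, hK⟩ := hT
  have s3 := s2.foldl hl (ψ := fun x => x) (by fun_prop) hL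
    (fun e he i _ => ⟨he, rfl, rfl, le_rfl⟩) ⟨K, fun e he i _ =>
      le_trans (Nat.mul_le_mul_left _ (Nat.add_le_add_left (big e he) _))
        ((hK e he).trans (Nat.mul_le_mul_left _ (Nat.le_add_right _ _)))⟩
  exact rows_out s3 hgd hO hG hM hLr (by fun_prop) fun e he => by
    obtain ⟨a, b, c, d, -, f⟩ := H e he
    exact ⟨b, a, f, mul_assoc _ _ _, (mul_assoc _ _ _).trans_le (Nat.mul_le_mul_right _ d)⟩

lemma rows_ptime_lys {ε : Type} [TEnc ε] {wd : ℕ → ℕ → List Layer}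
    (hwd : PTime fun x : List Unit × List Unit => wd x.1.length x.2.length) {L : ε → ℕ}
    {ps : ε → List ℕ} (hL : PTime L) (hp : PTime ps) (bL : PB L) (bs : PB fun e => (ps e).sum) :
    PTime fun x : ε × ℕ => (ps x.1).map fun p => (wd p (L x.1)).getD x.2 (0, []) := by
  have h1 : PTime fun w : (ε × ℕ) × ℕ => List.replicate (min w.2 (ps w.1.1).sum) () :=
    PTime.replicate (by fun_prop) ((bs.comp (f := fun w : (ε × ℕ) × ℕ => w.1.1)
      (by fun_prop)).of_le fun _ => min_le_right _ _) (by fun_prop)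
  have h2 : PTime fun w : (ε × ℕ) × ℕ => List.replicate (L w.1.1) () :=
    PTime.replicate (by fun_prop) (bL.comp (f := fun w : (ε × ℕ) × ℕ => w.1.1) (by fun_prop))
      (by fun_prop)
  have h3 := (hwd.comp (h1.prodMk h2)).list_getD (n := fun w => w.1.2) (d := fun _ => (0, []))
    (by fun_prop) (by fun_prop)
  refine (PTime.map (l := fun x : ε × ℕ => ps x.1) (f := fun x p =>
    (wd (List.replicate (min p (ps x.1).sum) ()).length
      (List.replicate (L x.1) ()).length).getD x.2 (0, [])) (by fun_prop) h3).of_eq fun x => ?_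
  refine List.map_congr_left fun p hp => ?_
  rw [List.length_replicate, List.length_replicate, min_eq_left (List.le_sum_of_mem hp)]

/-- the two diagonal multiplications of a layer -/
lemma rows_diag {ε : Type} [TEnc ε] {ap : List Ent × List Unit → ℤ × ℤ} (hap : PTime ap)
    {P pi : ε → ℕ} {p1 p2 rs : ε → List ℕ} {lys : ε → List Layer} (hP : PTime P) (hpi : PTime pi)
    (hp1 : PTime p1) (hp2 : PTime p2) (hrs : PTime rs) (hl : PTime lys) (bP : PB P) (bpi : PB pi) :
    ∃ d1 d2 : ε × ℕ → List Bool → List Bool, (∀ g, HasMul g →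
      Op (fun x : ε × ℕ => 0 < P x.1 ∧ 0 < (p1 x.1).prod)
        (fun x => (p2 x.1).prod * (p1 x.1).prod * (2 * P x.1))
        (fun x => (p2 x.1).prod * (p1 x.1).prod * (2 * P x.1)) (fun x => (p2 x.1).prod)
        (fun x => (p2 x.1).prod * (p1 x.1).prod * P x.1 * g (P x.1)) d1 ∧
      Op (fun x : ε × ℕ => 0 < P x.1 ∧ 0 < (p2 x.1).prod)
        (fun x => (p1 x.1).prod * (p2 x.1).prod * (2 * P x.1))
        (fun x => (p1 x.1).prod * (p2 x.1).prod * (2 * P x.1)) (fun x => (p1 x.1).prod)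
        (fun x => (p1 x.1).prod * (p2 x.1).prod * P x.1 * g (P x.1)) d2) ∧
      ∀ e o r z, 0 < P e → 0 < (p1 e).prod → 0 < (p2 e).prod →
        Rep (P e) ((p1 e).prod * (p2 e).prod) r z →
        Rep (P e) ((p1 e).prod * (p2 e).prod) (d2 (e, o) (d1 (e, o) r)) fun x => z x *
          (gi (ap ((gEnt (p1 e ++ p2 e) (rs e) (lys e) (o / (rs e).prod % (rs e).prod)
            (o % (rs e).prod) x).take (p1 e).length, List.replicate (pi e) ())) *
          gi (ap ((gEnt (p1 e ++ p2 e) (rs e) (lys e) (o / (rs e).prod % (rs e).prod)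
            (o % (rs e).prod) x).drop (p1 e).length, List.replicate (pi e) ()))) *
          2 ^ (rs e).length := by
  obtain ⟨en, hen⟩ : ∃ en : (ε × ℕ) × ℕ → List Ent, en = fun w =>
    gEnt (p1 w.1.1 ++ p2 w.1.1) (rs w.1.1) (lys w.1.1)
      (w.1.2 / (rs w.1.1).prod % (rs w.1.1).prod) (w.1.2 % (rs w.1.1).prod) w.2 := ⟨_, rfl⟩
  have pen : PTime en := hen ▸ ptime_gEnt (by fun_prop) (by fun_prop) (by fun_prop) (by fun_prop)
    (by fun_prop) (by fun_prop)
  have pu : PTime fun w : (ε × ℕ) × ℕ => List.replicate (pi w.1.1) () :=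
    PTime.replicate (by fun_prop) (bpi.comp (f := fun w : (ε × ℕ) × ℕ => w.1.1)
      (by fun_prop)) (by fun_prop)
  have pk : PTime fun w : (ε × ℕ) × ℕ => (p1 w.1.1).length := by fun_prop
  have p2k : PTime fun w : (ε × ℕ) × ℕ => (2 : ℤ) ^ (rs w.1.1).length := by fun_prop
  have bP' := bP.comp (f := fun w : ε × ℕ => w.1) (by fun_prop)
  have q1 := hap.comp ((pk.take pen).prodMk pu)
  have q2 := hap.comp ((pk.drop pen).prodMk pu)
  obtain ⟨d1, hd1, hd1'⟩ := diagP q1 (n := fun w => (p2 w.1).prod) (A := fun w => (p1 w.1).prod)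
    (P := fun w => P w.1) (by fun_prop) (by fun_prop) (by fun_prop) bP'
  obtain ⟨d2, hd2, hd2'⟩ := diagP ((q2.fst.int_mul p2k).prodMk (q2.snd.int_mul p2k))
    (n := fun w => (p1 w.1).prod) (A := fun w => (p2 w.1).prod)
    (P := fun w => P w.1) (by fun_prop) (by fun_prop) (by fun_prop) bP'
  refine ⟨d1, d2, fun g hg => ⟨hd1 g hg, hd2 g hg⟩, fun e o r z h0 h1 h2 h => ?_⟩
  have h3 := hd1' (e, o) r z h0 h1 (by rwa [mul_comm])
  rw [mul_comm] at h3
  refine (hd2' (e, o) _ _ h0 h2 h3).congr fun x _ => ?_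
  simp only [hen, rows_gEnt_take, rows_gEnt_drop, mul_assoc]
  congr 2
  have : (2 : GaussianInt) ^ (rs e).length = ((2 ^ (rs e).length : ℤ) : GaussianInt) := by
    push_cast; rfl
  rw [this]
  generalize (2 : ℤ) ^ (rs e).length = c
  ext <;> simp [gi]

lemma rows_cost {X Rw A P L t g : ℕ} (h : X ≤ 5 * Rw) :
    L * (X * A * P * (L * t + g) + 5 * Rw * A * (2 * P)) ≤
      10 * (Rw * A * P * (L ^ 2 * (t + 1) + L * g)) := by
  have h1 := Nat.mul_le_mul_right (A * P * (L * t + g) * L) h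
  have h2 := Nat.mul_le_mul_right (Rw * A * P) (Nat.le_self_pow two_ne_zero L)
  nlinarith [Nat.zero_le (Rw * A * P * (L * t + g) * L)]

lemma rows_err {H c Rw P L π : ℕ} {p1 p2 rs : List ℕ} (hH : 2 ≤ H)
    (ok : RowsOK H c Rw p1 p2 rs P L) {wd : ℕ → List Layer}
    (hw : ∀ p ∈ p1 ++ p2, (wd p).length = L ∧
      (∀ ly ∈ wd p, ∀ en ∈ ly.2, en.ok ∧ ‖en.val‖ ≤ 2 ^ L) ∧ Real4 p (wd p))
    {ap : List Ent × List Unit → ℤ × ℤ}
    (hap : ∀ L u, (∀ en ∈ L, en.ok) → ‖((ap (L, u)).1 + (ap (L, u)).2 * Complex.I : ℂ) -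
      2 ^ u.length * (L.map Ent.val).prod‖ ≤ 1) {lys : ℕ → List Layer}
    (hl : ∀ j, lys j = (p1 ++ p2).map fun p => (wd p).getD j (0, []))
    {z : ℕ → ℕ → ℕ → GaussianInt} {Z : ℝ} (hZ : 0 ≤ Z)
    (hz : AllG (p1 ++ p2).prod rs fun y y' x => ‖(z y y' x : ℂ)‖ ≤ Z) :
    AllG (p1 ++ p2).prod rs fun y y' x =>
      ‖((List.range L).foldl (fun z j => zLayer (p1 ++ p2).prod rs (gShift (p1 ++ p2) rs (lys j))
        (fun y y' x => gi (ap ((gEnt (p1 ++ p2) rs (lys j) y y' x).take p1.length,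
          List.replicate π ())) * gi (ap ((gEnt (p1 ++ p2) rs (lys j) y y' x).drop p1.length,
          List.replicate π ()))) z) z y y' x : ℂ) -
        2 ^ (L * (rs.length + 2 * π)) * ((((p1 ++ p2).prod : ℕ) : ℂ)⁻¹ *
          ∑ x' ∈ range (p1 ++ p2).prod, chi (p1 ++ p2) x' x * z y y' x')‖ ≤
      2 ^ (L * (rs.length + 2 * π)) * (2 ^ (8 * rs.length * L ^ 2) / 2 ^ π) * Z := by
  obtain ⟨hk, h0, a1, a2, -⟩ := ok.facts hH
  have hΛ : (1 : ℝ) ≤ 2 ^ L := one_le_pow₀ one_le_two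
  intro y hy y' hy' gy gy' x hx
  have key := (rows_iter (Q := 2 ^ π) (Λ := (2 ^ L) ^ rs.length) (lys := lys)
    (by rw [List.prod_append]; positivity) ok.rcop h0 (one_le_pow₀ one_le_two) (by positivity) hZ
    (fun j y _ y' _ _ _ x _ => by
      have := rows_apx hap hΛ (rows_gEnt_ok (ps := p1 ++ p2) (rs := rs) (lys := lys j) hΛ
        (fun ly hly => by
          rw [hl] at hly
          obtain ⟨p, hp, rfl⟩ := List.mem_map.1 hly
          rcases lt_or_ge j (wd p).length with hi | hi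
          · rw [List.getD_eq_getElem _ _ hi]; exact (hw p hp).2.1 _ (List.getElem_mem hi)
          · rw [List.getD_eq_default _ _ hi]; simp) y y' x) p1.length (List.replicate π ())
      rwa [List.length_replicate, show (gEnt (p1 ++ p2) rs (lys j) y y' x).length = rs.length by
        rw [← ok.len]; simp [gEnt]] at this) hz L y hy y' hy' gy gy' x hx).2
  have e := tensor ok.len ok.cop ok.rcop (fun r hr => (ok.rodd r hr).1) (L := L) (wd := wd)
    (fun p hp => ⟨by have := (ok.odd p hp).2.1; omega, (hw p hp).1, (hw p hp).2.2⟩)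
    (fun y y' x => (z y y' x : ℂ)) hy hy' hx gy gy'
  simp only [← hl] at e
  have e2 : ((2 : ℝ) ^ rs.length * (2 ^ π) ^ 2) ^ L = 2 ^ (L * (rs.length + 2 * π)) := by ring
  rw [e, e2] at key
  push_cast at key ⊢
  refine key.trans ?_
  rw [mul_assoc _ _ Z, div_mul_eq_mul_div]
  have e3 : (8 * 2 ^ rs.length * ((2 : ℝ) ^ L) ^ rs.length) ^ L =
      2 ^ ((3 + rs.length + L * rs.length) * L) := by
    rw [show (8 : ℝ) = 2 ^ 3 by norm_num, ← pow_mul, ← pow_add, ← pow_add, ← pow_mul]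
  have e4 : (3 + rs.length + L * rs.length) * L ≤ 8 * rs.length * L ^ 2 := by
    have h1 := Nat.le_self_pow two_ne_zero L
    have h2 := Nat.mul_le_mul_left rs.length h1
    have h3 := Nat.mul_le_mul_right (L ^ 2) hk
    nlinarith
  have e5 := pow_le_pow_right₀ (one_le_two (α := ℝ)) e4
  rw [e3]
  gcongr

theorem rows : ∃ (H c : ℕ) (τ : ℕ → ℕ), 2 ≤ H ∧ Sub τ ∧
    ∀ (ε : Type) [TEnc ε] (D : ε → Prop) (Rw P pi L : ε → ℕ) (p1 p2 rs : ε → List ℕ),
      PTime Rw → PTime P → PTime pi → PTime L → PTime p1 → PTime p2 → PTime rs →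
      PB P → PB pi → PB L → PB (fun e => (p1 e ++ p2 e).sum) →
      (∀ e, D e → RowsOK H c (Rw e) (p1 e) (p2 e) (rs e) (P e) (L e)) →
      ∃ f : ε → List Bool → List Bool,
        (∀ g, HasMul g → Op D (fun e => Rw e * (p1 e ++ p2 e).prod * (2 * P e))
          (fun e => Rw e * (p1 e ++ p2 e).prod * (2 * P e)) (fun e => min (p1 e).prod (p2 e).prod)
          (fun e => Rw e * (p1 e ++ p2 e).prod * P e *
            (L e ^ 2 * τ (rs e).length + L e * g (P e))) f) ∧
        ∀ e l z (Z : ℝ), D e → Rep (P e) (Rw e * (p1 e ++ p2 e).prod) l z →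
          (∀ i < Rw e * (p1 e ++ p2 e).prod, ‖(z i : ℂ)‖ ≤ Z) →
          ∃ z', Rep (P e) (Rw e * (p1 e ++ p2 e).prod) (f e l) z' ∧
            ∀ ρ < Rw e, ∀ y < (p1 e ++ p2 e).prod,
              ‖(z' (ρ * (p1 e ++ p2 e).prod + y) : ℂ) -
                2 ^ (L e * ((rs e).length + 2 * pi e)) * ((((p1 e ++ p2 e).prod : ℕ) : ℂ)⁻¹ *
                  ∑ x ∈ range (p1 e ++ p2 e).prod,
                    chi (p1 e ++ p2 e) x y * z (ρ * (p1 e ++ p2 e).prod + x))‖ ≤
              2 ^ (L e * ((rs e).length + 2 * pi e)) *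
                (2 ^ (8 * (rs e).length * L e ^ 2) / 2 ^ pi e) * Z := by
  obtain ⟨H, τ, G, hH, hτ, hG, hG'⟩ := gnet
  obtain ⟨wd, c, -, hwd, hwd'⟩ := words
  obtain ⟨ap, hap, hap'⟩ := apx
  refine ⟨H, c, fun x => τ x + 1, hH, hτ.add (Sub.const 1), ?_⟩
  intro ε _ D Rw P pi L p1 p2 rs hRw hP hpi hL hp1 hp2 hrs bP bpi bL bs hok
  have plys := rows_ptime_lys hwd hL (hp1.append hp2) bL bs
  have f1 : PTime fun x : ε × ℕ => x.1 := by fun_prop
  generalize hlys : (fun x : ε × ℕ => (p1 x.1 ++ p2 x.1).map fun p =>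
    (wd p (L x.1)).getD x.2 (0, [])) = lys at plys
  obtain ⟨d1, d2, hd, hd'⟩ := rows_diag hap (hP.comp f1) (hpi.comp f1) (hp1.comp f1) (hp2.comp f1)
    (hrs.comp f1) plys (bP.comp f1) (bpi.comp f1)
  simp only [List.prod_append]
  refine ⟨fun e => rowsF (Rw e) ((p1 e).prod * (p2 e).prod) (P e) (L e) (rs e) fun j =>
    layF (nO (Rw e) (rs e)) (rs e).prod ((p1 e).prod * (p2 e).prod) (P e)
      (fun o => gShift (p1 e ++ p2 e) (rs e) (lys (e, j)) (o / (rs e).prod % (rs e).prod))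
      (fun o r => d2 ((e, j), o) (d1 ((e, j), o) r))
      (G (rs e, 2 * ((p1 e).prod * (p2 e).prod), P e, L e)), fun g hg => ?_, ?_⟩
  · have hl := Op.layF (D := fun x : ε × ℕ => D x.1) (O := fun x => nO (Rw x.1) (rs x.1))
      (A1 := fun x => (p1 x.1).prod) (A2 := fun x => (p2 x.1).prod) (P := fun x => P x.1)
      (ρ := fun x => L x.1) (rs := fun x => rs x.1)
      (φ := fun w => gShift (p1 w.1.1 ++ p2 w.1.1) (rs w.1.1) (lys w.1)
        (w.2 / (rs w.1.1).prod % (rs w.1.1).prod)) hG (hd g hg).1 (hd g hg).2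
      (by unfold nO nG; fun_prop) (by fun_prop) (by fun_prop) (by fun_prop) (by fun_prop)
      (by fun_prop) (ptime_gShift (by fun_prop) (by fun_prop) (by fun_prop) (by fun_prop))
      fun x hx => by
        obtain ⟨-, -, a, b, c, -, -, -, -, d⟩ := (hok _ hx).facts hH
        exact ⟨Nat.succ_pos _, a, b, c, d⟩
    refine Op.rowsF (A := fun e => (p1 e).prod * (p2 e).prod)
      (B := fun e => min (p1 e).prod (p2 e).prod) (lay := fun x =>
      layF (nO (Rw x.1) (rs x.1)) (rs x.1).prod ((p1 x.1).prod * (p2 x.1).prod) (P x.1)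
        (fun o => gShift (p1 x.1 ++ p2 x.1) (rs x.1) (lys x) (o / (rs x.1).prod % (rs x.1).prod))
        (fun o r => d2 (x, o) (d1 (x, o) r))
        (G (rs x.1, 2 * ((p1 x.1).prod * (p2 x.1).prod), P x.1, L x.1))) (T1 := fun e => nO (Rw e) (rs e) * (rs e).prod * (rs e).prod *
      ((p1 e).prod * (p2 e).prod) * P e * (L e * τ (rs e).length + g (P e))) hl hRw (by fun_prop)
      hP hL hrs (fun e he => ?_) ⟨10, fun e he => ?_⟩
    · obtain ⟨-, -, a, b, c, d1, d2, d3, d4, d⟩ := (hok _ he).facts hH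
      refine ⟨c, d1, d2, d3, d4, ((min_le_left _ _).trans (Nat.le_mul_of_pos_right _ b)).trans
        (Nat.le_mul_of_pos_right _ (by have := d.pos; omega))⟩
    · exact rows_cost ((hok _ he).facts hH).2.2.2.2.2.2.2.2.1
  intro e l z Z he hz hZ
  obtain ⟨hk, h0, a1, a2, hM, d1, d2, d3, -, hgok⟩ := (hok _ he).facts hH
  have ok := hok e he
  obtain ⟨z0, ob, y, y', b1, b2, b3⟩ := rowsF_spec (L := L e) d1 d2 d3 (fun j l z h =>
    rows_layer ok.pos (Nat.mul_pos a1 a2) ok.rcop h0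
      (fun l hl => ⟨hG.len (rs e, 2 * ((p1 e).prod * (p2 e).prod), P e, L e) l hgok hl,
        hG' _ _ _ _ l hgok hl⟩) (sh := gShift (p1 e ++ p2 e) (rs e) (lys (e, j)))
      (fun o r hr => by
        have := hd' (e, j) o r (fun i => ⟨val (blk (P e) (2 * i) r), val (blk (P e) (2 * i + 1) r)⟩)
          ok.pos a1 a2 ⟨hr, fun i _ => by simp [rv]⟩
        exact this.1)
      (a := fun y y' x => gi (ap ((gEnt (p1 e ++ p2 e) (rs e) (lys (e, j)) y y' x).take
        (p1 e).length, List.replicate (pi e) ())) * gi (ap ((gEnt (p1 e ++ p2 e) (rs e)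
        (lys (e, j)) y y' x).drop (p1 e).length, List.replicate (pi e) ())))
      (fun o r z h => hd' (e, j) o r z ok.pos a1 a2 h) h) hz
  refine ⟨_, b3, fun ρ hρ x hx => ?_⟩
  have hZ0 : 0 ≤ Z := (norm_nonneg _).trans (hZ _ (lt_mul_of_lt hρ hx))
  obtain ⟨c1, c2, c3, c4, c5⟩ := b2 ρ hρ
  have := rows_err (π := pi e) hH ok (wd := fun p => wd p (L e)) (fun p hp =>
    hwd' p (L e) (ok.odd p hp).1 (ok.odd p hp).2.1 (ok.odd p hp).2.2 ok.even) hap'
    (lys := fun j => lys (e, j)) (fun j => by rw [← hlys]) (z := z0 (ob ρ)) hZ0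
    (fun y _ y' _ _ _ x hx => by
      rcases b1 (ob ρ) y y' x with h | ⟨ρ', h1, h⟩
      · simpa [h] using hZ0
      · rw [h]; exact hZ _ (lt_mul_of_lt h1 (by rwa [List.prod_append] at hx)))
    _ c1 _ c2 c3 c4 x (by rwa [List.prod_append])
  simp only [List.prod_append, c5] at this
  rwa [add_comm (ρ * _), Nat.add_mul_div_right _ _ (Nat.mul_pos a1 a2), Nat.div_eq_of_lt hx,
    zero_add, Nat.add_mul_mod_self_right, Nat.mod_eq_of_lt hx]

end Vale.Agent.P338
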