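import Vale.Agent.P338.Crt

/-! Job J14, first part: the integer layers and their error analysis. -/

namespace Vale.Agent.P338

open PT Finset

lemma rows_good_mod (rs : List ℕ) (y : ℕ) : good rs (y % rs.prod) = good rs y := by
  unfold good
  rw [Bool.eq_iff_iff]
  simp only [List.all_eq_true, decide_eq_true_eq]
  refine forall₂_congr fun r hr => ?_
  rw [Nat.mod_mod_of_dvd _ (List.dvd_prod hr)]

lemma rows_count_good {rs : List ℕ} (hc : rs.Pairwise Nat.Coprime) (h0 : ∀ r ∈ rs, 0 < r) :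
    Nat.count (fun y => good rs y = true) rs.prod = (rs.map (· - 1)).prod := by
  induction rs with
  | nil => simp [good]
  | cons r rs ih =>
    obtain ⟨h1, h2⟩ := List.pairwise_cons.1 hc
    have hr : 0 < r := h0 r (by simp)
    have h0' : ∀ r ∈ rs, 0 < r := fun x hx => h0 x (by simp [hx])
    have hM : 0 < rs.prod := List.prod_pos h0'
    have hco : Nat.Coprime r rs.prod := Nat.coprime_list_prod_right_iff.2 h1
    have e1 : r - 1 = ((range r).filter fun a => a ≠ 0).card := by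
      rw [filter_ne', card_erase_of_mem (mem_range.2 hr), card_range]
    rw [List.map_cons, List.prod_cons, List.prod_cons, ← ih h2 h0', Nat.count_eq_card_filter_range,
      Nat.count_eq_card_filter_range, e1, ← card_product]
    refine card_bij (fun y _ => (y % r, y % rs.prod)) (fun y hy => ?_) (fun y hy y' hy' h => ?_)
      fun b hb => ?_
    · simp only [mem_filter, mem_range, mem_product, rows_good_mod] at hy ⊢
      have := hy.2
      simp only [good, List.all_cons, Bool.and_eq_true, decide_eq_true_eq] at this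
      exact ⟨⟨Nat.mod_lt _ hr, this.1⟩, Nat.mod_lt _ hM, this.2⟩
    · simp only [mem_filter, mem_range, Prod.mk.injEq] at hy hy' h
      exact Nat.ModEq.eq_of_lt_of_lt ((Nat.modEq_and_modEq_iff_modEq_mul hco).1 h) hy.1 hy'.1
    · simp only [mem_filter, mem_range, mem_product] at hb
      obtain ⟨y, hy1, hy2⟩ := Nat.chineseRemainder hco b.1 b.2
      have a1 : y % (r * rs.prod) % r = b.1 := by
        rw [Nat.mod_mul_right_mod, hy1, Nat.mod_eq_of_lt hb.1.1]
      have a2 : y % (r * rs.prod) % rs.prod = b.2 := by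
        rw [Nat.mod_mul_left_mod, hy2, Nat.mod_eq_of_lt hb.2.1]
      refine ⟨y % (r * rs.prod), ?_, by rw [a1, a2]⟩
      simp only [mem_filter, mem_range]
      refine ⟨Nat.mod_lt _ (Nat.mul_pos hr hM), ?_⟩
      have := hb.2.2
      rw [← a2, rows_good_mod] at this
      simp only [good, List.all_cons, Bool.and_eq_true, decide_eq_true_eq] at this ⊢
      exact ⟨a1 ▸ hb.1.2, this⟩

/-- the integer version of a global layer -/
def zLayer (A : ℕ) (rs : List ℕ) (sh : ℕ → ℕ) (a z : ℕ → ℕ → ℕ → GaussianInt) (y y' x : ℕ) :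
    GaussianInt :=
  ∑ t : Fin rs.length → Bool, ∑ t' : Fin rs.length → Bool, (sgn t t' : GaussianInt) *
    (z (reflN rs (List.ofFn t) y) (reflN rs (List.ofFn t') y')
      ((x + sh (reflN rs (List.ofFn t) y)) % A) *
      a (reflN rs (List.ofFn t) y) (reflN rs (List.ofFn t') y') x)

/-- a property of all positions in good rows -/
def AllG (A : ℕ) (rs : List ℕ) (Q : ℕ → ℕ → ℕ → Prop) : Prop :=
  ∀ y < rs.prod, ∀ y' < rs.prod, good rs y = true → good rs y' = true → ∀ x < A, Q y y' x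

lemma rows_norm_sgn {k : ℕ} (t t' : Fin k → Bool) : ‖(sgn t t' : ℂ)‖ = 1 := by
  unfold sgn
  push_cast
  rw [norm_prod]
  exact prod_eq_one fun c _ => by split_ifs <;> simp

lemma rows_norm_sum {k : ℕ} {F : (Fin k → Bool) → (Fin k → Bool) → ℂ} {c : ℝ}
    (h : ∀ t t', ‖F t t'‖ ≤ c) : ‖∑ t, ∑ t', (sgn t t' : ℂ) * F t t'‖ ≤ 2 ^ k * (2 ^ k * c) := by
  have e : ∀ c : ℝ, ∑ _t : Fin k → Bool, c = 2 ^ k * c := fun c => by simp
  rw [← e, ← e]
  refine (norm_sum_le _ _).trans (sum_le_sum fun t _ => (norm_sum_le _ _).trans ?_)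
  exact sum_le_sum fun t' _ => by rw [norm_mul, rows_norm_sgn, one_mul]; exact h t t'

lemma rows_step {ps rs : List ℕ} (hp : 0 < ps.prod) (hc : rs.Pairwise Nat.Coprime)
    (h0 : ∀ r ∈ rs, 0 < r) {lys : List Layer} {a z : ℕ → ℕ → ℕ → GaussianInt}
    {w : ℕ → ℕ → ℕ → ℂ} {S Q Λ E : ℝ} (hS : 0 ≤ S) (hQ : 1 ≤ Q) (hΛ : 0 ≤ Λ) (hE : 0 ≤ E)
    (ha : AllG ps.prod rs fun y y' x => ‖((gEnt ps rs lys y y' x).map Ent.val).prod‖ ≤ Λ ∧
      ‖(a y y' x : ℂ) - Q ^ 2 * ((gEnt ps rs lys y y' x).map Ent.val).prod‖ ≤ 3 * Q * Λ)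
    (hz : AllG ps.prod rs fun y y' x => ‖w y y' x‖ ≤ E ∧ ‖(z y y' x : ℂ) - S * w y y' x‖ ≤ S * (E / Q)) :
    AllG ps.prod rs fun y y' x => ‖gLayer ps rs lys w y y' x‖ ≤ 8 * 2 ^ rs.length * Λ * E ∧
      ‖(zLayer ps.prod rs (gShift ps rs lys) a z y y' x : ℂ) -
        (S * (2 ^ rs.length * Q ^ 2) : ℝ) * gLayer ps rs lys w y y' x‖ ≤
        S * (2 ^ rs.length * Q ^ 2) * (8 * 2 ^ rs.length * Λ * E / Q) := by
  intro y hy y' hy' gy gy' x hx
  have hg : ∀ (t : Fin rs.length → Bool) y, good rs y = true →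
      good rs (reflN rs (List.ofFn t) y) = true := fun t y h => by
    rw [good_reflN hc h0 (by simp), h]
  have hpos : (0 : ℝ) < 2 ^ rs.length := by positivity
  have hQ0 : 0 < Q := by linarith
  constructor
  · unfold gLayer
    rw [norm_mul]
    refine (mul_le_mul_of_nonneg_left (rows_norm_sum (c := Λ * E) fun t t' => ?_)
      (norm_nonneg _)).trans ?_
    · rw [norm_mul]
      exact mul_le_mul (ha _ (reflN_lt h0 _ _) _ (reflN_lt h0 _ _) (hg t y gy) (hg t' y' gy') x hx).1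
        (hz _ (reflN_lt h0 _ _) _ (reflN_lt h0 _ _) (hg t y gy) (hg t' y' gy') _
          (Nat.mod_lt _ hp)).1 (norm_nonneg _) hΛ
    · rw [norm_inv, norm_pow, Complex.norm_ofNat, inv_mul_cancel_left₀ hpos.ne']
      have : 0 ≤ 2 ^ rs.length * (Λ * E) := by positivity
      nlinarith
  · have key : ∀ (A Z : GaussianInt) (c v : ℂ), ‖c‖ ≤ Λ ∧ ‖(A : ℂ) - Q ^ 2 * c‖ ≤ 3 * Q * Λ →
        ‖v‖ ≤ E ∧ ‖(Z : ℂ) - S * v‖ ≤ S * (E / Q) →
        ‖(Z : ℂ) * A - S * Q ^ 2 * (c * v)‖ ≤ 7 * S * Q * Λ * E := by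
      intro A Z c v ⟨h1, h2⟩ ⟨h3, h4⟩
      have h5 : ‖(A : ℂ)‖ ≤ 4 * Q ^ 2 * Λ := by
        have : (A : ℂ) = (A - Q ^ 2 * c) + Q ^ 2 * c := by ring
        rw [this]
        refine (norm_add_le _ _).trans ?_
        rw [norm_mul, norm_pow, Complex.norm_real, Real.norm_of_nonneg hQ0.le]
        have := mul_le_mul_of_nonneg_left h1 (sq_nonneg Q)
        have : Q * Λ ≤ Q ^ 2 * Λ := mul_le_mul_of_nonneg_right (by nlinarith) hΛ
        nlinarith
      have : (Z : ℂ) * A - S * Q ^ 2 * (c * v) = (Z - S * v) * A + S * v * (A - Q ^ 2 * c) := by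
        ring
      rw [this]
      refine (norm_add_le _ _).trans ?_
      rw [norm_mul, norm_mul, norm_mul, Complex.norm_real, Real.norm_of_nonneg hS]
      have b1 := mul_le_mul h4 h5 (norm_nonneg _) (by positivity)
      have b2 := mul_le_mul (mul_le_mul_of_nonneg_left h3 hS) h2 (norm_nonneg _) (by positivity)
      have b3 : S * (E / Q) * (4 * Q ^ 2 * Λ) = 4 * S * Q * Λ * E := by field_simp
      nlinarith
    have h2 : (2 : ℂ) ^ rs.length ≠ 0 := pow_ne_zero _ two_ne_zero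
    have e : (zLayer ps.prod rs (gShift ps rs lys) a z y y' x : ℂ) -
        (S * (2 ^ rs.length * Q ^ 2) : ℝ) * gLayer ps rs lys w y y' x =
        ∑ t : Fin rs.length → Bool, ∑ t' : Fin rs.length → Bool, (sgn t t' : ℂ) *
          ((z (reflN rs (List.ofFn t) y) (reflN rs (List.ofFn t') y')
            ((x + gShift ps rs lys (reflN rs (List.ofFn t) y)) % ps.prod) : ℂ) *
          (a (reflN rs (List.ofFn t) y) (reflN rs (List.ofFn t') y') x : ℂ) - S * Q ^ 2 *
          (((gEnt ps rs lys (reflN rs (List.ofFn t) y) (reflN rs (List.ofFn t') y') x).map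
            Ent.val).prod * w (reflN rs (List.ofFn t) y) (reflN rs (List.ofFn t') y')
            ((x + gShift ps rs lys (reflN rs (List.ofFn t) y)) % ps.prod))) := by
      unfold zLayer gLayer
      rw [← mul_assoc]
      have : ((S * (2 ^ rs.length * Q ^ 2) : ℝ) : ℂ) * (2 ^ rs.length)⁻¹ = S * Q ^ 2 := by
        push_cast; field_simp
      rw [this]
      simp only [map_sum, map_mul, map_intCast, mul_sum, ← sum_sub_distrib]
      exact sum_congr rfl fun t _ => sum_congr rfl fun t' _ => by ring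
    rw [e]
    refine (rows_norm_sum fun t t' => key _ _ _ _
      (ha _ (reflN_lt h0 _ _) _ (reflN_lt h0 _ _) (hg t y gy) (hg t' y' gy') x hx)
      (hz _ (reflN_lt h0 _ _) _ (reflN_lt h0 _ _) (hg t y gy) (hg t' y' gy') _
          (Nat.mod_lt _ hp))).trans ?_
    have : S * (2 ^ rs.length * Q ^ 2) * (8 * 2 ^ rs.length * Λ * E / Q) =
        2 ^ rs.length * (2 ^ rs.length * (8 * S * Q * Λ * E)) := by field_simp
    rw [this]
    have : 0 ≤ S * Q * Λ * E := by positivity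
    gcongr
    nlinarith

lemma rows_iter {ps rs : List ℕ} (hp : 0 < ps.prod) (hc : rs.Pairwise Nat.Coprime)
    (h0 : ∀ r ∈ rs, 0 < r) {lys : ℕ → List Layer} {a : ℕ → ℕ → ℕ → ℕ → GaussianInt}
    {z : ℕ → ℕ → ℕ → GaussianInt} {Q Λ Z : ℝ} (hQ : 1 ≤ Q) (hΛ : 0 ≤ Λ) (hZ : 0 ≤ Z)
    (ha : ∀ j, AllG ps.prod rs fun y y' x =>
      ‖((gEnt ps rs (lys j) y y' x).map Ent.val).prod‖ ≤ Λ ∧
      ‖(a j y y' x : ℂ) - Q ^ 2 * ((gEnt ps rs (lys j) y y' x).map Ent.val).prod‖ ≤ 3 * Q * Λ)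
    (hz : AllG ps.prod rs fun y y' x => ‖(z y y' x : ℂ)‖ ≤ Z) (n : ℕ) :
    AllG ps.prod rs fun y y' x =>
      ‖(List.range n).foldl (fun w j => gLayer ps rs (lys j) w) (fun y y' x => (z y y' x : ℂ))
        y y' x‖ ≤ (8 * 2 ^ rs.length * Λ) ^ n * Z ∧
      ‖((List.range n).foldl (fun z j => zLayer ps.prod rs (gShift ps rs (lys j)) (a j) z) z
          y y' x : ℂ) - ((2 ^ rs.length * Q ^ 2) ^ n : ℝ) *
        (List.range n).foldl (fun w j => gLayer ps rs (lys j) w) (fun y y' x => (z y y' x : ℂ))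
          y y' x‖ ≤ (2 ^ rs.length * Q ^ 2) ^ n * ((8 * 2 ^ rs.length * Λ) ^ n * Z / Q) := by
  induction n with
  | zero =>
    intro y hy y' hy' gy gy' x hx
    refine ⟨by simpa using hz y hy y' hy' gy gy' x hx, ?_⟩
    have : 0 ≤ Z / Q := by positivity
    simpa using this
  | succ n ih =>
    intro y hy y' hy' gy gy' x hx
    have := rows_step hp hc h0 (by positivity) hQ hΛ (by positivity) (ha n) ih y hy y' hy' gy gy' x hx
    simp only [List.range_succ, List.foldl_append, List.foldl_cons, List.foldl_nil]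
    rw [pow_succ (2 ^ rs.length * Q ^ 2), pow_succ' (8 * 2 ^ rs.length * Λ),
      mul_assoc (8 * 2 ^ rs.length * Λ)]
    exact this

lemma rows_norm_prod {Λ : ℝ} (hΛ : 1 ≤ Λ) {l : List Ent} (h : ∀ en ∈ l, ‖en.val‖ ≤ Λ) {k : ℕ}
    (hk : l.length ≤ k) : ‖(l.map Ent.val).prod‖ ≤ Λ ^ k := by
  refine le_trans ?_ (pow_le_pow_right₀ hΛ hk)
  clear hk
  induction l with
  | nil => simp
  | cons a l ih =>
    rw [List.map_cons, List.prod_cons, norm_mul, List.length_cons, pow_succ']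
    exact mul_le_mul (h a (by simp)) (ih fun en he => h en (by simp [he])) (norm_nonneg _)
      (by linarith)

lemma rows_gEnt_ok {ps rs : List ℕ} {lys : List Layer} {Λ : ℝ} (hΛ : 1 ≤ Λ)
    (h : ∀ ly ∈ lys, ∀ en ∈ ly.2, en.ok ∧ ‖en.val‖ ≤ Λ) (y y' x : ℕ) :
    ∀ en ∈ gEnt ps rs lys y y' x, en.ok ∧ ‖en.val‖ ≤ Λ := by
  intro en hen
  obtain ⟨c, -, rfl⟩ := List.mem_map.1 hen
  have h1 : Ent.one.ok ∧ ‖Ent.one.val‖ ≤ Λ :=
    ⟨fun h => by simp [Ent.one] at h, by simpa [Ent.one, Ent.val, ee] using hΛ⟩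
  have h2 : ∀ (l : List Ent) i, (∀ en ∈ l, en.ok ∧ ‖en.val‖ ≤ Λ) →
      (l.getD i Ent.one).ok ∧ ‖(l.getD i Ent.one).val‖ ≤ Λ := fun l i hl => by
    rcases lt_or_ge i l.length with hi | hi
    · rw [List.getD_eq_getElem _ _ hi]; exact hl _ (List.getElem_mem hi)
    · rw [List.getD_eq_default _ _ hi]; exact h1
  refine h2 _ _ ?_
  rcases lt_or_ge c lys.length with hi | hi
  · rw [List.getD_eq_getElem _ _ hi]; exact h _ (List.getElem_mem hi)
  · rw [List.getD_eq_default _ _ hi]; simp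

lemma rows_gEnt_take (p1 p2 rs : List ℕ) (lys : List Layer) (y y' x : ℕ) :
    (gEnt (p1 ++ p2) rs lys y y' (x % p1.prod)).take p1.length =
      (gEnt (p1 ++ p2) rs lys y y' x).take p1.length := by
  unfold gEnt
  rw [← List.map_take, ← List.map_take]
  refine List.map_congr_left fun c hc => ?_
  have : c < p1.length := by
    rw [List.take_range, List.mem_range] at hc; omega
  rw [List.getD_append _ _ _ _ this, List.getD_eq_getElem _ _ this,
    Nat.mod_mod_of_dvd _ (List.dvd_prod (List.getElem_mem this))]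

lemma rows_gEnt_drop (p1 p2 rs : List ℕ) (lys : List Layer) (y y' x : ℕ) :
    (gEnt (p1 ++ p2) rs lys y y' (x % p2.prod)).drop p1.length =
      (gEnt (p1 ++ p2) rs lys y y' x).drop p1.length := by
  unfold gEnt
  rw [← List.map_drop, ← List.map_drop]
  refine List.map_congr_left fun c hc => ?_
  obtain ⟨i, hi, rfl⟩ := List.mem_drop_iff_getElem.1 hc
  simp only [List.length_range, List.length_append] at hi
  have : i < p2.length := by omega
  rw [List.getElem_range, List.getD_append_right _ _ _ _ (by omega), Nat.add_sub_cancel_left,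
    List.getD_eq_getElem _ _ this, Nat.mod_mod_of_dvd _ (List.dvd_prod (List.getElem_mem this))]

/-- a pair of integers as a Gaussian integer -/
def gi (a : ℤ × ℤ) : GaussianInt := ⟨a.1, a.2⟩

lemma rows_apx {ap : List Ent × List Unit → ℤ × ℤ}
    (hap : ∀ L u, (∀ en ∈ L, en.ok) → ‖((ap (L, u)).1 + (ap (L, u)).2 * Complex.I : ℂ) -
      2 ^ u.length * (L.map Ent.val).prod‖ ≤ 1) {l : List Ent} {Λ : ℝ} (hΛ : 1 ≤ Λ)
    (h : ∀ en ∈ l, en.ok ∧ ‖en.val‖ ≤ Λ) (k1 : ℕ) (u : List Unit) :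
    ‖(l.map Ent.val).prod‖ ≤ Λ ^ l.length ∧
      ‖((gi (ap (l.take k1, u)) * gi (ap (l.drop k1, u)) : GaussianInt) : ℂ) -
        ((2 ^ u.length : ℝ) : ℂ) ^ 2 * (l.map Ent.val).prod‖ ≤ 3 * 2 ^ u.length * Λ ^ l.length := by
  refine ⟨rows_norm_prod hΛ (fun en he => (h en he).2) le_rfl, ?_⟩
  have h1 := hap (l.take k1) u fun en he => (h en (List.mem_of_mem_take he)).1
  have h2 := hap (l.drop k1) u fun en he => (h en (List.mem_of_mem_drop he)).1
  have h3 := rows_norm_prod hΛ (l := l.take k1) (k := l.length)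
    (fun en he => (h en (List.mem_of_mem_take he)).2) (by simp)
  have h4 := rows_norm_prod hΛ (l := l.drop k1) (k := l.length)
    (fun en he => (h en (List.mem_of_mem_drop he)).2) (by simp)
  have e : (l.map Ent.val).prod = ((l.take k1).map Ent.val).prod * ((l.drop k1).map Ent.val).prod := by
    rw [← List.prod_append, ← List.map_append, List.take_append_drop]
  rw [e, map_mul, gi, gi, GaussianInt.toComplex_def', GaussianInt.toComplex_def']
  generalize ((ap (l.take k1, u)).1 + (ap (l.take k1, u)).2 * Complex.I : ℂ) = a1 at *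
  generalize ((ap (l.drop k1, u)).1 + (ap (l.drop k1, u)).2 * Complex.I : ℂ) = a2 at *
  generalize ((l.take k1).map Ent.val).prod = c1 at *
  generalize ((l.drop k1).map Ent.val).prod = c2 at *
  have hX : 1 ≤ Λ ^ l.length := one_le_pow₀ hΛ
  generalize Λ ^ l.length = X at *
  have : a1 * a2 - ((2 ^ u.length : ℝ) : ℂ) ^ 2 * (c1 * c2) =
      (a1 - 2 ^ u.length * c1) * (a2 - 2 ^ u.length * c2) +
      (2 ^ u.length * (c1 * (a2 - 2 ^ u.length * c2)) +
        2 ^ u.length * (c2 * (a1 - 2 ^ u.length * c1))) := by push_cast; ring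
  rw [this]
  refine (norm_add_le _ _).trans ((add_le_add le_rfl (norm_add_le _ _)).trans ?_)
  simp only [norm_mul, norm_pow, Complex.norm_ofNat]
  have hQ : (1 : ℝ) ≤ 2 ^ u.length := one_le_pow₀ one_le_two
  have b1 := mul_le_mul h1 h2 (norm_nonneg _) zero_le_one
  have b2 := mul_le_mul h3 h2 (norm_nonneg _) (by linarith)
  have b3 := mul_le_mul h4 h1 (norm_nonneg _) (by linarith)
  nlinarith

end Vale.Agent.P338
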