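import Vale.Agent.P338.Prim

/-! Shared definitions for the fast multiplication algorithm. -/

namespace Vale.Agent.P338

open PT Finset

/-! ### flat arrays -/

/-- concatenation of the blocks `g 0, …, g (n-1)` -/
def fl {α : Type} (n : ℕ) (g : ℕ → List α) : List α := (List.range n).flatMap g

/-- the `i`-th block of length `L` -/
def blk {α : Type} (L i : ℕ) (l : List α) : List α := (l.drop (i * L)).take L

/-- the list of all blocks of length `L` -/
def chunks {α : Type} (L : ℕ) (l : List α) : List (List α) :=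
  (List.range (l.length / L)).map fun i => blk L i l

/-- block `i` of the result is block `π i` of `l` -/
def perm (n β : ℕ) (π : ℕ → ℕ) (l : List Bool) : List Bool := fl n fun i => blk β (π i) l

/-- reindexing of the middle axis of an array of shape `[O][S][β]` -/
def ax3 (O S β : ℕ) (π : ℕ → ℕ → ℕ) (l : List Bool) : List Bool :=
  fl O fun o => fl S fun s => blk β (o * S + π o s) l

/-- transposition `[A][B][β] → [B][A][β]` -/
def trF (A B β : ℕ) (l : List Bool) : List Bool :=
  fl B fun b => fl A fun a => blk β (a * B + b) l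

/-- exchange of two axes `[Q][M][Q][β]` -/
def swapF (Q M β : ℕ) (l : List Bool) : List Bool :=
  fl Q fun b => fl M fun μ => fl Q fun a => blk β ((a * M + μ) * Q + b) l

/-- the `L` lowest bits, least significant first -/
def tob (L n : ℕ) : List Bool := (List.range L).map n.testBit

/-! ### operations on arrays -/

/-- `f e` maps arrays of length `N e` to arrays of length `N' e` in time `O(T e + N e)`, for all
parameters `e` in `D` whose size is polynomially smaller than `B e`. -/
def Op {ε : Type} [TEnc ε] (D : ε → Prop) (N N' B T : ε → ℕ) (f : ε → List Bool → List Bool) :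
    Prop :=
  (∀ e, D e → B e ≤ N e) ∧ (∀ e l, D e → l.length = N e → (f e l).length = N' e) ∧
    ∃ k, C (fun x : ε × List Bool => D x.1 ∧ x.2.length = N x.1 ∧ (sz x.1 + 1) ^ k ≤ B x.1)
      (fun x => T x.1) fun x => f x.1 x.2

/-- monotone functions of order `x ^ σ` with `σ < 1` -/
def Sub (τ : ℕ → ℕ) : Prop :=
  Monotone τ ∧ ∃ σ : ℝ, 0 < σ ∧ σ < 1 ∧ ∃ K : ℝ, ∀ x : ℕ, (τ x : ℝ) ≤ K * ((x : ℝ) + 1) ^ σ

/-- multiplication of little-endian bit strings -/
def mulB (x y : List Bool) : List Bool := tob (x.length + y.length) (val x * val y)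

/-- `n`-bit numbers can be multiplied in time `O(n * g n)` -/
def HasMul (g : ℕ → ℕ) : Prop :=
  C (fun p : List Bool × List Bool => p.1.length = p.2.length)
    (fun p => p.1.length * g p.1.length) fun p => mulB p.1 p.2

/-! ### residues -/

/-- the `j`-th block of `P` bits as a residue modulo `2 ^ P - 1` -/
def rv (P : ℕ) (l : List Bool) (j : ℕ) : ZMod (2 ^ P - 1) := (val (blk P j l) : ℕ)

/-- one half -/
def half (P : ℕ) : ZMod (2 ^ P - 1) := 2 ^ (P - 1)

/-- `l` is an array of `n` pairs of residues representing the Gaussian integers `z i` -/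
def Rep (P n : ℕ) (l : List Bool) (z : ℕ → GaussianInt) : Prop :=
  l.length = n * (2 * P) ∧
    ∀ i < n, rv P l (2 * i) = ((z i).re : ℤ) ∧ rv P l (2 * i + 1) = ((z i).im : ℤ)

/-! ### Chinese remainders -/

/-- the inverse of `a` modulo `m` -/
def minv (a m : ℕ) : ℕ := (Nat.gcdA a m % m).toNat

/-- the number below `ps.prod` with the residues `as` -/
def crtL (ps as : List ℕ) : ℕ :=
  (List.zipWith (fun p a => a * (ps.prod / p * minv (ps.prod / p) p)) ps as).sum % ps.prod

/-- negate the residues selected by `t` -/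
def reflN (rs : List ℕ) (t : List Bool) (y : ℕ) : ℕ :=
  crtL rs (List.zipWith (fun r b => if b then r - y % r else y) rs t)

/-- all residues are nonzero -/
def good (rs : List ℕ) (y : ℕ) : Bool := rs.all fun r => decide (y % r ≠ 0)

/-- the signs of the residues -/
def sg (rs : List ℕ) (y : ℕ) : List Bool := rs.map fun r => decide (r < 2 * (y % r))

/-- position of the natural index `X` in the split layout `[S1][S2]` -/
def cidx (S1 S2 X : ℕ) : ℕ := minv S2 S1 * X % S1 * S2 + X % S2

/-- the natural index at position `j` of the split layout -/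
def cinv (S1 S2 j : ℕ) : ℕ := (j / S2 + (S1 - minv S2 S1) * (j % S2)) % S1 * S2 + j % S2

/-! ### lowering an axis -/

/-- the least power of `17` that is at least `S` -/
def pw (S : ℕ) : ℕ := 17 ^ Nat.clog 17 S

def rowOf (S1 S2 ρ : ℕ) : ℕ := ρ % (pw S2 / pw S1) * pw S1 + ρ / (pw S2 / pw S1)

def rowInv (S1 S2 y : ℕ) : ℕ := y % pw S1 * (pw S2 / pw S1) + y / pw S1

/-- `[S1][S2][β] → [pw S2][S1][β]` -/
def lowerF (S1 S2 β : ℕ) (l : List Bool) : List Bool :=
  fl (pw S2) fun ρ => fl S1 fun x =>
    if rowOf S1 S2 ρ < S2 then blk β (x * S2 + rowOf S1 S2 ρ) l else List.replicate β false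

/-- `[pw S2][S1][β] → [S1][S2][β]` -/
def raiseF (S1 S2 β : ℕ) (l : List Bool) : List Bool :=
  fl S1 fun x => fl S2 fun y => blk β (rowInv S1 S2 y * S1 + x) l

/-! ### embedding rows at selected addresses -/

def embedF (gd : ℕ → Bool) (M L : ℕ) (l : List Bool) : List Bool :=
  fl M fun y => if gd y then blk L (Nat.count (fun z => gd z = true) y) l else List.replicate L false

def extractF (gd : ℕ → Bool) (M L : ℕ) (l : List Bool) : List Bool :=
  fl M fun y => if gd y then blk L y l else []

/-! ### constants and micro-layers -/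

/-- `exp (2 π i θ)` -/
noncomputable def ee (θ : ℚ) : ℂ := Complex.exp (2 * Real.pi * Complex.I * θ)

/-- descriptions `(q, θ, L, λ, m)` of complex constants -/
abbrev Ent : Type := ℚ × ℚ × List ℚ × ℕ × Option Bool

noncomputable def Ent.mu (en : Ent) : ℂ := en.2.2.2.1 + (en.2.2.1.map ee).sum

/-- the constant `q * ee θ * μ ^ {0, 1, -1}` with `μ = λ + ∑ θ' ∈ L, ee θ'` -/
noncomputable def Ent.val (en : Ent) : ℂ :=
  en.1 * ee en.2.1 * en.2.2.2.2.elim 1 fun b => if b then en.mu else en.mu⁻¹

def Ent.ok (en : Ent) : Prop := en.2.2.2.2 = some false → 1 ≤ ‖en.mu‖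

def Ent.one : Ent := (1, 0, [], 0, none)

/-- a micro-layer: a shift of the rows with first sign `true`, and a table of constants -/
abbrev Layer : Type := ℕ × List Ent

/-- shift, multiply by the table, and mix the four rows -/
noncomputable def layer (p : ℕ) (v : ZMod p × Bool × Bool → ℂ) (ly : Layer) :
    ZMod p × Bool × Bool → ℂ := fun w =>
  let u : Bool → Bool → ℂ := fun s s' =>
    (ly.2.getD (4 * w.1.val + 2 * s.toNat + s'.toNat) Ent.one).val *
      v (w.1 + (if s then (ly.1 : ZMod p) else 0), s, s')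
  (u w.2.1 w.2.2 + u (!w.2.1) w.2.2 + u w.2.1 (!w.2.2) - u (!w.2.1) (!w.2.2)) / 2

/-- a high-level instruction on two rows: a table, then a masked unit shear -/
abbrev HI : Type := List Ent × Bool × ℕ × List Bool

/-- multiply by the table, then add the other row, shifted by `g`, to row `dir` under the mask -/
noncomputable def hstep (p : ℕ) (v : Bool → ZMod p → ℂ) (hi : HI) : Bool → ZMod p → ℂ :=
  let w : Bool → ZMod p → ℂ := fun s x => (hi.1.getD (2 * x.val + s.toNat) Ent.one).val * v s x
  fun s x => if s = hi.2.1 ∧ hi.2.2.2.getD x.val false = true then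
    w s x + w (!s) (x + (hi.2.2.1 : ZMod p)) else w s x

def sgn {k : ℕ} (t t' : Fin k → Bool) : ℤ := ∏ c, if t c && t' c then -1 else 1

/-- the bicharacter of the multidimensional transform -/
noncomputable def chi (ps : List ℕ) (x y : ℕ) : ℂ := (ps.map fun p : ℕ => ee (x * y / p)).prod

/-- the shift of the row `y` in a global layer -/
def gShift (ps rs : List ℕ) (lys : List Layer) (y : ℕ) : ℕ :=
  crtL ps (List.zipWith (fun (ly : Layer) (s : Bool) => if s then ly.1 else 0) lys (sg rs y))

/-- the table entries at row `(y, y')` and position `x` in a global layer -/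
def gEnt (ps rs : List ℕ) (lys : List Layer) (y y' x : ℕ) : List Ent :=
  (List.range ps.length).map fun c => (lys.getD c (0, [])).2.getD
    (4 * (x % ps.getD c 1) + 2 * ((sg rs y).getD c false).toNat + ((sg rs y').getD c false).toNat)
    Ent.one

/-- a global layer -/
noncomputable def gLayer (ps rs : List ℕ) (lys : List Layer) (w : ℕ → ℕ → ℕ → ℂ) (y y' x : ℕ) : ℂ :=
  (2 ^ rs.length : ℂ)⁻¹ * ∑ t : Fin rs.length → Bool, ∑ t' : Fin rs.length → Bool,
    (sgn t t' : ℂ) *
      (((gEnt ps rs lys (reflN rs (List.ofFn t) y) (reflN rs (List.ofFn t') y') x).map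
        Ent.val).prod *
      w (reflN rs (List.ofFn t) y) (reflN rs (List.ofFn t') y')
        ((x + gShift ps rs lys (reflN rs (List.ofFn t) y)) % ps.prod))

/-! ### parameters -/

/-- the hypotheses of the row transform -/
structure RowsOK (H c Rw : ℕ) (p1 p2 rs : List ℕ) (P L : ℕ) : Prop where
  pow : ∃ d, rs.length = H ^ d
  len : (p1 ++ p2).length = rs.length
  cop : (p1 ++ p2).Pairwise Nat.Coprime
  odd : ∀ p ∈ p1 ++ p2, Odd p ∧ 25 ≤ p ∧ c * p.size ≤ L
  rlt : rs.Pairwise (· < ·)
  rcop : rs.Pairwise Nat.Coprime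
  rodd : ∀ r ∈ rs, Odd r ∧ 4 * rs.length ≤ r ∧ r.size ≤ L
  rows : rs.prod ^ 2 ≤ Rw
  even : Even L
  pos : 0 < P

/-- the parameters of the multiplication, in unary -/
structure OP : Type where
  q1 : List (List Unit)
  q2 : List (List Unit)
  q3 : List (List Unit)
  q4 : List (List Unit)
  qr : List (List Unit)
  uP : List Unit
  upi : List Unit
  uL : List Unit
  ub : List Unit

instance : TEnc OP :=
  ⟨fun e => TEnc.enc (e.q1, e.q2, e.q3, e.q4, e.qr, e.uP, e.upi, e.uL, e.ub)⟩

namespace OP

def p1 (e : OP) : List ℕ := e.q1.map List.length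
def p2 (e : OP) : List ℕ := e.q2.map List.length
def p3 (e : OP) : List ℕ := e.q3.map List.length
def p4 (e : OP) : List ℕ := e.q4.map List.length
def rs (e : OP) : List ℕ := e.qr.map List.length
def P (e : OP) : ℕ := e.uP.length
def pi (e : OP) : ℕ := e.upi.length
def L (e : OP) : ℕ := e.uL.length
def b (e : OP) : ℕ := e.ub.length
def A1 (e : OP) : ℕ := (e.p1 ++ e.p2).prod
def A2 (e : OP) : ℕ := (e.p3 ++ e.p4).prod
def R (e : OP) : ℕ := e.A1 * e.A2
def kap (e : OP) : ℕ := e.L * (e.rs.length + 2 * e.pi)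
def ex (e : OP) : ℕ := 8 * e.rs.length * e.L ^ 2

structure OK (H c k0 : ℕ) (e : OP) : Prop where
  r1 : RowsOK H c e.A1 e.p3 e.p4 e.rs e.P e.L
  r2 : RowsOK H c e.A2 e.p1 e.p2 e.rs e.P e.L
  cop : Nat.Coprime e.A1 e.A2
  le : e.A1 ≤ e.A2
  sm : (sz (e.A1, e.A2, e.P, e.b, e.kap) + 1) ^ k0 ≤ e.b
  big : ∀ q ∈ [e.p1, e.p2, e.p3, e.p4], (sz e + 1) ^ k0 ≤ q.prod
  rb : e.R ≤ 2 ^ e.b
  prec : e.ex + 4 * e.b + 7 ≤ e.pi
  wide : 6 * e.kap + 3 * e.b + 1 ≤ e.P

lemma ptime_tup : PTime fun e : OP => (e.q1, e.q2, e.q3, e.q4, e.qr, e.uP, e.upi, e.uL, e.ub) :=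
  PTime.of_enc_eq fun _ => rfl

lemma ptime_mk {α : Type} [TEnc α] {q1 q2 q3 q4 qr : α → List (List Unit)}
    {uP upi uL ub : α → List Unit} (h1 : PTime q1) (h2 : PTime q2) (h3 : PTime q3) (h4 : PTime q4)
    (hr : PTime qr) (hP : PTime uP) (hpi : PTime upi) (hL : PTime uL) (hb : PTime ub) :
    PTime fun a => (⟨q1 a, q2 a, q3 a, q4 a, qr a, uP a, upi a, uL a, ub a⟩ : OP) :=
  PTime.of_enc (f := fun a => (q1 a, q2 a, q3 a, q4 a, qr a, uP a, upi a, uL a, ub a))
    (by fun_prop) fun _ => rfl

end OP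

end Vale.Agent.P338
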