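import Vale.Agent.P338.Spec

/-! Job J17a: sublinear functions and the final asymptotics. -/

namespace Vale.Agent.P338

theorem SubH.one_le (x : ℕ) {σ : ℝ} (h : 0 ≤ σ) : (1 : ℝ) ≤ ((x : ℝ) + 1) ^ σ :=
  Real.one_le_rpow (by linarith [Nat.cast_nonneg (α := ℝ) x]) h

theorem SubH.pow_mono (x : ℕ) {σ σ' : ℝ} (h : σ ≤ σ') : ((x : ℝ) + 1) ^ σ ≤ ((x : ℝ) + 1) ^ σ' :=
  Real.rpow_le_rpow_of_exponent_le (by linarith [Nat.cast_nonneg (α := ℝ) x]) h

theorem Sub.data {τ : ℕ → ℕ} (h : Sub τ) : ∃ σ : ℝ, 0 < σ ∧ σ < 1 ∧ ∃ K : ℝ, 0 ≤ K ∧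
    ∀ x : ℕ, (τ x : ℝ) ≤ K * ((x : ℝ) + 1) ^ σ := by
  obtain ⟨-, σ, h0, h1, K, hK⟩ := h
  refine ⟨σ, h0, h1, K, ?_, hK⟩
  have := hK 0
  simp only [Nat.cast_zero, zero_add, Real.one_rpow, mul_one] at this
  exact (Nat.cast_nonneg _).trans this

theorem SubH.ceil {σ K : ℝ} (h0 : 0 < σ) (h1 : σ < 1) (hK : 0 ≤ K) :
    Sub fun x => ⌈K * ((x : ℝ) + 1) ^ σ⌉₊ := by
  refine ⟨fun x y hxy => Nat.ceil_mono (mul_le_mul_of_nonneg_left (Real.rpow_le_rpow
    (by positivity) (by simpa using hxy) h0.le) hK), σ, h0, h1, K + 1, fun x => ?_⟩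
  have := SubH.one_le x h0.le
  have h2 := (Nat.ceil_lt_add_one (a := K * ((x : ℝ) + 1) ^ σ) (by positivity)).le
  linarith

theorem Sub.const (c : ℕ) : Sub fun _ => c := by
  refine ⟨monotone_const, 1 / 2, by norm_num, by norm_num, c, fun x => ?_⟩
  exact le_mul_of_one_le_right (Nat.cast_nonneg _) (SubH.one_le x (by norm_num))

theorem Sub.add {τ τ' : ℕ → ℕ} (h : Sub τ) (h' : Sub τ') : Sub fun x => τ x + τ' x := by
  obtain ⟨σ, h0, h1, K, hK, hb⟩ := h.data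
  obtain ⟨σ', h0', h1', K', hK', hb'⟩ := h'.data
  refine ⟨h.1.add h'.1, max σ σ', lt_max_of_lt_left h0, max_lt h1 h1', K + K', fun x => ?_⟩
  have e1 := mul_le_mul_of_nonneg_left (SubH.pow_mono x (le_max_left σ σ')) hK
  have e2 := mul_le_mul_of_nonneg_left (SubH.pow_mono x (le_max_right σ σ')) hK'
  have := hb x
  have := hb' x
  push_cast
  linarith

theorem Sub.smul {τ : ℕ → ℕ} (h : Sub τ) (c : ℕ) : Sub fun x => c * τ x := by
  obtain ⟨σ, h0, h1, K, -, hb⟩ := h.data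
  refine ⟨fun x y hxy => Nat.mul_le_mul_left c (h.1 hxy), σ, h0, h1, c * K, fun x => ?_⟩
  push_cast
  rw [mul_assoc]
  exact mul_le_mul_of_nonneg_left (hb x) (Nat.cast_nonneg c)

theorem Sub.affine {τ : ℕ → ℕ} (h : Sub τ) (a b : ℕ) : Sub fun x => τ (a * x + b) := by
  obtain ⟨σ, h0, h1, K, hK, hb⟩ := h.data
  refine ⟨fun x y hxy => h.1 (Nat.add_le_add_right (Nat.mul_le_mul_left a hxy) b), σ, h0, h1,
    K * ((a : ℝ) + b + 1) ^ σ, fun x => (hb _).trans ?_⟩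
  rw [mul_assoc, ← Real.mul_rpow (by positivity) (by positivity)]
  refine mul_le_mul_of_nonneg_left (Real.rpow_le_rpow (by positivity) ?_ h0.le) hK
  push_cast
  nlinarith [Nat.cast_nonneg (α := ℝ) a, Nat.cast_nonneg (α := ℝ) b, Nat.cast_nonneg (α := ℝ) x,
    mul_nonneg (Nat.cast_nonneg (α := ℝ) b) (Nat.cast_nonneg (α := ℝ) x)]

theorem Sub.split {τ : ℕ → ℕ} (h : Sub τ) :
    ∃ τ', Sub τ' ∧ ∀ x ρ, 1 ≤ ρ → τ (x * ρ) ≤ τ' x * ρ := by
  obtain ⟨σ, h0, h1, K, hK, hb⟩ := h.data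
  refine ⟨_, SubH.ceil h0 h1 hK, fun x ρ hρ => ?_⟩
  have hρ' : (1 : ℝ) ≤ ρ := by exact_mod_cast hρ
  have e1 : (((x * ρ : ℕ) : ℝ) + 1) ^ σ ≤ ((x : ℝ) + 1) ^ σ * ρ := by
    calc (((x * ρ : ℕ) : ℝ) + 1) ^ σ ≤ (((x : ℝ) + 1) * ρ) ^ σ :=
          Real.rpow_le_rpow (by positivity) (by push_cast; linarith) h0.le
      _ = ((x : ℝ) + 1) ^ σ * (ρ : ℝ) ^ σ := Real.mul_rpow (by positivity) (by positivity)
      _ ≤ ((x : ℝ) + 1) ^ σ * ρ := mul_le_mul_of_nonneg_left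
          (by simpa using Real.rpow_le_rpow_of_exponent_le hρ' h1.le) (by positivity)
  have e2 := mul_le_mul_of_nonneg_right (Nat.le_ceil (K * ((x : ℝ) + 1) ^ σ)) (by positivity : (0 : ℝ) ≤ ρ)
  have e3 := (hb (x * ρ)).trans (mul_le_mul_of_nonneg_left e1 hK)
  rw [← mul_assoc] at e3
  exact_mod_cast e3.trans e2

theorem SubH.exists_exp {σ : ℝ} (h1 : σ < 1) {p W m : ℕ} (hm : 2 ≤ m) (hp : p < W * m) :
    ∃ s : ℝ, σ < s ∧ s < 1 ∧ (p : ℝ) < W * (m : ℝ) ^ s := by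
  have hm0 : (m : ℝ) ≠ 0 := by positivity
  have hc : ContinuousAt (fun s : ℝ => (W : ℝ) * (m : ℝ) ^ s) 1 :=
    continuousAt_const.mul (Real.continuousAt_const_rpow hm0)
  have e1 : ∀ᶠ s in nhds (1 : ℝ), (p : ℝ) < W * (m : ℝ) ^ s :=
    hc.eventually (lt_mem_nhds (by simpa using (by exact_mod_cast hp : (p : ℝ) < W * m)))
  have e2 : ∀ᶠ s in nhds (1 : ℝ), σ < s := lt_mem_nhds h1
  have e3 : ∀ᶠ s in nhdsWithin (1 : ℝ) (Set.Iio 1), s < 1 := self_mem_nhdsWithin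
  obtain ⟨s, ⟨a, b⟩, c⟩ := (((e1.and e2).filter_mono nhdsWithin_le_nhds).and e3).exists
  exact ⟨s, b, c, a⟩

/-- the solution of the cost recurrence of a network with fewer than `W * m` passes -/
theorem Sub.recur {τ : ℕ → ℕ} (h : Sub τ) {p W m : ℕ} (hm : 2 ≤ m) (hp : p < W * m) :
    ∃ t τ' : ℕ → ℕ, Sub τ' ∧ (∀ d, 1 ≤ t d) ∧
      (∀ d, p * t d + W * (τ (m ^ (d + 1)) + 1) ≤ W * t (d + 1)) ∧ ∀ d, t d ≤ τ' (m ^ d) := by
  obtain ⟨σ, h0, h1, K, hK, hb⟩ := h.data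
  obtain ⟨s, hs, hs1, hps⟩ := SubH.exists_exp h1 hm hp
  have hs0 : 0 < s := h0.trans hs
  have hm1 : (1 : ℝ) ≤ m := by exact_mod_cast (by omega : 1 ≤ m)
  obtain ⟨l, hl⟩ : ∃ l, l = (m : ℝ) ^ s := ⟨_, rfl⟩
  have hl1 : 1 ≤ l := hl ▸ Real.one_le_rpow hm1 hs0.le
  have hpow : ∀ d : ℕ, l ^ d = ((m ^ d : ℕ) : ℝ) ^ s := by
    intro d
    rw [hl, Nat.cast_pow, ← Real.rpow_mul_natCast (by positivity), mul_comm,
      Real.rpow_natCast_mul (by positivity)]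
  rw [← hl] at hps
  obtain ⟨C, hC1, hC⟩ : ∃ C : ℝ, 1 ≤ C ∧ p + W + 2 * W * K * l ≤ C * (W * l - p) := by
    refine ⟨max 1 ((p + W + 2 * W * K * l) / (W * l - p)), le_max_left _ _, ?_⟩
    rw [← div_le_iff₀ (by linarith)]
    exact le_max_right _ _
  refine ⟨fun d => ⌈C * l ^ d⌉₊, _, SubH.ceil hs0 hs1 (by linarith : 0 ≤ C), fun d => ?_,
    fun d => ?_, fun d => ?_⟩
  · exact Nat.one_le_ceil_iff.2 (by positivity)
  · have hd : 1 ≤ l ^ d := one_le_pow₀ hl1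
    have e1 := (Nat.ceil_lt_add_one (a := C * l ^ d) (by positivity)).le
    have e2 := Nat.le_ceil (C * l ^ (d + 1))
    have e3 : (((m ^ (d + 1) : ℕ) : ℝ) + 1) ^ σ ≤ 2 * l ^ (d + 1) := by
      have hx : (1 : ℝ) ≤ ((m ^ (d + 1) : ℕ) : ℝ) := by
        rw [Nat.cast_pow]; exact one_le_pow₀ hm1
      calc _ ≤ (((m ^ (d + 1) : ℕ) : ℝ) + 1) ^ s := SubH.pow_mono _ hs.le
        _ ≤ (2 * ((m ^ (d + 1) : ℕ) : ℝ)) ^ s :=
          Real.rpow_le_rpow (by positivity) (by linarith) hs0.le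
        _ = 2 ^ s * l ^ (d + 1) := by rw [Real.mul_rpow (by norm_num) (by positivity), hpow]
        _ ≤ 2 * l ^ (d + 1) := mul_le_mul_of_nonneg_right
          (by simpa using Real.rpow_le_rpow_of_exponent_le (x := 2) (by norm_num) hs1.le)
          (by positivity)
    have e4 := (hb (m ^ (d + 1))).trans (mul_le_mul_of_nonneg_left e3 hK)
    have e5 := mul_le_mul_of_nonneg_right hC (by positivity : 0 ≤ l ^ d)
    have hp0 : (0 : ℝ) ≤ p := Nat.cast_nonneg _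
    have hW0 : (0 : ℝ) ≤ W := Nat.cast_nonneg _
    have e6 := mul_le_mul_of_nonneg_left e1 hp0
    have e7 := mul_le_mul_of_nonneg_left e2 hW0
    have e8 := mul_le_mul_of_nonneg_left e4 hW0
    have e9 := mul_le_mul_of_nonneg_left hd (add_nonneg hp0 hW0)
    have : (p : ℝ) * ⌈C * l ^ d⌉₊ + W * (τ (m ^ (d + 1)) + 1) ≤ W * ⌈C * l ^ (d + 1)⌉₊ := by
      rw [pow_succ l d] at e7 e8 ⊢
      nlinarith
    exact_mod_cast this
  · refine Nat.ceil_mono (mul_le_mul_of_nonneg_left ?_ (by linarith))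
    rw [hpow]
    exact Real.rpow_le_rpow (by positivity) (by linarith) hs0.le

/-- the bound obtained from one application of the main step -/
def stepB (τ g : ℕ → ℕ) (K n : ℕ) : ℕ := (n.size.size + 1) ^ 3 * (τ n.size + g (n.size ^ K) + 1)

theorem stepB_mono {τ g : ℕ → ℕ} (hτ : Monotone τ) (hg : Monotone g) (K : ℕ) :
    Monotone (stepB τ g K) := by
  intro x y hxy
  have h1 := Nat.size_le_size hxy
  have h2 := Nat.size_le_size h1
  have h3 := hτ h1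
  have h4 := hg (Nat.pow_le_pow_left h1 K)
  unfold stepB
  exact Nat.mul_le_mul (Nat.pow_le_pow_left (by omega) 3) (by omega)

/-- functions below every power -/
def SubH.Sm (f : ℕ → ℕ) : Prop :=
  ∀ ε : ℝ, 0 < ε → ∃ C : ℝ, 0 ≤ C ∧ ∀ x : ℕ, (f x : ℝ) ≤ C * ((x : ℝ) + 1) ^ ε

namespace SubH.Sm

theorem const (c : ℕ) : Sm fun _ => c := fun _ h =>
  ⟨c, Nat.cast_nonneg _, fun x => le_mul_of_one_le_right (Nat.cast_nonneg _) (SubH.one_le x h.le)⟩

theorem mono {f g : ℕ → ℕ} (h : Sm g) (hfg : ∀ x, f x ≤ g x) : Sm f := fun ε hε => by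
  obtain ⟨C, h0, hC⟩ := h ε hε
  exact ⟨C, h0, fun x => le_trans (by exact_mod_cast hfg x) (hC x)⟩

theorem add {f g : ℕ → ℕ} (h : Sm f) (h' : Sm g) : Sm fun x => f x + g x := fun ε hε => by
  obtain ⟨C, h0, hC⟩ := h ε hε
  obtain ⟨C', h0', hC'⟩ := h' ε hε
  refine ⟨C + C', by positivity, fun x => ?_⟩
  have := hC x
  have := hC' x
  push_cast
  linarith

theorem mul {f g : ℕ → ℕ} (h : Sm f) (h' : Sm g) : Sm fun x => f x * g x := fun ε hε => by
  obtain ⟨C, h0, hC⟩ := h (ε / 2) (by linarith)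
  obtain ⟨C', h0', hC'⟩ := h' (ε / 2) (by linarith)
  refine ⟨C * C', by positivity, fun x => ?_⟩
  have := mul_le_mul (hC x) (hC' x) (Nat.cast_nonneg _) (by positivity)
  rw [mul_mul_mul_comm, ← Real.rpow_add (by positivity), add_halves] at this
  exact_mod_cast this

theorem pow {f : ℕ → ℕ} (h : Sm f) (k : ℕ) : Sm fun x => f x ^ k := by
  induction k with
  | zero => simpa using const 1
  | succ k ih => simpa only [pow_succ] using ih.mul h

theorem sub {f τ : ℕ → ℕ} (h : Sm f) (hτ : Sub τ) : Sm fun x => τ (f x) := by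
  obtain ⟨σ, h0, h1, K, hK, hb⟩ := hτ.data
  refine ((const ⌈K⌉₊).mul (h.add (const 1))).mono fun x => ?_
  have e1 := SubH.pow_mono (f x) h1.le
  rw [Real.rpow_one] at e1
  have := (hb (f x)).trans (mul_le_mul (Nat.le_ceil K) e1 (by positivity) (by positivity))
  exact_mod_cast this

theorem size_log (x : ℕ) {y : ℝ} (h1 : 1 ≤ y) (hxy : (x : ℝ) ≤ y) :
    (x.size : ℝ) ≤ Real.log y / Real.log 2 + 1 := by
  have hl : 0 < Real.log 2 := Real.log_pos (by norm_num)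
  have hy := Real.log_nonneg h1
  rcases h : x.size with _ | s
  · have : 0 ≤ Real.log y / Real.log 2 := by positivity
    push_cast; linarith
  · have h2 : 2 ^ s ≤ x := Nat.lt_size.1 (by omega)
    have h3 : (2 : ℝ) ^ s ≤ y := le_trans (by exact_mod_cast h2) hxy
    have h4 := Real.log_le_log (by positivity) h3
    rw [Real.log_pow] at h4
    have := (le_div_iff₀ hl).2 h4
    push_cast; linarith

theorem size : Sm Nat.size := fun ε hε => by
  have hl : 0 < Real.log 2 := Real.log_pos (by norm_num)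
  refine ⟨1 / (ε * Real.log 2) + 1, by positivity, fun x => ?_⟩
  have h1 := size_log x (y := (x : ℝ) + 1) (by linarith [Nat.cast_nonneg (α := ℝ) x]) (by linarith)
  have h2 := Real.log_le_rpow_div (x := (x : ℝ) + 1) (by positivity) hε
  have h3 := SubH.one_le x hε.le
  have h4 : Real.log ((x : ℝ) + 1) / Real.log 2 ≤ 1 / (ε * Real.log 2) * ((x : ℝ) + 1) ^ ε := by
    rw [div_le_iff₀ hl]
    refine h2.trans (le_of_eq ?_)
    field_simp
  linarith

theorem size_pow (K : ℕ) : Sm fun x => (x ^ K).size := by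
  refine (((const K).mul size).add (const 1)).mono fun x => Nat.size_le.2 ?_
  calc x ^ K ≤ (2 ^ x.size) ^ K := Nat.pow_le_pow_left (Nat.lt_size_self x).le K
    _ = 2 ^ (K * x.size) := by rw [← pow_mul, mul_comm]
    _ < 2 ^ (K * x.size + 1) := Nat.pow_lt_pow_right (by norm_num) (by omega)

theorem size_comp {f : ℕ → ℕ} (h : Sm f) : Sm fun x => (f x).size :=
  h.mono fun _ => Nat.size_le.2 Nat.lt_two_pow_self

end SubH.Sm

open SubH in
/-- two applications of the main step, starting from a polynomial bound -/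
theorem stepB_final {τ1 τ2 : ℕ → ℕ} (h1 : Sub τ1) (h2 : Sub τ2) (k K1 K2 : ℕ) :
    ∃ δ : ℝ, 0 < δ ∧ δ < 1 ∧ ∃ K : ℝ, ∀ n : ℕ, 2 ≤ n →
      (stepB τ2 (stepB τ1 (fun s => (8 * s + 4) ^ k) K1) K2 n : ℝ) ≤ K * Real.log n ^ (1 - δ) := by
  have a1 := Sm.size_pow K2
  have a2 : Sm fun x => stepB τ1 (fun s => (8 * s + 4) ^ k) K1 (x ^ K2) :=
    ((a1.size_comp.add (Sm.const 1)).pow 3).mul (((a1.sub h1).add
      ((((Sm.const 8).mul (a1.pow K1)).add (Sm.const 4)).pow k)).add (Sm.const 1))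
  have a3 : Sm fun x => (x.size + 1) ^ 3 := (Sm.size.add (Sm.const 1)).pow 3
  obtain ⟨σ, h0, hσ, K, hK, hb⟩ := h2.data
  obtain ⟨C, hC0, hC⟩ := a3 ((1 - σ) / 2) (by linarith)
  obtain ⟨C', hC0', hC'⟩ := (a2.add (Sm.const 1)) σ h0
  have hl : 0 < Real.log 2 := Real.log_pos (by norm_num)
  refine ⟨(1 - σ) / 2, by linarith, by linarith,
    C * (K + C') * (3 / Real.log 2) ^ (1 - (1 - σ) / 2), fun n hn => ?_⟩
  have hn' : (2 : ℝ) ≤ n := by exact_mod_cast hn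
  have e1 := hC n.size
  have e2 := add_le_add (hb n.size) (hC' n.size)
  have e3 := mul_le_mul e1 e2 (by positivity) (by positivity)
  rw [← add_mul, mul_mul_mul_comm, ← Real.rpow_add (by positivity),
    show (1 - σ) / 2 + σ = 1 - (1 - σ) / 2 by ring] at e3
  have e4 : (n.size : ℝ) + 1 ≤ 3 / Real.log 2 * Real.log n := by
    have h3 := Sm.size_log n (y := n) (by linarith) le_rfl
    have h4 : 1 ≤ Real.log n / Real.log 2 := by
      rw [le_div_iff₀ hl, one_mul]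
      exact Real.log_le_log (by norm_num) hn'
    have : 3 / Real.log 2 * Real.log n = 3 * (Real.log n / Real.log 2) := by ring
    linarith
  have e5 := Real.rpow_le_rpow (by positivity) e4 (by linarith : 0 ≤ 1 - (1 - σ) / 2)
  rw [Real.mul_rpow (by positivity) (Real.log_nonneg (by linarith))] at e5
  have e6 := e3.trans (mul_le_mul_of_nonneg_left e5 (by positivity))
  rw [← mul_assoc] at e6
  refine le_trans (le_of_eq ?_) e6
  rw [stepB]
  push_cast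
  ring

end Vale.Agent.P338
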