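import Vale.Agent.P338.SwapD
import Vale.Agent.P338.SubL

/-! Job J7: fast exchange of two axes. -/

namespace Vale.Agent.P338

open PT

namespace Sw

/-- the parameters `(O, Q, M, β)` of the recursion -/
abbrev Pm : Type := ℕ × ℕ × ℕ × ℕ

abbrev Pa : Type := List ℤ × List ℤ

def qq (m : ℕ) (e : Pm) : ℕ := 17 ^ (Nat.log 17 e.2.1 / m)
def RR (m : ℕ) (e : Pm) : ℕ := 17 ^ (Nat.log 17 e.2.1 % m)
def dp (m : ℕ) (e : Pm) : ℕ := Nat.log m (Nat.log 17 e.2.1)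
def NN (e : Pm) : ℕ := e.1 * (e.2.1 * e.2.2.1 * e.2.1 * e.2.2.2)
def M2 (m : ℕ) (e : Pm) : ℕ := RR m e * e.2.2.1
def b2 (m W : ℕ) (e : Pm) : ℕ := RR m e * (e.2.2.2 / W)
def n0 (m : ℕ) (e : Pm) : ℕ := e.1 * (qq m e ^ m * M2 m e * qq m e ^ m)
def BB (m W : ℕ) (e : Pm) : ℕ := e.2.2.2 / W ^ dp m e

def LL (m W : ℕ) (e : Pm) : List Bool → List Bool :=
  SHL m (qq m e) (M2 m e) (b2 m W e) (W * e.1) m (fun i => i) (fun i => m + i) fun _ => qq m e - 1

def sb (m W : ℕ) (x : Pm × Pa) : Pm :=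
  (nn m (qq m x.1) (M2 m x.1) (b2 m W x.1) x.1.1 /
      (qq m x.1 * st m (qq m x.1) (M2 m x.1) (b2 m W x.1) (m + iu m x.2.1)), qq m x.1,
    st m (qq m x.1) (M2 m x.1) (b2 m W x.1) (m + iu m x.2.1) /
      (qq m x.1 * st m (qq m x.1) (M2 m x.1) (b2 m W x.1) (jv m x.2.2)),
    st m (qq m x.1) (M2 m x.1) (b2 m W x.1) (jv m x.2.2))

/-- the recursive algorithm -/
def alg (m W Z : ℕ) (prog : List (NI Pa)) : NetData Pm Pa where
  W := W
  Z := Z
  prog := prog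
  N := NN
  base e := SW e.1 e.2.1 e.2.2.1 e.2.2.2
  ini e l := LL m W e (NGL m (qq m e) (M2 m e) (b2 m W e) (W * e.1) m (trF (n0 m e) W (b2 m W e)
    (SW (e.1 * qq m e ^ m) (RR m e) (e.2.2.1 * qq m e ^ m) e.2.2.2 l)))
  fin e l := trF W (n0 m e) (b2 m W e) (LL m W e l)
  pre x := preF m (qq m x.1) (M2 m x.1) (b2 m W x.1) x.1.1 x.2
  post x := postF m (qq m x.1) (M2 m x.1) (b2 m W x.1) x.1.1 x.2
  sub := sb m W
  ax x := xorAx (NN x.1 / W) x.2

def DD (m W : ℕ) (e : Pm) : Prop :=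
  (∃ F, e.2.1 = 17 ^ F) ∧ 0 < e.1 ∧ 0 < e.2.2.1 ∧ 0 < e.2.2.2 ∧ W ^ dp m e ∣ e.2.2.2

variable {m W Z : ℕ} {prog : List (NI Pa)} {e : Pm}

lemma qq_pos : 0 < qq m e := by unfold qq; positivity
lemma RR_pos : 0 < RR m e := by unfold RR; positivity

lemma RR_le (hm : 0 < m) : RR m e ≤ 17 ^ m :=
  Nat.pow_le_pow_right (by norm_num) (Nat.mod_lt _ hm).le

lemma Q_eq (h : DD m W e) : e.2.1 = qq m e ^ m * RR m e := by
  obtain ⟨F, hF⟩ := h.1
  rw [qq, RR, hF, Nat.log_pow (by norm_num), ← pow_mul, ← pow_add, Nat.div_add_mod']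

lemma b_eq (h : DD m W e) (hd : 0 < dp m e) : e.2.2.2 = W * (e.2.2.2 / W) :=
  (Nat.mul_div_cancel' ((dvd_pow_self W hd.ne').trans h.2.2.2.2)).symm

lemma M2_pos (h : DD m W e) : 0 < M2 m e := Nat.mul_pos RR_pos h.2.2.1

lemma b2_pos (h : DD m W e) (hd : 0 < dp m e) : 0 < b2 m W e := by
  refine Nat.mul_pos RR_pos (Nat.pos_of_ne_zero fun h0 => ?_)
  have := b_eq h hd
  rw [h0, mul_zero] at this
  exact h.2.2.2.1.ne' this

lemma NN_eq (h : DD m W e) (hd : 0 < dp m e) :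
    NN e = W * nn m (qq m e) (M2 m e) (b2 m W e) e.1 := by
  rw [NN, nn, M2, b2]
  conv_lhs => rw [Q_eq h, b_eq h hd]
  ring

lemma NN_eq' (h : DD m W e) (hd : 0 < dp m e) :
    NN e = nn m (qq m e) (M2 m e) (b2 m W e) (W * e.1) := by
  rw [NN_eq h hd, nn, nn, mul_assoc W]

lemma NN_div (hW : 0 < W) (h : DD m W e) (hd : 0 < dp m e) :
    NN e / W = nn m (qq m e) (M2 m e) (b2 m W e) e.1 := by
  rw [NN_eq h hd, Nat.mul_div_cancel_left _ hW]

lemma BB_eq (hd : 0 < dp m e) : BB m W e = e.2.2.2 / W / W ^ (dp m e - 1) := by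
  rw [BB, Nat.div_div_eq_div_mul, ← pow_succ', Nat.sub_add_cancel hd]

lemma BB_le (hd : 0 < dp m e) : BB m W e ≤ b2 m W e := by
  rw [BB_eq hd]
  exact (Nat.div_le_self _ _).trans (Nat.le_mul_of_pos_left _ RR_pos)

lemma b_le_NN (h : DD m W e) : e.2.2.2 ≤ e.2.1 * e.2.2.1 * e.2.1 * e.2.2.2 ∧ 0 < e.2.1 := by
  obtain ⟨⟨F, hF⟩, -, h2, -⟩ := h
  have : 0 < e.2.1 := by rw [hF]; positivity
  exact ⟨Nat.le_mul_of_pos_left _ (by positivity), this⟩

lemma BB_le_NN (h : DD m W e) : BB m W e ≤ NN e :=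
  ((Nat.div_le_self _ _).trans (b_le_NN h).1).trans (Nat.le_mul_of_pos_left _ h.2.1)

lemma p_O : PTime fun e : Pm => e.1 := PTime.fst_id
lemma p_Q : PTime fun e : Pm => e.2.1 := PTime.snd_id.fst
lemma p_M : PTime fun e : Pm => e.2.2.1 := PTime.snd_id.snd.fst
lemma p_b : PTime fun e : Pm => e.2.2.2 := PTime.snd_id.snd.snd
lemma p_F : PTime fun e : Pm => Nat.log 17 e.2.1 := ptime_log (by norm_num) p_Q
lemma pb_F : PB fun e : Pm => Nat.log 17 e.2.1 :=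
  (PB.size p_Q).of_le fun _ => log_le_size (by norm_num) _
lemma p_qq : PTime (qq m) := (PTime.const 17).pow (p_F.div (.const m)) (pb_F.div _)
lemma p_RR : PTime (RR m) :=
  (PTime.const 17).pow (p_F.mod (.const m)) (pb_F.of_le fun _ => Nat.mod_le _ _)
lemma p_dp (hm : 1 < m) : PTime (dp m) := ptime_log hm p_F
lemma p_NN : PTime NN := p_O.mul (((p_Q.mul p_M).mul p_Q).mul p_b)
lemma p_M2 : PTime (M2 m) := p_RR.mul p_M
lemma p_b2 : PTime (b2 m W) := p_RR.mul (p_b.div (.const W))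
lemma p_qm : PTime fun e => qq m e ^ m := p_qq.pow (.const m) (.const m)
lemma p_n0 : PTime (n0 m) := p_O.mul ((p_qm.mul p_M2).mul p_qm)

lemma p_sb : PTime (sb m W) := by
  have hq := (p_qq (m := m)).comp (PTime.fst_id (β := Pa))
  have hM := (p_M2 (m := m)).comp (PTime.fst_id (β := Pa))
  have hb := (p_b2 (m := m) (W := W)).comp (PTime.fst_id (β := Pa))
  have h1 := ptime_st (m := m) hq hM hb ((PTime.const m).add (ptime_iu (m := m) PTime.snd_id.fst))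
  have h2 := ptime_st (m := m) hq hM hb (ptime_jv (m := m) PTime.snd_id.snd)
  exact ((ptime_nn hq hM hb PTime.fst_id.fst).div (hq.mul h1)).prodMk
    (hq.prodMk ((h1.div (hq.mul h2)).prodMk h2))

lemma fitW (hW : 0 < W) : Fit m (fun e => DD m W e ∧ 0 < dp m e) NN (BB m W) (qq m) (M2 m)
    (b2 m W) fun e => W * e.1 :=
  ⟨p_qq, p_M2, p_b2, (PTime.const W).mul p_O, fun _ h => ⟨NN_eq' h.1 h.2, qq_pos, M2_pos h.1,
    b2_pos h.1 h.2, Nat.mul_pos hW h.1.2.1, BB_le h.2⟩⟩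

lemma fitP (hW : 0 < W) {δ : Type} [TEnc δ] (P : δ → Prop) :
    Fit m (fun x : Pm × δ => DD m W x.1 ∧ 0 < dp m x.1 ∧ P x.2) (fun x => NN x.1 / W)
      (fun x => BB m W x.1) (fun x => qq m x.1) (fun x => M2 m x.1) (fun x => b2 m W x.1)
      fun x => x.1.1 :=
  ⟨p_qq.comp PTime.fst_id, p_M2.comp PTime.fst_id, p_b2.comp PTime.fst_id, PTime.fst_id.fst,
    fun _ h => ⟨NN_div hW h.1 h.2.1, qq_pos, M2_pos h.1, b2_pos h.1 h.2.1, h.1.2.1, BB_le h.2.1⟩⟩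

lemma op_base (hm : 1 < m) (T : Pm → ℕ) :
    Op (fun e => DD m W e ∧ dp m e = 0) NN NN (BB m W) T (alg m W Z prog).base := by
  refine (Op.id fun _ h => BB_le_NN h.1).nswap p_O p_Q p_M p_b
    (fun e h => ⟨rfl, (b_le_NN h.1).2, h.1.2.2.1, h.1.2.2.2.1,
      (Nat.div_le_self _ _).trans (b_le_NN h.1).1⟩)
    ⟨17 ^ m, fun e h => Nat.mul_le_mul ?_ (Nat.le_add_left _ _)⟩
  obtain ⟨F, hF⟩ := h.1.1
  have h1 := h.2
  rw [dp, hF, Nat.log_pow (by norm_num), Nat.log_eq_zero_iff] at h1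
  rw [hF]
  exact Nat.pow_le_pow_right (by norm_num) (by omega)

lemma n0_eq (h : DD m W e) (hd : 0 < dp m e) : NN e = n0 m e * W * b2 m W e ∧ 0 < n0 m e := by
  refine ⟨by rw [NN_eq h hd, nn, n0]; ring, ?_⟩
  have h1 := h.2.1
  have h2 := M2_pos h
  have h3 := qq_pos (m := m) (e := e)
  unfold n0
  positivity

lemma op_LL (hW : 0 < W) {f : Pm → List Bool → List Bool}
    (hf : Op (fun e => DD m W e ∧ 0 < dp m e) NN NN (BB m W) (fun _ => 0) f) :
    Op (fun e => DD m W e ∧ 0 < dp m e) NN NN (BB m W) (fun _ => 0)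
      fun e l => LL m W e (f e l) :=
  op_SHL (fitW hW) hf m PTime.snd_id ((PTime.const m).add PTime.snd_id)
    ((p_qq.sub (.const 1)).comp PTime.fst_id) fun _ _ _ _ => by omega

lemma op_ini (hm : 0 < m) (hW : 0 < W) : Op (fun e => DD m W e ∧ 0 < dp m e) NN NN (BB m W)
    (fun _ => 0) (alg m W Z prog).ini := by
  have h1 := (Op.id (D := fun e => DD m W e ∧ 0 < dp m e) (T := fun _ => 0)
    fun _ h => BB_le_NN h.1).nswap (p_O.mul p_qm) p_RR (p_M.mul p_qm) p_b (fun e h => by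
      have h1 := h.1.2.2.1
      have h2 := RR_pos (m := m) (e := e)
      have h3 := qq_pos (m := m) (e := e)
      refine ⟨by rw [NN, Q_eq h.1]; ring, h2, by positivity, h.1.2.2.2.1,
        (Nat.div_le_self _ _).trans (Nat.le_mul_of_pos_left _ (by positivity))⟩)
    ⟨17 ^ m, fun e _ => Nat.mul_le_mul (RR_le hm) (Nat.le_add_left _ _)⟩
  have h2 := h1.tr p_n0 (PTime.const W) p_b2
    (fun e h => ⟨(n0_eq h.1 h.2).1, (n0_eq h.1 h.2).2, hW, b2_pos h.1 h.2⟩)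
    ⟨W, fun e _ => Nat.mul_le_mul (min_le_right _ _) (Nat.le_add_left _ _)⟩
  exact op_LL hW (op_NGL (fitW hW) h2 (by omega))

lemma op_fin (hW : 0 < W) : Op (fun e => DD m W e ∧ 0 < dp m e) NN NN (BB m W)
    (fun _ => 0) (alg m W Z prog).fin :=
  (op_LL hW (Op.id fun _ h => BB_le_NN h.1)).tr (PTime.const W) p_n0 p_b2
    (fun e h => ⟨by rw [(n0_eq h.1 h.2).1, mul_comm W], hW, (n0_eq h.1 h.2).2, b2_pos h.1 h.2⟩)
    ⟨W, fun e _ => Nat.mul_le_mul (min_le_left _ _) (Nat.le_add_left _ _)⟩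

lemma op_ax (hW : 0 < W) : Op (fun x : Pm × ℤ => DD m W x.1 ∧ 0 < dp m x.1 ∧ |x.2| ≤ 2)
    (fun x => 2 * (NN x.1 / W)) (fun x => NN x.1 / W) (fun x => BB m W x.1) (fun _ => 0)
    (alg m W Z prog).ax := by
  have pn : PTime fun x : Pm × ℤ => NN x.1 / W := (p_NN.comp PTime.fst_id).div (.const W)
  have hB : ∀ x : Pm × ℤ, DD m W x.1 ∧ 0 < dp m x.1 ∧ |x.2| ≤ 2 → BB m W x.1 ≤ 2 * (NN x.1 / W) :=
    fun x h => by have := (fitP hW fun c : ℤ => |c| ≤ 2).le x h; omega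
  exact Op.ite (p := fun x : Pm × ℤ => x.2 % 2 = 0)
    ((PTime.snd_id.int_emod (.const 2)).decide_eq (.const 0))
    ((Op.id fun x h => hB x h.1).take pn fun _ _ => by omega)
    (((Op.id fun x h => hB x h.1).take pn fun _ _ => by omega).xor
      ((Op.id fun x h => hB x h.1).drop pn fun _ _ => by omega))

lemma sub_facts (hm : 1 < m) (hW : 0 < W) (h : DD m W e) (hd : 0 < dp m e) {p : Pa}
    (hp : OkA m p) : DD m W (sb m W (e, p)) ∧ dp m (sb m W (e, p)) + 1 = dp m e ∧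
      NN (sb m W (e, p)) = NN e / W ∧ BB m W e ≤ BB m W (sb m W (e, p)) := by
  have hj := (jv_spec hp.2.1 hp.2.2.2.1).1
  have hi := (iu_spec hp.1 hp.2.2.1).1
  have h1 : dp m (sb m W (e, p)) = dp m e - 1 := by
    simp only [dp, sb, qq]
    rw [Nat.log_pow (by norm_num), Nat.log_div_base]
  have h2 : NN (sb m W (e, p)) = NN e / W := by
    rw [NN_div hW h hd]
    exact nn_SWD (s := jv m p.2) (t := m + iu m p.1) (by omega) (by omega)
  have h3 : 0 < NN (sb m W (e, p)) := by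
    rw [h2, NN_div hW h hd, nn]
    have h4 := h.2.1
    have h5 := M2_pos h
    have h6 := qq_pos (m := m) (e := e)
    have h7 := b2_pos h hd
    positivity
  have h8 : (sb m W (e, p)).2.2.2 = qq m e ^ jv m p.2 * (RR m e * (e.2.2.2 / W)) := st_lo hj
  have h9 := Nat.pos_of_mul_pos_left h3
  refine ⟨⟨⟨_, rfl⟩, Nat.pos_of_mul_pos_right h3, Nat.pos_of_mul_pos_left
    (Nat.pos_of_mul_pos_right (Nat.pos_of_mul_pos_right h9)), Nat.pos_of_mul_pos_left h9, ?_⟩,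
    by omega, h2, ?_⟩
  · rw [h1, h8]
    refine (Dvd.dvd.mul_left ?_ _).mul_left _
    refine Nat.dvd_div_of_mul_dvd ?_
    rw [← pow_succ', Nat.sub_add_cancel hd]
    exact h.2.2.2.2
  · rw [BB_eq hd, BB, h1, h8]
    exact Nat.div_le_div_right ((Nat.le_mul_of_pos_left _ RR_pos).trans
      (Nat.le_mul_of_pos_left _ (pow_pos qq_pos _)))

lemma uv_bound (m : ℕ) (prog : List (NI Pa)) :
    ∃ K, ∀ w p, NI.pass w p ∈ prog → (uv m p).natAbs ≤ K := by
  induction prog with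
  | nil => exact ⟨0, fun _ _ h => by simp at h⟩
  | cons a prog ih =>
    obtain ⟨K, hK⟩ := ih
    cases a with
    | pass w p =>
      refine ⟨K + (uv m p).natAbs, fun w' p' h => ?_⟩
      rcases List.mem_cons.1 h with h | h
      · cases h; omega
      · have := hK w' p' h; omega
    | axpy => exact ⟨K, fun w p h => hK w p (by simpa using h)⟩
    | zero => exact ⟨K, fun w p h => hK w p (by simpa using h)⟩

lemma sz_le (h : DD m W e) : sz e ≤ 16 * (NN e).size + 7 := by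
  obtain ⟨h1, h2⟩ := b_le_NN h
  obtain ⟨-, h3, h4, h5, -⟩ := h
  obtain ⟨O, Q, M, β⟩ := e
  simp only [NN] at *
  have key : ∀ x, x ∣ O * (Q * M * Q * β) → sz x ≤ 4 * (O * (Q * M * Q * β)).size + 1 :=
    fun x hx => (sz_nat_le x).trans (by
      have := Nat.size_le_size (Nat.le_of_dvd (by positivity) hx); omega)
  have a1 := key O (dvd_mul_right _ _)
  have a2 := key Q ⟨O * M * Q * β, by ring⟩
  have a3 := key M ⟨O * Q * Q * β, by ring⟩
  have a4 := key β ⟨O * Q * M * Q, by ring⟩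
  simp only [sz_prod]
  omega

theorem rec_op (hm : 1 < m) (hW : 0 < W) (hprog : ∀ a ∈ prog, a.Ok (OkA m) (W + Z)) {t : ℕ → ℕ}
    (ht : ∀ d, 1 ≤ t d) (ht' : ∀ d, NI.passes prog * t d + W ≤ W * t (d + 1)) :
    Op (DD m W) NN NN (BB m W) (fun e => NN e * t (dp m e))
      fun e l => (alg m W Z prog).F (dp m e) e l := by
  obtain ⟨K, hK⟩ := uv_bound m prog
  have hok : ∀ x : Pm × Pa, DD m W x.1 ∧ 0 < dp m x.1 ∧ (∃ w, NI.pass w x.2 ∈ prog) →
      OkA m x.2 := fun x ⟨_, _, w, hw⟩ => (hprog _ hw).2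
  refine netRec (alg m W Z prog) hW hprog (T1 := fun _ => 0)
    (U := fun e => NN e / W * t (dp m e - 1)) (E := fun e => 16 * (NN e).size + 7)
    (p_dp hm) p_NN p_sb (op_base hm _) (op_ini (by omega) hW) (op_fin hW)
    (op_pre (fitP hW fun p => ∃ w, NI.pass w p ∈ prog) PTime.snd_id hok)
    (op_post (fitP hW fun p => ∃ w, NI.pass w p ∈ prog) PTime.snd_id hok
      (fun _ _ => ⟨_, rfl⟩) fun x ⟨_, _, w, hw⟩ => hK w _ hw)
    (op_ax hW) (fun e h hd => ⟨⟨_, NN_eq h hd⟩, ?_, ?_, fun w p hp => ?_⟩)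
    (fun e h => ⟨sz_le h, Nat.le_mul_of_pos_right _ (ht _)⟩) ?_
  · exact (fitP hW fun _ : Unit => True).le (e, ()) ⟨h, hd, trivial⟩
  · have h1 := Nat.mul_le_mul_left (NN e / W) (ht' (dp m e - 1))
    rw [Nat.sub_add_cancel hd, ← mul_assoc, mul_add,
      Nat.div_mul_cancel ⟨_, NN_eq h hd⟩, mul_left_comm] at h1
    simp only [alg]
    omega
  · obtain ⟨a1, a2, a3, a4⟩ := sub_facts hm hW h hd (hprog _ hp).2
    have a5 := Nat.size_le_size (Nat.div_le_self (NN e) W)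
    refine ⟨a1, a2, a3, a4, ?_, le_of_eq ?_⟩
    · simp only [alg, a3]; omega
    · simp only [alg, a3, ← a2, Nat.add_sub_cancel]
  · obtain ⟨j, hj⟩ := PB.le_pow (((PB.const 16).mul (PB.size p_NN)).add (PB.const 7))
    exact ⟨j, fun e _ => (Nat.le_succ _).trans (hj e)⟩

theorem rec_eq (hm : 1 < m) (hW : 0 < W) (hprog : ∀ a ∈ prog, a.Ok (OkA m) (W + Z))
    (h3 : ∀ (A V : Type) [CommRing A] [AddCommGroup V] [Module A V]
      (O : Matrix (Fin m) (Fin m) ℤ → V →ₗ[A] V), (2 : A) = 0 →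
      (∀ M N v, O (M + N) v = O M (O N v)) → (∀ v, O 0 v = v) →
      ∀ ξ : List V, ξ.length = W →
      (NI.run (fun p => O (matA m p)) (fun c => (c : A)) prog (ξ ++ List.replicate Z 0)).take W =
        ξ.map (O ((216 : ℤ) • 1))) (d : ℕ) : ∀ e l, DD m W e → dp m e = d → l.length = NN e →
    (alg m W Z prog).F d e l = SW e.1 e.2.1 e.2.2.1 e.2.2.2 l := by
  induction d with
  | zero => exact fun _ _ _ _ _ => rfl
  | succ d ih =>
    intro e l h hd hl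
    have hd' : 0 < dp m e := by omega
    have hm' : 0 < m := by omega
    have : NeZero (qq m e) := ⟨qq_pos.ne'⟩
    have hn : 0 < nn m (qq m e) (M2 m e) (b2 m W e) e.1 := by
      have h0 : 0 < NN e := Nat.mul_pos h.2.1 (lt_of_lt_of_le h.2.2.2.1 (b_le_NN h).1)
      rw [NN_eq h hd'] at h0
      exact Nat.pos_of_mul_pos_left h0
    have hnet := imp_net hm' hn (minv 216 (qq m e) : ℕ) h3
      (ps := fun p v => (alg m W Z prog).post (e, p) ((alg m W Z prog).F d (sb m W (e, p))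
        ((alg m W Z prog).pre (e, p) v))) fun w p hp => by
        have hp' := (hprog _ hp).2
        obtain ⟨a1, a2, a3, -⟩ := sub_facts hm hW h hd' hp'
        refine (imp_pass hm' hp').congr_fun fun v hv => ?_
        rw [ih _ _ a1 (by omega)]
        · rfl
        · rw [a3]
          exact (op_pre (T := fun _ => 0) (fitP hW (OkA m)) PTime.snd_id fun _ h => h.2.2).len
            (e, p) v ⟨h, hd', hp'⟩ (hv.trans (NN_div hW h hd').symm)
    have l1 : l.length = e.1 * (qq m e ^ m * RR m e * e.2.2.1 * (qq m e ^ m * RR m e) *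
        e.2.2.2) := by rw [hl, NN, ← Q_eq h]
    have l2 : (SW (e.1 * qq m e ^ m) (RR m e) (e.2.2.1 * qq m e ^ m) e.2.2.2 l).length =
        e.1 * (qq m e ^ m * M2 m e * qq m e ^ m * (W * b2 m W e)) := by
      rw [length_SW (by rw [l1]; ring), M2, b2]
      conv_lhs => rw [b_eq h hd']
      ring
    have hκ : (216 : ZMod (qq m e)) * (minv 216 (qq m e) : ℕ) = 1 :=
      mul_minv_cast (w := 216) (by norm_num)
    have h4 := imp_level hm' hκ hnet (l := trF (n0 m e) W (b2 m W e)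
      (SW (e.1 * qq m e ^ m) (RR m e) (e.2.2.1 * qq m e ^ m) e.2.2.2 l)) (by
        rw [length_trF (by rw [l2, n0]; ring), nn, n0]; ring)
    have e1 : W * b2 m W e = RR m e * e.2.2.2 := by
      rw [b2, mul_left_comm, ← b_eq h hd']
    have h5 := SW_tr l2
    rw [show e.1 * (qq m e ^ m * M2 m e * qq m e ^ m) = n0 m e from rfl] at h5
    rw [← h4, e1, M2, SW_split l1, ← Q_eq h] at h5
    rw [← h5]
    simp only [NetData.F, alg, NN_div hW h hd']
    rfl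

/-- the padded payload -/
def top (m W : ℕ) (e : ℕ × ℕ × ℕ) : Pm :=
  (1, e.1, e.2.1, (e.2.2 / W ^ dp m (1, e) + 1) * W ^ dp m (1, e))

lemma dp_top (e : ℕ × ℕ × ℕ) : dp m (top m W e) = dp m (1, e) := rfl

lemma pow_dp (e : Pm) : m ^ dp m e ≤ max e.2.1.size 1 := by
  rcases eq_or_ne (Nat.log 17 e.2.1) 0 with h | h
  · simp [dp, h]
  · exact ((Nat.pow_log_le_self m h).trans (log_le_size (by norm_num) _)).trans (le_max_left _ _)

lemma W_dp (hW : W ≤ m ^ 4) (e : ℕ × ℕ × ℕ) : W ^ dp m (1, e) ≤ (sz e + 1) ^ 4 := by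
  refine (Nat.pow_le_pow_left hW _).trans ?_
  rw [← pow_mul, mul_comm, pow_mul]
  refine Nat.pow_le_pow_left ((pow_dp _).trans ?_) _
  have h1 := size_lt_sz e.1
  have h2 : sz e = sz e.1 + sz e.2 + 1 := sz_prod e.1 e.2
  simp only [max_le_iff]
  omega

lemma le_top (hW : 0 < W) (e : ℕ × ℕ × ℕ) :
    e.2.2 < (top m W e).2.2.2 ∧ (top m W e).2.2.2 ≤ e.2.2 + W ^ dp m (1, e) := by
  have h : 0 < W ^ dp m (1, e) := pow_pos hW _
  have h1 := Nat.div_add_mod' e.2.2 (W ^ dp m (1, e))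
  have h2 := Nat.mod_lt e.2.2 h
  have h3 : (top m W e).2.2.2 =
      e.2.2 / W ^ dp m (1, e) * W ^ dp m (1, e) + W ^ dp m (1, e) := by
    simp only [top, add_mul, one_mul]
  rw [h3]
  generalize W ^ dp m (1, e) = w at *
  generalize e.2.2 / w * w = a at *
  omega

lemma p_top (hm : 1 < m) : PTime (top m W) := by
  have h0 : PTime fun e : ℕ × ℕ × ℕ => ((1, e) : Pm) := (PTime.const 1).prodMk PTime.id
  have h1 : PTime fun e : ℕ × ℕ × ℕ => W ^ dp m (1, e) :=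
    (PTime.const W).pow ((p_dp hm).comp h0) ((pb_F.comp h0).of_le fun _ => Nat.log_le_self _ _)
  exact (PTime.const 1).prodMk (PTime.fst_id.prodMk (PTime.snd_id.fst.prodMk
    (((PTime.snd_id.snd.div h1).add (.const 1)).mul h1)))

theorem core (hm : 1 < m) (hW : 0 < W) (hW' : W ≤ m ^ 4) (h1 : NI.passes prog < W * m)
    (hprog : ∀ a ∈ prog, a.Ok (OkA m) (W + Z))
    (h3 : ∀ (A V : Type) [CommRing A] [AddCommGroup V] [Module A V]
      (O : Matrix (Fin m) (Fin m) ℤ → V →ₗ[A] V), (2 : A) = 0 →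
      (∀ M N v, O (M + N) v = O M (O N v)) → (∀ v, O 0 v = v) →
      ∀ ξ : List V, ξ.length = W →
      (NI.run (fun p => O (matA m p)) (fun c => (c : A)) prog (ξ ++ List.replicate Z 0)).take W =
        ξ.map (O ((216 : ℤ) • 1))) : ∃ τ, Sub τ ∧
    Op (fun e : ℕ × ℕ × ℕ => (∃ F, e.1 = 17 ^ F) ∧ 0 < e.2.1)
      (fun e => e.1 * e.2.1 * e.1 * e.2.2) (fun e => e.1 * e.2.1 * e.1 * e.2.2) (fun e => e.2.2)
      (fun e => e.1 * e.2.1 * e.1 * e.2.2 * τ e.1.size) fun e => swapF e.1 e.2.1 e.2.2 := by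
  obtain ⟨t, τ, hτ, ht, ht', htτ⟩ := (Sub.const 0).recur (p := NI.passes prog) hm h1
  have hR := rec_op hm hW hprog ht fun d => by simpa using ht' d
  have hB : ∀ e : ℕ × ℕ × ℕ, (∃ F, e.1 = 17 ^ F) ∧ 0 < e.2.1 →
      e.2.2 ≤ e.1 * e.2.1 * e.1 * e.2.2 := by
    rintro e ⟨⟨F, hF⟩, h⟩
    refine Nat.le_mul_of_pos_left _ ?_
    rw [hF]; positivity
  refine ⟨τ, hτ, Op.assume 4 ?_ hB fun e l _ hl => length_swapF hl⟩
  refine Op.scaleB (B2 := fun e => e.2.2 / W ^ dp m (1, e)) (V := fun e => W ^ dp m (1, e)) ?_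
    ⟨4, fun e _ => W_dp hW' e⟩ fun e h => ⟨pow_pos hW _, hB e h.1, le_rfl⟩
  have pn : PTime fun e : ℕ × ℕ × ℕ => e.1 * e.2.1 * e.1 :=
    (PTime.fst_id.mul PTime.snd_id.fst).mul PTime.fst_id
  have pt := (p_top (W := W) hm).snd.snd.snd
  have h2 : ∀ e : ℕ × ℕ × ℕ, (sz e + 1) ^ 4 ≤ e.2.2 →
      e.1 * e.2.1 * e.1 * (top m W e).2.2.2 ≤ 2 * (e.1 * e.2.1 * e.1 * e.2.2) := by
    intro e h
    have a1 := (le_top (m := m) hW e).2
    have a2 := W_dp hW' e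
    rw [mul_left_comm]
    exact Nat.mul_le_mul_left _ (by omega)
  have hD : ∀ e : ℕ × ℕ × ℕ, (∃ F, e.1 = 17 ^ F) ∧ 0 < e.2.1 → DD m W (top m W e) := fun e h =>
    ⟨h.1, one_pos, h.2, lt_of_le_of_lt (Nat.zero_le _) (le_top hW e).1, dvd_mul_left _ _⟩
  refine ((((Op.id fun e h => (Nat.div_le_self _ _).trans (hB e h.1)).pad pn PTime.snd_id.snd pt
    (N'' := fun e => e.1 * e.2.1 * e.1 * (top m W e).2.2.2)
    (fun e _ => ⟨rfl, rfl, Nat.div_le_self _ _⟩)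
    ⟨2, fun e h => (h2 e h.2).trans (Nat.mul_le_mul_left _ (Nat.le_add_left _ _))⟩).andThen hR
    (p_top hm) (N'' := fun e => e.1 * e.2.1 * e.1 * (top m W e).2.2.2)
    (fun e h => ⟨hD e h.1, one_mul _, one_mul _, Nat.div_le_div_right (le_top hW e).1.le⟩)
    ⟨2, fun e h => ?_⟩).pad pn pt PTime.snd_id.snd
    (fun e _ => ⟨rfl, rfl, (Nat.div_le_self _ _).trans (le_top hW e).1.le⟩)
    ⟨1, fun e _ => by omega⟩).congr fun e l h hl => ?_
  · obtain ⟨F, hF⟩ := h.1.1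
    have a1 : t (dp m (top m W e)) ≤ τ e.1.size := by
      refine (htτ _).trans (hτ.1 ((pow_dp _).trans (max_le le_rfl ?_)))
      exact Nat.size_pos.2 (by rw [hF]; positivity)
    have a2 : NN (top m W e) ≤ 2 * (e.1 * e.2.1 * e.1 * e.2.2) :=
      (one_mul _).trans_le (h2 e h.2)
    refine (Nat.mul_le_mul a2 a1).trans ?_
    rw [mul_assoc]
    exact Nat.mul_le_mul_left _ (Nat.le_add_right _ _)
  · have h5 := rec_eq hm hW hprog h3 _ _
      (padF (e.1 * e.2.1 * e.1) e.2.2 (top m W e).2.2.2 l) (hD e h.1) rfl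
      ((length_padF _ _ _ _).trans (one_mul _).symm)
    exact (congrArg (padF _ _ _) h5).trans (SW_pad hl (le_top hW e).1.le)

end Sw

/-- the parameters `(Q, M, β)` -/
theorem swap_op : ∃ τ, Sub τ ∧
    Op (fun e : ℕ × ℕ × ℕ => (∃ F, e.1 = 17 ^ F) ∧ 0 < e.2.1)
      (fun e => e.1 * e.2.1 * e.1 * e.2.2) (fun e => e.1 * e.2.1 * e.1 * e.2.2) (fun e => e.2.2)
      (fun e => e.1 * e.2.1 * e.1 * e.2.2 * τ e.1.size) fun e => swapF e.1 e.2.1 e.2.2 := by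
  obtain ⟨m, hm⟩ : ∃ m : ℕ, m = 10648 := ⟨_, rfl⟩
  obtain ⟨W, hW⟩ : ∃ W : ℕ, W = 17 ^ 12 := ⟨_, rfl⟩
  obtain ⟨Z, prog, h1, h2, h3⟩ := netA hm hW
  exact Sw.core (by omega) (by rw [hW]; positivity) (by rw [hm, hW]; norm_num) h1 h2 h3

end Vale.Agent.P338
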