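import Vale.Agent.P338.Crt

/-! Job J7, part A: bitwise descriptions of array permutations. -/

namespace Vale.Agent.P338.Sw

open PT Finset

/-- the bit at a position -/
def bit (l : List Bool) (z : ℕ) : Bool := l.getD z false

lemma bit_blk {L i z : ℕ} (l : List Bool) (hz : z < L) : bit (blk L i l) z = bit l (i * L + z) := by
  simp [bit, blk, List.getD_eq_getElem?_getD, List.getElem?_take_of_lt hz, List.getElem?_drop]

lemma bit_fl {n L i z : ℕ} {g : ℕ → List Bool} (H : ∀ j < n, (g j).length = L) (hi : i < n)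
    (hz : z < L) : bit (fl n g) (i * L + z) = bit (g i) z := by
  rw [← bit_blk _ hz, blk_fl H hi]

lemma ext_bit {l l' : List Bool} {n : ℕ} (hl : l.length = n) (hl' : l'.length = n)
    (h : ∀ z < n, bit l z = bit l' z) : l = l' := by
  refine List.ext_getElem (hl.trans hl'.symm) fun z h1 h2 => ?_
  simpa [bit, List.getD_eq_getElem?_getD, h1, h2] using h z (hl ▸ h1)

lemma exists_dec {z a b : ℕ} (hz : z < a * b) : ∃ i < a, ∃ j < b, z = i * b + j := by
  have hb : 0 < b := Nat.pos_of_ne_zero fun h => by simp [h] at hz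
  exact ⟨z / b, Nat.div_lt_of_lt_mul (by rwa [mul_comm]), z % b, Nat.mod_lt _ hb,
    (Nat.div_add_mod' z b).symm⟩

lemma dec_div {H σ lo : ℕ} (h : lo < σ) : (H * σ + lo) / σ = H := by
  rw [add_comm, Nat.add_mul_div_right _ _ (by omega), Nat.div_eq_of_lt h, zero_add]

lemma dec_mod {H σ lo : ℕ} (h : lo < σ) : (H * σ + lo) % σ = lo := by
  rw [add_comm, Nat.add_mul_mod_self_right, Nat.mod_eq_of_lt h]

/-- replace the digit of radix `q` at stride `σ` -/
def setd (σ q z s : ℕ) : ℕ := (z / (q * σ) * q + s) * σ + z % σ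

lemma dec_hi {H q a σ lo : ℕ} (ha : a < q) (h : lo < σ) : ((H * q + a) * σ + lo) / (q * σ) = H := by
  rw [mul_comm q σ, ← Nat.div_div_eq_div_mul, dec_div h, dec_div ha]

lemma dec_dig {H q a σ lo : ℕ} (ha : a < q) (h : lo < σ) : ((H * q + a) * σ + lo) / σ % q = a := by
  rw [dec_div h, dec_mod ha]

lemma dec_setd {H q a σ lo : ℕ} (ha : a < q) (h : lo < σ) (s : ℕ) :
    setd σ q ((H * q + a) * σ + lo) s = (H * q + s) * σ + lo := by
  rw [setd, dec_hi ha h, dec_mod h]

lemma length_ax3 {O S β : ℕ} {π : ℕ → ℕ → ℕ} {l : List Bool} (hl : l.length = O * S * β)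
    (hπ : ∀ o s, s < S → π o s < S) : (ax3 O S β π l).length = O * S * β := by
  rw [ax3, mul_assoc]
  exact length_fl fun o ho => length_fl fun s hs => length_blk' hl (lt_mul_of_lt ho (hπ o s hs))

lemma bit_ax3 {O S β o s z : ℕ} {π : ℕ → ℕ → ℕ} {l : List Bool} (hl : l.length = O * S * β)
    (hπ : ∀ o s, s < S → π o s < S) (ho : o < O) (hs : s < S) (hz : z < β) :
    bit (ax3 O S β π l) ((o * S + s) * β + z) = bit l ((o * S + π o s) * β + z) := by
  rw [← bit_blk _ hz, ← bit_blk _ hz, ax3,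
    blk_fl_fl (fun o ho s hs => length_blk' hl (lt_mul_of_lt ho (hπ o s hs))) ho hs]

lemma length_trF {A B β : ℕ} {l : List Bool} (hl : l.length = A * B * β) :
    (trF A B β l).length = B * A * β := by
  rw [trF, mul_assoc]
  exact length_fl fun b hb => length_fl fun a ha => length_blk' hl (lt_mul_of_lt ha hb)

lemma bit_trF {A B β a b z : ℕ} {l : List Bool} (hl : l.length = A * B * β) (ha : a < A)
    (hb : b < B) (hz : z < β) :
    bit (trF A B β l) ((b * A + a) * β + z) = bit l ((a * B + b) * β + z) := by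
  rw [← bit_blk _ hz, ← bit_blk _ hz, trF,
    blk_fl_fl (fun b hb a ha => length_blk' hl (lt_mul_of_lt ha hb)) hb ha]

lemma length_swapF {Q M β : ℕ} {l : List Bool} (hl : l.length = Q * M * Q * β) :
    (swapF Q M β l).length = Q * M * Q * β := by
  rw [swapF, mul_assoc, mul_assoc]
  exact length_fl fun b hb => length_fl fun μ hμ => length_fl fun a ha =>
    length_blk' hl (lt_mul_of_lt (lt_mul_of_lt ha hμ) hb)

lemma bit_swapF {Q M β a μ b z : ℕ} {l : List Bool} (hl : l.length = Q * M * Q * β) (ha : a < Q)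
    (hμ : μ < M) (hb : b < Q) (hz : z < β) :
    bit (swapF Q M β l) (((b * M + μ) * Q + a) * β + z) =
      bit l (((a * M + μ) * Q + b) * β + z) := by
  have H : ∀ b < Q, ∀ μ < M, ∀ a < Q, (blk β ((a * M + μ) * Q + b) l).length = β :=
    fun b hb μ hμ a ha => length_blk' hl (lt_mul_of_lt (lt_mul_of_lt ha hμ) hb)
  rw [← bit_blk _ hz, ← bit_blk _ hz, ← blk_blk _ ha, swapF,
    blk_fl_fl (fun b hb μ hμ => length_fl (H b hb μ hμ)) hb hμ, blk_fl (H b hb μ hμ) ha]

/-- the exchange of two axes in every block -/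
def SW (O Q M β : ℕ) (l : List Bool) : List Bool :=
  fl O fun o => swapF Q M β (blk (Q * M * Q * β) o l)

/-- positions in an array of shape `[O][Q][M][Q][β]` -/
def p5 (Q M β o a μ b z : ℕ) : ℕ := (((o * Q + a) * M + μ) * Q + b) * β + z

lemma length_SW {O Q M β : ℕ} {l : List Bool} (hl : l.length = O * (Q * M * Q * β)) :
    (SW O Q M β l).length = O * (Q * M * Q * β) :=
  length_fl fun _ ho => length_swapF (length_blk' hl ho)

lemma p5_eq (Q M β o a μ b z : ℕ) :
    p5 Q M β o a μ b z = o * (Q * M * Q * β) + (((a * M + μ) * Q + b) * β + z) := by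
  unfold p5; ring

lemma bit_SW {O Q M β o a μ b z : ℕ} {l : List Bool} (hl : l.length = O * (Q * M * Q * β))
    (ho : o < O) (ha : a < Q) (hμ : μ < M) (hb : b < Q) (hz : z < β) :
    bit (SW O Q M β l) (p5 Q M β o a μ b z) = bit l (p5 Q M β o b μ a z) := by
  rw [p5_eq, p5_eq, SW, bit_fl (fun _ ho => length_swapF (length_blk' hl ho)) ho
    (lt_mul_of_lt (lt_mul_of_lt (lt_mul_of_lt ha hμ) hb) hz),
    bit_swapF (length_blk' hl ho) hb hμ ha hz,
    bit_blk _ (lt_mul_of_lt (lt_mul_of_lt (lt_mul_of_lt hb hμ) ha) hz)]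

lemma exists_p5 {O Q M β y : ℕ} (hy : y < O * (Q * M * Q * β)) :
    ∃ o < O, ∃ a < Q, ∃ μ < M, ∃ b < Q, ∃ z < β, y = p5 Q M β o a μ b z := by
  obtain ⟨o, ho, y1, h1, rfl⟩ := exists_dec hy
  obtain ⟨y2, h2, z, hz, rfl⟩ := exists_dec h1
  obtain ⟨y3, h3, b, hb, rfl⟩ := exists_dec h2
  obtain ⟨a, ha, μ, hμ, rfl⟩ := exists_dec h3
  exact ⟨o, ho, a, ha, μ, hμ, b, hb, z, hz, (p5_eq ..).symm⟩

lemma eq_SW {O Q M β : ℕ} {l l' : List Bool} (hl : l.length = O * (Q * M * Q * β))
    (hl' : l'.length = O * (Q * M * Q * β))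
    (h : ∀ o < O, ∀ a < Q, ∀ μ < M, ∀ b < Q, ∀ z < β,
      bit l' (p5 Q M β o a μ b z) = bit l (p5 Q M β o b μ a z)) : l' = SW O Q M β l := by
  refine ext_bit hl' (length_SW hl) fun y hy => ?_
  obtain ⟨o, ho, a, ha, μ, hμ, b, hb, z, hz, rfl⟩ := exists_p5 hy
  rw [h o ho a ha μ hμ b hb z hz, bit_SW hl ho ha hμ hb hz]

lemma SW_split {O Q R M β : ℕ} {l : List Bool} (hl : l.length = O * (Q * R * M * (Q * R) * β)) :
    SW O Q (R * M) (R * β) (SW (O * Q) R (M * Q) β l) = SW O (Q * R) M β l := by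
  have h1 : l.length = O * Q * (R * (M * Q) * R * β) := by rw [hl]; ring
  have h2 : (SW (O * Q) R (M * Q) β l).length = O * (Q * (R * M) * Q * (R * β)) := by
    rw [length_SW h1]; ring
  refine eq_SW hl (by rw [length_SW h2]; ring) fun o ho a ha μ hμ b hb z hz => ?_
  obtain ⟨a1, ha1, a2, ha2, rfl⟩ := exists_dec ha
  obtain ⟨b1, hb1, b2, hb2, rfl⟩ := exists_dec hb
  have e1 : p5 (Q * R) M β o (a1 * R + a2) μ (b1 * R + b2) z =
      p5 Q (R * M) (R * β) o a1 (a2 * M + μ) b1 (b2 * β + z) := by unfold p5; ring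
  have e2 : p5 Q (R * M) (R * β) o b1 (a2 * M + μ) a1 (b2 * β + z) =
      p5 R (M * Q) β (o * Q + b1) a2 (μ * Q + a1) b2 z := by unfold p5; ring
  rw [e1, bit_SW h2 ho ha1 (lt_mul_of_lt ha2 hμ) hb1 (lt_mul_of_lt hb2 hz), e2,
    bit_SW h1 (lt_mul_of_lt ho hb1) ha2 (lt_mul_of_lt hμ ha1) hb2 hz]
  congr 1
  unfold p5; ring

lemma SW_tr {O Q M W β : ℕ} {l : List Bool} (hl : l.length = O * (Q * M * Q * (W * β))) :
    trF W (O * (Q * M * Q)) β (SW (W * O) Q M β (trF (O * (Q * M * Q)) W β l)) =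
      SW O Q M (W * β) l := by
  have h1 : l.length = O * (Q * M * Q) * W * β := by rw [hl]; ring
  have h2 : (trF (O * (Q * M * Q)) W β l).length = W * O * (Q * M * Q * β) := by
    rw [length_trF h1]; ring
  have h3 : (SW (W * O) Q M β (trF (O * (Q * M * Q)) W β l)).length =
      W * (O * (Q * M * Q)) * β := by rw [length_SW h2]; ring
  refine eq_SW hl (by rw [length_trF h3]; ring) fun o ho a ha μ hμ b hb z0 hz0 => ?_
  obtain ⟨w, hw, z, hz, rfl⟩ := exists_dec hz0
  have e1 : ∀ a b, p5 Q M (W * β) o a μ b (w * β + z) =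
      ((o * (Q * M * Q) + ((a * M + μ) * Q + b)) * W + w) * β + z := by
    intro a b; unfold p5; ring
  have e2 : ∀ a b, (w * (O * (Q * M * Q)) + (o * (Q * M * Q) + ((a * M + μ) * Q + b))) * β + z =
      p5 Q M β (w * O + o) a μ b z := by
    intro a b; unfold p5; ring
  rw [e1, e1, bit_trF h3 hw (lt_mul_of_lt ho (lt_mul_of_lt (lt_mul_of_lt ha hμ) hb)) hz, e2,
    bit_SW h2 (lt_mul_of_lt hw ho) ha hμ hb hz, ← e2,
    bit_trF h1 (lt_mul_of_lt ho (lt_mul_of_lt (lt_mul_of_lt hb hμ) ha)) hw hz]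

/-- padding or truncation of all blocks -/
def padF (n L L' : ℕ) (l : List Bool) : List Bool := fl n fun o => (blk L o l).takeD L' false

lemma length_padF (n L L' : ℕ) (l : List Bool) : (padF n L L' l).length = n * L' :=
  length_fl fun _ _ => List.takeD_length _ _ _

lemma bit_takeD (l : List Bool) : ∀ {L z : ℕ}, z < L → bit (l.takeD L false) z = bit l z := by
  induction l with
  | nil => intro L z hz; simp [bit, List.getD_eq_getElem?_getD, hz]
  | cons b l ih =>
    intro L z hz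
    obtain ⟨L, rfl⟩ : ∃ k, L = k + 1 := ⟨L - 1, by omega⟩
    rcases z with _ | z
    · rfl
    · exact ih (by omega)

lemma bit_padF {n L L' o z : ℕ} (l : List Bool) (ho : o < n) (hz : z < L) (hz' : z < L') :
    bit (padF n L L' l) (o * L' + z) = bit l (o * L + z) := by
  rw [padF, bit_fl (fun _ _ => List.takeD_length _ _ _) ho hz', bit_takeD _ hz', bit_blk _ hz]

lemma SW_pad {Q M β β' : ℕ} {l : List Bool} (hl : l.length = Q * M * Q * β) (h : β ≤ β') :
    padF (Q * M * Q) β' β (SW 1 Q M β' (padF (Q * M * Q) β β' l)) = swapF Q M β l := by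
  have e : SW 1 Q M β l = swapF Q M β l := by rw [SW, fl_one, blk_zero_self hl]
  rw [← e]
  refine eq_SW (by rw [hl, one_mul]) (by rw [length_padF, one_mul])
    fun o ho a ha μ hμ b hb z hz => ?_
  obtain rfl : o = 0 := by omega
  have e1 : ∀ a b β, p5 Q M β 0 a μ b z = ((a * M + μ) * Q + b) * β + z := by
    intro a b β; simp [p5]
  rw [e1, e1, bit_padF _ (lt_mul_of_lt (lt_mul_of_lt ha hμ) hb) (by omega) hz, ← e1,
    bit_SW (by rw [length_padF, one_mul]) one_pos ha hμ hb (by omega), e1,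
    bit_padF _ (lt_mul_of_lt (lt_mul_of_lt hb hμ) ha) hz (by omega)]

/-! ### digits -/

section Digits
variable (m q M β : ℕ)

/-- the stride of digit `k` in an array of shape `[O][q ^ m][M][q ^ m][β]` -/
def st (k : ℕ) : ℕ := q ^ min k (2 * m) * (if k < m then 1 else M) * β

/-- the part of a position below digit `t` -/
def low (t : ℕ) (r : ℕ × ℕ × ℕ) (x : ℕ → ZMod q) : ℕ :=
  r.2.2 + ∑ k ∈ range t, (x k).val * st m q M β k + if m ≤ t then r.2.1 * (q ^ m * β) else 0

/-- the position with spectator indices `r` and digits `x` -/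
def pos (r : ℕ × ℕ × ℕ) (x : ℕ → ZMod q) : ℕ := r.1 * st m q M β (2 * m) + low m q M β (2 * m) r x

/-- the length of the array -/
def nn (O : ℕ) : ℕ := O * (q ^ m * M * q ^ m * β)

/-- valid spectator indices -/
def Val (O M β : ℕ) (r : ℕ × ℕ × ℕ) : Prop := r.1 < O ∧ r.2.1 < M ∧ r.2.2 < β

variable {m q M β} {O : ℕ} {r : ℕ × ℕ × ℕ}

lemma st_lo {k : ℕ} (h : k < m) : st m q M β k = q ^ k * β := by
  rw [st, if_pos h, min_eq_left (by omega), mul_one]

lemma st_hi {k : ℕ} (h : m ≤ k) (h' : k ≤ 2 * m) : st m q M β k = q ^ k * M * β := by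
  rw [st, if_neg (by omega), min_eq_left h']

lemma nn_eq : nn m q M β O = O * st m q M β (2 * m) := by
  rw [nn, st_hi (by omega) le_rfl, two_mul, pow_add]; ring

lemma st_dvd {t u : ℕ} (h : t < u) (hu : u ≤ 2 * m) : q * st m q M β t ∣ st m q M β u := by
  obtain ⟨d, rfl⟩ : ∃ d, u = t + 1 + d := ⟨u - t - 1, by omega⟩
  by_cases h1 : t + 1 + d < m
  · rw [st_lo h1, st_lo (by omega)]
    exact ⟨q ^ d, by ring⟩
  rw [st_hi (k := t + 1 + d) (by omega) hu]
  by_cases h2 : t < m
  · rw [st_lo h2]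
    exact ⟨q ^ d * M, by ring⟩
  · rw [st_hi (by omega) (by omega)]
    exact ⟨q ^ d, by ring⟩

lemma st_dvd_nn {t : ℕ} (h : t < 2 * m) : q * st m q M β t ∣ nn m q M β O := by
  rw [nn_eq]; exact (st_dvd h le_rfl).mul_left _

lemma le_st (hq : 0 < q) (hM : 0 < M) (t : ℕ) : β ≤ st m q M β t := by
  refine Nat.le_mul_of_pos_left _ (Nat.mul_pos (by positivity) ?_)
  split_ifs
  · exact one_pos
  · exact hM

variable [NeZero q]

lemma low_lt (hm : 0 < m) (hr : Val O M β r) (x : ℕ → ZMod q) {t : ℕ} (ht : t ≤ 2 * m) :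
    low m q M β t r x < st m q M β t := by
  induction t with
  | zero => simpa [low, st_lo hm, hm.ne'] using hr.2.2
  | succ t ih =>
    have h1 := ih (by omega)
    have h2 : ((x t).val + 1) * st m q M β t ≤ q * st m q M β t :=
      Nat.mul_le_mul_right _ (ZMod.val_lt (x t))
    rw [add_mul, one_mul] at h2
    unfold low at h1 ⊢
    rw [sum_range_succ]
    rcases lt_trichotomy (t + 1) m with h | h | h
    · rw [if_neg (by omega)] at h1 ⊢
      have : st m q M β (t + 1) = q * st m q M β t := by rw [st_lo h, st_lo (by omega)]; ring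
      omega
    · rw [if_neg (by omega)] at h1
      rw [if_pos (by omega)]
      have e1 : q * st m q M β t = q ^ m * β := by rw [st_lo (by omega), ← h]; ring
      have e2 : st m q M β (t + 1) = M * (q ^ m * β) := by
        rw [st_hi (by omega) ht, h]; ring
      have h3 : (r.2.1 + 1) * (q ^ m * β) ≤ M * (q ^ m * β) := Nat.mul_le_mul_right _ hr.2.1
      rw [add_mul, one_mul] at h3
      omega
    · rw [if_pos (by omega)] at h1 ⊢
      have : st m q M β (t + 1) = q * st m q M β t := by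
        rw [st_hi (by omega) ht, st_hi (by omega) (by omega)]; ring
      omega

lemma pos_lt (hm : 0 < m) (hr : Val O M β r) (x : ℕ → ZMod q) :
    pos m q M β r x < nn m q M β O := by
  rw [nn_eq]; exact lt_mul_of_lt hr.1 (low_lt hm hr x le_rfl)

omit [NeZero q] in
lemma pos_dec (r : ℕ × ℕ × ℕ) (x : ℕ → ZMod q) {t : ℕ} (ht : t < 2 * m) : ∃ H, ∀ s,
    pos m q M β r (Function.update x t s) = (H * q + s.val) * st m q M β t + low m q M β t r x := by
  have h1 : q * st m q M β t ∣ r.1 * st m q M β (2 * m) +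
      ∑ k ∈ Ico (t + 1) (2 * m), (x k).val * st m q M β k +
        if m ≤ t then 0 else r.2.1 * (q ^ m * β) := by
    refine (((st_dvd ht le_rfl).mul_left _).add (dvd_sum fun k hk => ?_)).add ?_
    · rw [mem_Ico] at hk
      exact (st_dvd (by omega) hk.2.le).mul_left _
    · split_ifs with h
      · exact dvd_zero _
      · rw [st_lo (by omega), ← mul_assoc, ← pow_succ']
        exact (mul_dvd_mul_right (pow_dvd_pow _ (by omega)) _).mul_left _
  obtain ⟨H, hH⟩ := h1
  refine ⟨H, fun s => ?_⟩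
  have e1 : ∑ k ∈ range t, (Function.update x t s k).val * st m q M β k =
      ∑ k ∈ range t, (x k).val * st m q M β k :=
    sum_congr rfl fun k hk => by rw [Function.update_of_ne (mem_range.1 hk).ne]
  have e2 : ∑ k ∈ Ico (t + 1) (2 * m), (Function.update x t s k).val * st m q M β k =
      ∑ k ∈ Ico (t + 1) (2 * m), (x k).val * st m q M β k :=
    sum_congr rfl fun k hk => by rw [Function.update_of_ne (by rw [mem_Ico] at hk; omega)]
  have e3 : (H * q + s.val) * st m q M β t = q * st m q M β t * H + s.val * st m q M β t := by ring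
  rw [e3, ← hH, pos, low, low, ← sum_range_add_sum_Ico _ (Nat.succ_le_of_lt ht), sum_range_succ,
    e1, e2, Function.update_self, if_pos (by omega)]
  split_ifs <;> ring

lemma pos_dig (hm : 0 < m) (hr : Val O M β r) (x : ℕ → ZMod q) {t : ℕ} (ht : t < 2 * m) :
    pos m q M β r x / st m q M β t % q = (x t).val := by
  obtain ⟨H, hH⟩ := pos_dec (M := M) (β := β) r x ht
  have h := hH (x t)
  rw [Function.update_eq_self] at h
  rw [h, dec_dig (ZMod.val_lt _) (low_lt hm hr x ht.le)]

lemma pos_update (hm : 0 < m) (hr : Val O M β r) (x : ℕ → ZMod q) {t : ℕ} (ht : t < 2 * m)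
    (s : ZMod q) : pos m q M β r (Function.update x t s) =
      setd (st m q M β t) q (pos m q M β r x) s.val := by
  obtain ⟨H, hH⟩ := pos_dec (M := M) (β := β) r x ht
  have h := hH (x t)
  rw [Function.update_eq_self] at h
  rw [h, dec_setd (ZMod.val_lt _) (low_lt hm hr x ht.le), hH]

/-- the number with digits `x (c + k)`, `k < m` -/
def num (m c : ℕ) (x : ℕ → ZMod q) : ℕ := ∑ k ∈ range m, (x (c + k)).val * q ^ k

omit [NeZero q] in
lemma pos_eq (r : ℕ × ℕ × ℕ) (x : ℕ → ZMod q) :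
    pos m q M β r x = p5 (q ^ m) M β r.1 (num m m x) r.2.1 (num m 0 x) r.2.2 := by
  have e1 : ∑ k ∈ range m, (x k).val * st m q M β k = num m 0 x * β := by
    rw [num, sum_mul]
    exact sum_congr rfl fun k hk => by rw [st_lo (mem_range.1 hk), zero_add, mul_assoc]
  have e2 : ∑ k ∈ range m, (x (m + k)).val * st m q M β (m + k) = num m m x * (M * q ^ m * β) := by
    rw [num, sum_mul]
    refine sum_congr rfl fun k hk => ?_
    have := mem_range.1 hk
    rw [st_hi (by omega) (by omega)]; ring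
  rw [pos, low, if_pos (by omega), st_hi (by omega) le_rfl, two_mul, sum_range_add, e1, e2, p5]
  ring

omit [NeZero q] in
lemma exists_num {A B : ℕ} (hA : A < q ^ m) (hB : B < q ^ m) :
    ∃ x : ℕ → ZMod q, num m m x = A ∧ num m 0 x = B := by
  have key : ∀ B n : ℕ, ∑ k ∈ range n, ((B / q ^ k : ℕ) : ZMod q).val * q ^ k = B % q ^ n := by
    intro B n
    induction n with
    | zero => simp [Nat.mod_one]
    | succ n ih => rw [sum_range_succ, ih, Nat.mod_pow_succ, ZMod.val_natCast, mul_comm]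
  refine ⟨fun k => if k < m then ((B / q ^ k : ℕ) : ZMod q) else ((A / q ^ (k - m) : ℕ) : ZMod q),
    ?_, ?_⟩
  · refine Eq.trans ?_ ((key A m).trans (Nat.mod_eq_of_lt hA))
    exact sum_congr rfl fun k _ => by simp
  · refine Eq.trans ?_ ((key B m).trans (Nat.mod_eq_of_lt hB))
    exact sum_congr rfl fun k hk => by simp [mem_range.1 hk]

end Digits

end Vale.Agent.P338.Sw
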