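import Vale.Agent.P338.SwapA
import Vale.Agent.P338.NetD

/-! Job J7, part B: reindexing by maps on digit vectors. -/

namespace Vale.Agent.P338.Sw

open PT Finset Function

/-- `f` reindexes arrays by the map `g` on digits -/
def Imp (m q M β O : ℕ) (f : List Bool → List Bool) (g : (ℕ → ZMod q) → ℕ → ZMod q) : Prop :=
  ∀ l, l.length = nn m q M β O → (f l).length = nn m q M β O ∧
    ∀ r, Val O M β r → ∀ x, bit (f l) (pos m q M β r x) = bit l (pos m q M β r (g x))

section Defs
variable (m q M β O : ℕ)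

def dig (t : ℕ) (π : ℕ → ℕ → ℕ) (l : List Bool) : List Bool :=
  ax3 (nn m q M β O / (q * st m q M β t)) q (st m q M β t) π l

def SH (t u c : ℕ) : List Bool → List Bool :=
  dig m q M β O t fun o a => (a + c * (o / (st m q M β u / (q * st m q M β t)) % q)) % q

def NG (t : ℕ) : List Bool → List Bool := dig m q M β O t fun _ s => (q - s) % q

def SC (t r : ℕ) : List Bool → List Bool := dig m q M β O t fun _ s => r * s % q

def US (t r : ℕ) : List Bool → List Bool := dig m q M β O t fun _ s => minv r q * s % q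

def SHL (n : ℕ) (t u c : ℕ → ℕ) (l : List Bool) : List Bool :=
  (List.range n).foldl (fun l i => SH m q M β O (t i) (u i) (c i) l) l

def NGL (n : ℕ) (l : List Bool) : List Bool :=
  (List.range n).foldl (fun l i => NG m q M β O i l) l

/-- the exchange of the digits `s < t` -/
def SWD (s t : ℕ) : List Bool → List Bool :=
  SW (nn m q M β O / (q * st m q M β t)) q (st m q M β t / (q * st m q M β s)) (st m q M β s)

end Defs

variable {m q M β O : ℕ} {f f' : List Bool → List Bool} {g g' : (ℕ → ZMod q) → ℕ → ZMod q}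

lemma pos_congr (r : ℕ × ℕ × ℕ) {x y : ℕ → ZMod q} (h : ∀ k < 2 * m, x k = y k) :
    pos m q M β r x = pos m q M β r y := by
  unfold pos low
  rw [sum_congr rfl fun k hk => by rw [h k (mem_range.1 hk)]]

lemma Imp.comp (h : Imp m q M β O f g) (h' : Imp m q M β O f' g') :
    Imp m q M β O (fun l => f' (f l)) fun x => g (g' x) := fun l hl =>
  ⟨(h' _ (h l hl).1).1, fun r hr x => ((h' _ (h l hl).1).2 r hr x).trans ((h l hl).2 r hr _)⟩

lemma Imp.congr (h : Imp m q M β O f g) (H : ∀ x, ∀ k < 2 * m, g x k = g' x k) :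
    Imp m q M β O f g' := fun l hl =>
  ⟨(h l hl).1, fun r hr x => by rw [(h l hl).2 r hr x, pos_congr r (H x)]⟩

lemma Imp.congr_fun (h : Imp m q M β O f g) (H : ∀ l, l.length = nn m q M β O → f' l = f l) :
    Imp m q M β O f' g := fun l hl => by rw [H l hl]; exact h l hl

lemma Imp.id : Imp m q M β O (fun l => l) fun x => x := fun _ hl => ⟨hl, fun _ _ _ => rfl⟩

variable [NeZero q]

lemma imp_dig (hm : 0 < m) {t : ℕ} (ht : t < 2 * m) {π : ℕ → ℕ → ℕ}
    (hπ : ∀ o s, s < q → π o s < q) {h : (ℕ → ZMod q) → ZMod q}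
    (H : ∀ r, Val O M β r → ∀ x,
      π (pos m q M β r x / (q * st m q M β t)) (x t).val = (h x).val) :
    Imp m q M β O (dig m q M β O t π) fun x => update x t (h x) := by
  intro l hl
  have e : nn m q M β O = nn m q M β O / (q * st m q M β t) * q * st m q M β t := by
    rw [mul_assoc, Nat.div_mul_cancel (st_dvd_nn ht)]
  refine ⟨(length_ax3 (hl.trans e) hπ).trans e.symm, fun r hr x => ?_⟩
  obtain ⟨K, hK⟩ := pos_dec (M := M) (β := β) r x ht
  have h1 := hK (x t)
  rw [update_eq_self] at h1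
  have h2 := low_lt hm hr x ht.le
  have h3 : pos m q M β r x / (q * st m q M β t) = K := by rw [h1, dec_hi (ZMod.val_lt _) h2]
  have h4 : K < nn m q M β O / (q * st m q M β t) :=
    h3 ▸ Nat.div_lt_div_of_lt_of_dvd (st_dvd_nn ht) (pos_lt hm hr x)
  rw [hK, ← H r hr x, h3, h1, dig, bit_ax3 (hl.trans e) hπ h4 (ZMod.val_lt _) h2]

lemma qpos : 0 < q := Nat.pos_of_ne_zero (NeZero.ne q)

lemma imp_SH (hm : 0 < m) {t u c : ℕ} (ht : t < 2 * m) (h : c = 0 ∨ (t < u ∧ u < 2 * m)) :
    Imp m q M β O (SH m q M β O t u c) fun x => update x t (x t + c * x u) := by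
  refine imp_dig hm ht (fun _ _ _ => Nat.mod_lt _ qpos) fun r hr x => ?_
  rcases h with rfl | ⟨h1, h2⟩
  · simp [Nat.mod_eq_of_lt (ZMod.val_lt (x t))]
  · rw [Nat.div_div_eq_div_mul, Nat.mul_div_cancel' (st_dvd h1 h2.le), pos_dig hm hr x h2,
      ← ZMod.val_natCast]
    simp

lemma imp_NG (hm : 0 < m) {t : ℕ} (ht : t < 2 * m) :
    Imp m q M β O (NG m q M β O t) fun x => update x t (-x t) := by
  refine imp_dig hm ht (fun _ _ _ => Nat.mod_lt _ qpos) fun r hr x => ?_
  rw [← ZMod.val_natCast, Nat.cast_sub (ZMod.val_lt _).le]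
  simp

lemma imp_SC (hm : 0 < m) {t : ℕ} (ht : t < 2 * m) (c : ℕ) :
    Imp m q M β O (SC m q M β O t c) fun x => update x t (c * x t) := by
  refine imp_dig hm ht (fun _ _ _ => Nat.mod_lt _ qpos) fun r hr x => ?_
  rw [← ZMod.val_natCast]
  simp

lemma imp_US (hm : 0 < m) {t : ℕ} (ht : t < 2 * m) (c : ℕ) :
    Imp m q M β O (US m q M β O t c) fun x => update x t ((minv c q : ℕ) * x t) :=
  imp_SC hm ht _

lemma imp_SHL (hm : 0 < m) {n : ℕ} {t u c : ℕ → ℕ}
    (h1 : ∀ i < n, t i < 2 * m ∧ (c i = 0 ∨ (t i < u i ∧ u i < 2 * m)))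
    (h2 : ∀ i < n, ∀ j < n, c i = 0 ∨ c j = 0 ∨ u i ≠ t j) :
    Imp m q M β O (SHL m q M β O n t u c)
      fun x k => x k + ∑ i ∈ range n, if t i = k then (c i : ZMod q) * x (u i) else 0 := by
  induction n with
  | zero => exact Imp.id.congr fun x k _ => by simp
  | succ n ih =>
    refine (((ih (fun i hi => h1 i (by omega)) fun i hi j hj => h2 i (by omega) j (by omega)).comp
      (imp_SH hm (h1 n (by omega)).1 (h1 n (by omega)).2)).congr_fun fun l _ => ?_).congr
      fun x k _ => ?_
    · simp [SHL, List.range_succ]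
    · have e : ∀ i ∈ range n, (c i : ZMod q) * update x (t n) (x (t n) + c n * x (u n)) (u i) =
          c i * x (u i) := by
        intro i hi
        rcases h2 i (by have := mem_range.1 hi; omega) n (by omega) with h | h | h
        · simp [h]
        · simp [h]
        · rw [update_of_ne h]
      rw [sum_range_succ, sum_congr rfl fun i hi => by rw [e i hi]]
      by_cases hk : t n = k
      · subst hk; simp; ring
      · rw [update_of_ne (Ne.symm hk), if_neg hk, add_zero]

lemma imp_NGL (hm : 0 < m) {n : ℕ} (hn : n ≤ 2 * m) :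
    Imp m q M β O (NGL m q M β O n) fun x k => if k < n then -x k else x k := by
  induction n with
  | zero => exact Imp.id.congr fun x k _ => by simp
  | succ n ih =>
    refine (((ih (by omega)).comp (imp_NG (t := n) hm (by omega))).congr_fun fun l _ => ?_).congr
      fun x k _ => ?_
    · simp [NGL, List.range_succ]
    · rcases lt_trichotomy k n with h | rfl | h
      · rw [if_pos h, if_pos (by omega), update_of_ne h.ne]
      · simp
      · rw [if_neg (by omega), if_neg (by omega), update_of_ne h.ne']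

omit [NeZero q] in
lemma nn_SWD {s t : ℕ} (h : s < t) (ht : t < 2 * m) :
    nn m q M β O / (q * st m q M β t) *
      (q * (st m q M β t / (q * st m q M β s)) * q * st m q M β s) = nn m q M β O := by
  rw [mul_assoc (q * _), mul_assoc q, Nat.div_mul_cancel (st_dvd h ht.le),
    Nat.div_mul_cancel (st_dvd_nn ht)]

lemma imp_SWD (hm : 0 < m) {s t : ℕ} (h : s < t) (ht : t < 2 * m) :
    Imp m q M β O (SWD m q M β O s t) fun x => update (update x t (x s)) s (x t) := by
  intro l hl
  have e := nn_SWD (q := q) (M := M) (β := β) (O := O) h ht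
  refine ⟨(length_SW (hl.trans e.symm)).trans e, fun r hr x => ?_⟩
  have h1 := pos_dig hm hr x ht
  have h2 := pos_dig hm hr x (h.trans ht)
  rw [pos_update hm hr _ (h.trans ht), pos_update hm hr _ ht, ← h1, ← h2]
  obtain ⟨o, ho, a, ha, μ, hμ, b, hb, z, hz, hp⟩ := exists_p5 (e.symm ▸ pos_lt hm hr x)
  have e2 := Nat.div_mul_cancel (st_dvd (q := q) (M := M) (β := β) h ht.le)
  rw [hp, SWD, bit_SW (hl.trans e.symm) ho ha hμ hb hz]
  generalize st m q M β t / (q * st m q M β s) = M' at *
  generalize st m q M β s = σ at *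
  rw [← e2]
  have h3 : (μ * q + b) * σ + z < M' * (q * σ) := by
    rw [← mul_assoc]; exact lt_mul_of_lt (lt_mul_of_lt hμ hb) hz
  have e3 : ∀ a, p5 q M' σ o a μ b z = (o * q + a) * (M' * (q * σ)) + ((μ * q + b) * σ + z) := by
    intro a; unfold p5; ring
  have e4 : p5 q M' σ o a μ b z / σ % q = b := dec_dig hb hz
  rw [e4, e3, dec_dig ha h3, dec_setd ha h3, ← e3, p5, p5, dec_setd hb hz]

omit [NeZero q] in
lemma eq_SW_of_imp (h : Imp m q M β O f g)
    (H : ∀ x, ∀ k < m, g x k = x (m + k) ∧ g x (m + k) = x k) {l : List Bool}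
    (hl : l.length = nn m q M β O) : f l = SW O (q ^ m) M β l := by
  refine eq_SW hl (h l hl).1 fun o ho a ha μ hμ b hb z hz => ?_
  obtain ⟨x, rfl, rfl⟩ := exists_num ha hb
  have h1 := (h l hl).2 (o, μ, z) ⟨ho, hμ, hz⟩ x
  have e1 : num m m (g x) = num m 0 x :=
    sum_congr rfl fun k hk => by rw [(H x k (mem_range.1 hk)).2, zero_add]
  have e2 : num m 0 (g x) = num m m x :=
    sum_congr rfl fun k hk => by rw [zero_add, (H x k (mem_range.1 hk)).1]
  rwa [pos_eq, pos_eq, e1, e2] at h1

/-! ### the action of integer matrices -/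

/-- `a += κ Mat b` -/
def act (m : ℕ) {q : ℕ} (κ : ZMod q) (A : Matrix (Fin m) (Fin m) ℤ) (x : ℕ → ZMod q) :
    ℕ → ZMod q := fun k => x k +
  if h : m ≤ k ∧ k < 2 * m then κ * ∑ j : Fin m, (A ⟨k - m, by omega⟩ j : ZMod q) * x j else 0

omit [NeZero q] in
lemma act_lo (κ : ZMod q) (A : Matrix (Fin m) (Fin m) ℤ) (x : ℕ → ZMod q) {k : ℕ} (hk : k < m) :
    act m κ A x k = x k := by
  rw [act, dif_neg (by omega), add_zero]

omit [NeZero q] in
lemma act_hi (κ : ZMod q) (A : Matrix (Fin m) (Fin m) ℤ) (x : ℕ → ZMod q) {k : ℕ} (hk : k < m) :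
    act m κ A x (m + k) = x (m + k) + κ * ∑ j : Fin m, (A ⟨k, hk⟩ j : ZMod q) * x j := by
  rw [act, dif_pos (by omega)]
  simp

omit [NeZero q] in
lemma act_add (κ : ZMod q) (A B : Matrix (Fin m) (Fin m) ℤ) (x : ℕ → ZMod q) :
    act m κ (A + B) x = act m κ B (act m κ A x) := by
  funext k
  have e : ∀ j : Fin m, act m κ A x j = x j := fun j => act_lo κ A x j.2
  rw [act, act]
  simp only [e]
  rw [act]
  split_ifs
  · simp only [Matrix.add_apply, Int.cast_add, add_mul, sum_add_distrib]; ring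
  · simp

omit [NeZero q] in
lemma act_zero (κ : ZMod q) (x : ℕ → ZMod q) : act m κ 0 x = x := by
  funext k; simp [act]

/-- one level: the exchange from the upper shear -/
lemma imp_level (hm : 0 < m) {κ : ZMod q} (hκ : 216 * κ = 1)
    (h : Imp m q M β O f (act m κ ((216 : ℤ) • 1))) {l : List Bool}
    (hl : l.length = nn m q M β O) :
    SHL m q M β O m (fun i => i) (fun i => m + i) (fun _ => q - 1)
      (f (SHL m q M β O m (fun i => i) (fun i => m + i) (fun _ => q - 1) (NGL m q M β O m l))) =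
      SW O (q ^ m) M β l := by
  have hc : ((q - 1 : ℕ) : ZMod q) = -1 := by rw [Nat.cast_sub qpos]; simp
  have hL : Imp m q M β O (SHL m q M β O m (fun i => i) (fun i => m + i) (fun _ => q - 1))
      fun x k => if k < m then x k - x (m + k) else x k := by
    refine (imp_SHL hm (fun i hi => ⟨by omega, Or.inr ⟨by omega, by omega⟩⟩)
      fun i hi j hj => Or.inr (Or.inr (by omega))).congr fun x k _ => ?_
    simp only [hc, sum_ite_eq', mem_range]
    split_ifs <;> ring
  have hU : ∀ (x : ℕ → ZMod q) k, k < m →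
      act m κ ((216 : ℤ) • 1) x (m + k) = x (m + k) + x k := by
    intro x k hk
    rw [act_hi κ _ x hk, sum_eq_single ⟨k, hk⟩]
    · simp only [Matrix.smul_apply, Matrix.one_apply_eq, smul_eq_mul, mul_one, Int.cast_ofNat]
      linear_combination x k * hκ
    · intro j _ hj; simp [Matrix.one_apply_ne hj.symm]
    · simp
  refine eq_SW_of_imp ((((imp_NGL hm (by omega)).comp hL).comp h).comp hL) (fun x k hk => ?_) hl
  have hk' : ¬ m + k < m := by omega
  simp only [hk, hk', if_true, if_false, hU _ k hk, act_lo κ _ _ hk]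
  constructor <;> ring

end Vale.Agent.P338.Sw
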