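import Vale.Agent.P338.SwapB

/-! Job J7, part C: one pass of the network as a word in digit operations and one exchange. -/

namespace Vale.Agent.P338.Sw

open PT Finset Function

/-- the first index below `m` satisfying `p` -/
def fi (m : ℕ) (p : ℕ → Bool) : ℕ := ((List.range m).find? p).getD 0

lemma fi_spec {m : ℕ} {p : ℕ → Bool} (h : ∃ l < m, p l = true) :
    fi m p < m ∧ p (fi m p) = true ∧ ∀ l < fi m p, p l = false := by
  obtain ⟨l, hl, hp⟩ := h
  cases h0 : (List.range m).find? p with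
  | none => exact absurd hp (List.find?_eq_none.1 h0 l (List.mem_range.2 hl))
  | some i =>
    obtain ⟨h1, h2, h3⟩ := List.find?_range_eq_some.1 h0
    simp only [fi, h0, Option.getD_some]
    exact ⟨List.mem_range.1 h2, h1, fun l hl => by simpa using h3 l hl⟩

def jv (m : ℕ) (v : List ℤ) : ℕ := fi m fun l => decide (v.getD l 0 ≠ 0)

def iu (m : ℕ) (u : List ℤ) : ℕ := m - 1 - fi m fun l => decide (u.getD (m - 1 - l) 0 ≠ 0)

lemma exists_getD {m : ℕ} {v : List ℤ} (hl : v.length = m) (h : ∃ x ∈ v, x ≠ 0) :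
    ∃ l < m, v.getD l 0 ≠ 0 := by
  obtain ⟨x, hx, h0⟩ := h
  obtain ⟨l, h1, rfl⟩ := List.getElem_of_mem hx
  exact ⟨l, hl ▸ h1, by rwa [List.getD_eq_getElem _ _ h1]⟩

lemma jv_spec {m : ℕ} {v : List ℤ} (hl : v.length = m) (h : ∃ x ∈ v, x ≠ 0) :
    jv m v < m ∧ v.getD (jv m v) 0 ≠ 0 ∧ ∀ l < jv m v, v.getD l 0 = 0 := by
  obtain ⟨l, h1, h2⟩ := exists_getD hl h
  obtain ⟨a, b, c⟩ := fi_spec (p := fun l => decide (v.getD l 0 ≠ 0)) ⟨l, h1, decide_eq_true h2⟩
  exact ⟨a, of_decide_eq_true b, fun l hl => not_not.1 (of_decide_eq_false (c l hl))⟩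

lemma iu_spec {m : ℕ} {u : List ℤ} (hl : u.length = m) (h : ∃ x ∈ u, x ≠ 0) :
    iu m u < m ∧ u.getD (iu m u) 0 ≠ 0 ∧ ∀ l < m, iu m u < l → u.getD l 0 = 0 := by
  obtain ⟨l, h1, h2⟩ := exists_getD hl h
  obtain ⟨a, b, c⟩ := fi_spec (m := m) (p := fun l => decide (u.getD (m - 1 - l) 0 ≠ 0))
    ⟨m - 1 - l, by omega, decide_eq_true (by rwa [show m - 1 - (m - 1 - l) = l by omega])⟩
  refine ⟨by unfold iu; omega, of_decide_eq_true b, fun l h3 h4 => ?_⟩
  have := not_not.1 (of_decide_eq_false (c (m - 1 - l) (by unfold iu at h4; omega)))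
  rwa [show m - 1 - (m - 1 - l) = l by omega] at this

/-- an integer as a residue -/
def zn (q : ℕ) (z : ℤ) : ℕ := (z % q).toNat

/-- the inverse of an integer as a residue -/
def zi (q : ℕ) (z : ℤ) : ℕ := minv (zn q z) q

lemma cast_zn {q : ℕ} [NeZero q] (z : ℤ) : (zn q z : ZMod q) = z := by
  have h : (0 : ℤ) ≤ z % q := Int.emod_nonneg _ (by exact_mod_cast NeZero.ne q)
  rw [zn, ← Int.cast_natCast, Int.toNat_of_nonneg h, ZMod.intCast_mod]

lemma cop17 {w F : ℕ} (h : ¬ (17 : ℤ) ∣ w) : Nat.Coprime w (17 ^ F) :=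
  ((Nat.Prime.coprime_iff_not_dvd (by norm_num)).2 fun h' => h (by exact_mod_cast h')).symm.pow_right F

lemma mul_minv_cast {w F : ℕ} (h : ¬ (17 : ℤ) ∣ w) :
    (w : ZMod (17 ^ F)) * (minv w (17 ^ F) : ℕ) = 1 := by
  have := (ZMod.natCast_eq_natCast_iff _ _ _).2 (mul_minv (cop17 (F := F) h) (by positivity))
  simpa using this

lemma mul_zi {z : ℤ} {F : ℕ} (h : ¬ (17 : ℤ) ∣ z) :
    (z : ZMod (17 ^ F)) * (zi (17 ^ F) z : ℕ) = 1 := by
  rcases F with _ | F
  · exact Subsingleton.elim (α := ZMod 1) _ _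
  rw [← cast_zn z, zi]
  refine mul_minv_cast fun h' => h ?_
  have h0 : (0 : ℤ) ≤ z % (17 ^ (F + 1) : ℕ) := Int.emod_nonneg _ (by positivity)
  rw [zn, Int.toNat_of_nonneg h0] at h'
  rw [← Int.emod_add_mul_ediv z (17 ^ (F + 1) : ℕ)]
  refine h'.add (Dvd.dvd.mul_right ?_ _)
  push_cast
  exact dvd_pow_self _ (by omega)

section Defs
variable (m q M β O : ℕ) (p : List ℤ × List ℤ)

def cA (ε : ℤ) (l : ℕ) : ℕ :=
  if l < iu m p.1 then zn q (ε * p.1.getD l 0) * zi q (p.1.getD (iu m p.1) 0) else 0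

def cB (ε : ℤ) (l : ℕ) : ℕ :=
  if jv m p.2 < l then zn q (ε * p.2.getD l 0) * zi q (p.2.getD (jv m p.2) 0) else 0

def uv : ℤ := p.1.getD (iu m p.1) 0 * p.2.getD (jv m p.2) 0

def shA (ε : ℤ) : List Bool → List Bool :=
  SHL m q M β O m (fun l => m + l) (fun _ => m + iu m p.1) (cA m q p ε)

def shB (ε : ℤ) : List Bool → List Bool :=
  SHL m q M β O m (fun _ => jv m p.2) (fun l => l) (cB m q p ε)

def shL : List Bool → List Bool :=
  SH m q M β O (jv m p.2) (m + iu m p.1) (216 * zi q (uv m p))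

def scD (l : List Bool) : List Bool :=
  NG m q M β O (if uv m p < 0 then jv m p.2 else m + iu m p.1)
    (US m q M β O (m + iu m p.1) (uv m p).natAbs (SC m q M β O (m + iu m p.1) 216
      (US m q M β O (jv m p.2) 216 (SC m q M β O (jv m p.2) (uv m p).natAbs l))))

def preF (l : List Bool) : List Bool :=
  shL m q M β O p (shB m q M β O p (-1) (shA m q M β O p 1 l))

def postF (l : List Bool) : List Bool :=
  shA m q M β O p (-1) (shB m q M β O p 1 (shL m q M β O p (scD m q M β O p l)))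

end Defs

variable {m q M β O : ℕ} {p : List ℤ × List ℤ} [NeZero q]

lemma imp_shA (hm : 0 < m) (hi : iu m p.1 < m) (ε : ℤ) :
    Imp m q M β O (shA m q M β O p ε) fun x k =>
      if m ≤ k then x k + cA m q p ε (k - m) * x (m + iu m p.1) else x k := by
  refine (imp_SHL hm (fun l hl => ⟨by omega, ?_⟩) fun l _ l' _ => ?_).congr fun x k hk => ?_
  · by_cases h : l < iu m p.1
    · exact Or.inr ⟨by omega, by omega⟩
    · exact Or.inl (if_neg h)
  · by_cases h : l' < iu m p.1
    · exact Or.inr (Or.inr (by omega))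
    · exact Or.inr (Or.inl (if_neg h))
  · split_ifs with h
    · rw [sum_eq_single (k - m) (fun l _ hl => if_neg (by omega))
        (fun h' => absurd (mem_range.2 (by omega)) h'), if_pos (by omega)]
    · rw [sum_eq_zero fun l _ => if_neg (by omega), add_zero]

lemma imp_shB (hm : 0 < m) (hj : jv m p.2 < m) (ε : ℤ) :
    Imp m q M β O (shB m q M β O p ε) fun x =>
      update x (jv m p.2) (x (jv m p.2) + ∑ l ∈ range m, cB m q p ε l * x l) := by
  refine (imp_SHL hm (fun l hl => ⟨by omega, ?_⟩) fun l _ l' _ => ?_).congr fun x k hk => ?_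
  · by_cases h : jv m p.2 < l
    · exact Or.inr ⟨h, by omega⟩
    · exact Or.inl (if_neg h)
  · by_cases h : jv m p.2 < l
    · exact Or.inr (Or.inr (by omega))
    · exact Or.inl (if_neg h)
  · by_cases h : jv m p.2 = k
    · subst h; simp
    · simp [h, Ne.symm h]

lemma imp_scD (hm : 0 < m) (hi : iu m p.1 < m) (hj : jv m p.2 < m)
    (hw : ((uv m p).natAbs : ZMod q) * (minv (uv m p).natAbs q : ℕ) = 1)
    (hz : (uv m p : ZMod q) * (zi q (uv m p) : ℕ) = 1) :
    Imp m q M β O (scD m q M β O p) fun x =>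
      update (update x (m + iu m p.1) (-(216 * (zi q (uv m p) : ℕ)) * x (m + iu m p.1)))
        (jv m p.2) ((minv 216 q : ℕ) * uv m p * x (jv m p.2)) := by
  have hne : jv m p.2 ≠ m + iu m p.1 := by omega
  refine (((((imp_SC hm (by omega) _).comp (imp_US hm (by omega) 216)).comp
    (imp_SC hm (by omega) 216)).comp (imp_US hm (by omega) _)).comp
    (imp_NG hm (t := if uv m p < 0 then jv m p.2 else m + iu m p.1)
      (by split_ifs <;> omega))).congr fun x k _ => ?_
  have h1 : (((uv m p).natAbs : ℕ) : ZMod q) = ((|uv m p| : ℤ) : ZMod q) := by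
    rw [← Int.natCast_natAbs, Int.cast_natCast]
  generalize ((minv (uv m p).natAbs q : ℕ) : ZMod q) = ω at hw
  generalize ((zi q (uv m p) : ℕ) : ZMod q) = ι at hz
  rw [h1] at hw ⊢
  split_ifs with h
  · rw [abs_of_neg h, Int.cast_neg] at hw ⊢
    have e : ω = -ι := by linear_combination (-ω) * hz - ι * hw
    by_cases k1 : k = jv m p.2
    · subst k1; simp [hne]; ring
    by_cases k2 : k = m + iu m p.1
    · subst k2; simp [hne.symm, e]; ring
    · simp [k1, k2]
  · rw [abs_of_nonneg (not_lt.1 h)] at hw ⊢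
    have e : ω = ι := by linear_combination (-ω) * hz + ι * hw
    by_cases k1 : k = jv m p.2
    · subst k1; simp [hne]; ring
    by_cases k2 : k = m + iu m p.1
    · subst k2; simp [hne.symm, e]; ring
    · simp [k1, k2]

lemma imp_core (hm : 0 < m) (hi : iu m p.1 < m) (hj : jv m p.2 < m)
    (hκ : (216 : ZMod q) * (minv 216 q : ℕ) = 1)
    (hw : ((uv m p).natAbs : ZMod q) * (minv (uv m p).natAbs q : ℕ) = 1)
    (hz : (uv m p : ZMod q) * (zi q (uv m p) : ℕ) = 1) :
    Imp m q M β O (fun l => shL m q M β O p (scD m q M β O p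
      (SWD m q M β O (jv m p.2) (m + iu m p.1) (shL m q M β O p l)))) fun x =>
      update x (m + iu m p.1) (x (m + iu m p.1) + (minv 216 q : ℕ) * uv m p * x (jv m p.2)) := by
  have hne : jv m p.2 ≠ m + iu m p.1 := by omega
  have hL : Imp m q M β O (shL m q M β O p) _ :=
    imp_SH hm (by omega) (Or.inr ⟨by omega, by omega⟩)
  refine (((hL.comp (imp_SWD hm (by omega) (by omega))).comp (imp_scD hm hi hj hw hz)).comp
    hL).congr fun x k _ => ?_
  generalize ((minv 216 q : ℕ) : ZMod q) = κ at hκ ⊢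
  push_cast
  generalize ((zi q (uv m p) : ℕ) : ZMod q) = ι at hz ⊢
  have hl : 216 * ι * (κ * uv m p) = 1 := by linear_combination (ι * uv m p) * hκ + hz
  by_cases k1 : k = jv m p.2
  · subst k1
    simp only [update_self, update_of_ne hne, update_of_ne hne.symm]
    linear_combination (x (jv m p.2) + 216 * ι * x (m + iu m p.1)) * hl
  by_cases k2 : k = m + iu m p.1
  · subst k2
    simp only [update_self, update_of_ne hne.symm]
    linear_combination (x (m + iu m p.1)) * hl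
  · simp only [update_of_ne k1, update_of_ne k2]

omit [NeZero q] in
lemma okA_facts (h : OkA m p) : ¬ (17 : ℤ) ∣ p.1.getD (iu m p.1) 0 ∧
    ¬ (17 : ℤ) ∣ p.2.getD (jv m p.2) 0 ∧ ¬ (17 : ℤ) ∣ uv m p := by
  obtain ⟨l1, l2, n1, n2, h⟩ := h
  obtain ⟨a1, a2, -⟩ := iu_spec l1 n1
  obtain ⟨b1, b2, -⟩ := jv_spec l2 n2
  have c1 : ¬ (17 : ℤ) ∣ p.1.getD (iu m p.1) 0 := by
    refine (h _ (List.mem_append_left _ ?_)).resolve_left a2
    rw [List.getD_eq_getElem _ _ (l1 ▸ a1)]; exact List.getElem_mem _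
  have c2 : ¬ (17 : ℤ) ∣ p.2.getD (jv m p.2) 0 := by
    refine (h _ (List.mem_append_right _ ?_)).resolve_left b2
    rw [List.getD_eq_getElem _ _ (l2 ▸ b1)]; exact List.getElem_mem _
  exact ⟨c1, c2, fun h =>
    ((Int.prime_iff_natAbs_prime.2 (by norm_num)).dvd_or_dvd h).elim c1 c2⟩

lemma imp_mid (hm : 0 < m) (h : OkA m p) (hκ : (216 : ZMod q) * (minv 216 q : ℕ) = 1)
    (hw : ((uv m p).natAbs : ZMod q) * (minv (uv m p).natAbs q : ℕ) = 1)
    (hz : (uv m p : ZMod q) * (zi q (uv m p) : ℕ) = 1)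
    (hv : (p.2.getD (jv m p.2) 0 : ZMod q) * (zi q (p.2.getD (jv m p.2) 0) : ℕ) = 1) :
    Imp m q M β O (fun l => shB m q M β O p 1 (shL m q M β O p (scD m q M β O p
      (SWD m q M β O (jv m p.2) (m + iu m p.1) (shL m q M β O p (shB m q M β O p (-1) l))))))
      fun x => update x (m + iu m p.1) (x (m + iu m p.1) + (minv 216 q : ℕ) *
        p.1.getD (iu m p.1) 0 * ∑ l ∈ range m, (p.2.getD l 0 : ZMod q) * x l) := by
  obtain ⟨hi, -, -⟩ := iu_spec h.1 h.2.2.1
  obtain ⟨hj, -, h0⟩ := jv_spec h.2.1 h.2.2.2.1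
  have hne : jv m p.2 ≠ m + iu m p.1 := by omega
  refine (((imp_shB hm hj (-1)).comp (imp_core hm hi hj hκ hw hz)).comp (imp_shB hm hj 1)).congr
    fun x k _ => ?_
  have e1 : ∀ a b : ZMod q, ∑ l ∈ range m, (cB m q p (-1) l : ZMod q) *
      update (update x (jv m p.2) a) (m + iu m p.1) b l = -∑ l ∈ range m, cB m q p 1 l * x l := by
    intro a b
    rw [← sum_neg_distrib]
    refine sum_congr rfl fun l hl => ?_
    have := mem_range.1 hl
    unfold cB
    split_ifs with h1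
    · rw [update_of_ne (by omega), update_of_ne h1.ne']
      simp [cast_zn]
    · simp
  have e2 : (p.2.getD (jv m p.2) 0 : ZMod q) *
      (x (jv m p.2) + ∑ l ∈ range m, cB m q p 1 l * x l) =
        ∑ l ∈ range m, (p.2.getD l 0 : ZMod q) * x l := by
    rw [mul_add, mul_sum, ← sum_ite_eq_of_mem' (range m) (jv m p.2)
      (fun l => (p.2.getD l 0 : ZMod q) * x l) (mem_range.2 hj), ← sum_add_distrib]
    refine sum_congr rfl fun l _ => ?_
    unfold cB
    rcases lt_trichotomy l (jv m p.2) with h1 | h1 | h1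
    · rw [if_neg h1.ne, if_neg h1.not_gt, h0 l h1]; simp
    · rw [if_pos h1, if_neg (by omega)]; simp
    · rw [if_neg h1.ne', if_pos h1]
      push_cast
      rw [cast_zn, one_mul]
      linear_combination ((p.2.getD l 0 : ZMod q) * x l) * hv
  by_cases k1 : k = jv m p.2
  · subst k1
    simp only [update_self, update_of_ne hne, e1]
    ring
  by_cases k2 : k = m + iu m p.1
  · subst k2
    simp only [update_self, update_of_ne hne.symm, ← e2, uv]
    push_cast
    ring
  · simp only [update_of_ne k1, update_of_ne k2]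

omit [NeZero q] in
theorem imp_pass {F : ℕ} (hm : 0 < m) (h : OkA m p) :
    Imp m (17 ^ F) M β O (fun l => postF m (17 ^ F) M β O p
      (SWD m (17 ^ F) M β O (jv m p.2) (m + iu m p.1) (preF m (17 ^ F) M β O p l)))
      (act m (minv 216 (17 ^ F) : ℕ) (matA m p)) := by
  obtain ⟨c1, c2, c3⟩ := okA_facts h
  obtain ⟨hi, -, h0⟩ := iu_spec h.1 h.2.2.1
  have hu := mul_zi (F := F) c1
  refine (((imp_shA hm hi 1).comp (imp_mid hm h (mul_minv_cast (w := 216) (by norm_num))
    (mul_minv_cast (by rwa [Int.natCast_natAbs, dvd_abs])) (mul_zi c3) (mul_zi c2))).comp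
    (imp_shA hm hi (-1))).congr fun x k hk => ?_
  have e1 : ∑ l ∈ range m, (p.2.getD l 0 : ZMod (17 ^ F)) * (if m ≤ l then
      x l + cA m (17 ^ F) p (-1) (l - m) * x (m + iu m p.1) else x l) =
        ∑ l : Fin m, (p.2.getD l 0 : ZMod (17 ^ F)) * x l := by
    rw [Fin.sum_univ_eq_sum_range (fun l => (p.2.getD l 0 : ZMod (17 ^ F)) * x l) m]
    exact sum_congr rfl fun l hl => by rw [if_neg (mem_range.1 hl).not_ge]
  by_cases hk' : k < m
  · rw [act_lo _ _ _ hk', if_neg hk'.not_ge, update_of_ne (by omega), if_neg hk'.not_ge]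
  obtain ⟨k, rfl⟩ : ∃ l, k = m + l := ⟨k - m, by omega⟩
  have hk2 : k < m := by omega
  have e0 : ∀ ε, cA m (17 ^ F) p ε (iu m p.1) = 0 := fun ε => if_neg (lt_irrefl _)
  rw [act_hi _ _ _ hk2]
  simp only [matA, Matrix.vecMulVec_apply, Int.cast_mul, mul_assoc, ← mul_sum, e1, update_self,
    Nat.le_add_right, if_true, Nat.add_sub_cancel_left, e0, Nat.cast_zero, zero_mul, add_zero]
  generalize ∑ l : Fin m, (p.2.getD l 0 : ZMod (17 ^ F)) * x l = S
  rcases lt_trichotomy k (iu m p.1) with h1 | h1 | h1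
  · rw [update_of_ne (by omega)]
    simp only [cA, if_pos h1, Nat.le_add_right, if_true, Nat.add_sub_cancel_left]
    push_cast
    simp only [cast_zn]
    push_cast
    linear_combination ((minv 216 (17 ^ F) : ℕ) * (p.1.getD k 0 : ZMod (17 ^ F)) * S) * hu
  · subst h1
    simp [e0]
  · rw [update_of_ne (by omega), h0 k hk2 h1]
    simp [cA, h1.not_gt]

end Vale.Agent.P338.Sw
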