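import Vale.Agent.P338.SwapC
import Vale.Agent.P338.NetRec
import Vale.Agent.P338.Axis

/-! Job J7, part D: the network on wires, and the costs of the digit operations. -/

namespace Vale.Agent.P338.Sw

open PT Finset Function

/-- the first half plus `c` times the second half, over the field with two elements -/
def xorAx (n : ℕ) (c : ℤ) (l : List Bool) : List Bool :=
  if c % 2 = 0 then l.take n else List.zipWith xor (l.take n) (l.drop n)

def toZ (b : Bool) : ZMod 2 := if b then 1 else 0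

lemma toZ_inj {a b : Bool} (h : toZ a = toZ b) : a = b := by
  revert h; cases a <;> cases b <;> decide

lemma toZ_xor (a b : Bool) : toZ (xor a b) = toZ a + toZ b := by
  cases a <;> cases b <;> decide

lemma bit_xor {l l' : List Bool} (h : l.length = l'.length) (z : ℕ) :
    bit (List.zipWith xor l l') z = xor (bit l z) (bit l' z) := by
  by_cases hz : z < l.length
  · simp [bit, List.getD_eq_getElem?_getD, hz, h ▸ hz]
  · simp [bit, List.getD_eq_getElem?_getD, List.getElem?_zipWith,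
      List.getElem?_eq_none (not_lt.1 hz), List.getElem?_eq_none (h ▸ not_lt.1 hz)]

lemma flatten_eq_fl (L : List (List Bool)) : L.flatten = fl L.length fun w => L.getD w [] := by
  rw [← flatten_map_range]
  congr 1
  refine List.ext_getElem (by simp) fun i h1 h2 => ?_
  simp [List.getD_eq_getElem?_getD, h1]

theorem imp_net {m q M β O W Z : ℕ} [NeZero q] (hm : 0 < m) (hn : 0 < nn m q M β O)
    {prog : List (NI (List ℤ × List ℤ))} (κ : ZMod q)
    (h3 : ∀ (A V : Type) [CommRing A] [AddCommGroup V] [Module A V]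
      (O : Matrix (Fin m) (Fin m) ℤ → V →ₗ[A] V), (2 : A) = 0 →
      (∀ M N v, O (M + N) v = O M (O N v)) → (∀ v, O 0 v = v) →
      ∀ ξ : List V, ξ.length = W →
      (NI.run (fun p => O (matA m p)) (fun c => (c : A)) prog (ξ ++ List.replicate Z 0)).take W =
        ξ.map (O ((216 : ℤ) • 1)))
    {ps : List ℤ × List ℤ → List Bool → List Bool}
    (hp : ∀ w p, NI.pass w p ∈ prog → Imp m q M β O (ps p) (act m κ (matA m p))) :
    Imp m q M β (W * O) (fun l => ((prog.foldl
      (NI.stepL ps (fun c => xorAx (nn m q M β O) c) (nn m q M β O))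
      (chunks (nn m q M β O) l ++
        List.replicate Z (List.replicate (nn m q M β O) false))).take W).flatten)
      (act m κ ((216 : ℤ) • 1)) := by
  intro l hl
  have hl' : l.length = W * nn m q M β O := by rw [hl, nn, nn, mul_assoc]
  set out := (prog.foldl (NI.stepL ps (fun c => xorAx (nn m q M β O) c) (nn m q M β O))
      (chunks (nn m q M β O) l ++
        List.replicate Z (List.replicate (nn m q M β O) false))).take W with hout
  have key : ∀ r, out.length = W ∧ ∀ w < W, (out.getD w []).length = nn m q M β O ∧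
      (Val O M β r → ∀ x, bit (out.getD w []) (pos m q M β r x) =
        bit (blk (nn m q M β O) w l) (pos m q M β r (act m κ ((216 : ℤ) • 1) x))) := by
    intro r
    let Rel : List Bool → ((ℕ → ZMod q) → ZMod 2) → Prop := fun l v =>
      l.length = nn m q M β O ∧ (Val O M β r → ∀ x, v x = toZ (bit l (pos m q M β r x)))
    have h0 : Rel (List.replicate (nn m q M β O) false) 0 :=
      ⟨List.length_replicate, fun _ x => by
        simp [bit, toZ, List.getD_eq_getElem?_getD, List.getElem?_replicate]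
        split_ifs <;> simp⟩
    have h1 := run_sim (fun p => LinearMap.funLeft (ZMod 2) (ZMod 2) (act m κ (matA m p)))
      (fun c => (c : ZMod 2)) prog ps (fun c => xorAx (nn m q M β O) c) (nn m q M β O) Rel h0
      (fun w p h l v hv => ⟨(hp w p h l hv.1).1, fun hr x => by
        rw [(hp w p h l hv.1).2 r hr x, ← hv.2 hr]; rfl⟩)
      (fun d s c _ l v l' v' hv hv' => by
        unfold xorAx
        rw [List.take_left' hv.1, List.drop_left' hv.1]
        split_ifs with hc
        · refine ⟨hv.1, fun hr x => ?_⟩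
          rw [(ZMod.intCast_zmod_eq_zero_iff_dvd c 2).2 (Int.dvd_of_emod_eq_zero hc), zero_smul,
            add_zero, hv.2 hr]
        · refine ⟨by simp [hv.1, hv'.1], fun hr x => ?_⟩
          have : (c : ZMod 2) = 1 := by
            rw [← ZMod.intCast_mod c 2, show c % (2 : ℕ) = 1 by push_cast; omega, Int.cast_one]
          rw [this, one_smul, bit_xor (hv.1.trans hv'.1.symm), toZ_xor, ← hv.2 hr, ← hv'.2 hr]
          rfl)
      (ws := chunks (nn m q M β O) l ++ List.replicate Z (List.replicate (nn m q M β O) false))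
      (ξ := ((List.range W).map fun w x =>
        toZ (bit (blk (nn m q M β O) w l) (pos m q M β r x))) ++ List.replicate Z 0)
      (List.rel_append (by
        rw [chunks_eq hn hl', List.forall₂_map_left_iff, List.forall₂_map_right_iff,
          List.forall₂_same]
        exact fun w hw => ⟨length_blk' hl' (List.mem_range.1 hw), fun _ _ => rfl⟩) (by
        induction Z with
        | zero => exact List.Forall₂.nil
        | succ Z ih => exact List.forall₂_iff_get.2 ⟨by simp, fun i _ _ => by simpa using h0⟩))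
    have h2 := List.forall₂_take W h1
    rw [h3 (ZMod 2) _ (fun A => LinearMap.funLeft (ZMod 2) (ZMod 2) (act m κ A)) rfl
      (fun A B v => funext fun x => by simp [act_add]) (fun v => funext fun x => by simp [act_zero])
      _ (by simp), ← hout] at h2
    obtain ⟨h4, h5⟩ := List.forall₂_iff_get.1 h2
    have h6 : out.length = W := by simpa using h4
    refine ⟨h6, fun w hw => ?_⟩
    have h7 := h5 w (h6 ▸ hw) (by simpa using hw)
    rw [List.getD_eq_getElem _ _ (h6 ▸ hw)]
    exact ⟨h7.1, fun hr x => toZ_inj (by simpa using (h7.2 hr x).symm)⟩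
  have h8 : ∀ w < W, (out.getD w []).length = nn m q M β O := fun w hw => ((key 0).2 w hw).1
  beta_reduce
  rw [← hout, flatten_eq_fl out, (key 0).1]
  refine ⟨(length_fl h8).trans (hl'.symm.trans hl), fun r hr x => ?_⟩
  obtain ⟨w, hw, o, ho, e⟩ := exists_dec hr.1
  have hr' : Val O M β (o, r.2) := ⟨ho, hr.2⟩
  have e2 : ∀ y, pos m q M β r y = w * nn m q M β O + pos m q M β (o, r.2) y := by
    intro y; rw [pos, pos, e, nn_eq, low, low]; ring
  rw [e2, e2, bit_fl h8 hw (pos_lt hm hr' _), ((key (o, r.2)).2 w hw).2 hr',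
    bit_blk _ (pos_lt hm hr' _)]

/-! ### polynomial time of the parameters -/

section PT
variable {α : Type} [TEnc α] {m : ℕ}

lemma ptime_st {q M β k : α → ℕ} (hq : PTime q) (hM : PTime M) (hβ : PTime β)
    (hk : PTime k) : PTime fun a => st m (q a) (M a) (β a) (k a) :=
  ((hq.pow (hk.min (.const _)) ((PB.const (2 * m)).of_le fun _ => min_le_right _ _)).mul
    (PTime.ite (hk.decide_lt (.const m)) (.const 1) hM)).mul hβ

lemma ptime_nn {q M β O : α → ℕ} (hq : PTime q) (hM : PTime M) (hβ : PTime β)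
    (hO : PTime O) : PTime fun a => nn m (q a) (M a) (β a) (O a) :=
  have h := hq.pow (.const m) (.const m)
  hO.mul (((h.mul hM).mul h).mul hβ)

lemma ptime_getD {v : α → List ℤ} {i : α → ℕ} (hv : PTime v) (hi : PTime i) :
    PTime fun a => (v a).getD (i a) 0 := hv.list_getD hi (.const 0)

lemma ptime_fi {p : α → ℕ → Bool} (hp : PTime fun x : α × ℕ => p x.1 x.2) :
    PTime fun a => fi m (p a) := ((PTime.const (List.range m)).find? hp).getD (.const 0)

lemma ptime_jv {v : α → List ℤ} (hv : PTime v) : PTime fun a => jv m (v a) :=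
  ptime_fi ((ptime_getD (hv.comp PTime.fst_id) PTime.snd_id).decide_ne (.const 0))

lemma ptime_iu {v : α → List ℤ} (hv : PTime v) : PTime fun a => iu m (v a) :=
  (PTime.const (m - 1)).sub (ptime_fi ((ptime_getD (hv.comp PTime.fst_id)
    ((PTime.const (m - 1)).sub PTime.snd_id)).decide_ne (.const 0)))

lemma ptime_zn {q : α → ℕ} {z : α → ℤ} (hq : PTime q) (hz : PTime z) :
    PTime fun a => zn (q a) (z a) := (hz.int_emod hq.natCast_int).int_toNat

lemma ptime_zi {q : α → ℕ} {z : α → ℤ} (hq : PTime q) (hz : PTime z) :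
    PTime fun a => zi (q a) (z a) := ptime_minv (ptime_zn hq hz) hq

lemma ptime_uv {p : α → List ℤ × List ℤ} (hp : PTime p) : PTime fun a => uv m (p a) :=
  (ptime_getD hp.fst (ptime_iu hp.fst)).int_mul (ptime_getD hp.snd (ptime_jv hp.snd))

lemma ptime_cA {q l : α → ℕ} {p : α → List ℤ × List ℤ} (ε : ℤ) (hq : PTime q)
    (hp : PTime p) (hl : PTime l) : PTime fun a => cA m (q a) (p a) ε (l a) :=
  PTime.ite (hl.decide_lt (ptime_iu hp.fst))
    ((ptime_zn hq ((PTime.const ε).int_mul (ptime_getD hp.fst hl))).mul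
      (ptime_zi hq (ptime_getD hp.fst (ptime_iu hp.fst)))) (.const 0)

lemma ptime_cB {q l : α → ℕ} {p : α → List ℤ × List ℤ} (ε : ℤ) (hq : PTime q)
    (hp : PTime p) (hl : PTime l) : PTime fun a => cB m (q a) (p a) ε (l a) :=
  PTime.ite ((ptime_jv hp.snd).decide_lt hl)
    ((ptime_zn hq ((PTime.const ε).int_mul (ptime_getD hp.snd hl))).mul
      (ptime_zi hq (ptime_getD hp.snd (ptime_jv hp.snd)))) (.const 0)

lemma log_le_size {b : ℕ} (hb : 1 < b) (n : ℕ) : Nat.log b n ≤ n.size := by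
  rcases eq_or_ne n 0 with rfl | h
  · simp
  · exact (Nat.lt_size.2 ((Nat.pow_le_pow_left hb _).trans (Nat.pow_log_le_self b h))).le

lemma ptime_log {b : ℕ} (hb : 1 < b) {f : α → ℕ} (hf : PTime f) :
    PTime fun a => Nat.log b (f a) := by
  have h : PB fun p : α × ℕ => min p.2 (f p.1).size + 1 :=
    ((PB.size (hf.comp PTime.fst_id)).add (.const 1)).of_le fun _ => by omega
  have key : ∀ s L : ℕ, (List.range s).countP (fun k => decide (k < L)) = min s L := by
    intro s L
    induction s with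
    | zero => simp
    | succ s ih =>
      rw [List.range_succ, List.countP_append, ih, List.countP_singleton]
      by_cases h : s < L <;> simp [h] <;> omega
  refine PTime.of_eq (f := fun a => (List.range (f a).size).countP
    fun k => decide (b ^ (min k (f a).size + 1) ≤ f a))
    ((hf.size.range (PB.size hf)).countP (((PTime.const b).pow
      ((PTime.snd_id.min (hf.comp PTime.fst_id).size).add (.const 1)) h).decide_le
        (hf.comp PTime.fst_id))) fun a => ?_
  rcases eq_or_ne (f a) 0 with h0 | h0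
  · simp [h0]
  rw [← min_eq_right (log_le_size hb (f a)), ← key]
  refine List.countP_congr fun k hk => ?_
  rw [min_eq_left (List.mem_range.1 hk).le]
  simp only [decide_eq_true_eq]
  exact (Nat.le_log_iff_pow_le hb h0).symm

end PT

/-! ### costs of the digit operations -/

/-- the array has the shape `[O][q ^ m][M][q ^ m][β]` -/
structure Fit (m : ℕ) {ε : Type} [TEnc ε] (D : ε → Prop) (N B q M β O : ε → ℕ) : Prop where
  pq : PTime q
  pM : PTime M
  pβ : PTime β
  pO : PTime O
  H : ∀ e, D e → N e = nn m (q e) (M e) (β e) (O e) ∧ 0 < q e ∧ 0 < M e ∧ 0 < β e ∧ 0 < O e ∧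
    B e ≤ β e

variable {m : ℕ} {ε : Type} [TEnc ε] {D : ε → Prop} {N B T q M β O : ε → ℕ}
  {f : ε → List Bool → List Bool}

lemma Fit.idx (h : Fit m D N B q M β O) (n : ℕ) : Fit m (fun x : ε × ℕ => D x.1 ∧ x.2 < n)
    (fun x => N x.1) (fun x => B x.1) (fun x => q x.1) (fun x => M x.1) (fun x => β x.1)
    fun x => O x.1 :=
  ⟨h.pq.comp PTime.fst_id, h.pM.comp PTime.fst_id, h.pβ.comp PTime.fst_id,
    h.pO.comp PTime.fst_id, fun x hx => h.H x.1 hx.1⟩

lemma Fit.le (h : Fit m D N B q M β O) (e : ε) (he : D e) : B e ≤ N e := by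
  obtain ⟨h1, h2, h3, -, h5, h6⟩ := h.H e he
  rw [h1, nn, ← mul_assoc]
  exact h6.trans (Nat.le_mul_of_pos_left _ (by positivity))

lemma Fit.ax (h : Fit m D N B q M β O) {t : ε → ℕ} (ht : ∀ e, D e → t e < 2 * m) (e : ε)
    (he : D e) : N e = nn m (q e) (M e) (β e) (O e) / (q e * st m (q e) (M e) (β e) (t e)) * q e *
      st m (q e) (M e) (β e) (t e) ∧ 0 < q e ∧ 0 < st m (q e) (M e) (β e) (t e) ∧
      B e ≤ st m (q e) (M e) (β e) (t e) ∧ B e ≤ q e * st m (q e) (M e) (β e) (t e) := by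
  obtain ⟨h1, h2, h3, h4, -, h6⟩ := h.H e he
  have h7 := le_st (m := m) (β := β e) h2 h3 (t e)
  refine ⟨by rw [mul_assoc, Nat.div_mul_cancel (st_dvd_nn (ht e he)), h1], h2, by omega, by omega,
    (h6.trans h7).trans (Nat.le_mul_of_pos_left _ h2)⟩

lemma Fit.ps (h : Fit m D N B q M β O) {t : ε → ℕ} (pt : PTime t) :
    PTime fun e => st m (q e) (M e) (β e) (t e) := ptime_st h.pq h.pM h.pβ pt

lemma Fit.po (h : Fit m D N B q M β O) {t : ε → ℕ} (pt : PTime t) :
    PTime fun e => nn m (q e) (M e) (β e) (O e) / (q e * st m (q e) (M e) (β e) (t e)) :=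
  (ptime_nn h.pq h.pM h.pβ h.pO).div (h.pq.mul (h.ps pt))

lemma op_SH (h : Fit m D N B q M β O) (hf : Op D N N B T f) {t u c : ε → ℕ} (pt : PTime t)
    (pu : PTime u) (pc : PTime c) (ht : ∀ e, D e → t e < 2 * m) :
    Op D N N B T fun e l => SH m (q e) (M e) (β e) (O e) (t e) (u e) (c e) (f e l) :=
  hf.shr (h.po pt) h.pq (h.ps pt)
    (φ := fun x => c x.1 * (x.2 / (st m (q x.1) (M x.1) (β x.1) (u x.1) /
      (q x.1 * st m (q x.1) (M x.1) (β x.1) (t x.1))) % q x.1))
    ((pc.comp PTime.fst_id).mul ((PTime.snd_id.div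
      (((h.ps pu).div (h.pq.mul (h.ps pt))).comp PTime.fst_id)).mod (h.pq.comp PTime.fst_id)))
    fun e he => ⟨(h.ax ht e he).1, (h.ax ht e he).2.1, (h.ax ht e he).2.2.2.2⟩

lemma op_NG (h : Fit m D N B q M β O) (hf : Op D N N B T f) {t : ε → ℕ} (pt : PTime t)
    (ht : ∀ e, D e → t e < 2 * m) :
    Op D N N B T fun e l => NG m (q e) (M e) (β e) (O e) (t e) (f e l) :=
  hf.neg (h.po pt) h.pq (h.ps pt)
    fun e he => ⟨(h.ax ht e he).1, (h.ax ht e he).2.2.1, (h.ax ht e he).2.2.2.2⟩

omit [TEnc ε] in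
lemma sq_cost {r : ε → ℕ} {K : ℕ} (hr : ∀ e, D e → r e ≤ K) :
    ∃ K, ∀ e, D e → r e * r e * N e ≤ K * (T e + N e) :=
  ⟨K * K, fun e he => Nat.mul_le_mul (Nat.mul_le_mul (hr e he) (hr e he)) (Nat.le_add_left _ _)⟩

lemma op_SC (h : Fit m D N B q M β O) (hf : Op D N N B T f) {t r : ε → ℕ} (pt : PTime t)
    (pr : PTime r) (ht : ∀ e, D e → t e < 2 * m) {K : ℕ} (hr : ∀ e, D e → 0 < r e ∧ r e ≤ K) :
    Op D N N B T fun e l => SC m (q e) (M e) (β e) (O e) (t e) (r e) (f e l) :=
  hf.scale (h.po pt) h.pq (h.ps pt) pr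
    (fun e he => ⟨(h.ax ht e he).1, (h.ax ht e he).2.1, (hr e he).1, (h.ax ht e he).2.2.2.1⟩)
    (sq_cost fun e he => (hr e he).2)

lemma op_US (h : Fit m D N B q M β O) (hf : Op D N N B T f) {t r : ε → ℕ} (pt : PTime t)
    (pr : PTime r) (ht : ∀ e, D e → t e < 2 * m) {K : ℕ} (hr : ∀ e, D e → 0 < r e ∧ r e ≤ K)
    (hc : ∀ e, D e → Nat.Coprime (r e) (q e)) :
    Op D N N B T fun e l => US m (q e) (M e) (β e) (O e) (t e) (r e) (f e l) :=
  hf.unscale (h.po pt) h.pq (h.ps pt) pr
    (fun e he => ⟨(h.ax ht e he).1, (h.ax ht e he).2.1, (hr e he).1, hc e he,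
      (h.ax ht e he).2.2.2.1⟩) (sq_cost fun e he => (hr e he).2)

lemma op_loop (hf : Op D N N B T f) (n : ℕ) {g : ε × ℕ → List Bool → List Bool}
    (hg : Op (fun x : ε × ℕ => D x.1 ∧ x.2 < n) (fun x => N x.1) (fun x => N x.1) (fun x => B x.1)
      (fun _ => 0) g) :
    Op D N N B T fun e l => (List.range n).foldl (fun l i => g (e, i) l) (f e l) :=
  hf.foldl hg PTime.id (PTime.const n) (fun _ he _ hi => ⟨⟨he, hi⟩, rfl, rfl, le_rfl⟩)
    ⟨n, fun _ _ _ _ => Nat.mul_le_mul_left _ (Nat.add_le_add_right (Nat.zero_le _) _)⟩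

lemma op_SHL (h : Fit m D N B q M β O) (hf : Op D N N B T f) (n : ℕ) {t u c : ε → ℕ → ℕ}
    (pt : PTime fun x : ε × ℕ => t x.1 x.2) (pu : PTime fun x : ε × ℕ => u x.1 x.2)
    (pc : PTime fun x : ε × ℕ => c x.1 x.2) (ht : ∀ e, D e → ∀ i < n, t e i < 2 * m) :
    Op D N N B T fun e l => SHL m (q e) (M e) (β e) (O e) n (t e) (u e) (c e) (f e l) :=
  op_loop hf n (op_SH (h.idx n) (Op.id (h.idx n).le) pt pu pc fun x hx => ht x.1 hx.1 x.2 hx.2)

lemma op_NGL (h : Fit m D N B q M β O) (hf : Op D N N B T f) {n : ℕ} (hn : n ≤ 2 * m) :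
    Op D N N B T fun e l => NGL m (q e) (M e) (β e) (O e) n (f e l) :=
  op_loop hf n (op_NG (h.idx n) (Op.id (h.idx n).le) PTime.snd_id fun _ hx => hx.2.trans_le hn)

section Pass
variable {p : ε → List ℤ × List ℤ}

lemma op_shA (h : Fit m D N B q M β O) (hf : Op D N N B T f) (pp : PTime p) (ε' : ℤ) :
    Op D N N B T fun e l => shA m (q e) (M e) (β e) (O e) (p e) ε' (f e l) :=
  op_SHL h hf m ((PTime.const m).add PTime.snd_id)
    (((PTime.const m).add (ptime_iu pp.fst)).comp PTime.fst_id)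
    (ptime_cA ε' (h.pq.comp PTime.fst_id) (pp.comp PTime.fst_id) PTime.snd_id)
    fun _ _ _ _ => by omega

omit [TEnc ε] in
lemma jv_lt (hp : ∀ e, D e → OkA m (p e)) (e : ε) (he : D e) : jv m (p e).2 < 2 * m := by
  have := (jv_spec (hp e he).2.1 (hp e he).2.2.2.1).1; omega

omit [TEnc ε] in
lemma iu_lt (hp : ∀ e, D e → OkA m (p e)) (e : ε) (he : D e) : m + iu m (p e).1 < 2 * m := by
  have := (iu_spec (hp e he).1 (hp e he).2.2.1).1; omega

lemma op_shB (h : Fit m D N B q M β O) (hf : Op D N N B T f) (pp : PTime p)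
    (hp : ∀ e, D e → OkA m (p e)) (ε' : ℤ) :
    Op D N N B T fun e l => shB m (q e) (M e) (β e) (O e) (p e) ε' (f e l) :=
  op_SHL h hf m ((ptime_jv pp.snd).comp PTime.fst_id) PTime.snd_id
    (ptime_cB ε' (h.pq.comp PTime.fst_id) (pp.comp PTime.fst_id) PTime.snd_id)
    fun e he _ _ => jv_lt hp e he

lemma op_shL (h : Fit m D N B q M β O) (hf : Op D N N B T f) (pp : PTime p)
    (hp : ∀ e, D e → OkA m (p e)) :
    Op D N N B T fun e l => shL m (q e) (M e) (β e) (O e) (p e) (f e l) :=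
  op_SH h hf (ptime_jv pp.snd) ((PTime.const m).add (ptime_iu pp.fst))
    ((PTime.const 216).mul (ptime_zi h.pq (ptime_uv pp))) (jv_lt hp)

lemma op_pre (h : Fit m D N B q M β O) (pp : PTime p) (hp : ∀ e, D e → OkA m (p e)) :
    Op D N N B T fun e l => preF m (q e) (M e) (β e) (O e) (p e) l :=
  op_shL h (op_shB h (op_shA h (Op.id h.le) pp 1) pp hp (-1)) pp hp

lemma op_scD (h : Fit m D N B q M β O) (pp : PTime p) (hp : ∀ e, D e → OkA m (p e))
    (hq : ∀ e, D e → ∃ F, q e = 17 ^ F) {K : ℕ} (hK : ∀ e, D e → (uv m (p e)).natAbs ≤ K) :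
    Op D N N B T fun e l => scD m (q e) (M e) (β e) (O e) (p e) l := by
  have pj : PTime fun e => jv m (p e).2 := ptime_jv pp.snd
  have pi : PTime fun e => m + iu m (p e).1 := (PTime.const m).add (ptime_iu pp.fst)
  have pw : PTime fun e => (uv m (p e)).natAbs := (ptime_uv pp).natAbs
  have hw : ∀ e, D e → 0 < (uv m (p e)).natAbs ∧ (uv m (p e)).natAbs ≤ K := fun e he =>
    ⟨Int.natAbs_pos.2 fun h0 => (okA_facts (hp e he)).2.2 (h0 ▸ dvd_zero _), hK e he⟩
  have h1 := op_US h (op_SC h (Op.id (T := T) h.le) pj pw (jv_lt hp) hw) pj (PTime.const 216)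
    (jv_lt hp) (fun _ _ => ⟨by norm_num, le_rfl⟩) fun e he => by
      obtain ⟨F, hF⟩ := hq e he
      rw [hF]; exact cop17 (by norm_num)
  have h2 := op_US h (op_SC h h1 pi (PTime.const 216) (iu_lt hp)
    fun _ _ => ⟨by norm_num, le_rfl⟩) pi pw (iu_lt hp) hw fun e he => by
      obtain ⟨F, hF⟩ := hq e he
      rw [hF]
      exact cop17 (by rw [Int.natCast_natAbs, dvd_abs]; exact (okA_facts (hp e he)).2.2)
  exact op_NG h h2 (t := fun e => if uv m (p e) < 0 then jv m (p e).2 else m + iu m (p e).1)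
    (PTime.ite ((ptime_uv pp).int_decide_lt (.const 0)) pj pi) fun e he => by
      split_ifs
      · exact jv_lt hp e he
      · exact iu_lt hp e he

lemma op_post (h : Fit m D N B q M β O) (pp : PTime p) (hp : ∀ e, D e → OkA m (p e))
    (hq : ∀ e, D e → ∃ F, q e = 17 ^ F) {K : ℕ} (hK : ∀ e, D e → (uv m (p e)).natAbs ≤ K) :
    Op D N N B T fun e l => postF m (q e) (M e) (β e) (O e) (p e) l :=
  op_shA h (op_shB h (op_shL h (op_scD h pp hp hq hK) pp hp) pp hp 1) pp (-1)

end Pass

end Vale.Agent.P338.Sw
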