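import Vale.Agent.P338.Words
import Vale.Agent.P338.Crt
import Vale.Agent.P338.Conv

/-! Job J12: global layers are tensor products of micro-layers. -/

namespace Vale.Agent.P338

open PT Finset

/-- the address in the orbit of `y` with sign vector `s` -/
def TenH.Y (rs : List ℕ) (y : ℕ) (s : Fin rs.length → Bool) : ℕ :=
  reflN rs (List.ofFn fun c => xor (s c) ((sg rs y).getD c false)) y

theorem TenH.getD_ofFn {k : ℕ} (t : Fin k → Bool) (c : Fin k) : (List.ofFn t).getD c false = t c := by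
  simp [List.getD_eq_getElem?_getD]

theorem TenH.refl_Y {rs : List ℕ} (hc : rs.Pairwise Nat.Coprime) (h0 : ∀ r ∈ rs, 0 < r) (y : ℕ)
    (s t : Fin rs.length → Bool) :
    reflN rs (List.ofFn t) (TenH.Y rs y s) = TenH.Y rs y fun c => xor (t c) (s c) := by
  unfold TenH.Y
  rw [reflN_reflN hc h0 (by simp) (by simp)]
  congr 1
  refine List.ext_getElem (by simp) fun c h1 h2 => ?_
  simp

theorem TenH.sg_Y {rs : List ℕ} (hc : rs.Pairwise Nat.Coprime) (ho : ∀ r ∈ rs, Odd r) {y : ℕ}
    (gy : good rs y = true) (s : Fin rs.length → Bool) (c : Fin rs.length) :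
    (sg rs (TenH.Y rs y s)).getD c false = s c := by
  unfold TenH.Y
  rw [sg_reflN hc ho (by simp) gy, CrtH.getD_zipWith _ (by simp) (by simp [CrtH.length_sg]) false false,
    TenH.getD_ofFn]
  simp

theorem TenH.Y_self {rs : List ℕ} (hc : rs.Pairwise Nat.Coprime) (h0 : ∀ r ∈ rs, 0 < r) {y : ℕ}
    (hy : y < rs.prod) : TenH.Y rs y (fun c => (sg rs y).getD c false) = y := by
  unfold TenH.Y
  refine reflN_false hc h0 (by simp) (fun b hb => ?_) hy
  rw [List.mem_ofFn] at hb
  obtain ⟨c, rfl⟩ := hb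
  simp

/-- the summands of a micro-layer -/
noncomputable def TenH.tm (p : ℕ) (v : ZMod p × Bool × Bool → ℂ) (ly : Layer) (x : ZMod p)
    (s s' : Bool) : ℂ :=
  (ly.2.getD (4 * x.val + 2 * s.toNat + s'.toNat) Ent.one).val *
    v (x + (if s then (ly.1 : ZMod p) else 0), s, s')

theorem TenH.layer_eq (p : ℕ) (v : ZMod p × Bool × Bool → ℂ) (ly : Layer) (x : ZMod p)
    (s s' : Bool) : layer p v ly (x, s, s') = ∑ a : Bool, ∑ b : Bool,
      2⁻¹ * ((if a && b then -1 else 1 : ℤ) * TenH.tm p v ly x (xor a s) (xor b s')) := by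
  simp only [layer, TenH.tm, Fintype.sum_bool, Bool.true_xor, Bool.false_xor, Bool.and_self,
    Bool.and_false, Bool.false_and, if_true, Bool.false_eq_true, if_false]
  push_cast
  ring

theorem TenH.prod_sum2 {k : ℕ} (g : Fin k → Bool → Bool → ℂ) :
    ∏ c, ∑ a, ∑ b, g c a b = ∑ t : Fin k → Bool, ∑ t' : Fin k → Bool, ∏ c, g c (t c) (t' c) := by
  rw [Fintype.prod_sum]
  exact sum_congr rfl fun t _ => Fintype.prod_sum _

theorem TenH.prod_map {β : Type} (l : List β) (d : β) (f : β → ℂ) {k : ℕ} (h : l.length = k) :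
    (l.map f).prod = ∏ c : Fin k, f (l.getD c d) := by
  conv_lhs => rw [CrtH.eq_map_range l d, List.map_map, prod_range_eq, h]
  exact (Fin.prod_univ_eq_prod_range (fun c => f (l.getD c d)) k).symm

/-- a global layer acts on pure tensors factor by factor -/
theorem TenH.step {ps rs : List ℕ} (hl : ps.length = rs.length) (hc : ps.Pairwise Nat.Coprime)
    (hc' : rs.Pairwise Nat.Coprime) (ho : ∀ r ∈ rs, Odd r) (h0 : ∀ p ∈ ps, 0 < p) {y y' : ℕ}
    (gy : good rs y = true) (gy' : good rs y' = true) (ly : ℕ → Layer) {κ : Type} (I : Finset κ)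
    (v : κ → ∀ c : Fin rs.length, ZMod (ps.getD c 1) × Bool × Bool → ℂ) (a : κ → ℂ)
    (w : ℕ → ℕ → ℕ → ℂ)
    (hw : ∀ s s' x, x < ps.prod → w (TenH.Y rs y s) (TenH.Y rs y' s') x =
      ∑ i ∈ I, (∏ c, v i c (x, s c, s' c)) * a i) :
    ∀ s s' x, x < ps.prod → gLayer ps rs (ps.map ly) w (TenH.Y rs y s) (TenH.Y rs y' s') x =
      ∑ i ∈ I, (∏ c : Fin rs.length, layer _ (v i c) (ly (ps.getD c 1)) (x, s c, s' c)) * a i := by
  intro s s' x _
  have h0' : ∀ r ∈ rs, 0 < r := fun r hr => (ho r hr).pos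
  have hN : 0 < ps.prod := List.prod_pos h0
  have hly : ∀ c : Fin rs.length, (ps.map ly).getD c (0, []) = ly (ps.getD c 1) := fun c => by
    have : (c : ℕ) < ps.length := c.2.trans_eq hl.symm
    simp [List.getD_eq_getElem?_getD, this]
  have e1 : ∀ u u' : Fin rs.length → Bool,
      ((gEnt ps rs (ps.map ly) (TenH.Y rs y u) (TenH.Y rs y' u') x).map Ent.val).prod =
      ∏ c : Fin rs.length, ((ly (ps.getD c 1)).2.getD
        (4 * (x : ZMod (ps.getD c 1)).val + 2 * (u c).toNat + (u' c).toNat) Ent.one).val := by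
    intro u u'
    unfold gEnt
    rw [List.map_map, prod_range_eq, hl, ← Fin.prod_univ_eq_prod_range]
    refine prod_congr rfl fun c _ => ?_
    simp only [Function.comp_apply]
    rw [hly, TenH.sg_Y hc' ho gy, TenH.sg_Y hc' ho gy', ZMod.val_natCast]
  have e2 : ∀ (u : Fin rs.length → Bool) (c : Fin rs.length),
      (((x + gShift ps rs (ps.map ly) (TenH.Y rs y u)) % ps.prod : ℕ) : ZMod (ps.getD c 1)) =
      x + if u c then ((ly (ps.getD c 1)).1 : ZMod (ps.getD c 1)) else 0 := by
    intro u c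
    have hc1 : (c : ℕ) < ps.length := c.2.trans_eq hl.symm
    have f1 := (Nat.mod_modEq (x + gShift ps rs (ps.map ly) (TenH.Y rs y u)) ps.prod).of_dvd
      (List.dvd_prod (CrtH.getD_mem hc1 1))
    have f2 := crtL_modEq (as := List.zipWith (fun (ly : Layer) (s : Bool) => if s then ly.1 else 0)
      (ps.map ly) (sg rs (TenH.Y rs y u))) hc h0 (by simp [CrtH.length_sg, hl]) hc1
    rw [CrtH.getD_zipWith _ (by simpa using hc1) (by simp [CrtH.length_sg]) (0, []) false, hly,
      TenH.sg_Y hc' ho gy] at f2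
    rw [(ZMod.natCast_eq_natCast_iff _ _ _).2 (f1.trans (f2.add_left x)), Nat.cast_add]
    split_ifs <;> simp
  unfold gLayer
  simp only [TenH.refl_Y hc' h0', e1, hw _ _ _ (Nat.mod_lt _ hN), e2, TenH.layer_eq,
    TenH.prod_sum2, mul_sum, sum_mul]
  rw [sum_comm (s := I)]
  refine sum_congr rfl fun t _ => ?_
  rw [sum_comm (s := I)]
  refine sum_congr rfl fun t' _ => sum_congr rfl fun i _ => ?_
  unfold TenH.tm sgn
  rw [prod_mul_distrib, prod_mul_distrib, prod_mul_distrib, prod_const, card_univ, Fintype.card_fin,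
    Int.cast_prod, inv_pow]
  ring

theorem tensor {ps rs : List ℕ} {L : ℕ} {wd : ℕ → List Layer} (hl : ps.length = rs.length)
    (hc : ps.Pairwise Nat.Coprime) (hc' : rs.Pairwise Nat.Coprime) (ho : ∀ r ∈ rs, Odd r)
    (hw : ∀ p ∈ ps, 0 < p ∧ (wd p).length = L ∧ Real4 p (wd p)) (w : ℕ → ℕ → ℕ → ℂ)
    {y y' x : ℕ} (hy : y < rs.prod) (hy' : y' < rs.prod) (hx : x < ps.prod)
    (gy : good rs y = true) (gy' : good rs y' = true) :
    (List.range L).foldl
      (fun w j => gLayer ps rs (ps.map fun p => (wd p).getD j (0, [])) w) w y y' x =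
      (ps.prod : ℂ)⁻¹ * ∑ x' ∈ range ps.prod, chi ps x' x * w y y' x' := by
  classical
  have h0' : ∀ r ∈ rs, 0 < r := fun r hr => (ho r hr).pos
  have h0 : ∀ p ∈ ps, 0 < p := fun p hp => (hw p hp).1
  let κ := ℕ × (Fin rs.length → Bool) × (Fin rs.length → Bool)
  let I : Finset κ := range ps.prod ×ˢ univ
  let δ : κ → ∀ c : Fin rs.length, ZMod (ps.getD c 1) × Bool × Bool → ℂ := fun i c b =>
    if b = ((i.1 : ZMod (ps.getD c 1)), i.2.1 c, i.2.2 c) then 1 else 0
  let a : κ → ℂ := fun i => w (TenH.Y rs y i.2.1) (TenH.Y rs y' i.2.2) i.1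
  have key : ∀ j s s' x, x < ps.prod → (List.range j).foldl
      (fun w j => gLayer ps rs (ps.map fun p => (wd p).getD j (0, [])) w) w
        (TenH.Y rs y s) (TenH.Y rs y' s') x =
      ∑ i ∈ I, (∏ c : Fin rs.length, (List.range j).foldl
        (fun v j => layer _ v ((wd (ps.getD c 1)).getD j (0, []))) (δ i c) (x, s c, s' c)) * a i := by
    intro j
    induction j with
    | zero =>
      intro s s' x hx
      simp only [List.range_zero, List.foldl_nil]
      rw [sum_eq_single (x, s, s')]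
      · simp [δ, a]
      · rintro ⟨x', u, u'⟩ hi hne
        have hx' : x' < ps.prod := mem_range.1 (mem_product.1 hi).1
        refine mul_eq_zero_of_left ?_ _
        by_contra hp
        have hp' : ∀ c : Fin rs.length, ((x : ZMod (ps.getD c 1)), s c, s' c) =
            ((x' : ZMod (ps.getD c 1)), u c, u' c) := fun c => by
          by_contra h1
          exact hp (prod_eq_zero (mem_univ c) (if_neg h1))
        refine hne (Prod.ext ?_ (Prod.ext (funext fun c => ?_) (funext fun c => ?_)))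
        · refine eq_of_modEq_all hc hx' hx fun c h => ?_
          exact (ZMod.natCast_eq_natCast_iff _ _ _).1 (congrArg Prod.fst (hp' ⟨c, h.trans_eq hl⟩)).symm
        · exact (congrArg (fun z => z.2.1) (hp' c)).symm
        · exact (congrArg (fun z => z.2.2) (hp' c)).symm
      · intro h
        exact absurd (mem_product.2 ⟨mem_range.2 hx, mem_univ _⟩) h
    | succ j ih =>
      simp only [List.range_succ, List.foldl_append, List.foldl_cons, List.foldl_nil]
      exact TenH.step hl hc hc' ho h0 gy gy' (fun p => (wd p).getD j (0, [])) I _ a _ ih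
  obtain ⟨s, hs⟩ : ∃ s, TenH.Y rs y s = y := ⟨_, TenH.Y_self hc' h0' hy⟩
  obtain ⟨s', hs'⟩ : ∃ s, TenH.Y rs y' s = y' := ⟨_, TenH.Y_self hc' h0' hy'⟩
  have k1 := key L s s' x hx
  have a1 : ∀ x', a (x', s, s') = w y y' x' := fun x' => by
    simp only [a]
    rw [hs, hs']
  rw [hs, hs'] at k1
  rw [k1]
  have e1 : ∀ (i : κ) (c : Fin rs.length), (List.range L).foldl
      (fun v j => layer _ v ((wd (ps.getD c 1)).getD j (0, []))) (δ i c) (x, s c, s' c) =
      if (s c, s' c) = (i.2.1 c, i.2.2 c) then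
        ((ps.getD c 1 : ℕ) : ℂ)⁻¹ * ee (i.1 * x / (ps.getD c 1 : ℕ)) else 0 := by
    intro i c
    obtain ⟨p1, p2, p3⟩ := hw _ (CrtH.getD_mem (c.2.trans_eq hl.symm) 1)
    have : NeZero (ps.getD c 1) := ⟨p1.ne'⟩
    have f1 := p3 (δ i c) x (s c) (s' c)
    rw [CrtH.eq_map_range (wd (ps.getD c 1)) (0, []), List.foldl_map, p2] at f1
    rw [f1, sum_eq_single ((i.1 : ℕ) : ZMod (ps.getD c 1))]
    · have f2 := ConvH.chi_mod [ps.getD c 1] i.1 (x % ps.getD c 1)
      have f3 := ConvH.chi_mod [ps.getD c 1] x i.1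
      rw [ConvH.chi_comm _ i.1] at f2
      simp only [List.prod_cons, List.prod_nil, mul_one] at f2 f3
      rw [f3, ConvH.chi_comm _ x] at f2
      simp only [ConvH.chi_cons, ConvH.chi_nil, mul_one] at f2
      rw [ZMod.val_natCast, ZMod.val_natCast, f2]
      simp only [δ, Prod.mk.injEq, true_and]
      split_ifs <;> simp
    · intro z _ hz
      simp [δ, hz]
    · simp
  rw [sum_congr rfl fun i _ => congrArg (· * a i) (prod_congr rfl fun c _ => e1 i c)]
  rw [sum_product, mul_sum]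
  refine sum_congr rfl fun x' _ => ?_
  rw [sum_eq_single (s, s')]
  · simp only [if_true]
    rw [a1, prod_mul_distrib, chi, TenH.prod_map ps 1 _ hl, prod_inv_distrib, ← Nat.cast_prod,
      CrtH.prod_eq ps, hl, ← Fin.prod_univ_eq_prod_range, mul_assoc]
  · rintro ⟨u, u'⟩ _ hne
    refine mul_eq_zero_of_left ?_ _
    by_contra hp
    have hp' : ∀ c : Fin rs.length, (s c, s' c) = (u c, u' c) := fun c => by
      by_contra h1
      exact hp (prod_eq_zero (mem_univ c) (if_neg h1))
    exact hne (Prod.ext (funext fun c => (congrArg Prod.fst (hp' c)).symm)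
      (funext fun c => (congrArg Prod.snd (hp' c)).symm))
  · simp

end Vale.Agent.P338
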