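import Vale.Agent.P338.Compile
import Vale.Agent.P338.HWord

/-! Job J10a (second part): words of micro-layers of a prescribed length. -/

namespace Vale.Agent.P338

open PT Finset

/-- the word `w` realises the normalised transform of length `p` on the four rows -/
def Real4 (p : ℕ) (w : List Layer) : Prop :=
  ∀ [NeZero p] (v : ZMod p × Bool × Bool → ℂ) y s s', w.foldl (layer p) v (y, s, s') =
    (p : ℂ)⁻¹ * ∑ x : ZMod p, ee (x.val * y.val / p) * v (x, s, s')

lemma words_pad {p : ℕ} (v : ZMod p × Bool × Bool → ℂ) (k : ℕ) :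
    (List.replicate (2 * k) ((0, []) : Layer)).foldl (layer p) v = v := by
  induction k with
  | zero => rfl
  | succ k ih =>
    have e : layer p (layer p v (0, [])) (0, []) = v := by
      funext ⟨x, s, s'⟩
      simp [Cmp.layer_two, Cmp.one_val]
    rw [Nat.mul_succ, List.replicate_succ, List.replicate_succ, List.foldl_cons, List.foldl_cons,
      e, ih]

theorem words : ∃ (wd : ℕ → ℕ → List Layer) (c : ℕ), 0 < c ∧
    PTime (fun x : List Unit × List Unit => wd x.1.length x.2.length) ∧
    ∀ p L, Odd p → 25 ≤ p → c * p.size ≤ L → Even L → (wd p L).length = L ∧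
      (∀ ly ∈ wd p L, ∀ en ∈ ly.2, en.ok ∧ ‖en.val‖ ≤ 2 ^ L) ∧ Real4 p (wd p L) := by
  obtain ⟨cmp, pc, hc⟩ := compile
  obtain ⟨hw, c, ph, hh⟩ := hword
  have len : ∀ p (l : List HI), (l.flatMap (cmp p)).length = 8 * l.length := by
    intro p l
    induction l with
    | nil => rfl
    | cons a l ih =>
      rw [List.flatMap_cons, List.length_append, ih, (hc p a).1, List.length_cons]
      ring
  refine ⟨fun p L => (hw p).flatMap (cmp p) ++ List.replicate (L - 8 * (hw p).length) (0, []),
    8 * c + 2, by omega, ?_, fun p L ho hp hL he => ?_⟩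
  · have p1 : PTime fun x : List Unit × List Unit => hw x.1.length := ph.comp PTime.fst_id
    have p2 : PTime fun y : (List Unit × List Unit) × HI => cmp y.1.1.length y.2 :=
      pc.comp (f := fun y : (List Unit × List Unit) × HI => (y.1.1, y.2)) (by fun_prop)
    exact (p1.flatMap p2).append (PTime.replicate
      (PTime.snd_id.length.sub ((PTime.const 8).mul p1.length)) (by fun_prop) (.const _))
  obtain ⟨h1, h2, h3⟩ := hh p ho hp
  have h4 : 8 * (hw p).length + 2 * p.size ≤ L := by nlinarith
  have h5 : 5 ≤ p.size := Nat.lt_size.2 (by omega)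
  refine ⟨by rw [List.length_append, len, List.length_replicate]; omega, fun ly hly en hen => ?_,
    fun v y s s' => ?_⟩
  · rcases List.mem_append.1 hly with h | h
    · obtain ⟨hi, hhi, h⟩ := List.mem_flatMap.1 h
      have q1 : 4 * p ≤ 2 ^ L := by
        have := Nat.lt_size_self p
        calc 4 * p ≤ 2 ^ (p.size + 2) := by rw [pow_add]; omega
          _ ≤ 2 ^ L := Nat.pow_le_pow_right (by norm_num) (by omega)
      have q2 : (4 * p : ℝ) ≤ 2 ^ L := by exact_mod_cast q1
      have q3 : (25 : ℝ) ≤ p := by exact_mod_cast hp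
      rcases (hc p hi).2.1 ly h en hen with h' | h'
      · exact ⟨(h2 hi hhi en h').1, (h2 hi hhi en h').2.trans q2⟩
      · exact ⟨h'.1, h'.2.trans (by linarith)⟩
    · rw [List.eq_of_mem_replicate h] at hen
      exact absurd hen List.not_mem_nil
  · have key : ∀ (l : List HI) (v : ZMod p × Bool × Bool → ℂ),
        (l.flatMap (cmp p)).foldl (layer p) v (y, s, s') =
          l.foldl (hstep p) (fun s x => v (x, s, s')) s y := by
      intro l
      induction l with
      | nil => intro v; rfl
      | cons a l ih =>
        intro v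
        rw [List.flatMap_cons, List.foldl_append, ih, List.foldl_cons,
          funext₂ fun t x => (hc p a).2.2 v x t s']
    obtain ⟨k, hk⟩ := he
    rw [List.foldl_append, show L - 8 * (hw p).length = 2 * (k - 4 * (hw p).length) by omega,
      words_pad, key, h3]

end Vale.Agent.P338
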